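import Crest.Agent.R164.Nest
import Crest.Agent.R215.Gauss

/-! # Row 164: Gaussian facts (linear images, resampling of a coordinate, Stein's identity) -/

set_option autoImplicit false

namespace Crest.Agent.R164.GA

open MeasureTheory ProbabilityTheory Real Finset
open scoped RealInnerProductSpace

lemma map_lin {ι κ : Type} [Fintype ι] [Fintype κ] (M : κ → ι → ℝ) :
    (gam ι).map (fun g a => ∑ i, M a i * g i) =
      (stdGaussian (EuclideanSpace ℝ ι)).map
        (fun x a => ⟪(WithLp.toLp 2 (M a) : EuclideanSpace ℝ ι), x⟫) := by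
  rw [← map_pi_eq_stdGaussian, Measure.map_map (by fun_prop) (by fun_prop)]
  congr 1
  ext g a
  simp [PiLp.inner_apply, mul_comm]

/-- The law of a linear image only depends on the Gram matrix. -/
lemma map_eq_of_gram {ι ι' κ : Type} [Fintype ι] [Fintype ι'] [Fintype κ] (M : κ → ι → ℝ)
    (N : κ → ι' → ℝ) (h : ∀ a b, ∑ i, M a i * M b i = ∑ i, N a i * N b i) :
    (gam ι).map (fun g a => ∑ i, M a i * g i) = (gam ι').map (fun g a => ∑ i, N a i * g i) := by
  rw [map_lin, map_lin]
  apply R215.law_eq_of_gram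
  intro a b
  simpa [PiLp.inner_apply, mul_comm] using h a b

lemma mp_of_gram {ι κ : Type} [Fintype ι] [Fintype κ] [DecidableEq κ] (M : κ → ι → ℝ)
    (h : ∀ a b, ∑ i, M a i * M b i = if a = b then 1 else 0) :
    MeasurePreserving (fun (g : ι → ℝ) a => ∑ i, M a i * g i) (gam ι) (gam κ) := by
  refine ⟨by fun_prop, ?_⟩
  rw [map_eq_of_gram M (fun a b => if a = b then 1 else 0) (fun a b => by
    rw [h]; simp)]
  simp

lemma gam_comp {ι κ : Type} [Fintype ι] [Fintype κ] {j : κ → ι} (hj : Function.Injective j) :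
    MeasurePreserving (fun (g : ι → ℝ) => g ∘ j) (gam ι) (gam κ) := by
  classical
  have h := mp_of_gram (fun (a : κ) (i : ι) => if j a = i then (1 : ℝ) else 0) (fun a b => by
    simp [hj.eq_iff, eq_comm])
  simpa [Function.comp_def] using h

lemma gam_eval {ι : Type} [Fintype ι] (i : ι) :
    MeasurePreserving (fun (g : ι → ℝ) => g i) (gam ι) (gaussianReal 0 1) :=
  measurePreserving_eval (fun _ : ι => gaussianReal 0 1) i

/-- Resampling one coordinate. -/
lemma resample {ι : Type} [Fintype ι] [DecidableEq ι] (i : ι) :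
    MeasurePreserving (fun p : (ι → ℝ) × ℝ => Function.update p.1 i p.2)
      ((gam ι).prod (gaussianReal 0 1)) (gam ι) := by
  have hm : Measurable (fun p : (ι → ℝ) × ℝ => Function.update p.1 i p.2) := measurable_update'
  refine ⟨hm, ?_⟩
  symm
  refine Measure.pi_eq fun s hs => ?_
  rw [Measure.map_apply hm (MeasurableSet.univ_pi hs)]
  have : (fun p : (ι → ℝ) × ℝ => Function.update p.1 i p.2) ⁻¹' Set.univ.pi s =
      (Set.univ.pi (Function.update s i Set.univ)) ×ˢ s i := by
    ext ⟨g, t⟩
    simp only [Set.mem_preimage, Set.mem_pi, Set.mem_univ, true_implies, Set.mem_prod]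
    constructor
    · intro h
      refine ⟨fun j => ?_, by simpa using h i⟩
      by_cases hj : j = i
      · subst hj; simp
      · simpa [Function.update_of_ne hj] using h j
    · rintro ⟨h1, h2⟩ j
      by_cases hj : j = i
      · subst hj; simpa using h2
      · simpa [Function.update_of_ne hj] using h1 j
  rw [this, Measure.prod_prod, gam, Measure.pi_pi, ← Finset.mul_prod_erase _ _ (Finset.mem_univ i),
    ← Finset.mul_prod_erase _ (fun j => gaussianReal 0 1 (s j)) (Finset.mem_univ i)]
  simp only [Function.update_self, measure_univ, one_mul]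
  rw [mul_comm]
  congr 1
  refine Finset.prod_congr rfl fun j hj => ?_
  rw [Function.update_of_ne (Finset.ne_of_mem_erase hj)]

/-- Resampling one Gaussian coordinate of a level. -/
def rs {Z ι : Type} [DecidableEq ι] (i : ι) (p : (Z × (ι → ℝ)) × ℝ) : Z × (ι → ℝ) :=
  (p.1.1, Function.update p.1.2 i p.2)

lemma resample_prod {Z ι : Type} [MeasurableSpace Z] [Fintype ι] [DecidableEq ι] (α : Measure Z)
    [IsProbabilityMeasure α] (i : ι) :
    MeasurePreserving (rs i) ((α.prod (gam ι)).prod (gaussianReal 0 1)) (α.prod (gam ι)) :=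
  ((MeasurePreserving.id α).prod (resample i)).comp
    (measurePreserving_prodAssoc α (gam ι) (gaussianReal 0 1))

lemma integrable_gauss_iff (f : ℝ → ℝ) :
    Integrable f (gaussianReal 0 1) ↔ Integrable (fun x => f x * gaussianPDFReal 0 1 x) := by
  rw [gaussianReal_of_var_ne_zero _ one_ne_zero,
    integrable_withDensity_iff (measurable_gaussianPDF _ _)
      (ae_of_all _ fun _ => gaussianPDF_lt_top)]
  simp only [toReal_gaussianPDF]

lemma hasDerivAt_pdf (x : ℝ) :
    HasDerivAt (gaussianPDFReal 0 1) (-x * gaussianPDFReal 0 1 x) x := by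
  have h : gaussianPDFReal 0 1 = fun x => (√(2 * π))⁻¹ * exp (-x ^ 2 / 2) :=
    funext R215.pdf_eq
  rw [h]
  have h1 : HasDerivAt (fun x : ℝ => -x ^ 2 / 2) (-x) x := by
    have := ((hasDerivAt_pow 2 x).neg).div_const 2
    refine this.congr_deriv ?_
    simp only [Nat.cast_ofNat, Nat.add_one_sub_one, pow_one]; ring
  have h2 := (h1.exp).const_mul (√(2 * π))⁻¹
  refine h2.congr_deriv ?_
  ring

/-- Stein's identity on the line. -/
lemma stein1 {G G' : ℝ → ℝ} (hG : ∀ s, HasDerivAt G (G' s) s)
    (h0 : Integrable G (gaussianReal 0 1)) (h1 : Integrable G' (gaussianReal 0 1))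
    (h2 : Integrable (fun s => s * G s) (gaussianReal 0 1)) :
    ∫ s, s * G s ∂gaussianReal 0 1 = ∫ s, G' s ∂gaussianReal 0 1 := by
  rw [integrable_gauss_iff] at h0 h1 h2
  have h := integral_mul_deriv_eq_deriv_mul_of_integrable (u := G) (u' := G')
    (v := gaussianPDFReal 0 1) (v' := fun x => -x * gaussianPDFReal 0 1 x)
    (fun x _ => hG x) (fun x _ => hasDerivAt_pdf x)
    (h2.neg.congr (ae_of_all _ fun x => by simp only [Pi.neg_apply, Pi.mul_apply]; ring)) h1 h0
  rw [integral_gaussianReal_eq_integral_smul one_ne_zero,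
    integral_gaussianReal_eq_integral_smul one_ne_zero]
  have h3 : ∫ x, G x * (-x * gaussianPDFReal 0 1 x) = -∫ x, gaussianPDFReal 0 1 x • (x * G x) := by
    rw [← integral_neg]
    refine integral_congr_ae (ae_of_all _ fun x => ?_)
    simp only [smul_eq_mul]; ring
  rw [h3, neg_inj] at h
  rw [h]
  refine integral_congr_ae (ae_of_all _ fun x => ?_)
  simp only [smul_eq_mul]; ring

/-- Stein's identity in one coordinate of a level. -/
lemma stein_prod {Z ι : Type} [MeasurableSpace Z] [Fintype ι] [DecidableEq ι] (α : Measure Z)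
    [IsProbabilityMeasure α] (i : ι) {G G' : Z × (ι → ℝ) → ℝ}
    (hG : ∀ x s, HasDerivAt (fun s => G (rs i (x, s))) (G' (rs i (x, s))) s)
    (h0 : Integrable G (α.prod (gam ι))) (h1 : Integrable G' (α.prod (gam ι)))
    (h2 : Integrable (fun x => x.2 i * G x) (α.prod (gam ι))) :
    ∫ x, x.2 i * G x ∂α.prod (gam ι) = ∫ x, G' x ∂α.prod (gam ι) := by
  have hr := resample_prod α i
  have k0 := hr.integrable_comp_of_integrable h0
  have k1 := hr.integrable_comp_of_integrable h1
  have k2 := hr.integrable_comp_of_integrable h2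
  have e : ∀ {F : Z × (ι → ℝ) → ℝ}, Integrable F (α.prod (gam ι)) → ∫ x, F x ∂α.prod (gam ι) =
      ∫ x, ∫ s, F (rs i (x, s)) ∂gaussianReal 0 1 ∂α.prod (gam ι) := by
    intro F hF
    refine Eq.trans ?_ (integral_prod _ (hr.integrable_comp_of_integrable hF))
    conv_lhs => rw [← hr.map_eq]
    rw [integral_map hr.measurable.aemeasurable (by rw [hr.map_eq]; exact hF.1)]
    rfl
  rw [e h2, e h1]
  refine integral_congr_ae ?_
  filter_upwards [k0.prod_right_ae, k1.prod_right_ae, k2.prod_right_ae] with x a0 a1 a2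
  have e2 : ∀ s, (rs i (x, s)).2 i = s := fun s => by simp [rs]
  simp only [Function.comp_apply, e2] at a0 a1 a2 ⊢
  exact stein1 (hG x) a0 a1 a2

/-- A coordinate is independent of the functions that do not see it. -/
lemma indep_prod {Z ι : Type} [MeasurableSpace Z] [Fintype ι] [DecidableEq ι] (α : Measure Z)
    [IsProbabilityMeasure α] (i : ι) {W : Z × (ι → ℝ) → ℝ} {φ : ℝ → ℝ} (hW : Measurable W)
    (hφ : Measurable φ) (h : ∀ x s, W (rs i (x, s)) = W x) :
    ∫ x, W x * φ (x.2 i) ∂α.prod (gam ι) =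
      (∫ x, W x ∂α.prod (gam ι)) * ∫ s, φ s ∂gaussianReal 0 1 := by
  have hr := resample_prod α i
  rw [← integral_prod_mul]
  conv_lhs => rw [← hr.map_eq]
  rw [integral_map hr.measurable.aemeasurable (Measurable.aestronglyMeasurable (by fun_prop))]
  refine integral_congr_ae (ae_of_all _ fun p => ?_)
  obtain ⟨x, s⟩ := p
  simp only [h]
  simp [rs]

lemma integrable_pow_gauss (n : ℕ) : Integrable (fun s : ℝ => s ^ n) (gaussianReal 0 1) :=
  integrable_pow_of_mem_interior_integrableExpSet (X := fun s : ℝ => s) (by simp) n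

lemma integral_sq_gauss : ∫ s, s ^ 2 ∂gaussianReal 0 1 = 1 := by
  have h := stein1 (G := fun s => s) (G' := fun _ => 1) (fun s => hasDerivAt_id s)
    (by simpa using integrable_pow_gauss 1) (integrable_const _)
    (by simpa [sq] using integrable_pow_gauss 2)
  simpa [sq] using h

lemma integral_four_gauss : ∫ s, s ^ 4 ∂gaussianReal 0 1 = 3 := by
  have h := stein1 (G := fun s => s ^ 3) (G' := fun s => 3 * s ^ 2)
    (fun s => by simpa using hasDerivAt_pow 3 s)
    (integrable_pow_gauss 3) ((integrable_pow_gauss 2).const_mul 3)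
    ((integrable_pow_gauss 4).congr (ae_of_all _ fun s => by ring))
  rw [integral_const_mul, integral_sq_gauss, mul_one] at h
  rw [← h]
  exact integral_congr_ae (ae_of_all _ fun s => by ring)

lemma memLp_sq_gauss : MemLp (fun s : ℝ => s ^ 2) 2 (gaussianReal 0 1) := by
  rw [memLp_two_iff_integrable_sq (by fun_prop)]
  exact (integrable_pow_gauss 4).congr (ae_of_all _ fun s => by ring)

lemma variance_sq_gauss : Var[fun s : ℝ => s ^ 2; gaussianReal 0 1] = 2 := by
  rw [variance_eq_sub memLp_sq_gauss, integral_sq_gauss]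
  have : ∫ s, ((fun s : ℝ => s ^ 2) ^ 2) s ∂gaussianReal 0 1 = 3 := by
    rw [← integral_four_gauss]
    exact integral_congr_ae (ae_of_all _ fun s => by simp only [Pi.pow_apply]; ring)
  rw [this]; norm_num

lemma chi_dev_univ {ι : Type} [Fintype ι] {ε : ℝ} (hε : 0 < ε) :
    (gam ι).real {g | ε ≤ |∑ i, g i ^ 2 - Fintype.card ι|} ≤ 2 * Fintype.card ι / ε ^ 2 := by
  have hm : ∀ i : ι, MemLp (fun g : ι → ℝ => g i ^ 2) 2 (gam ι) := fun i =>
    memLp_sq_gauss.comp_measurePreserving (gam_eval i)
  have h1 : MemLp (∑ i, fun g : ι → ℝ => g i ^ 2) 2 (gam ι) := memLp_finsetSum' _ fun i _ => hm i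
  have h2 := meas_ge_le_variance_div_sq h1 hε
  have h3 : Var[∑ i, fun g : ι → ℝ => g i ^ 2; gam ι] = 2 * Fintype.card ι := by
    rw [gam, variance_sum_pi (X := fun _ s => s ^ 2) (fun _ => memLp_sq_gauss)]
    simp [variance_sq_gauss, mul_comm]
  have h4 : ∫ g, (∑ i, fun g : ι → ℝ => g i ^ 2) g ∂gam ι = Fintype.card ι := by
    simp only [Finset.sum_apply]
    rw [integral_finsetSum _ fun i _ => (hm i).integrable one_le_two]
    have : ∀ i : ι, ∫ g : ι → ℝ, g i ^ 2 ∂gam ι = 1 := fun i => by
      rw [← integral_sq_gauss, ← (gam_eval i).map_eq,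
        integral_map (gam_eval i).measurable.aemeasurable (by fun_prop)]
    simp [this]
  rw [h3, h4] at h2
  simp only [Finset.sum_apply] at h2
  exact ENNReal.toReal_le_of_le_ofReal (by positivity) h2

lemma integral_exp_abs_le {x : ℝ} (h0 : 0 ≤ x) (h1 : x ≤ 1 / 2) :
    ∫ s, exp (x * |s|) ∂gaussianReal 0 1 ≤ exp (2 * x) := by
  have hp : ∀ s : ℝ, exp (x * |s|) ≤ 1 + x / 2 * (exp (1 * s) + exp (-1 * s)) := by
    intro s
    have hc := convexOn_exp.2 (Set.mem_univ 0) (Set.mem_univ (|s| / 2))
      (show 0 ≤ 1 - 2 * x by linarith) (show 0 ≤ 2 * x by linarith) (by ring)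
    simp only [smul_eq_mul, mul_zero, zero_add, exp_zero, mul_one] at hc
    rw [show 2 * x * (|s| / 2) = x * |s| by ring] at hc
    have h2 : exp |s| = exp (|s| / 2) ^ 2 := by rw [← exp_nat_mul]; congr 1; push_cast; ring
    have h3 : exp |s| ≤ exp (1 * s) + exp (-1 * s) := by
      rcases abs_cases s with h | h <;> rw [h.1]
      · rw [one_mul]; linarith [exp_pos (-1 * s)]
      · rw [neg_one_mul]; linarith [exp_pos (1 * s)]
    have h4 : exp (|s| / 2) ≤ 1 + exp |s| / 4 := by
      rw [h2]; nlinarith [sq_nonneg (exp (|s| / 2) - 2)]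
    nlinarith
  have i1 := integrable_exp_mul_gaussianReal (μ := 0) (v := 1) 1
  have i2 := integrable_exp_mul_gaussianReal (μ := 0) (v := 1) (-1)
  have m : ∀ t : ℝ, ∫ s, exp (t * s) ∂gaussianReal 0 1 = exp (t ^ 2 / 2) := fun t => by
    have := congrFun (mgf_fun_id_gaussianReal (μ := 0) (v := 1)) t
    simpa [mgf] using this
  have he : exp (1 / 2) ≤ 2 := by
    have h2 : exp (1 / 2) ^ 2 = exp 1 := by rw [← exp_nat_mul]; norm_num
    have := exp_one_lt_d9
    nlinarith [exp_pos (1 / 2)]
  calc _ ≤ ∫ s, (1 + x / 2 * (exp (1 * s) + exp (-1 * s))) ∂gaussianReal 0 1 :=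
        integral_mono (integrable_exp_abs_gauss x)
          ((integrable_const _).add ((i1.add i2).const_mul _)) hp
    _ = 1 + x * exp (1 / 2) := by
        have i3 : Integrable (fun s : ℝ => x / 2 * (exp (1 * s) + exp (-1 * s)))
          (gaussianReal 0 1) := (i1.add i2).const_mul _
        rw [integral_add (integrable_const _) i3, integral_const_mul,
          integral_add i1 i2, m, m]
        simp
        ring
    _ ≤ exp (2 * x) := by nlinarith [add_one_le_exp (2 * x)]

end Crest.Agent.R164.GA
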