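import Crest.Agent.R164.NestDer
import Crest.Agent.R164.NestGaussAux

/-! # Row 164: Gaussian schemes, integration by parts, amplitudes -/

set_option autoImplicit false
set_option linter.unusedSectionVars false

namespace Crest.Agent.R164

open MeasureTheory ProbabilityTheory Real Finset

/-! Gaussian measure on `ι → ℝ`. -/

/-- Orthogonal invariance. -/
lemma gam_mulVec {ι : Type} [Fintype ι] [DecidableEq ι] {O : Matrix ι ι ℝ}
    (hO : O ∈ Matrix.orthogonalGroup ι ℝ) : MeasurePreserving (fun g => O.mulVec g) (gam ι) (gam ι) := by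
  have h1 : O * O.transpose = 1 := (Matrix.mem_orthogonalGroup_iff ι ℝ).1 hO
  exact GA.mp_of_gram (fun a i => O a i) fun a b => by
    have := congrFun (congrFun h1 a) b
    simpa [Matrix.mul_apply, Matrix.one_apply] using this

lemma gam_comp {ι κ : Type} [Fintype ι] [Fintype κ] {j : κ → ι} (hj : Function.Injective j) :
    MeasurePreserving (fun (g : ι → ℝ) => g ∘ j) (gam ι) (gam κ) := GA.gam_comp hj

lemma gam_comp₂ {ι κ κ' : Type} [Fintype ι] [Fintype κ] [Fintype κ'] {j : κ → ι} {j' : κ' → ι}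
    (hj : Function.Injective j) (hj' : Function.Injective j') (hd : ∀ a b, j a ≠ j' b) :
    MeasurePreserving (fun (g : ι → ℝ) => (g ∘ j, g ∘ j')) (gam ι) ((gam κ).prod (gam κ')) := by
  have h1 : Function.Injective (Sum.elim j j') := hj.sumElim hj' hd
  exact (measurePreserving_sumPiEquivProdPi (fun _ : κ ⊕ κ' => gaussianReal 0 1)).comp
    (GA.gam_comp h1)

lemma gam_eval {ι : Type} [Fintype ι] (i : ι) :
    MeasurePreserving (fun (g : ι → ℝ) => g i) (gam ι) (gaussianReal 0 1) := GA.gam_eval i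

/-- Law of a linear functional. -/
lemma integral_gam_dot {ι : Type} [Fintype ι] (a : ι → ℝ) {f : ℝ → ℝ} (hf : Measurable f) :
    ∫ g, f (∑ i, a i * g i) ∂gam ι = ∫ t, f (√(∑ i, a i ^ 2) * t) ∂gaussianReal 0 1 := by
  have h := GA.map_eq_of_gram (fun (_ : Unit) i => a i) (fun (_ _ : Unit) => √(∑ i, a i ^ 2))
    (fun _ _ => by
      rw [Fintype.sum_unique (ι := Unit), mul_self_sqrt (Finset.sum_nonneg fun i _ => sq_nonneg _)]
      simp only [sq])
  have h1 := congrArg (fun m : Measure (Unit → ℝ) => ∫ y, f (y ()) ∂m) h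
  rw [integral_map (Measurable.aemeasurable (by fun_prop))
      (Measurable.aestronglyMeasurable (by fun_prop)),
    integral_map (Measurable.aemeasurable (by fun_prop))
      (Measurable.aestronglyMeasurable (by fun_prop))] at h1
  rw [h1, ← (GA.gam_eval ()).map_eq, integral_map (GA.gam_eval ()).measurable.aemeasurable
    (Measurable.aestronglyMeasurable (by fun_prop))]
  simp

/-- Chebyshev for chi-square sums. -/
lemma gam_chi_dev {ι : Type} [Fintype ι] (I : Finset ι) {ε : ℝ} (hε : 0 < ε) :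
    (gam ι).real {g | ε ≤ |∑ i ∈ I, g i ^ 2 - I.card|} ≤ 2 * I.card / ε ^ 2 := by
  have h := GA.chi_dev_univ (ι := I) hε
  have hm := GA.gam_comp (ι := ι) (κ := I) Subtype.val_injective
  rw [← hm.measureReal_preimage
    (measurableSet_le measurable_const (by fun_prop)).nullMeasurableSet, Fintype.card_coe] at h
  convert h using 2
  ext g
  simp only [Set.mem_ofPred_eq, Set.mem_preimage, Function.comp_apply]
  rw [Finset.sum_coe_sort I (fun i => g i ^ 2)]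

variable {K : ℕ} {ex : Expo K} {Z ι : Type} [MeasurableSpace Z] [Fintype ι] [DecidableEq ι]
  {α : ℕ → Measure Z} {hα : ∀ l, IsProbabilityMeasure (α l)}

local notation "𝓛" => gLev ex ι α hα

lemma shift_zero (l : ℕ) (i : ι) (ω : Cfg K (Z × (ι → ℝ))) : shift l i 0 ω = ω := by
  funext e
  simp [shift, cmap]

lemma shift_fst (l : ℕ) (i : ι) (θ : ℝ) (ω : Cfg K (Z × (ι → ℝ))) (e : Fin K) :
    (shift l i θ ω e).1 = (ω e).1 := by
  simp only [shift, cmap]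
  split_ifs <;> rfl

lemma gl_shift (l l' : ℕ) (i i' : ι) (θ : ℝ) (ω : Cfg K (Z × (ι → ℝ))) :
    gl l' i' (shift l i θ ω) = gl l' i' ω + if l' = l ∧ i' = i ∧ l < K then θ else 0 := by
  unfold gl atl
  by_cases h : l' < K
  · simp only [h, dif_pos, shift, cmap]
    by_cases h1 : l' = l
    · subst h1
      by_cases h2 : i' = i
      · subst h2; simp [h]
      · simp [h2]
    · simp [h1]
  · have : ¬(l' = l ∧ i' = i ∧ l < K) := fun h' => h (h'.1 ▸ h'.2.2)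
    simp [h, this]

lemma atl_fst_shift (l l' : ℕ) (i : ι) (θ : ℝ) (f : Z → ℝ) (ω : Cfg K (Z × (ι → ℝ))) :
    atl (shift l i θ ω) l' (fun x => f x.1) = atl ω l' (fun x => f x.1) := by
  unfold atl
  split_ifs with h
  · simp only [shift_fst]
  · rfl

lemma lin_gl (l : ℕ) (i : ι) : (𝓛).Lin (gl l i) := by
  refine ⟨measurable_atl l (by fun_prop), 1, fun ω => ?_⟩
  have h0 := Lev.size_nonneg (L := 𝓛) ω
  unfold gl atl
  split_ifs with h
  · have h1 : |(ω ⟨l, h⟩).2 i| ≤ (𝓛).nrm (ω ⟨l, h⟩) :=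
      Finset.single_le_sum (f := fun j => |(ω ⟨l, h⟩).2 j|) (fun j _ => abs_nonneg _)
        (Finset.mem_univ i)
    have h2 : (𝓛).nrm (ω ⟨l, h⟩) ≤ (𝓛).size ω :=
      Finset.single_le_sum (f := fun e => (𝓛).nrm (ω e)) (fun e _ => (𝓛).nrm_nonneg _)
        (Finset.mem_univ _)
    linarith
  · simp only [abs_zero]; linarith

lemma dep_gl (l : ℕ) (i : ι) : Dep (l + 1) (gl l i : Cfg K (Z × (ι → ℝ)) → ℝ) := dep_atl l _

lemma hasDL_gl (l l' : ℕ) (i i' : ι) :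
    (𝓛).HasDL (shift l i) (gl l' i') (fun _ => if l' = l ∧ i' = i ∧ l < K then 1 else 0) := by
  have h := Lev.lfam_affine (s := Set.Ioo (-1) 1) (R := 1) (lin_gl (ex := ex) (hα := hα) l' i')
    (Lev.lin_const (if l' = l ∧ i' = i ∧ l < K then 1 else 0))
    (fun θ hθ => (abs_lt.2 hθ).le)
  refine ⟨Set.Ioo (-1) 1, fun _ _ => if l' = l ∧ i' = i ∧ l < K then 1 else 0, isOpen_Ioo,
    by simp, ?_, rfl⟩
  convert h using 3 with θ ω
  rw [gl_shift]
  split_ifs <;> simp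

variable {H k f f' : Cfg K (Z × (ι → ℝ)) → ℝ}

namespace GA

/-- The levelwise map behind `shift`. -/
def sh (l : ℕ) (i : ι) (θ : ℝ) (e : ℕ) (x : Z × (ι → ℝ)) : Z × (ι → ℝ) :=
  if e = l then (x.1, Function.update x.2 i (x.2 i + θ)) else x

lemma shift_eq (l : ℕ) (i : ι) :
    (shift l i : ℝ → Cfg K (Z × (ι → ℝ)) → _) = fun θ => cmap (sh l i θ) := rfl

lemma sh_zero (l : ℕ) (i : ι) (e : ℕ) (x : Z × (ι → ℝ)) : sh l i 0 e x = x := by
  simp [sh]

lemma sh_mp {l e : ℕ} (h : l < e) (i : ι) (θ : ℝ) (μ : Measure (Z × (ι → ℝ))) :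
    MeasurePreserving (sh l i θ e) μ μ := by
  have : sh l i θ e = (id : Z × (ι → ℝ) → _) := funext fun x => by simp [sh, h.ne']
  rw [this]
  exact MeasurePreserving.id μ

lemma shift_upd (l : ℕ) (i : ι) (θ : ℝ) (ω : Cfg K (Z × (ι → ℝ))) (x : Z × (ι → ℝ)) (s : ℝ) :
    shift l i θ (upd ω l (rs i (x, s))) = upd ω l (rs i (x, s + θ)) := by
  funext e
  by_cases h : e.val = l <;> simp [shift, cmap, upd, rs, h]

lemma rs_self (i : ι) (x : Z × (ι → ℝ)) : rs i (x, x.2 i) = x := by simp [rs]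

lemma gl_upd {l : ℕ} (hl : l < K) (i : ι) (ω : Cfg K (Z × (ι → ℝ))) (x : Z × (ι → ℝ)) :
    gl l i (upd ω l x) = x.2 i := by simp [gl, atl, hl, upd]

lemma hasD_deriv {Φ : ℝ → Cfg K (Z × (ι → ℝ)) → Cfg K (Z × (ι → ℝ))} (h : (𝓛).HasD Φ f f')
    (ω : Cfg K (Z × (ι → ℝ))) : HasDerivAt (fun θ => f (Φ θ ω)) (f' ω) 0 := by
  obtain ⟨s, F', -, h0, hF, rfl⟩ := h
  exact hF.deriv ω 0 h0

lemma X_shift {l e : ℕ} (hle : l < e) (i : ι) (hH : Measurable H) (θ : ℝ)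
    (ω : Cfg K (Z × (ι → ℝ))) :
    (𝓛).X e (fun ω => H (shift l i θ ω)) ω = (𝓛).X e H (shift l i θ ω) :=
  Lev.X_cmap (L := 𝓛) (L' := 𝓛) (φ := sh l i θ) rfl
    (fun _ h _ => sh_mp (lt_of_lt_of_le hle h) i θ _) hH ω

lemma hasDerivAt_X {l e : ℕ} (hle : l < e) (i : ι) (hH : (𝓛).HasDL (shift l i) H k)
    (ω : Cfg K (Z × (ι → ℝ))) :
    HasDerivAt (fun θ => (𝓛).X e H (shift l i θ ω)) ((𝓛).E e H k ω) 0 := by
  have hm := (hH.lin (shift_zero l i)).1
  obtain ⟨s, F', hs, h0, hF, rfl⟩ := hH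
  have h := (hF.X hs e).deriv ω 0 h0
  simp only [X_shift hle i hm, shift_zero] at h
  exact h

/-- Stein's identity at level `l`. -/
lemma stein_lev {l : ℕ} (hl : l < K) (i : ι) (hf : (𝓛).Nice f) (hf' : (𝓛).Nice f')
    (h : ∀ ω, HasDerivAt (fun θ => f (shift l i θ ω)) (f' ω) 0) (ω : Cfg K (Z × (ι → ℝ))) :
    ∫ x, x.2 i * f (upd ω l x) ∂(𝓛).μ l = ∫ x, f' (upd ω l x) ∂(𝓛).μ l := by
  have := hα l
  refine stein_prod (α l) i (G := fun x => f (upd ω l x)) (G' := fun x => f' (upd ω l x))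
    (fun x s => ?_) (hf.integrable_upd l ω) (hf'.integrable_upd l ω) ?_
  · have h1 := h (upd ω l (rs i (x, s)))
    simp only [shift_upd] at h1
    have h2 : HasDerivAt (fun θ => f (upd ω l (rs i (x, s + θ))))
        (f' (upd ω l (rs i (x, s)))) (s - s) := by rwa [sub_self]
    simpa using h2.comp_sub_const s s
  · have h1 := ((lin_gl l i).nice.mul hf).integrable_upd l ω
    simp only [gl_upd hl] at h1
    exact h1

lemma St_eq {l : ℕ} (hl : l < K) (hH : (𝓛).Lin H) (ω : Cfg K (Z × (ι → ℝ))) :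
    (𝓛).St l H k ω = (𝓛).ζ l * (𝓛).E (l + 1) H k ω + (𝓛).S (l + 1) H k ω := by
  rcases lt_or_ge (l + 1) K with h | h
  · rw [Lev.S_eq_St hH h]
    unfold Lev.St
    rw [Finset.sum_eq_sum_Ico_succ_bot (by omega : l < K - 1), Expo.Δ]
    ring
  · unfold Lev.St Lev.S
    rw [Finset.Ico_eq_empty (by omega), Finset.Ico_eq_empty (by omega), Lev.E_of_ge _ h,
      (𝓛).top l h]
    simp

lemma E0_eq (hH : (𝓛).Lin H) (hf : (𝓛).Nice f) (l : ℕ) :
    (𝓛).E0 H f = (𝓛).E0 H ((𝓛).E l H f) := (Lev.E_E hH hf (Nat.zero_le l) _).symm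

end GA

lemma hasD_E_of_lt {l e : ℕ} (hle : l < e) (i : ι) (hH : (𝓛).HasDL (shift l i) H k)
    (hf : (𝓛).HasD (shift l i) f f') :
    (𝓛).HasD (shift l i) ((𝓛).E e H f) ((𝓛).E e H (fun ω => f' ω + f ω * (𝓛).S e H k ω)) :=
  Lev.HasD.E (φ := GA.sh l i) (GA.sh_zero l i)
    (fun θ _ h _ => GA.sh_mp (lt_of_lt_of_le hle h) i θ _) hH hf

/-- Gaussian integration by parts under the tilted measure. -/
theorem ibp {l : ℕ} (hl : l < K) (i : ι) (hH : (𝓛).HasDL (shift l i) H k)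
    (hf : (𝓛).HasD (shift l i) f f') :
    (𝓛).E0 H (fun ω => gl l i ω * f ω) = (𝓛).E0 H (fun ω => f' ω + f ω * (𝓛).St l H k ω) := by
  have hL := hH.lin (shift_zero l i)
  have nk := hH.hasD.nice'
  have nf := hf.nice (shift_zero l i)
  have nf' := hf.nice'
  have nS := nf'.add (nf.mul (Lev.Nice.S hL nk (l + 1)))
  have nX := ((hL.X (l + 1)).const_mul ((𝓛).ζ l)).exp
  rw [GA.E0_eq hL ((lin_gl l i).nice.mul nf) l,
    GA.E0_eq hL (nf'.add (nf.mul (Lev.Nice.St hL nk l))) l]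
  congr 1
  funext ω
  have key := GA.stein_lev hl i (nX.mul (Lev.Nice.E hL nf (l + 1)))
    (nX.mul (((Lev.Nice.E hL nk (l + 1)).const_mul ((𝓛).ζ l)).mul (Lev.Nice.E hL nf (l + 1)) |>.add
      (Lev.Nice.E hL nS (l + 1))))
    (fun ω => by
      have h1 := ((GA.hasDerivAt_X (Nat.lt_succ_self l) i hH ω).const_mul ((𝓛).ζ l)).exp
      have h2 := GA.hasD_deriv (hasD_E_of_lt (Nat.lt_succ_self l) i hH hf) ω
      refine (h1.mul h2).congr_deriv ?_
      simp only [shift_zero]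
      ring) ω
  have e1 : ∀ ω', (𝓛).E (l + 1) H (fun ω => f' ω + f ω * (𝓛).St l H k ω) ω' =
      (𝓛).ζ l * (𝓛).E (l + 1) H k ω' * (𝓛).E (l + 1) H f ω' +
        (𝓛).E (l + 1) H (fun ω => f' ω + f ω * (𝓛).S (l + 1) H k ω) ω' := by
    intro ω'
    have hd : Dep (l + 1) (fun ω => (𝓛).ζ l * (𝓛).E (l + 1) H k ω) := fun a b h => by
      simp only [Lev.dep_E (l + 1) H k a b h]
    rw [← Lev.E_dep_mul hd, ← Lev.E_add hL
      (((Lev.Nice.E hL nk (l + 1)).const_mul ((𝓛).ζ l)).mul nf) nS]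
    congr 1
    funext ω
    rw [GA.St_eq hl hL]
    ring
  rw [Lev.E_of_lt _ hl, Lev.E_of_lt _ hl]
  simp only [Lev.E_dep_mul (dep_gl l i), GA.gl_upd hl, e1, mul_sub, exp_sub]
  have e2 : ∀ a b c : ℝ, a / b * c = b⁻¹ * (a * c) := fun a b c => by ring
  simp only [e2, integral_const_mul]
  rw [← key]
  congr 2
  funext x
  ring

lemma hasD_E_of_le {l e : ℕ} (hle : e ≤ l) (i : ι) (hH : (𝓛).Lin H) (hf : (𝓛).Nice f) :
    (𝓛).HasD (shift l i) ((𝓛).E e H f) (fun _ => 0) :=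
  Lev.hasD_of_invariant (Lev.Nice.E hH hf e) fun θ ω => Lev.dep_E e H f _ _ fun j hj => by
    have : j.val ≠ l := by omega
    simp [shift, cmap, this]

/-- Mean of `g c` when `g` enters `H` only through `x g c`. -/
lemma E0_gl_mul {l : ℕ} (hl : l < K) (i : ι) {c : Cfg K (Z × (ι → ℝ)) → ℝ} {x : ℝ}
    (hH : (𝓛).HasDL (shift l i) H (fun ω => x * c ω)) (hc : (𝓛).Nice c)
    (hinv : ∀ θ ω, c (shift l i θ ω) = c ω) :
    (𝓛).E0 H (fun ω => gl l i ω * c ω) = x * ((𝓛).E0 H (fun ω => c ω ^ 2) -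
      ∑ e ∈ Ico l (K - 1), ex.Δ e * (𝓛).E0 H (fun ω => (𝓛).E (e + 1) H c ω ^ 2)) := by
  have hL := hH.lin (shift_zero l i)
  rw [ibp hl i hH (Lev.hasD_of_invariant hc hinv)]
  simp only [zero_add]
  rw [Lev.E0_mul_St hL hc (hc.const_mul x), mul_sub, Finset.mul_sum]
  unfold Lev.E0
  congr 1
  · rw [← Lev.E_const_mul]
    congr 1
    funext ω
    ring
  · refine Finset.sum_congr rfl fun e _ => ?_
    rw [mul_left_comm, ← Lev.E_const_mul 0 x]
    congr 2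
    funext ω
    rw [Lev.E_const_mul]
    ring

/-- Second moments of the Gaussian coordinates under the tilted measure. -/
lemma E0_gl_sq_le {l : ℕ} (hl : l < K) (I : Finset ι) {c : ι → Cfg K (Z × (ι → ℝ)) → ℝ}
    (hH : ∀ i ∈ I, (𝓛).HasDL (shift l i) H (c i)) :
    (𝓛).E0 H (fun ω => ∑ i ∈ I, gl l i ω ^ 2) ≤
      2 * I.card + (𝓛).E0 H (fun ω => ∑ i ∈ I, c i ω ^ 2) := by
  rcases I.eq_empty_or_nonempty with rfl | ⟨i₀, hi₀⟩
  · simp
  have hL := (hH i₀ hi₀).lin (shift_zero l i₀)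
  have ng : ∀ i, (𝓛).Nice (gl l i) := fun i => (lin_gl l i).nice
  have nc : ∀ i ∈ I, (𝓛).Nice (c i) := fun i hi => (hH i hi).hasD.nice'
  unfold Lev.E0
  rw [Lev.E_sum hL I fun i _ => (ng i).pow 2, Lev.E_sum hL I fun i hi => (nc i hi).pow 2]
  have : (2 : ℝ) * I.card = ∑ _i ∈ I, (2 : ℝ) := by simp [mul_comm]
  rw [this, ← Finset.sum_add_distrib]
  refine Finset.sum_le_sum fun i hi => ?_
  have nS := Lev.Nice.St hL (nc i hi) l
  have h1 := ibp hl i (hH i hi) (hasDL_gl l l i i).hasD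
  simp only [hl, and_self, if_true] at h1
  unfold Lev.E0 at h1
  have h2 := Lev.E_mono hL ((Lev.nice_const 1).add ((ng i).mul nS))
    ((Lev.nice_const 1).add ((((ng i).pow 2).add (nS.pow 2)).div_const 2))
    (fun ω => by nlinarith [sq_nonneg (gl l i ω - (𝓛).St l H (c i) ω)]) 0 (𝓛).pt
  rw [← h1, Lev.E_add hL (Lev.nice_const 1) ((((ng i).pow 2).add (nS.pow 2)).div_const 2),
    Lev.E_const hL, Lev.E_div_const, Lev.E_add hL ((ng i).pow 2) (nS.pow 2)] at h2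
  have h3 := Lev.E_St_sq_le hL (nc i hi) (Nat.zero_le l) (𝓛).pt
  simp only [← sq] at h2
  linarith

namespace GA

lemma sum_Δ_le {c : Cfg K (Z × (ι → ℝ)) → ℝ} (hH : (𝓛).Lin H) (hc : (𝓛).Nice c) {l : ℕ}
    (hl : l < K) : ∑ e ∈ Ico l (K - 1), ex.Δ e * (𝓛).E0 H (fun ω => (𝓛).E (e + 1) H c ω ^ 2) ≤
      (𝓛).E0 H (fun ω => c ω ^ 2) := by
  have h0 : 0 ≤ (𝓛).E0 H (fun ω => c ω ^ 2) := Lev.E_nonneg (fun ω => sq_nonneg _) _ _
  calc _ ≤ ∑ e ∈ Ico l (K - 1), ex.Δ e * (𝓛).E0 H (fun ω => c ω ^ 2) := by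
        refine Finset.sum_le_sum fun e _ => mul_le_mul_of_nonneg_left ?_ (ex.Δ_nonneg e)
        rw [E0_eq hH (hc.pow 2) (e + 1)]
        exact Lev.E_mono hH ((Lev.Nice.E hH hc _).pow 2) (Lev.Nice.E hH (hc.pow 2) _)
          (fun ω => Lev.sq_E_le hH hc _ ω) 0 _
    _ = (ex.ζ (K - 1) - ex.ζ l) * (𝓛).E0 H (fun ω => c ω ^ 2) := by
        rw [← Finset.sum_mul, Lev.sum_Δ ex (by omega)]
    _ ≤ _ := mul_le_of_le_one_left h0 (by linarith [ex.le_one (K - 1), ex.pos l])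

/-- A Gaussian coordinate that `H` does not see keeps its law. -/
lemma E0_passive {l : ℕ} (hl : l < K) (i : ι) (hH : (𝓛).Lin H)
    (hinv : ∀ θ ω, H (shift l i θ ω) = H ω) {φ : ℝ → ℝ} (hφ : Measurable φ)
    (hn : (𝓛).Nice (fun ω => φ (gl l i ω))) :
    (𝓛).E0 H (fun ω => φ (gl l i ω)) = ∫ s, φ s ∂gaussianReal 0 1 := by
  have := hα l
  rw [E0_eq hH hn l, ← Lev.E_const hH 0 (∫ s, φ s ∂gaussianReal 0 1) (𝓛).pt, Lev.E0]
  congr 1
  funext ω
  have hd : Dep (l + 1) (fun ω : Cfg K (Z × (ι → ℝ)) => φ (gl l i ω)) := fun a b h => by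
    simp only [dep_gl l i a b h]
  have h1 := Lev.E_const hH l 1 ω
  rw [Lev.E_of_lt _ hl] at h1 ⊢
  simp only [Lev.E_const hH, mul_one] at h1
  simp only [Lev.E_dep hH hd, gl_upd hl]
  have hX : ∀ θ ω, (𝓛).X (l + 1) H (shift l i θ ω) = (𝓛).X (l + 1) H ω := fun θ ω => by
    rw [← X_shift (Nat.lt_succ_self l) i hH.1]
    simp only [hinv]
  have hm : Measurable fun x : Z × (ι → ℝ) => (𝓛).X (l + 1) H (upd ω l x) :=
    (Lev.measurable_X hH.1 (l + 1)).comp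
      ((measurable_upd l).comp (measurable_const.prodMk measurable_id))
  have h2 := indep_prod (α l) i
    (W := fun x => exp ((𝓛).ζ l * ((𝓛).X (l + 1) H (upd ω l x) - (𝓛).X l H ω)))
    (by fun_prop) hφ (fun x s => by
      have h3 := hX (s - x.2 i) (upd ω l (rs i (x, x.2 i)))
      rw [shift_upd, add_sub_cancel, rs_self] at h3
      rw [h3])
  exact h2.trans (by rw [show (α l).prod (gam ι) = (𝓛).μ l from rfl, h1, one_mul])

lemma passive_one {l : ℕ} (hl : l < K) (i : ι) (hH : (𝓛).Lin H)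
    (hinv : ∀ θ ω, H (shift l i θ ω) = H ω) {x : ℝ} (h0 : 0 ≤ x) (h1 : x ≤ 1 / 2) :
    (𝓛).X0 (fun ω => H ω + x * |gl l i ω|) ≤ (𝓛).X0 H + 2 * x := by
  have lk : (𝓛).Lin (fun ω => x * |gl l i ω|) := (lin_gl l i).abs.const_mul x
  refine (Lev.X0_add_le_log hH lk).trans (add_le_add_right ?_ _)
  rw [E0_passive hl i hH hinv (φ := fun s => exp (x * |s|)) (by fun_prop) lk.exp]
  exact (log_le_iff_le_exp (integral_exp_pos (integrable_exp_abs_gauss x))).2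
    (integral_exp_abs_le h0 h1)

end GA

section amplitude

variable {J : Type} (t : Finset J) (lv : J → ℕ) (co : J → ι) {H₀ : Cfg K (Z × (ι → ℝ)) → ℝ}
  {c : J → Cfg K (Z × (ι → ℝ)) → ℝ}

/-- `H₀ + ∑ x_j g_j c_j` is differentiable along the shift of `g_j`. -/
lemma hasDL_amp (hlv : ∀ j ∈ t, lv j < K)
    (hinj : ∀ j ∈ t, ∀ j' ∈ t, lv j = lv j' → co j = co j' → j = j') (hH : (𝓛).Lin H₀)
    (hc : ∀ j ∈ t, Measurable (c j)) {C : ℝ} (hC : ∀ j ∈ t, ∀ ω, |c j ω| ≤ C)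
    (hinv : ∀ j ∈ t, ∀ θ ω, H₀ (shift (lv j) (co j) θ ω) = H₀ ω ∧
      ∀ j' ∈ t, c j' (shift (lv j) (co j) θ ω) = c j' ω) (x : J → ℝ) {j : J} (hj : j ∈ t) :
    (𝓛).HasDL (shift (lv j) (co j)) (fun ω => H₀ ω + ∑ j ∈ t, x j * gl (lv j) (co j) ω * c j ω)
      (fun ω => x j * c j ω) := by
  have h1 := Lev.hasDL_of_invariant (Φ := shift (lv j) (co j)) hH fun θ ω => (hinv j hj θ ω).1
  have h2 := Lev.HasDL.sum t (L := 𝓛) (Φ := shift (lv j) (co j))
    (f := fun j' ω => x j' * gl (lv j') (co j') ω * c j' ω) (f' := fun j' ω =>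
      x j' * (if lv j' = lv j ∧ co j' = co j ∧ lv j < K then 1 else 0) * c j' ω)
    fun j' hj' => ((hasDL_gl (lv j) (lv j') (co j) (co j')).const_mul (x j')).mul_invariant
      (hc j' hj') (hC j' hj') fun θ ω => (hinv j hj θ ω).2 j' hj'
  refine (h1.add h2).congr' fun ω => ?_
  rw [zero_add, Finset.sum_eq_single_of_mem j hj]
  · simp [hlv j hj]
  · intro j' hj' hne
    rw [if_neg fun h => hne (hinj j' hj' j hj h.1 h.2.1)]
    simp

/-- Raising the amplitudes of independent Gaussian fields raises the value, at a controlled cost. -/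
theorem amp_mono (hlv : ∀ j ∈ t, lv j < K)
    (hinj : ∀ j ∈ t, ∀ j' ∈ t, lv j = lv j' → co j = co j' → j = j') (hH : (𝓛).Lin H₀)
    (hc : ∀ j ∈ t, Measurable (c j)) {C : ℝ} (hC : ∀ j ∈ t, ∀ ω, |c j ω| ≤ C)
    (hinv : ∀ j ∈ t, ∀ θ ω, H₀ (shift (lv j) (co j) θ ω) = H₀ ω ∧
      ∀ j' ∈ t, c j' (shift (lv j) (co j) θ ω) = c j' ω) {x x' : J → ℝ}
    (hx : ∀ j ∈ t, 0 ≤ x j ∧ x j ≤ x' j) :
    (𝓛).X0 (fun ω => H₀ ω + ∑ j ∈ t, x j * gl (lv j) (co j) ω * c j ω) ≤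
      (𝓛).X0 (fun ω => H₀ ω + ∑ j ∈ t, x' j * gl (lv j) (co j) ω * c j ω) ∧
    (𝓛).X0 (fun ω => H₀ ω + ∑ j ∈ t, x' j * gl (lv j) (co j) ω * c j ω) ≤
      (𝓛).X0 (fun ω => H₀ ω + ∑ j ∈ t, x j * gl (lv j) (co j) ω * c j ω) +
      ∑ j ∈ t, (x' j - x j) * x' j *
        (𝓛).E0 (fun ω => H₀ ω + ∑ j ∈ t, x' j * gl (lv j) (co j) ω * c j ω) (fun ω => c j ω ^ 2) := by
  have lk : ∀ j ∈ t, (𝓛).Lin (fun ω => gl (lv j) (co j) ω * c j ω) := fun j hj =>
    (lin_gl _ _).mul_bdd (hc j hj) C (hC j hj)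
  have nc : ∀ j ∈ t, (𝓛).Nice (c j) := fun j hj => Lev.nice_of_bdd (hc j hj) C (hC j hj)
  have ls : ∀ y : J → ℝ, (𝓛).Lin (fun ω => ∑ j ∈ t, y j * gl (lv j) (co j) ω * c j ω) := fun y =>
    Lev.Lin.sum t fun j hj => by simpa only [mul_assoc] using (lk j hj).const_mul (y j)
  have hE : ∀ y z : J → ℝ,
      (𝓛).E0 (fun ω => H₀ ω + ∑ j ∈ t, y j * gl (lv j) (co j) ω * c j ω)
        (fun ω => ∑ j ∈ t, z j * gl (lv j) (co j) ω * c j ω) = ∑ j ∈ t, z j * (y j *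
        ((𝓛).E0 (fun ω => H₀ ω + ∑ j ∈ t, y j * gl (lv j) (co j) ω * c j ω) (fun ω => c j ω ^ 2) -
          ∑ e ∈ Ico (lv j) (K - 1), ex.Δ e *
            (𝓛).E0 (fun ω => H₀ ω + ∑ j ∈ t, y j * gl (lv j) (co j) ω * c j ω) (fun ω =>
              (𝓛).E (e + 1) (fun ω => H₀ ω + ∑ j ∈ t, y j * gl (lv j) (co j) ω * c j ω)
                (c j) ω ^ 2))) := by
    intro y z
    simp only [mul_assoc (z _)]
    rw [Lev.E0, Lev.E_sum (hH.add (ls y)) t fun j hj => (lk j hj).nice.const_mul (z j)]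
    refine Finset.sum_congr rfl fun j hj => ?_
    rw [Lev.E_const_mul, ← E0_gl_mul (hlv j hj) (co j)
      (hasDL_amp t lv co hlv hinj hH hc hC hinv y hj) (nc j hj)
      fun θ ω => (hinv j hj θ ω).2 j hj]
    rfl
  have hdiff : ∀ ω, ∑ j ∈ t, (x' j - x j) * gl (lv j) (co j) ω * c j ω =
      ∑ j ∈ t, x' j * gl (lv j) (co j) ω * c j ω - ∑ j ∈ t, x j * gl (lv j) (co j) ω * c j ω := by
    intro ω
    rw [← Finset.sum_sub_distrib]
    exact Finset.sum_congr rfl fun j _ => by ring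
  constructor
  · have h1 := Lev.X0_add_ge (hH.add (ls x)) (ls fun j => x' j - x j)
    rw [hE] at h1
    simp only [hdiff, add_add_sub_cancel] at h1
    refine le_trans (le_add_of_nonneg_right (Finset.sum_nonneg fun j hj => ?_)) h1
    refine mul_nonneg (sub_nonneg.2 (hx j hj).2) (mul_nonneg (hx j hj).1 (sub_nonneg.2 ?_))
    exact GA.sum_Δ_le (hH.add (ls x)) (nc j hj) (hlv j hj)
  · have h1 := Lev.X0_sub_le (hH.add (ls x)) (hH.add (ls x'))
    simp only [add_sub_add_left_eq_sub, ← hdiff] at h1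
    rw [hE, sub_le_iff_le_add'] at h1
    refine h1.trans (add_le_add_right (Finset.sum_le_sum fun j hj => ?_) _)
    rw [mul_assoc]
    refine mul_le_mul_of_nonneg_left (mul_le_mul_of_nonneg_left (sub_le_self _ ?_)
      ((hx j hj).1.trans (hx j hj).2)) (sub_nonneg.2 (hx j hj).2)
    exact Finset.sum_nonneg fun e _ =>
      mul_nonneg (ex.Δ_nonneg e) (Lev.E_nonneg (fun ω => sq_nonneg _) _ _)

/-- Absolute values of Gaussian coordinates that `H₀` does not see. -/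
theorem passive_abs (hlv : ∀ j ∈ t, lv j < K)
    (hinj : ∀ j ∈ t, ∀ j' ∈ t, lv j = lv j' → co j = co j' → j = j') (hH : (𝓛).Lin H₀)
    (hinv : ∀ j ∈ t, ∀ θ ω, H₀ (shift (lv j) (co j) θ ω) = H₀ ω) {x : J → ℝ}
    (hx : ∀ j ∈ t, 0 ≤ x j ∧ x j ≤ 1 / 2) :
    (𝓛).X0 (fun ω => H₀ ω + ∑ j ∈ t, x j * |gl (lv j) (co j) ω|) ≤ (𝓛).X0 H₀ + 2 * ∑ j ∈ t, x j := by
  classical
  induction t using Finset.induction_on with
  | empty => simp
  | insert j s hj ih =>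
    have hs : ∀ a ∈ s, a ∈ insert j s := fun a ha => Finset.mem_insert_of_mem ha
    have hjm := Finset.mem_insert_self j s
    have h1 := ih (fun a ha => hlv a (hs a ha)) (fun a ha b hb => hinj a (hs a ha) b (hs b hb))
      (fun a ha => hinv a (hs a ha)) (fun a ha => hx a (hs a ha))
    have h2 := GA.passive_one (hlv j hjm) (co j)
      (hH.add (Lev.Lin.sum s fun a _ => (lin_gl (lv a) (co a)).abs.const_mul (x a)))
      (fun θ ω => by
        rw [hinv j hjm]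
        congr 1
        refine Finset.sum_congr rfl fun a ha => ?_
        rw [gl_shift, if_neg, add_zero]
        rintro ⟨h1, h2, -⟩
        exact hj (hinj a (hs a ha) j hjm h1 h2 ▸ ha)) (hx j hjm).1 (hx j hjm).2
    simp only [Finset.sum_insert hj]
    have e : (fun ω => H₀ ω + (x j * |gl (lv j) (co j) ω| + ∑ a ∈ s, x a * |gl (lv a) (co a) ω|)) =
        fun ω => H₀ ω + ∑ a ∈ s, x a * |gl (lv a) (co a) ω| + x j * |gl (lv j) (co j) ω| :=
      funext fun ω => by ring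
    rw [e]
    linarith

end amplitude

end Crest.Agent.R164
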