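import Crest.Agent.R164.OneOp
import Crest.Agent.R164.NestGauss

/-! # Row 164: the one-site system in the nested calculus -/

set_option autoImplicit false

namespace Crest.Agent.R164

open MeasureTheory ProbabilityTheory Real Finset Crest.ProbabilityR.InvariantGlass

namespace ON

/-! The coin operator. -/

/-- Power mean over a fair coin. -/
noncomputable def coin (ζ y : ℝ) (G : ℝ → ℝ) (t : ℝ) : ℝ :=
  ζ⁻¹ * log ((exp (ζ * G (t + y)) + exp (ζ * G (t - y))) / 2)

variable {ζ y t t' a : ℝ} {G G' : ℝ → ℝ}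

lemma coin_mono (hζ : 0 < ζ) (h1 : G (t + y) ≤ G' (t' + y) + a) (h2 : G (t - y) ≤ G' (t' - y) + a) :
    coin ζ y G t ≤ coin ζ y G' t' + a := by
  have e : coin ζ y G' t' + a =
      ζ⁻¹ * log ((exp (ζ * (G' (t' + y) + a)) + exp (ζ * (G' (t' - y) + a))) / 2) := by
    rw [mul_add, mul_add, exp_add, exp_add, ← add_mul, mul_div_right_comm,
      log_mul (by positivity) (exp_pos _).ne', log_exp, mul_add, inv_mul_cancel_left₀ hζ.ne', coin]
  rw [e, coin]
  gcongr

lemma coin_le (hζ : 0 < ζ) (h1 : G (t + y) ≤ a) (h2 : G (t - y) ≤ a) : coin ζ y G t ≤ a := by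
  have := coin_mono (G' := fun _ => 0) (t' := 0) (a := a) hζ (by simpa using h1) (by simpa using h2)
  simpa [coin] using this

lemma le_coin (hζ : 0 < ζ) : (G (t + y) + G (t - y)) / 2 ≤ coin ζ y G t := by
  rw [coin, le_inv_mul_iff₀ hζ, le_log_iff_exp_le (by positivity)]
  have := convexOn_exp.2 (Set.mem_univ (ζ * G (t + y))) (Set.mem_univ (ζ * G (t - y)))
    (show (0 : ℝ) ≤ 1 / 2 by norm_num) (show (0 : ℝ) ≤ 1 / 2 by norm_num) (by norm_num)
  simp only [smul_eq_mul] at this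
  calc _ = exp (1 / 2 * (ζ * G (t + y)) + 1 / 2 * (ζ * G (t - y))) := by congr 1; ring
    _ ≤ _ := by linarith

lemma coin_zero (hζ : 0 < ζ) (G : ℝ → ℝ) : coin ζ 0 G = G := by
  funext t
  simp [coin, hζ.ne']

lemma lip_le (hG : LipschitzWith 1 G) (s t : ℝ) : G s ≤ G t + |s - t| := by
  have := hG.dist_le_mul s t
  rw [Real.dist_eq, Real.dist_eq, NNReal.coe_one, one_mul] at this
  linarith [le_abs_self (G s - G t)]

lemma coin_lip (hζ : 0 < ζ) (hG : LipschitzWith 1 G) : LipschitzWith 1 (coin ζ y G) :=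
  LipschitzWith.of_le_add fun s t => coin_mono hζ
    (by simpa [Real.dist_eq] using lip_le hG (s + y) (t + y))
    (by simpa [Real.dist_eq] using lip_le hG (s - y) (t - y))

lemma integral_sqrt_sq {F : ℝ → ℝ} (hF : Measurable F) (x : ℝ) :
    ∫ g, F (x * g) ∂gaussianReal 0 1 = ∫ g, F (√(x ^ 2) * g) ∂gaussianReal 0 1 := by
  rw [sqrt_sq_eq_abs]
  rcases abs_cases x with h | h
  · rw [h.1]
  · have hm : MeasurePreserving (fun g : ℝ => -g) (gaussianReal 0 1) (gaussianReal 0 1) :=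
      ⟨measurable_neg, by rw [gaussianReal_map_neg, neg_zero]⟩
    rw [h.1, ← NI.integral_mp hm (g := fun g => F (x * g)) (hF.comp (measurable_const_mul x))]
    simp

lemma ph_succ' {K : ℕ} (ex : Expo K) (x y : ℕ → ℝ) (m l : ℕ)
    (hf : LipschitzWith 1 (ph ex x y m (l + 1))) :
    ph ex x y (m + 1) l = coin (ex.ζ l) (y l) (gaussOp (ex.ζ l) (x l ^ 2) (ph ex x y m (l + 1))) := by
  have hζ := ex.pos l
  have h : ∀ u : ℝ, exp (ex.ζ l * gaussOp (ex.ζ l) (x l ^ 2) (ph ex x y m (l + 1)) u) =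
      ∫ g, exp (ex.ζ l * ph ex x y m (l + 1) (u + x l * g)) ∂gaussianReal 0 1 := fun u => by
    rw [gaussOp_of_ne hζ.ne', mul_inv_cancel_left₀ hζ.ne',
      exp_log (integral_exp_pos (integrable_exp_lip hf _ _ _))]
    exact (integral_sqrt_sq (F := fun v => exp (ex.ζ l * ph ex x y m (l + 1) (u + v)))
      (((hf.continuous.measurable.comp (measurable_const_add u)).const_mul _).exp) _).symm
  funext t
  simp only [ph, coin, h, Fintype.sum_bool, sg, if_true, Bool.false_eq_true, if_false, mul_one,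
    mul_neg, add_right_comm _ _ (y l), add_right_comm _ _ (-y l), sub_eq_add_neg]

lemma ph_lip' {K : ℕ} (ex : Expo K) (x y : ℕ → ℝ) (m l : ℕ) : LipschitzWith 1 (ph ex x y m l) := by
  induction m generalizing l with
  | zero => exact lip_logcosh
  | succ m ih =>
    rw [ph_succ' ex x y m l (ih _)]
    exact coin_lip (ex.pos l) (gaussOp_lip (ex.pos l).le (ih _) _)

lemma ph_succ {K : ℕ} (ex : Expo K) (x y : ℕ → ℝ) (m l : ℕ) :
    ph ex x y (m + 1) l = coin (ex.ζ l) (y l) (gaussOp (ex.ζ l) (x l ^ 2) (ph ex x y m (l + 1))) :=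
  ph_succ' ex x y m l (ph_lip' ex x y m _)

lemma ph_succ_zero {K : ℕ} (ex : Expo K) (x : ℕ → ℝ) (m l : ℕ) :
    ph ex x 0 (m + 1) l = gaussOp (ex.ζ l) (x l ^ 2) (ph ex x 0 m (l + 1)) := by
  rw [ph_succ, Pi.zero_apply, coin_zero (ex.pos l)]

lemma lip_abs : LipschitzWith 1 fun z : ℝ => |z| := lipschitzWith_one_norm

lemma le_ph {K : ℕ} (ex : Expo K) (x y : ℕ → ℝ) (m l : ℕ) (t : ℝ) :
    |t| - log 2 ≤ ph ex x y m l t := by
  induction m generalizing l t with
  | zero => exact (logcosh_bounds t).1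
  | succ m ih =>
    have h : ∀ u, |u| - log 2 ≤ gaussOp (ex.ζ l) (x l ^ 2) (ph ex x y m (l + 1)) u := fun u => by
      have h1 := gaussOp_le (ex.pos l).le lip_abs (ph_lip' ex x y m (l + 1)) (c := log 2)
        (fun u => by linarith [ih (l + 1) u]) (x l ^ 2) u
      have h2 := le_gaussOp (ex.pos l).le lip_abs (convexOn_norm convex_univ) (x l ^ 2) u
      linarith
    rw [ph_succ]
    refine le_trans ?_ (le_coin (ex.pos l))
    have h3 := abs_add_le (t + y l) (t - y l)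
    rw [show t + y l + (t - y l) = 2 * t by ring, abs_mul, abs_two] at h3
    linarith [h (t + y l), h (t - y l)]

lemma ph_le {K : ℕ} (ex : Expo K) (x y : ℕ → ℝ) (m l : ℕ) (t : ℝ) :
    ph ex x y m l t ≤ log (cosh t) + ∑ e ∈ Ico l (l + m), (|y e| + x e ^ 2 / 2) := by
  induction m generalizing l t with
  | zero => simp [ph]
  | succ m ih =>
    have h : ∀ u, gaussOp (ex.ζ l) (x l ^ 2) (ph ex x y m (l + 1)) u ≤ log (cosh u) +
        x l ^ 2 / 2 + ∑ e ∈ Ico (l + 1) (l + 1 + m), (|y e| + x e ^ 2 / 2) := fun u => by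
      have h1 := gaussOp_le (ex.pos l).le (ph_lip' ex x y m (l + 1)) lip_logcosh (ih (l + 1))
        (x l ^ 2) u
      have h2 := gaussOp_mono_exp (ex.pos l).le (ex.le_one l) lip_logcosh (x l ^ 2) u
      rw [gaussOp_one_logcosh (sq_nonneg _)] at h2
      linarith
    rw [ph_succ, Finset.sum_eq_sum_Ico_succ_bot (by omega), show l + (m + 1) = l + 1 + m by ring]
    have h1 := lip_le lip_logcosh (t + y l) t
    have h2 := lip_le lip_logcosh (t - y l) t
    rw [add_sub_cancel_left] at h1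
    rw [sub_sub_cancel_left, abs_neg] at h2
    exact coin_le (ex.pos l) (by linarith [h (t + y l)]) (by linarith [h (t - y l)])

lemma ph_le_abs {K : ℕ} (ex : Expo K) (x : ℕ → ℝ) (m l : ℕ) (t : ℝ) :
    ph ex x 0 m l t ≤ |t| + ∑ e ∈ Ico l (l + m), (log 2 / ex.ζ e + ex.ζ e * x e ^ 2 / 2) := by
  induction m generalizing l t with
  | zero => simpa [ph] using (logcosh_bounds t).2
  | succ m ih =>
    have h1 := gaussOp_le (ex.pos l).le (ph_lip' ex x 0 m (l + 1)) lip_abs (ih (l + 1)) (x l ^ 2) t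
    have h2 := gaussOp_abs_le (ex.pos l) (sq_nonneg (x l)) t
    rw [ph_succ_zero, Finset.sum_eq_sum_Ico_succ_bot (by omega),
      show l + (m + 1) = l + 1 + m by ring]
    linarith

lemma ph_neg {K : ℕ} (ex : Expo K) (x : ℕ → ℝ) (m l : ℕ) (t : ℝ) :
    ph ex x 0 m l (-t) = ph ex x 0 m l t := by
  induction m generalizing l t with
  | zero => simp [ph]
  | succ m ih =>
    rw [ph_succ_zero]
    exact gaussOp_even (ph_lip' ex x 0 m _) (ih _) _ _ _

lemma foldr_eq_ph {K : ℕ} (ex : Expo K) (x : ℕ → ℝ) (m l : ℕ) (G : Fin m → (ℝ → ℝ) → ℝ → ℝ)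
    (hG : ∀ i, G i = gaussOp (ex.ζ (l + i)) (x (l + i) ^ 2)) :
    (List.finRange m).foldr G (fun z => log (cosh z)) = ph ex x 0 m l := by
  induction m generalizing l with
  | zero => simp [ph]
  | succ m ih =>
    rw [List.finRange_succ, List.foldr_cons, List.foldr_map, ph_succ_zero,
      ih (l + 1) (fun i => G i.succ) fun i => by
        rw [hG, Fin.val_succ, show l + (i + 1) = l + 1 + i by ring], hG]
    rfl

/-! Levels. -/

lemma atl_upd_self {K : ℕ} {Ω : Type} (ω : Cfg K Ω) {l : ℕ} (hl : l < K) (z : Ω) (f : Ω → ℝ) :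
    atl (upd ω l z) l f = f z := by
  simp [atl, upd, hl]

lemma atl_upd_ne {K : ℕ} {Ω : Type} (ω : Cfg K Ω) {l e : ℕ} (h : e ≠ l) (z : Ω) (f : Ω → ℝ) :
    atl (upd ω l z) e f = atl ω e f := by
  simp [atl, upd, h]

lemma abs_sg (c : Bool) : |sg c| = 1 := by cases c <;> simp [sg]

lemma measurable_sg : Measurable sg := measurable_of_countable _

/-- The coin of level `l`. -/
noncomputable def cn {K : ℕ} (l : ℕ) (ω : Cfg K Oo) : ℝ := atl ω l fun z => sg z.1.2

lemma measurable_cn {K : ℕ} (l : ℕ) : Measurable (cn l : Cfg K Oo → ℝ) :=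
  measurable_atl l (measurable_sg.comp measurable_fst.snd)

lemma abs_cn_le {K : ℕ} (l : ℕ) (ω : Cfg K Oo) : |cn l ω| ≤ 1 := by
  unfold cn atl
  split_ifs <;> simp [abs_sg]

lemma oF_upd {K : ℕ} (b : ℝ) (x y : ℕ → ℝ) {l e : ℕ} (h : l ≤ e) (ω : Cfg K Oo) (z : Oo) :
    oF b x y l (upd ω e z) = oF b x y l ω := by
  unfold oF gl
  congr 1
  refine Finset.sum_congr rfl fun i hi => ?_
  have : i ≠ e := by
    have := Finset.mem_range.1 hi
    omega
  rw [atl_upd_ne _ this, atl_upd_ne _ this]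

lemma oF_succ_upd {K : ℕ} (b : ℝ) (x y : ℕ → ℝ) {l : ℕ} (h : l < K) (ω : Cfg K Oo) (z : Oo) :
    oF b x y (l + 1) (upd ω l z) = oF b x y l ω + x l * z.2 () + y l * sg z.1.2 := by
  rw [← oF_upd b x y le_rfl ω z, oF, oF, Finset.sum_range_succ, gl, atl_upd_self _ h,
    atl_upd_self _ h]
  ring

lemma oS_upd {r : ℕ} (ω : Cfg (r + 1) Oo) (z : Oo) : oS (upd ω r z) = sg z.1.1 := by
  simp [oS, upd]

lemma oS_upd_of_lt {r l : ℕ} (h : l < r) (ω : Cfg (r + 1) Oo) (z : Oo) : oS (upd ω l z) = oS ω := by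
  simp [oS, upd, h.ne']

lemma abs_oS {r : ℕ} (ω : Cfg (r + 1) Oo) : |oS ω| = 1 := abs_sg _

lemma integral_lev {K : ℕ} (ex : Expo K) (l : ℕ) (F : Bool × Bool → ℝ → ℝ)
    (hm : ∀ a, Measurable (F a)) (hi : Integrable (fun z : Oo => F z.1 (z.2 ())) ((oLev ex).μ l)) :
    ∫ z, F z.1 (z.2 ()) ∂(oLev ex).μ l = (∑ a, ∫ t, F a t ∂gaussianReal 0 1) / 4 := by
  refine (integral_prod _ hi).trans ?_
  rw [unif, integral_unifOn]
  simp only [fun a => NI.integral_mp (gam_eval ()) (hm a)]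
  simp

lemma integral_spin {K : ℕ} (ex : Expo K) (l : ℕ) (F : Bool → ℝ) :
    ∫ z, F z.1.1 ∂(oLev ex).μ l = (F true + F false) / 2 := by
  rw [integral_lev ex l (fun a _ => F a.1) (fun _ => measurable_const)
    ((Integrable.of_finite (f := fun a : Bool × Bool => F a.1)).comp_fst _)]
  simp [Fintype.sum_prod_type]
  ring

lemma One_eq {r : ℕ} (b : ℝ) (x y : ℕ → ℝ) (ω : Cfg (r + 1) Oo) : One b x y ω =
    b * oS ω + ∑ e ∈ range r, x e * gl e () ω * oS ω + ∑ e ∈ range r, y e * (cn e ω * oS ω) := by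
  simp only [One, oF, cn, add_mul, Finset.sum_mul, Finset.sum_add_distrib, add_assoc, mul_assoc]

lemma One_add {r : ℕ} (b t : ℝ) (x y : ℕ → ℝ) :
    One (b + t) x y = fun ω : Cfg (r + 1) Oo => One b x y ω + t * oS ω := by
  funext ω
  simp only [One_eq]
  ring

lemma One_amp {r : ℕ} (b : ℝ) (x y : ℕ → ℝ) : One b x y =
    fun ω : Cfg (r + 1) Oo => One b 0 y ω + ∑ e ∈ range r, x e * gl e () ω * oS ω := by
  funext ω
  simp only [One_eq, Pi.zero_apply, zero_mul, Finset.sum_const_zero]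
  ring

lemma oS_shift {r : ℕ} (l : ℕ) (θ : ℝ) (ω : Cfg (r + 1) Oo) : oS (shift l () θ ω) = oS ω := by
  simp only [oS, shift_fst]

lemma One_shift {r : ℕ} (b : ℝ) (y : ℕ → ℝ) (l : ℕ) (θ : ℝ) (ω : Cfg (r + 1) Oo) :
    One b 0 y (shift l () θ ω) = One b 0 y ω := by
  have : ∀ e, cn e (shift l () θ ω) = cn e ω := fun e =>
    atl_fst_shift l e () θ (fun z : Bool × Bool => sg z.2) ω
  simp only [One_eq, oS_shift, this, Pi.zero_apply, zero_mul]

lemma flip_preserving {K : ℕ} (ex : Expo K) (l : ℕ) : MeasurePreserving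
    (fun z : Oo => ((z.1.1, !z.1.2), z.2)) ((oLev ex).μ l) ((oLev ex).μ l) := by
  have h : MeasurePreserving (fun a : Bool × Bool => (a.1, !a.2)) (unif _) (unif _) := by
    refine ⟨measurable_of_countable _, Measure.ext_of_singleton fun a => ?_⟩
    rw [Measure.map_apply (measurable_of_countable _) (measurableSet_singleton _)]
    have : (fun a : Bool × Bool => (a.1, !a.2)) ⁻¹' {a} = {(a.1, !a.2)} := by
      ext ⟨u, v⟩
      obtain ⟨a1, a2⟩ := a
      cases v <;> cases a2 <;> simp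
    rw [this]
    simp [unif, unifOn, Measure.finsetSum_apply, Pi.single_apply]
  exact h.prod (MeasurePreserving.id _)

/-! General facts on overlaps. -/

section general

variable {K : ℕ} {Ω : Type} [MeasurableSpace Ω] {L : Lev K Ω} {H k f g : Cfg K Ω → ℝ}

open Lev

lemma E0_sq_mono (hH : L.Lin H) (hf : L.Nice f) {l l' : ℕ} (h : l ≤ l') :
    L.E0 H (fun ω => L.E l H f ω ^ 2) ≤ L.E0 H fun ω => L.E l' H f ω ^ 2 := by
  have h1 := (hf.E hH l').pow 2
  rw [E0, E0, ← E_E hH h1 (Nat.zero_le l)]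
  refine E_mono hH ((hf.E hH l).pow 2) (h1.E hH l) (fun ω => ?_) _ _
  rw [← E_E hH hf h]
  exact sq_E_le hH (hf.E hH l') l ω

lemma E0_const (hH : L.Lin H) (c : ℝ) : L.E0 H (fun _ => c) = c := E_const hH 0 c _

lemma abs_E0_mul_le (hH : L.Lin H) (hf : L.Nice f) (hg : Measurable g) (h1 : ∀ ω, |g ω| ≤ 1)
    {B : ℝ} (hB : 0 ≤ B) (h : L.E0 H (fun ω => f ω ^ 2) ≤ B ^ 2) :
    |L.E0 H fun ω => f ω * g ω| ≤ B := by
  have hg' : L.Nice g := nice_of_bdd hg 1 h1
  have h2 := E_mul_sq_le hH hf hg' 0 L.pt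
  have h3 : L.E 0 H (fun ω => g ω ^ 2) L.pt ≤ 1 :=
    (le_abs_self _).trans (abs_E_le_const hH (hg.pow_const 2)
      (fun ω => by rw [abs_pow]; exact pow_le_one₀ (abs_nonneg _) (h1 ω)) 0 _)
  have h4 : 0 ≤ L.E 0 H (fun ω => f ω ^ 2) L.pt := E_nonneg (fun ω => sq_nonneg _) _ _
  exact abs_le_of_sq_le_sq' (h2.trans ((mul_le_of_le_one_right h4 h3).trans h)) hB |> abs_le.2

lemma Q_lip (hH : L.Lin H) (hk : L.Lin k) (hf : Measurable f) (h1 : ∀ ω, |f ω| ≤ 1) {B : ℝ}
    (hB : 0 ≤ B) (h : ∀ θ ∈ Set.Icc (0 : ℝ) 1,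
      L.E0 (fun ω => H ω + θ * k ω) (fun ω => k ω ^ 2) ≤ B ^ 2) (l : ℕ) :
    |L.E0 (fun ω => H ω + 1 * k ω) (fun ω => L.E l (fun ω => H ω + 1 * k ω) f ω ^ 2) -
      L.E0 (fun ω => H ω + 0 * k ω) (fun ω => L.E l (fun ω => H ω + 0 * k ω) f ω ^ 2)| ≤ 3 * B := by
  have hf' : L.Nice f := nice_of_bdd hf 1 h1
  have hs : IsOpen (Set.Ioo (-2 : ℝ) 2) := isOpen_Ioo
  have hF := lfam_affine (s := Set.Ioo (-2 : ℝ) 2) hH hk (R := 2) fun θ hθ =>
    (abs_lt.2 hθ).le
  have hE := (dfam_const hf').E hs hF l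
  have hm : ∀ θ ∈ Set.Icc (0 : ℝ) 1, θ ∈ Set.Ioo (-2 : ℝ) 2 := fun θ hθ =>
    ⟨by linarith [hθ.1], by linarith [hθ.2]⟩
  simp only [pow_two]
  refine norm_image_sub_le_of_norm_deriv_le_segment_01'
    (fun θ hθ => ((hE.mul hE).hasDerivAt_E0 hs hF (hm θ hθ)).hasDerivWithinAt) fun θ hθ => ?_
  have hθ' := Set.Ico_subset_Icc_self hθ
  have hG := hF.lin' (hm θ hθ')
  have n1 := hE.nice (hm θ hθ')
  have n2 := hE.nice' (hm θ hθ')
  have h2 := h θ hθ'
  beta_reduce at hG n1 n2 ⊢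
  generalize (fun ω => H ω + θ * k ω) = G at hG n1 n2 h2 ⊢
  have b1 : ∀ ω, |L.E l G f ω| ≤ 1 := abs_E_le_const hG hf h1 l
  have nS := fun l => hk.nice.S hG l
  have n3 : L.Nice fun ω => 0 + f ω * L.S l G k ω := (nice_const 0).add (hf'.mul (nS l))
  have b2 : L.E0 G (fun ω => L.E l G (fun ω => 0 + f ω * L.S l G k ω) ω ^ 2) ≤ B ^ 2 := by
    refine le_trans ?_ ((E_S_sq_le hG hk.nice (Nat.zero_le l) L.pt).trans h2)
    refine (E0_sq_mono hG n3 (le_max_left l K)).trans ?_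
    rw [E_of_ge _ (le_max_right l K)]
    refine E_mono hG (n3.pow 2) ((nS l).pow 2) (fun ω => ?_) _ _
    rw [zero_add, mul_pow]
    exact mul_le_of_le_one_left (sq_nonneg _) ((sq_le_one_iff_abs_le_one _).2 (h1 ω))
  have b3 := abs_E0_mul_le hG n2 n1.1 b1 hB b2
  have b4 := abs_E0_mul_le hG (nS 0) (n1.mul n1).1 (fun ω => by
    rw [abs_mul]; exact mul_le_one₀ (b1 ω) (abs_nonneg _) (b1 ω)) hB
      ((E_S_sq_le hG hk.nice le_rfl L.pt).trans h2)
  rw [E0, E_add hG ((n2.mul n1).add (n1.mul n2)) ((n1.mul n1).mul (nS 0)),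
    E_add hG (n2.mul n1) (n1.mul n2), Real.norm_eq_abs]
  simp only [mul_comm (L.E l G f _) (L.E l G (fun ω => 0 + f ω * L.S l G k ω) _),
    mul_comm (L.E l G f _ * L.E l G f _)]
  rw [E0, abs_le] at b3 b4
  exact abs_le.2 ⟨by linarith [b3.1, b4.1], by linarith [b3.2, b4.2]⟩

lemma exp_le_E0_exp (hH : L.Lin H) (hk : L.Lin k) {a : ℝ} (h : a ≤ L.E0 H k) :
    exp a ≤ L.E0 H fun ω => exp (k ω) := by
  have h1 := E_mono hH (((hk.nice.sub (nice_const a)).add (nice_const 1)).const_mul (exp a)) hk.exp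
    (fun ω => by
      have := mul_le_mul_of_nonneg_left (add_one_le_exp (k ω - a)) (exp_pos a).le
      rwa [← exp_add, add_sub_cancel] at this) 0 L.pt
  rw [E_const_mul, E_add hH (hk.nice.sub (nice_const a)) (nice_const 1),
    E_sub hH hk.nice (nice_const a), E_const hH, E_const hH] at h1
  refine le_trans ?_ h1
  exact le_mul_of_one_le_right (exp_pos a).le (by linarith [show a ≤ L.E 0 H k L.pt from h])

end general

lemma abel_sum (a u : ℕ → ℝ) (n : ℕ) :
    ∑ i ∈ range n, (a i - a (i + 1)) * ∑ l ∈ range (i + 1), u l =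
      ∑ l ∈ range n, u l * a l - a n * ∑ l ∈ range n, u l := by
  induction n with
  | zero => simp
  | succ n ih =>
    rw [Finset.sum_range_succ, ih, Finset.sum_range_succ (fun l => u l * a l),
      Finset.sum_range_succ u]
    ring

lemma sum_range_succ_eq (f : ℕ → ℝ) (k : ℕ) (h : f 0 = 0) :
    ∑ l ∈ range (k + 1), f l = ∑ l ∈ Icc 1 k, f l := by
  rw [Finset.range_eq_Ico, Finset.sum_eq_sum_Ico_succ_bot (Nat.succ_pos k), h, zero_add]
  rfl

end ON

open ON Lev

variable {r : ℕ} (ex : Expo (r + 1))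

lemma measurable_oS : Measurable (oS : Cfg (r + 1) Oo → ℝ) :=
  measurable_sg.comp (measurable_pi_apply _).fst.fst
lemma oS_sq (ω : Cfg (r + 1) Oo) : oS ω ^ 2 = 1 := by
  rw [← sq_abs, abs_oS, one_pow]
lemma nice_oS : (oLev ex).Nice oS := nice_of_bdd measurable_oS 1 fun ω => (abs_oS ω).le
lemma ON.lin_oS : (oLev ex).Lin oS := lin_of_bdd measurable_oS 1 fun ω => (abs_oS ω).le
lemma ON.lin_oF (b : ℝ) (x y : ℕ → ℝ) (l : ℕ) : (oLev ex).Lin (oF b x y l) :=
  (lin_const b).add (Lin.sum _ fun e _ => ((lin_gl e ()).const_mul _).add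
    ((lin_of_bdd (measurable_cn e) 1 (abs_cn_le e)).const_mul _))
lemma lin_One (b : ℝ) (x y : ℕ → ℝ) : (oLev ex).Lin (One b x y) :=
  (lin_oF ex b x y r).mul_bdd measurable_oS 1 fun ω => (abs_oS ω).le
lemma ph_lip (x y : ℕ → ℝ) (m l : ℕ) : LipschitzWith 1 (ph ex x y m l) := ph_lip' ex x y m l
set_option linter.unusedVariables false in
lemma ph_zero {x : ℕ → ℝ} {l : ℕ} (hx : 0 ≤ x l) (m : ℕ) :
    ph ex x 0 (m + 1) l = gaussOp (ex.ζ l) (x l ^ 2) (ph ex x 0 m (l + 1)) :=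
  ph_succ_zero ex x m l
lemma ON.X_last (b : ℝ) (x y : ℕ → ℝ) (ω : Cfg (r + 1) Oo) :
    (oLev ex).X r (One b x y) ω = log (cosh (oF b x y r ω)) := by
  have h : (oLev ex).ζ r = 1 := ex.top r le_rfl
  rw [X_of_lt _ r.lt_succ_self, X_of_ge _ le_rfl, T, h]
  simp only [One, oF_upd b x y le_rfl, oS_upd, one_mul, inv_one]
  rw [integral_spin ex r fun c => exp (oF b x y r ω * sg c), cosh_eq]
  simp [sg]
lemma ON.E_last (b : ℝ) (x y : ℕ → ℝ) (ω : Cfg (r + 1) Oo) :
    (oLev ex).E r (One b x y) oS ω ^ 2 = 1 - exp (-2 * (oLev ex).X r (One b x y) ω) := by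
  have h : (oLev ex).ζ r = 1 := ex.top r le_rfl
  rw [E_of_lt _ r.lt_succ_self, X_of_ge _ le_rfl, E_of_ge _ le_rfl, h, X_last]
  simp only [One, oF_upd b x y le_rfl, oS_upd, one_mul]
  generalize oF b x y r ω = t
  have hc := cosh_pos t
  have e : exp (-2 * log (cosh t)) = 1 / cosh t ^ 2 := by
    rw [neg_mul, exp_neg, two_mul, exp_add, exp_log hc, one_div, pow_two]
  rw [integral_spin ex r fun c => exp (t * sg c - log (cosh t)) * sg c, e]
  simp only [exp_sub, exp_log hc, sg, if_true, Bool.false_eq_true, if_false, mul_one, mul_neg]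
  have h1 := cosh_sq t
  rw [sinh_eq] at h1
  field_simp
  linarith
theorem X_One (b : ℝ) (x y : ℕ → ℝ) {l : ℕ} (hl : l ≤ r) (ω : Cfg (r + 1) Oo) :
    (oLev ex).X l (One b x y) ω = ph ex x y (r - l) l (oF b x y l ω) := by
  induction hl using Nat.decreasingInduction generalizing ω with
  | self => rw [X_last, Nat.sub_self, ph]
  | of_succ l hl ih =>
    have hK : l < r + 1 := by omega
    have hi := (lin_One ex b x y).int.2 l hK ω
    rw [X_of_lt _ hK, T, show r - l = r - (l + 1) + 1 by omega, ph]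
    simp only [ih, oF_succ_upd b x y hK] at hi ⊢
    rw [integral_lev ex l (fun a t => exp ((oLev ex).ζ l * ph ex x y (r - (l + 1)) (l + 1)
      (oF b x y l ω + x l * t + y l * sg a.2))) (fun a =>
        (((ph_lip ex x y _ _).continuous.measurable.comp (by fun_prop)).const_mul _).exp) hi,
      Fintype.sum_prod_type]
    simp only [Finset.sum_const, Finset.card_univ, Fintype.card_bool, nsmul_eq_mul, Nat.cast_ofNat]
    congr 2
    exact (show ∀ s : ℝ, 2 * s / 4 = s / 2 from fun s => by ring) _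
lemma oX_eq (b : ℝ) (x y : ℕ → ℝ) : oX ex b x y = ph ex x y r 0 b := by
  simpa [oF, oX, X0] using X_One ex b x y (Nat.zero_le r) (oLev ex).pt
lemma ON.lfam_b (x y : ℕ → ℝ) (R : ℝ) :
    (oLev ex).LFam (Set.Ioo (-R) R) (fun b => One b x y) fun _ => oS := by
  have := lfam_affine (s := Set.Ioo (-R) R) (lin_One ex 0 x y) (lin_oS ex) (R := R) fun θ hθ =>
    (abs_lt.2 hθ).le
  rwa [show (fun θ (ω : Cfg (r + 1) Oo) => One 0 x y ω + θ * oS ω) = fun b => One b x y from
    funext fun θ => by rw [← One_add, zero_add]] at this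
lemma ON.mem_Ioo_abs (b : ℝ) : b ∈ Set.Ioo (-(|b| + 1)) (|b| + 1) := abs_lt.1 (lt_add_one _)
lemma hasDerivAt_oX (b : ℝ) (x : ℕ → ℝ) : HasDerivAt (fun b => oX ex b x 0) (oM ex b x) b :=
  (lfam_b ex x 0 _).hasDerivAt_X0 isOpen_Ioo (mem_Ioo_abs b)
lemma oX_tangent (b b' : ℝ) (x : ℕ → ℝ) : oX ex b x 0 + oM ex b x * (b' - b) ≤ oX ex b' x 0 := by
  have := X0_add_ge (lin_One ex b x 0) ((lin_oS ex).const_mul (b' - b))
  rwa [← One_add, add_sub_cancel, E0, E_const_mul, mul_comm] at this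
set_option linter.unusedVariables false in
lemma oX_neg (b : ℝ) {x : ℕ → ℝ} (hx : ∀ l, 0 ≤ x l) : oX ex (-b) x 0 = oX ex b x 0 := by
  rw [oX_eq, oX_eq, ph_neg]
lemma le_oX (b : ℝ) (x y : ℕ → ℝ) : |b| - log 2 ≤ oX ex b x y := by
  rw [oX_eq]
  exact le_ph ex x y r 0 b
lemma oX_le (b : ℝ) (x y : ℕ → ℝ) :
    oX ex b x y ≤ |b| + ∑ l ∈ range r, |y l| + (∑ l ∈ range r, x l ^ 2) / 2 := by
  have := ph_le ex x y r 0 b
  rw [zero_add, ← Finset.range_eq_Ico, Finset.sum_add_distrib, ← Finset.sum_div] at this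
  rw [oX_eq]
  linarith [(logcosh_bounds b).2]
set_option linter.unusedVariables false in
lemma oX_coercive {x : ℕ → ℝ} (hx : ∀ l, 0 ≤ x l) :
    oX ex 0 x 0 ≤ ∑ l ∈ range r, (log 2 / ex.ζ l + ex.ζ l * x l ^ 2 / 2) := by
  have := ph_le_abs ex x r 0 0
  rwa [zero_add, ← Finset.range_eq_Ico, abs_zero, zero_add, ← oX_eq] at this
lemma oX_amp (b : ℝ) {x : ℕ → ℝ} (hx : ∀ l, 0 ≤ x l) (y : ℕ → ℝ) : oX ex b 0 y ≤ oX ex b x y := by
  have := (amp_mono (range r) id (fun _ => ()) (c := fun _ => oS)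
    (fun j hj => (Finset.mem_range.1 hj).trans r.lt_succ_self) (fun _ _ _ _ h _ => h)
    (lin_One ex b 0 y) (fun _ _ => measurable_oS) (fun _ _ ω => (abs_oS ω).le)
    (fun j _ θ ω => ⟨One_shift b y j θ ω, fun _ _ => oS_shift j θ ω⟩) (x := 0) (x' := x)
    fun j _ => ⟨le_rfl, hx j⟩).1
  simp only [Pi.zero_apply, zero_mul, Finset.sum_const_zero, add_zero] at this
  rw [oX, oX, One_amp b x]
  exact this
lemma ON.One_congr (b : ℝ) {x x' : ℕ → ℝ} (h : ∀ l < r, x l = x' l) (y : ℕ → ℝ) :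
    (One b x y : Cfg (r + 1) Oo → ℝ) = One b x' y := by
  funext ω
  rw [One_eq, One_eq, Finset.sum_congr rfl fun l hl => by rw [h l (Finset.mem_range.1 hl)]]
lemma oX_congr (b : ℝ) {x x' : ℕ → ℝ} (h : ∀ l < r, x l = x' l) (y : ℕ → ℝ) :
    oX ex b x y = oX ex b x' y := by
  rw [oX, oX, One_congr b h]
lemma oQ_mem (b : ℝ) (x : ℕ → ℝ) (e : ℕ) : 0 ≤ oQ ex b x e ∧ oQ ex b x e ≤ 1 := by
  have hH := lin_One ex b x 0
  refine ⟨E_nonneg (fun ω => sq_nonneg _) _ _, (le_abs_self _).trans (abs_E_le_const hH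
    ((measurable_E hH.1 measurable_oS _).pow_const 2) (fun ω => ?_) _ _)⟩
  rw [abs_pow]
  exact pow_le_one₀ (abs_nonneg _) (abs_E_le_const hH measurable_oS (fun ω => (abs_oS ω).le) _ _)
lemma oQ_mono (b : ℝ) (x : ℕ → ℝ) : Monotone (oQ ex b x) := fun _ _ h =>
  E0_sq_mono (lin_One ex b x 0) (nice_oS ex) (Nat.succ_le_succ h)
lemma ON.oM_sq_le' (b : ℝ) (x : ℕ → ℝ) (l : ℕ) : oM ex b x ^ 2 ≤
    (oLev ex).E0 (One b x 0) fun ω => (oLev ex).E l (One b x 0) oS ω ^ 2 := by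
  have := E0_sq_mono (lin_One ex b x 0) (nice_oS ex) (Nat.zero_le l)
  simpa only [E_zero, E0_const (lin_One ex b x 0), oM] using this
lemma oM_sq_le (b : ℝ) (x : ℕ → ℝ) (e : ℕ) : oM ex b x ^ 2 ≤ oQ ex b x e :=
  oM_sq_le' ex b x _
lemma ON.hasDL_One (b : ℝ) (x y : ℕ → ℝ) {l : ℕ} (hl : l < r) :
    (oLev ex).HasDL (shift l ()) (One b x y) fun ω => x l * oS ω := by
  rw [One_amp]
  exact hasDL_amp (range r) id (fun _ => ()) (c := fun _ => oS)
    (fun j hj => (Finset.mem_range.1 hj).trans r.lt_succ_self) (fun _ _ _ _ h _ => h)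
    (lin_One ex b 0 y) (fun _ _ => measurable_oS) (fun _ _ ω => (abs_oS ω).le)
    (fun j _ θ ω => ⟨One_shift b y j θ ω, fun _ _ => oS_shift j θ ω⟩) x (Finset.mem_range.2 hl)
lemma E0_gl_One (b : ℝ) (x : ℕ → ℝ) {l : ℕ} (hl : l < r) :
    (oLev ex).E0 (One b x 0) (fun ω => gl l () ω * oS ω) = x l * (1 - oT ex b x l) := by
  have := E0_gl_mul (hl.trans r.lt_succ_self) () (hasDL_One ex b x 0 hl) (nice_oS ex)
    (oS_shift l)
  simp only [oS_sq] at this
  exact this.trans (congrArg (fun t => x l * (t - oT ex b x l)) (E0_const (lin_One ex b x 0) 1))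
lemma oQ_lip_b (b b' : ℝ) (x : ℕ → ℝ) (e : ℕ) : |oQ ex b x e - oQ ex b' x e| ≤ 10 * |b - b'| := by
  have hk := (lin_oS ex).const_mul (b - b')
  have := Q_lip (lin_One ex b' x 0) hk measurable_oS (fun ω => (abs_oS ω).le) (abs_nonneg (b - b'))
    (fun θ _ => by
      simp only [mul_pow, oS_sq, mul_one, sq_abs]
      exact (E0_const ((lin_One ex b' x 0).add (hk.const_mul θ)) _).le) (e + 1)
  simp only [one_mul, zero_mul, add_zero, ← One_add, add_sub_cancel] at this
  exact this.trans (by linarith [abs_nonneg (b - b')])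
lemma oQ_lip_x (b : ℝ) {x x' : ℕ → ℝ} {R : ℝ} (hx : ∀ l < r, |x l| ≤ R ∧ |x' l| ≤ R) (e : ℕ) :
    |oQ ex b x e - oQ ex b x' e| ≤ 10 * (2 + R) * ∑ l ∈ range r, |x l - x' l| := by
  set D := ∑ l ∈ range r, |x l - x' l| with hD
  have hB : 0 ≤ (2 + R) * D := by
    rw [hD, Finset.mul_sum]
    exact Finset.sum_nonneg fun l hl => mul_nonneg
      (by linarith [abs_nonneg (x l), (hx l (Finset.mem_range.1 hl)).1]) (abs_nonneg _)
  have hD0 : 0 ≤ D := Finset.sum_nonneg fun _ _ => abs_nonneg _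
  have hg : ∀ l, (oLev ex).Lin (gl l ()) := fun l => lin_gl l ()
  have hk : (oLev ex).Lin fun ω => (∑ l ∈ range r, (x l - x' l) * gl l () ω) * oS ω :=
    (Lin.sum _ fun l _ => (hg l).const_mul _).mul_bdd measurable_oS 1 fun ω => (abs_oS ω).le
  have he : ∀ θ : ℝ, (fun ω : Cfg (r + 1) Oo => One b x' 0 ω +
      θ * ((∑ l ∈ range r, (x l - x' l) * gl l () ω) * oS ω)) =
        One b (fun l => x' l + θ * (x l - x' l)) 0 := fun θ => by
    funext ω
    simp only [One_eq, Finset.sum_mul, Finset.mul_sum, add_mul, Finset.sum_add_distrib, mul_assoc]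
    ring
  have := Q_lip (lin_One ex b x' 0) hk measurable_oS (fun ω => (abs_oS ω).le) hB
    (fun θ hθ => ?_) (e + 1)
  · simp only [he] at this
    simp only [one_mul, zero_mul, add_zero, add_sub_cancel] at this
    exact this.trans (by linarith)
  rw [he]
  set xθ := fun l => x' l + θ * (x l - x' l)
  have hG := lin_One ex b xθ 0
  have n1 : ∀ l, (oLev ex).Nice fun ω => |x l - x' l| * gl l () ω ^ 2 := fun l =>
    ((hg l).nice.pow 2).const_mul _
  have h1 := E_mono hG (hk.nice.pow 2) ((Nice.sum (range r) fun l _ => n1 l).const_mul D)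
    (fun ω => by
      rw [mul_pow, oS_sq, mul_one]
      exact Finset.sum_sq_le_sum_mul_sum_of_sq_le_mul _ (fun _ _ => abs_nonneg _)
        (fun _ _ => by positivity) fun l _ => by
          rw [← mul_assoc, abs_mul_abs_self, mul_pow, pow_two (x l - x' l)]) 0 (oLev ex).pt
  rw [E_const_mul, E_sum hG _ fun l _ => n1 l] at h1
  refine h1.trans ?_
  rw [mul_pow, pow_two D, mul_left_comm]
  refine mul_le_mul_of_nonneg_left ?_ hD0
  rw [hD, Finset.mul_sum]
  refine Finset.sum_le_sum fun l hl => ?_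
  have hl' := Finset.mem_range.1 hl
  rw [E_const_mul, mul_comm]
  refine mul_le_mul_of_nonneg_right ?_ (abs_nonneg _)
  have h2 := E0_gl_sq_le (hl'.trans r.lt_succ_self) {()} (c := fun _ ω => xθ l * oS ω)
    fun _ _ => hasDL_One ex b xθ 0 hl'
  simp only [Finset.sum_singleton, Finset.card_singleton, Nat.cast_one, mul_one, mul_pow,
    oS_sq] at h2
  have h3 := E0_const hG (xθ l ^ 2)
  have h4 : |xθ l| ≤ R := by
    have h5 := abs_le.1 (hx l hl').1
    have h6 := abs_le.1 (hx l hl').2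
    exact abs_le.2 ⟨by simp only [xθ]; nlinarith [hθ.1, hθ.2], by
      simp only [xθ]; nlinarith [hθ.1, hθ.2]⟩
  have h7 := pow_le_pow_left₀ (abs_nonneg _) h4 2
  rw [sq_abs] at h7
  refine h2.trans ((add_le_add_right h3.le 2).trans ?_)
  nlinarith [(abs_nonneg _).trans h4]
lemma oX_lin_exp (b : ℝ) (x : ℕ → ℝ) {y : ℝ} (hy : |y| ≤ 1) :
    |oX ex (b + y) x 0 - oX ex b x 0 - y * oM ex b x| ≤ 100 * y ^ 2 := by
  rw [oX, One_add]
  exact abs_X0_lin_le (lin_One ex b x 0) measurable_oS (fun ω => (abs_oS ω).le) hy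
lemma oX_coin_exp (b : ℝ) (x : ℕ → ℝ) {l : ℕ} (hl : l < r) {y : ℝ} (hy : |y| ≤ 1) :
    |oX ex b x (Pi.single l y) - oX ex b x 0 - y ^ 2 / 2 * (1 - oT ex b x l)| ≤ 100 * |y| ^ 3 := by
  have hK : l < r + 1 := hl.trans r.lt_succ_self
  have e : One b x (Pi.single l y) =
      fun ω : Cfg (r + 1) Oo => One b x 0 ω + y * (cn l ω * oS ω) := by
    funext ω
    simp [One_eq, Pi.single_apply, hl]
  rw [oX, e]
  refine abs_X0_coin_le (lin_One ex b x 0) measurable_oS (measurable_cn l) oS_sq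
    (fun ω => ?_) hK (dep_atl l _) (flip_preserving ex l) (fun ω z => ?_)
    (fun ω z => by rw [oS_upd_of_lt hl, oS_upd_of_lt hl]) (fun ω z => ?_) hy
  · rw [← sq_abs, cn, atl, dif_pos hK, abs_sg, one_pow]
  · have : ∀ e, gl e () (upd ω l ((z.1.1, !z.1.2), z.2)) = gl e () (upd ω l z) := fun e => by
      by_cases he : e = l
      · rw [he, gl, gl, atl_upd_self _ hK, atl_upd_self _ hK]
      · rw [gl, gl, atl_upd_ne _ he, atl_upd_ne _ he]
    simp only [One_eq, oS_upd_of_lt hl, this, Pi.zero_apply, zero_mul]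
  · rw [cn, cn, atl_upd_self _ hK, atl_upd_self _ hK]
    cases z.1.2 <;> simp [sg]

lemma ON.E0_X_last_le (b : ℝ) (x : ℕ → ℝ) :
    (oLev ex).E0 (One b x 0) ((oLev ex).X r (One b x 0)) ≤
      |b| + 2 * ∑ l ∈ range r, x l ^ 2 + log 2 := by
  have hH := lin_One ex b x 0
  have h1 : ∀ ω, (oLev ex).X r (One b x 0) ω ≤ (oLev ex).E r (One b x 0) (One b x 0) ω := fun ω => by
    have h2 := X_add_ge hH hH.neg r ω
    have h5 : (oLev ex).X r (fun _ => 0) ω = 0 := by
      have := X_last ex 0 0 0 ω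
      simp only [oF, Pi.zero_apply, zero_mul, add_zero, Finset.sum_const_zero, cosh_zero,
        log_one] at this
      rwa [show (One 0 0 0 : Cfg (r + 1) Oo → ℝ) = fun _ => 0 from
        funext fun ω => by simp [One_eq]] at this
    simp only [add_neg_cancel, E_neg, h5] at h2
    linarith
  have h2 := E_mono hH (hH.X r).nice (hH.nice.E hH r) h1 0 (oLev ex).pt
  rw [E_E hH hH.nice (Nat.zero_le r)] at h2
  have h3 := X0_add_ge hH hH
  have e : (fun ω : Cfg (r + 1) Oo => One b x 0 ω + One b x 0 ω) =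
      One (2 * b) (fun l => 2 * x l) 0 := by
    funext ω
    simp only [One_eq, mul_assoc, ← Finset.mul_sum, Pi.zero_apply, zero_mul, Finset.sum_const_zero]
    ring
  rw [e] at h3
  have h4 := oX_le ex (2 * b) (fun l => 2 * x l) 0
  have h5 := le_oX ex b x 0
  simp only [Pi.zero_apply, abs_zero, Finset.sum_const_zero, add_zero, abs_mul, abs_two, mul_pow,
    ← Finset.mul_sum] at h4
  simp only [oX, E0] at *
  linarith

lemma ON.hasDerivAt_oM (b : ℝ) (x : ℕ → ℝ) : ∃ D, HasDerivAt (fun b => oM ex b x) D b ∧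
    exp (-2 * (|b| + 2 * ∑ l ∈ range r, x l ^ 2 + log 2)) ≤ D := by
  have hH := lin_One ex b x 0
  refine ⟨_, (dfam_const (nice_oS ex)).hasDerivAt_E0 isOpen_Ioo (lfam_b ex x 0 _) (mem_Ioo_abs b),
    ?_⟩
  rw [E0_mul_S_zero r.succ_pos hH (nice_oS ex) fun ω => by rw [← pow_two, oS_sq], D2]
  have h1 := exp_le_E0_exp hH ((hH.X r).const_mul (-2))
    (a := -2 * (|b| + 2 * ∑ l ∈ range r, x l ^ 2 + log 2)) (by
      rw [E0, E_const_mul]
      linarith [E0_X_last_le ex b x, show (oLev ex).E0 (One b x 0) ((oLev ex).X r (One b x 0)) =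
        (oLev ex).E 0 (One b x 0) ((oLev ex).X r (One b x 0)) (oLev ex).pt from rfl])
  set q := (oLev ex).E0 (One b x 0) fun ω => (oLev ex).E r (One b x 0) oS ω ^ 2 with hq
  have h2 : q = 1 - (oLev ex).E0 (One b x 0) fun ω => exp (-2 * (oLev ex).X r (One b x 0) ω) := by
    simp only [hq, E_last]
    rw [E0, E_sub hH (nice_const 1) ((hH.X r).const_mul (-2)).exp, E_const hH]
    rfl
  have h3 : ∑ e ∈ Ico 0 (r + 1 - 1), (oLev ex).Δ e * (oLev ex).E0 (One b x 0)
      (fun ω => (oLev ex).E (e + 1) (One b x 0) oS ω * (oLev ex).E (e + 1) (One b x 0) oS ω) ≤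
      ∑ e ∈ Ico 0 r, (oLev ex).Δ e * q := by
    refine Finset.sum_le_sum fun e he => mul_le_mul_of_nonneg_left ?_ (Expo.Δ_nonneg _ e)
    simp only [← pow_two]
    exact E0_sq_mono hH (nice_oS ex) (Finset.mem_Ico.1 he).2
  rw [← Finset.sum_mul, sum_Δ _ (Nat.zero_le r), show (oLev ex).ζ r = 1 from ex.top r le_rfl] at h3
  have h4 := mul_le_mul_of_nonneg_left (oM_sq_le' ex b x r) ((oLev ex).pos 0).le
  rw [oM, pow_two] at h4
  linarith

/-- The magnetisation determines the field, uniformly in the scheme. -/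
theorem one_stable {δ Hm ε : ℝ} (hδ : 0 < δ) (hε : 0 < ε) : ∃ ε₁ : ℝ, 0 < ε₁ ∧
    ∀ (r : ℕ) (ex : Expo (r + 1)) (x : ℕ → ℝ), (∑ l ∈ range r, x l ^ 2) ≤ Hm → ∀ m, |m| ≤ 1 - δ →
      ∃ b₀, oM ex b₀ x = m ∧ ∀ b, |oM ex b x - m| ≤ ε₁ → |b - b₀| ≤ ε := by
  set B := (2 * log 2 + Hm) / δ with hB
  set c := exp (-2 * (B + 2 * Hm + log 2)) with hc
  have hc0 : 0 < c := exp_pos _
  refine ⟨min (δ / 2) (c * ε), by positivity, fun r ex x hx m hm => ?_⟩
  have hH : 0 ≤ Hm := (Finset.sum_nonneg fun _ _ => sq_nonneg _).trans hx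
  have hl : 0 < log 2 := log_pos one_lt_two
  have hBδ : B * δ = 2 * log 2 + Hm := div_mul_cancel₀ _ hδ.ne'
  have hB0 : 0 ≤ B := by positivity
  have h1 : ∀ b, |b| - log 2 - Hm / 2 ≤ oM ex b x * b := fun b => by
    have h2 := oX_tangent ex b 0 x
    have h3 := le_oX ex b x 0
    have h4 := oX_le ex 0 x 0
    simp only [Pi.zero_apply, abs_zero, Finset.sum_const_zero, add_zero, zero_add] at h4
    linarith
  have h2 : ∀ b, |oM ex b x| ≤ 1 - δ / 2 → |b| ≤ B := fun b h => by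
    have h3 := (h1 b).trans (le_abs_self _)
    rw [abs_mul] at h3
    have h4 := mul_le_mul_of_nonneg_right h (abs_nonneg b)
    exact le_of_mul_le_mul_right (by linarith) hδ
  choose D hD hD' using fun b => hasDerivAt_oM ex b x
  have hcont : Continuous fun b => oM ex b x :=
    continuous_iff_continuousAt.2 fun b => (hD b).continuousAt
  have hm' := abs_le.1 hm
  obtain ⟨b₀, -, hb₀⟩ : m ∈ (fun b => oM ex b x) '' Set.Icc (-(B + 1)) (B + 1) := by
    refine intermediate_value_Icc (by linarith) hcont.continuousOn ⟨?_, ?_⟩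
    · have h3 := h1 (-(B + 1))
      rw [abs_neg, abs_of_pos (by linarith)] at h3
      by_contra h
      have h4 := mul_lt_mul_of_pos_right (not_le.1 h) (show 0 < B + 1 by linarith)
      nlinarith
    · have h3 := h1 (B + 1)
      rw [abs_of_pos (by linarith)] at h3
      by_contra h
      have h4 := mul_lt_mul_of_pos_right (not_le.1 h) (show 0 < B + 1 by linarith)
      nlinarith
  refine ⟨b₀, hb₀, fun b hb => ?_⟩
  beta_reduce at hb₀
  have h3 := abs_le.1 (hb.trans (min_le_left _ _))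
  have h4 := abs_le.1 (hb.trans (min_le_right _ _))
  have h5 := abs_le.1 (h2 b (abs_le.2 ⟨by linarith, by linarith⟩))
  have h6 := abs_le.1 (h2 b₀ (by rw [hb₀]; linarith))
  have h7 := (convex_Icc (-B) B).mul_sub_le_image_sub_of_le_deriv hcont.continuousOn
    (fun b _ => (hD b).differentiableAt.differentiableWithinAt) (C := c) fun b hb => by
      rw [(hD b).deriv]
      refine le_trans (exp_le_exp.2 ?_) (hD' b)
      linarith [abs_le.2 (Set.mem_Icc.1 (interior_subset hb))]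
  rcases le_total b b₀ with h | h
  · have h8 := h7 b h5 b₀ h6 h
    rw [abs_sub_comm, abs_of_nonneg (sub_nonneg.2 h)]
    exact le_of_mul_le_mul_left (by linarith) hc0
  · have h8 := h7 b₀ h6 b h5 h
    rw [abs_of_nonneg (sub_nonneg.2 h)]
    exact le_of_mul_le_mul_left (by linarith) hc0

set_option linter.unusedVariables false in
/-- The step field of a grid scheme. -/
theorem exists_step_of_grid {k : ℕ} {ex : Expo (k + 2)} {η : ℝ} (hex : IsGrid ex η) (hη : η < 1)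
    (hk : 1 ≤ k) {x : ℕ → ℝ} (hx : ∀ l, 0 ≤ x l) (hx0 : x 0 = 0) :
    ∃ w hv : Fin (k + 1) → ℝ, IsStepField w hv ∧
      (∀ b, fieldValueAt b w hv = oX ex b x 0 - (∑ l ∈ Icc 1 k, x l ^ 2) / 2) ∧
      ∀ p, IsTrialPath p → ∫ s in Set.Ioo (0 : ℝ) 1, p s * stepFn w hv s =
        ∑ l ∈ Icc 1 k, x l ^ 2 * ∫ s in Set.Ioo (ex.ζ l) 1, p s := by
  let z : ℕ → ℝ := fun i => if i = 0 then 0 else ex.ζ i
  have hz0 : z 0 = 0 := if_pos rfl
  have hz : ∀ i, i ≠ 0 → z i = ex.ζ i := fun i hi => if_neg hi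
  have hz1 : z (k + 1) = 1 := (hz _ k.succ_ne_zero).trans (ex.top _ le_rfl)
  have hpos : ∀ i ≤ k, 0 < z (i + 1) - z i := fun i hi => by
    rw [hz _ i.succ_ne_zero]
    rcases Nat.eq_zero_or_pos i with rfl | h
    · rw [hz0, sub_zero]
      exact ex.pos _
    · have := hex.2.2 i (Finset.mem_Icc.2 ⟨h, hi⟩)
      rw [Expo.Δ] at this
      rw [hz _ h.ne', this]
      exact div_pos (sub_pos.2 hη) (Nat.cast_pos.2 hk)
  let w : Fin (k + 1) → ℝ := fun i => z (i + 1) - z i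
  let hv : Fin (k + 1) → ℝ := fun i => ∑ l ∈ range (i + 1), x l ^ 2
  have hleft : ∀ i, leftEnd w i = z i := fun i => by
    have : leftEnd w i = ∑ l ∈ range (k + 1), if l < i.val then z (l + 1) - z l else 0 :=
      Fin.sum_univ_eq_sum_range (fun l => if l < i.val then z (l + 1) - z l else 0) _
    rw [this, ← Finset.sum_filter, show (range (k + 1)).filter (· < i.val) = range i by
      ext l
      simp only [Finset.mem_filter, Finset.mem_range]
      omega, Finset.sum_range_sub, hz0, sub_zero]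
  have hprev : ∀ n ≤ k + 1, (∑ l : Fin (k + 1), if l.val + 1 = n then hv l else 0) =
      ∑ l ∈ range n, x l ^ 2 := fun n hn => by
    rcases n with _ | n
    · simp
    · rw [Finset.sum_eq_single ⟨n, hn⟩ (fun l _ h => if_neg fun h' => h (Fin.ext (by simpa using h')))
        (by simp), if_pos rfl]
  have hinc : ∀ i, increment hv i = x i ^ 2 := fun i => by
    rw [increment, hprev i i.2.le]
    exact Finset.sum_range_succ_sub_sum _
  have hx0' : x 0 ^ 2 = 0 := by rw [hx0, zero_pow two_ne_zero]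
  refine ⟨w, hv, ⟨k.succ_pos, fun i => hpos i (Nat.lt_succ_iff.1 i.2), ?_, fun i j h =>
    Finset.sum_le_sum_of_subset_of_nonneg (Finset.range_mono (Nat.succ_le_succ h))
      fun _ _ _ => sq_nonneg _, fun i => Finset.sum_nonneg fun _ _ => sq_nonneg _⟩,
    fun b => ?_, fun p hp => ?_⟩
  · rw [Fin.sum_univ_eq_sum_range (fun l => z (l + 1) - z l), Finset.sum_range_sub, hz0, hz1,
      sub_zero]
  · rw [fieldValueAt, hprev _ le_rfl, sum_range_succ_eq _ _ hx0', oX_eq,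
      foldr_eq_ph ex x (k + 1) 0 _ fun i => ?_]
    funext f
    rw [hleft, hinc, zero_add]
    rcases Nat.eq_zero_or_pos i.val with h | h
    · rw [h, hx0', gaussOp_zero_var, gaussOp_zero_var]
    · rw [hz _ h.ne']
  · have hi : IntegrableOn p (Set.Ioo 0 1) := by
      refine Measure.integrableOn_of_bounded (M := 1) (by simp) hp.1.aestronglyMeasurable ?_
      filter_upwards [ae_restrict_mem measurableSet_Ioo] with s hs
      rw [Real.norm_of_nonneg (hp.2.2 s hs).1]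
      exact (hp.2.2 s hs).2
    have h1 : ∀ s ∈ Set.Ioo (0 : ℝ) 1, p s * stepFn w hv s =
        ∑ l ∈ Icc 1 k, x l ^ 2 * (Set.Ioi (ex.ζ l)).indicator p s := fun s hs => by
      let a : ℕ → ℝ := fun i => if z i < s then 1 else 0
      have h2 : stepFn w hv s =
          ∑ i ∈ range (k + 1), (a i - a (i + 1)) * ∑ l ∈ range (i + 1), x l ^ 2 := by
        rw [← Fin.sum_univ_eq_sum_range
          (fun i => (a i - a (i + 1)) * ∑ l ∈ range (i + 1), x l ^ 2)]
        refine Finset.sum_congr rfl fun i _ => ?_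
        have h3 := hpos i (Nat.lt_succ_iff.1 i.2)
        simp only [hleft, w, add_sub_cancel, a, hv]
        by_cases h4 : z (i + 1) < s
        · have h5 : z i < s := by linarith
          simp [h4, h5, h4.not_ge]
        · by_cases h5 : z i < s <;> simp [h4, h5, not_lt.1 h4]
      have h6 : a (k + 1) = 0 := if_neg (by rw [hz1]; exact hs.2.not_gt)
      rw [h2, abel_sum, h6, zero_mul, sub_zero,
        sum_range_succ_eq _ _ (by rw [hx0', zero_mul]), Finset.mul_sum]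
      refine Finset.sum_congr rfl fun l hl => ?_
      have h7 : l ≠ 0 := by
        have := (Finset.mem_Icc.1 hl).1
        omega
      simp only [a, hz l h7, Set.indicator_apply, Set.mem_Ioi]
      split_ifs <;> ring
    rw [setIntegral_congr_fun measurableSet_Ioo h1, integral_finsetSum _ fun l _ =>
      (hi.indicator measurableSet_Ioi).const_mul _]
    refine Finset.sum_congr rfl fun l _ => ?_
    rw [integral_const_mul, setIntegral_indicator measurableSet_Ioi, Set.Ioo_inter_Ioi,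
      max_eq_right (ex.pos l).le]

end Crest.Agent.R164
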