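import Crest.Agent.R164.CavDefs
import Crest.Agent.R164.OneNest

/-! # Row 164: the cavity spaces, measure preserving maps, algebra -/

set_option autoImplicit false

namespace Crest.Agent.R164

open MeasureTheory ProbabilityTheory Real Finset Crest.ProbabilityR.InvariantGlass

namespace CA

section unif

variable {α β : Type} [MeasurableSpace α] [MeasurableSingletonClass α] [Fintype α]
  [MeasurableSpace β] [MeasurableSingletonClass β] [Fintype β]

lemma unif_singleton (a : α) : unif α {a} = (Fintype.card α : ENNReal)⁻¹ := by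
  classical
  simp [unif, unifOn, Measure.finsetSum_apply, Pi.single_apply]

lemma unif_equiv (e : α ≃ β) : MeasurePreserving e (unif α) (unif β) := by
  refine ⟨measurable_of_countable _, Measure.ext_of_singleton fun b => ?_⟩
  rw [Measure.map_apply (measurable_of_countable _) (measurableSet_singleton _)]
  have : e ⁻¹' {b} = {e.symm b} := by
    ext a
    simp [Equiv.eq_symm_apply]
  rw [this, unif_singleton, unif_singleton, Fintype.card_congr e]

lemma unif_prod [Nonempty α] [Nonempty β] : unif (α × β) = (unif α).prod (unif β) := by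
  refine Measure.ext_of_singleton fun p => ?_
  obtain ⟨a, b⟩ := p
  rw [unif_singleton, ← Set.singleton_prod_singleton, Measure.prod_prod, unif_singleton,
    unif_singleton, Fintype.card_prod, Nat.cast_mul, ENNReal.mul_inv] <;> simp

end unif

lemma mp_shuffle {A B C D : Type} [MeasurableSpace A] [MeasurableSpace B] [MeasurableSpace C]
    [MeasurableSpace D] (μ : Measure A) (ν : Measure B) (ρ : Measure C) (τ : Measure D)
    [SFinite μ] [SFinite ν] [SFinite ρ] [SFinite τ] :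
    MeasurePreserving (fun z : (A × B) × (C × D) => ((z.1.1, z.2.1), (z.1.2, z.2.2)))
      ((μ.prod ν).prod (ρ.prod τ)) ((μ.prod ρ).prod (ν.prod τ)) := by
  have h1 := measurePreserving_prodAssoc μ ν (ρ.prod τ)
  have h2 := (MeasurePreserving.id μ).prod
    ((measurePreserving_prodAssoc ν ρ τ).symm MeasurableEquiv.prodAssoc)
  have h3 := (MeasurePreserving.id μ).prod
    ((Measure.measurePreserving_swap (μ := ν) (ν := ρ)).prod (MeasurePreserving.id τ))
  have h4 := (MeasurePreserving.id μ).prod (measurePreserving_prodAssoc ρ ν τ)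
  have h5 := (measurePreserving_prodAssoc μ ρ (ν.prod τ)).symm MeasurableEquiv.prodAssoc
  exact h5.comp (h4.comp (h3.comp (h2.comp h1)))

lemma mp_const {A B : Type} [MeasurableSpace A] [MeasurableSpace B] (μ : Measure A)
    [IsProbabilityMeasure μ] (b : B) : MeasurePreserving (fun _ : A => b) μ (Measure.dirac b) :=
  ⟨measurable_const, by simp⟩

/-- Regrouping the spins. -/
def consE (N : ℕ) : (Fin N → Bool) × (Bool × Bool) ≃ (Fin (N + 1) → Bool) × Bool where
  toFun p := (Fin.cons p.2.1 p.1, p.2.2)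
  invFun q := (Fin.tail q.1, (q.1 0, q.2))
  left_inv p := by simp
  right_inv q := by simp

lemma mp_consE (N : ℕ) : MeasurePreserving (consE N)
    ((unif (Fin N → Bool)).prod (unif (Bool × Bool)))
    ((unif (Fin (N + 1) → Bool)).prod (unif Bool)) := by
  rw [← unif_prod, ← unif_prod]
  exact unif_equiv _

/-- The Gaussian coordinates of the big system. -/
def jS (N n : ℕ) : Fin (N + 1) → Ic N n := Fin.cons (.inr (.inr ())) fun i => .inl i

lemma jS_inj (N n : ℕ) : Function.Injective (jS N n) := by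
  intro a b hab
  cases a using Fin.cases <;> cases b using Fin.cases <;> simp_all [jS]

lemma cons_eq_jS {N n : ℕ} (g : Ic N n → ℝ) :
    (Fin.cons (g (.inr (.inr ()))) fun i => g (.inl i) : Fin (N + 1) → ℝ) = g ∘ jS N n := by
  funext a
  cases a using Fin.cases <;> simp [jS]

lemma sum_comp_le {ι κ : Type} [Fintype ι] [Fintype κ] {j : κ → ι} (hj : Function.Injective j)
    (g : ι → ℝ) : ∑ i, |g (j i)| ≤ 1 * (1 + ∑ i, |g i|) := by
  classical
  have h : ∑ i, |g (j i)| = ∑ i ∈ univ.image j, |g i| :=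
    (Finset.sum_image (f := fun i => |g i|) fun a _ b _ hab => hj hab).symm
  have h2 : ∑ i ∈ univ.image j, |g i| ≤ ∑ i, |g i| :=
    Finset.sum_le_sum_of_subset_of_nonneg (Finset.subset_univ _) fun _ _ _ => abs_nonneg _
  linarith

end CA

open CA

variable {n N k : ℕ} (ex : Expo (k + 2))

lemma mp_pE (h : Haar N) (e : ℕ) :
    MeasurePreserving (pE e) ((eLev ex h).μ e) ((mLev ex h (unif _)).μ e) :=
  (measurePreserving_fst (μ := (h.lev e).prod (unif (Fin N → Bool))) (ν := unif Bool)).prod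
    (MeasurePreserving.id (gam (Fin N)))

lemma mp_pB_pR (h : Haar N) (e : ℕ) : MeasurePreserving (fun z : Oc N n => (pB e z, pR e z))
    ((cLev ex h n).μ e) (((mLev ex h (unif _)).μ e).prod ((rLev ex n).μ e)) := by
  have h1 := (MeasurePreserving.id (((h.lev e).prod (unif (Fin N → Bool))).prod
    (unif (Bool × Bool)))).prod
    (gam_comp₂ (ι := Ic N n) (j := fun i : Fin N => .inl i) (j' := fun b : Fin n => .inr (.inl b))
      (fun a b hab => by simpa using hab) (fun a b hab => by simpa using hab) (fun a b => by simp))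
  exact (mp_shuffle _ _ _ _).comp h1

lemma mp_pB (h : Haar N) (e : ℕ) :
    MeasurePreserving (pB e) ((cLev ex h n).μ e) ((mLev ex h (unif _)).μ e) :=
  measurePreserving_fst.comp (mp_pB_pR ex h e)

lemma mp_pS (h : Haar N) (h' : Haar (N + 1)) (A : O (N + 1)) {e : ℕ} (he : 1 ≤ e) :
    MeasurePreserving (pS A e) ((cLev ex h n).μ e) ((eLev ex h').μ e) := by
  have he0 : e ≠ 0 := by omega
  have hl : h'.lev e = Measure.dirac 1 := by simp [Haar.lev, he0]
  have h1 := measurePreserving_prodAssoc (h.lev e) (unif (Fin N → Bool)) (unif (Bool × Bool))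
  have h2 := (mp_const (h.lev e) (1 : O (N + 1))).prod (mp_consE N)
  have h3 := (measurePreserving_prodAssoc (Measure.dirac (1 : O (N + 1)))
    (unif (Fin (N + 1) → Bool)) (unif Bool)).symm MeasurableEquiv.prodAssoc
  have h4 := (h3.comp (h2.comp h1)).prod (gam_comp (jS_inj N n))
  rw [← hl] at h4
  have e1 : (pS A e : Oc N n → Oe (N + 1)) = fun z =>
      (((1, Fin.cons z.1.2.1 z.1.1.2), z.1.2.2), z.2 ∘ jS N n) := by
    funext z
    simp only [pS, he0, if_false, cons_eq_jS]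
  rw [e1]
  exact h4

lemma measurable_pS (A : O (N + 1)) (e : ℕ) : Measurable (pS A e : Oc N n → Oe (N + 1)) := by
  have h1 : Measurable fun z : Oc N n => (if e = 0 then A * extO z.1.1.1 else 1 : O (N + 1)) := by
    split_ifs
    · exact (measurable_O_mul_left A).comp (measurable_extO.comp (by fun_prop))
    · exact measurable_const
  have h2 : Measurable fun z : Oc N n => (Fin.cons z.1.2.1 z.1.1.2 : Fin (N + 1) → Bool) := by
    refine measurable_pi_iff.2 fun a => ?_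
    cases a using Fin.cases
    · simp only [Fin.cons_zero]; fun_prop
    · simp only [Fin.cons_succ]; fun_prop
  have h3 : Measurable fun z : Oc N n =>
      (Fin.cons (z.2 (.inr (.inr ()))) fun i => z.2 (.inl i) : Fin (N + 1) → ℝ) := by
    refine measurable_pi_iff.2 fun a => ?_
    cases a using Fin.cases
    · simp only [Fin.cons_zero]; fun_prop
    · simp only [Fin.cons_succ]; fun_prop
  exact ((h1.prodMk h2).prodMk (by fun_prop)).prodMk h3

lemma CA.measurable_pE (e : ℕ) : Measurable (pE e : Oe N → Om N) := by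
  unfold pE; fun_prop

lemma CA.measurable_pB (e : ℕ) : Measurable (pB e : Oc N n → Om N) := by
  unfold pB; fun_prop

lemma CA.measurable_pR (e : ℕ) : Measurable (pR e : Oc N n → Orb n) := by
  unfold pR; fun_prop

lemma CA.nrm_pE (h : Haar N) (e : ℕ) (x : Oe N) :
    (mLev ex h (unif _)).nrm (pE e x) ≤ 1 * (1 + (eLev ex h).nrm x) :=
  sum_comp_le (j := id) Function.injective_id x.2

lemma CA.nrm_pB (h : Haar N) (e : ℕ) (x : Oc N n) :
    (mLev ex h (unif _)).nrm (pB e x) ≤ 1 * (1 + (cLev ex h n).nrm x) :=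
  sum_comp_le (j := fun i : Fin N => (.inl i : Ic N n)) (fun a b hab => by simpa using hab) x.2

lemma lin_pE (h : Haar N) {f : Cfg (k + 2) (Om N) → ℝ} (hf : (mLev ex h (unif _)).Lin f) :
    (eLev ex h).Lin fun ω => f (cmap pE ω) :=
  Lev.Lin.cmap measurable_pE (nrm_pE ex h) hf

lemma CA.nice_pE (h : Haar N) {f : Cfg (k + 2) (Om N) → ℝ} (hf : (mLev ex h (unif _)).Nice f) :
    (eLev ex h).Nice fun ω => f (cmap pE ω) :=
  Lev.Nice.cmap measurable_pE (nrm_pE ex h) hf

lemma lin_pB (h : Haar N) {f : Cfg (k + 2) (Om N) → ℝ} (hf : (mLev ex h (unif _)).Lin f) :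
    (cLev ex h n).Lin fun ω => f (cmap pB ω) :=
  Lev.Lin.cmap measurable_pB (nrm_pB ex h) hf

lemma nice_pB (h : Haar N) {f : Cfg (k + 2) (Om N) → ℝ} (hf : (mLev ex h (unif _)).Nice f) :
    (cLev ex h n).Nice fun ω => f (cmap pB ω) :=
  Lev.Nice.cmap measurable_pB (nrm_pB ex h) hf

lemma lin_pR (h : Haar N) {f : Cfg (k + 2) (Orb n) → ℝ} (hf : (rLev ex n).Lin f) :
    (cLev ex h n).Lin fun ω => f (cmap pR ω) :=
  Lev.Lin.cmap measurable_pR (C := 1) (fun _ x =>
    sum_comp_le (j := fun b : Fin n => (.inr (.inl b) : Ic N n))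
      (fun a b hab => by simpa using hab) x.2) hf

lemma lin_pS (h : Haar N) (h' : Haar (N + 1)) (A : O (N + 1)) {f : Cfg (k + 2) (Oe (N + 1)) → ℝ}
    (hf : (eLev ex h').Lin f) : (cLev ex h n).Lin fun ω => f (cmap (pS A) ω) := by
  refine Lev.Lin.cmap (measurable_pS A) (C := 1) (fun e x => ?_) hf
  have := sum_comp_le (jS_inj N n) x.2
  change ∑ i, |(Fin.cons (x.2 (.inr (.inr ()))) fun i => x.2 (.inl i) : Fin (N + 1) → ℝ) i| ≤ _
  rw [cons_eq_jS]
  exact this

lemma measurable_rS : Measurable (rS : Cfg (k + 2) (Orb n) → Bool) := by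
  unfold rS; fun_prop

section coins

variable {K : ℕ} {Ω : Type}

lemma CA.abs_atl_sg_le (c : Ω → Bool) (l : ℕ) (ω : Cfg K Ω) :
    |atl ω l fun z => sg (c z)| ≤ 1 := by
  unfold atl
  split_ifs
  · exact (ON.abs_sg _).le
  · simp

lemma CA.abs_field_le (c : Ω → Bool) (b : ℝ) (y : ℕ → ℝ) (s : Finset ℕ) (ω : Cfg K Ω) :
    |b + ∑ l ∈ s, y l * atl ω l fun z => sg (c z)| ≤ |b| + ∑ l ∈ s, |y l| := by
  refine (abs_add_le _ _).trans (add_le_add_right ?_ _)
  refine (Finset.abs_sum_le_sum_abs _ _).trans (Finset.sum_le_sum fun l _ => ?_)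
  rw [abs_mul]
  exact mul_le_of_le_one_right (abs_nonneg _) (abs_atl_sg_le c l ω)

variable [MeasurableSpace Ω]

lemma CA.measurable_field {c : Ω → Bool} (hc : Measurable c) (b : ℝ) (y : ℕ → ℝ) (s : Finset ℕ) :
    Measurable fun ω : Cfg K Ω => b + ∑ l ∈ s, y l * atl ω l fun z => sg (c z) :=
  measurable_const.add (Finset.measurable_sum _ fun l _ =>
    measurable_const.mul (measurable_atl l (ON.measurable_sg.comp hc)))

end coins

lemma lin_frR (b : ℝ) (y : ℕ → ℝ) : (rLev ex n).Lin (frR b y) := by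
  refine Lev.lin_of_bdd ((measurable_field (c := fun z : Orb n => z.1.2) (by fun_prop) b y _).mul
    (ON.measurable_sg.comp measurable_rS)) (|b| + ∑ l ∈ Icc 1 k, |y l|) fun ω => ?_
  rw [frR, abs_mul, ON.abs_sg, mul_one]
  exact abs_field_le (fun z : Orb n => z.1.2) b y _ ω

lemma measurable_zR (sd : ℕ → Fin n → ℝ) : Measurable (zR sd : Cfg (k + 2) (Orb n) → Fin n → ℝ) :=
  measurable_pi_iff.2 fun b => Finset.measurable_sum _ fun l _ =>
    measurable_const.mul (measurable_atl l (f := fun x : Orb n => x.2 b) (by fun_prop))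

lemma X0_frR (b : ℝ) {y : ℕ → ℝ} (hy : y 0 = 0) : (rLev ex n).X0 (frR b y) = oX ex b 0 y := by
  have hm := (lin_frR (n := 0) ex b y).1
  have h1 : (rLev ex n).X0 (fun ω => frR b y
      (cmap (fun _ (z : Orb n) => ((z.1, z.2 ∘ Fin.elim0) : Orb 0)) ω)) = (rLev ex 0).X0 (frR b y) :=
    Lev.X0_cmap (L := rLev ex n) (L' := rLev ex 0) rfl
      (fun e _ => (MeasurePreserving.id (unif (Bool × Bool))).prod
        (gam_comp (j := (Fin.elim0 : Fin 0 → Fin n)) fun a => a.elim0)) hm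
  have h2 : (oLev ex).X0 (fun ω => frR b y
      (cmap (fun _ (z : Oo) => ((z.1, z.2 ∘ Fin.elim0) : Orb 0)) ω)) = (rLev ex 0).X0 (frR b y) :=
    Lev.X0_cmap (L := oLev ex) (L' := rLev ex 0) rfl
      (fun e _ => (MeasurePreserving.id (unif (Bool × Bool))).prod
        (gam_comp (j := (Fin.elim0 : Fin 0 → Unit)) fun a => a.elim0)) hm
  refine (h1.trans h2.symm).trans ?_
  rw [oX]
  congr 1
  funext ω
  rw [One, oF, ON.sum_range_succ_eq _ k (by simp [hy])]
  simp only [Pi.zero_apply, zero_mul, zero_add]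
  rfl

lemma CA.abs_Sg_le {k N : ℕ} (r : Fin N) (ω : Cfg (k + 2) (Om N)) : |Sg r ω| ≤ 1 :=
  (ON.abs_sg _).le

lemma CA.measurable_kE (y₀ : ℝ) (y : ℕ → ℝ) : Measurable fun ω : Cfg (k + 2) (Oe (N + 1)) =>
    (y₀ + ∑ l ∈ Icc 1 k, y l * atl ω l fun z => sg z.1.2) * Sg 0 (cmap pE ω) :=
  (measurable_field (c := fun z : Oe (N + 1) => z.1.2) (by fun_prop) y₀ y _).mul
    ((measurable_Sg 0).comp (measurable_cmap measurable_pE))

lemma CA.abs_kE_le (y₀ : ℝ) (y : ℕ → ℝ) (ω : Cfg (k + 2) (Oe (N + 1))) :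
    |(y₀ + ∑ l ∈ Icc 1 k, y l * atl ω l fun z => sg z.1.2) * Sg 0 (cmap pE ω)| ≤
      |y₀| + ∑ l ∈ Icc 1 k, |y l| := by
  rw [abs_mul]
  exact (mul_le_of_le_one_right (abs_nonneg _) (abs_Sg_le _ _)).trans
    (abs_field_le (fun z : Oe (N + 1) => z.1.2) y₀ y _ ω)

lemma lin_He (h : Haar (N + 1)) (lam : Fin (N + 1) → ℝ) (x : ℕ → Fin (N + 1) → ℝ)
    (w : (Fin (N + 1) → Bool) → ℝ) (y₀ : ℝ) (y : ℕ → ℝ) : (eLev ex h).Lin (He lam x w y₀ y) :=
  (lin_pE ex h (lin_Hm ex h _ lam x w)).add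
    (Lev.lin_of_bdd (measurable_kE y₀ y) _ (abs_kE_le y₀ y))

lemma CA.X0_pE (h : Haar N) {H : Cfg (k + 2) (Om N) → ℝ} (hH : Measurable H) :
    (eLev ex h).X0 (fun ω => H (cmap pE ω)) = (mLev ex h (unif _)).X0 H :=
  Lev.X0_cmap (L := eLev ex h) (L' := mLev ex h (unif _)) rfl (fun e _ => mp_pE ex h e) hH

lemma CA.E0_pE (h : Haar N) {H f : Cfg (k + 2) (Om N) → ℝ} (hH : Measurable H) (hf : Measurable f) :
    (eLev ex h).E0 (fun ω => H (cmap pE ω)) (fun ω => f (cmap pE ω)) =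
      (mLev ex h (unif _)).E0 H f :=
  Lev.E0_cmap (L := eLev ex h) (L' := mLev ex h (unif _)) rfl (fun e _ => mp_pE ex h e) hH hf

lemma CA.E_pE (h : Haar N) {H f : Cfg (k + 2) (Om N) → ℝ} (hH : Measurable H) (hf : Measurable f)
    (l : ℕ) (ω : Cfg (k + 2) (Oe N)) :
    (eLev ex h).E l (fun ω => H (cmap pE ω)) (fun ω => f (cmap pE ω)) ω =
      (mLev ex h (unif _)).E l H f (cmap pE ω) :=
  Lev.E_cmap (L := eLev ex h) (L' := mLev ex h (unif _)) rfl (fun e _ _ => mp_pE ex h e) hH hf ω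

lemma X0_He_zero (h : Haar (N + 1)) (lam : Fin (N + 1) → ℝ) (x : ℕ → Fin (N + 1) → ℝ)
    (w : (Fin (N + 1) → Bool) → ℝ) :
    (eLev ex h).X0 (He lam x w 0 0) = (mLev ex h (unif _)).X0 (Hm lam x w) := by
  rw [← X0_pE ex h (lin_Hm ex h (unif _) lam x w).1]
  congr 1
  funext ω
  simp [He]

lemma X0_He_lin_exp (h : Haar (N + 1)) (lam : Fin (N + 1) → ℝ) (x : ℕ → Fin (N + 1) → ℝ)
    (w : (Fin (N + 1) → Bool) → ℝ) {y : ℝ} (hy : |y| ≤ 1) :
    |(eLev ex h).X0 (He lam x w y 0) - (mLev ex h (unif _)).X0 (Hm lam x w) -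
      y * (mLev ex h (unif _)).E0 (Hm lam x w) (Sg 0)| ≤ 100 * y ^ 2 := by
  have hH := lin_Hm ex h (unif _) lam x w
  have e : (He lam x w y 0 : Cfg (k + 2) (Oe (N + 1)) → ℝ) =
      fun ω => (fun ω => Hm lam x w ω + y * Sg 0 ω) (cmap pE ω) := by
    funext ω
    simp [He]
  rw [e, X0_pE ex h (H := fun ω => Hm lam x w ω + y * Sg 0 ω)
    (hH.1.add (measurable_const.mul (measurable_Sg 0)))]
  exact Lev.abs_X0_lin_le hH (measurable_Sg 0) (abs_Sg_le 0) hy

lemma CA.flip_pE (h : Haar N) (l : ℕ) : MeasurePreserving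
    (fun z : Oe N => ((z.1.1, !z.1.2), z.2)) ((eLev ex h).μ l) ((eLev ex h).μ l) :=
  ((MeasurePreserving.id ((h.lev l).prod (unif (Fin N → Bool)))).prod
    (unif_equiv (Function.Involutive.toPerm not Bool.not_not))).prod (MeasurePreserving.id _)

lemma X0_He_coin_exp (h : Haar (N + 1)) (lam : Fin (N + 1) → ℝ) (x : ℕ → Fin (N + 1) → ℝ)
    (w : (Fin (N + 1) → Bool) → ℝ) {l : ℕ} (hl : l ∈ Icc 1 k) {y : ℝ} (hy : |y| ≤ 1) :
    |(eLev ex h).X0 (He lam x w 0 (Pi.single l y)) - (mLev ex h (unif _)).X0 (Hm lam x w) -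
      y ^ 2 / 2 * (1 - tail ex k (qs (mLev ex h (unif _)) (Hm lam x w) 0) l)| ≤ 100 * |y| ^ 3 := by
  have hH := lin_Hm ex h (unif _) lam x w
  have hK : l < k + 2 := by have := (Finset.mem_Icc.1 hl).2; omega
  have e : (He lam x w 0 (Pi.single l y) : Cfg (k + 2) (Oe (N + 1)) → ℝ) = fun ω =>
      Hm lam x w (cmap pE ω) + y * ((atl ω l fun z => sg z.1.2) * Sg 0 (cmap pE ω)) := by
    funext ω
    simp only [He, Pi.single_apply, ite_mul, zero_mul, Finset.sum_ite_eq', hl, if_true, zero_add,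
      mul_assoc]
  have key := Lev.abs_X0_coin_le (L := eLev ex h) (lin_pE ex h hH)
    (ε := fun ω => Sg 0 (cmap pE ω)) (τ := fun ω => atl ω l fun z => sg z.1.2)
    ((measurable_Sg 0).comp (measurable_cmap measurable_pE))
    (measurable_atl l (ON.measurable_sg.comp (by fun_prop))) (fun ω => Sg_sq _ _)
    (fun ω => by rw [← sq_abs, atl, dif_pos hK, ON.abs_sg, one_pow]) hK (dep_atl l _)
    (flip_pE ex h l) (fun ω z => by rw [cmap_upd, cmap_upd]; rfl)
    (fun ω z => by rw [cmap_upd, cmap_upd]; rfl)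
    (fun ω z => by
      rw [ON.atl_upd_self _ hK, ON.atl_upd_self _ hK]
      cases z.1.2 <;> simp [sg]) hy
  have e2 : ∑ e ∈ Ico l (k + 2 - 1), (eLev ex h).Δ e * (eLev ex h).E0
      (fun ω => Hm lam x w (cmap pE ω)) (fun ω => (eLev ex h).E (e + 1)
        (fun ω => Hm lam x w (cmap pE ω)) (fun ω => Sg 0 (cmap pE ω)) ω ^ 2) =
      tail ex k (qs (mLev ex h (unif _)) (Hm lam x w) 0) l := by
    refine Finset.sum_congr rfl fun e _ => ?_
    congr 1
    simp only [E_pE ex h hH.1 (measurable_Sg 0)]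
    exact E0_pE ex h hH.1 ((Lev.measurable_E hH.1 (measurable_Sg 0) (e + 1)).pow_const 2)
  rw [e2, X0_pE ex h hH.1] at key
  rw [e]
  exact key

lemma E0_He_le (h : Haar (N + 1)) (lam : Fin (N + 1) → ℝ) (x : ℕ → Fin (N + 1) → ℝ)
    (w : (Fin (N + 1) → Bool) → ℝ) {y₀ : ℝ} {y : ℕ → ℝ} (hy : |y₀| + ∑ l ∈ Icc 1 k, |y l| ≤ 1)
    {f : Cfg (k + 2) (Om (N + 1)) → ℝ} (hf : (mLev ex h (unif _)).Nice f) (hf0 : ∀ ω, 0 ≤ f ω) :
    (eLev ex h).E0 (He lam x w y₀ y) (fun ω => f (cmap pE ω)) ≤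
      exp 2 * (mLev ex h (unif _)).E0 (Hm lam x w) f := by
  have hH := lin_Hm ex h (unif _) lam x w
  have key := Lev.E_add_le_of_bdd (lin_pE ex h hH) (measurable_kE y₀ y) (a := -1) (b := 1)
    (fun ω => abs_le.1 ((abs_kE_le y₀ y ω).trans hy)) (nice_pE ex h hf) (fun ω => hf0 _) 0
    (eLev ex h).pt
  rw [← E0_pE ex h hH.1 hf.1, show (2 : ℝ) = 1 - -1 by norm_num]
  exact key

end Crest.Agent.R164
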