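import Crest.Agent.R164.CavA

/-! # Row 164: the cavity decomposition -/

set_option autoImplicit false

namespace Crest.Agent.R164

open MeasureTheory ProbabilityTheory Real Finset Crest.ProbabilityR.InvariantGlass

variable {n N k : ℕ} (ex : Expo (k + 2))

lemma sum_uv_sq (a₀ : Fin (n + 1)) (v : Fin (n + 1) → ℝ) (ε : Bool) (z : Fin n → ℝ) :
    ∑ a, uv a₀ v ε z a ^ 2 = 1 + ∑ b, z b ^ 2 := by
  simp only [pow_two, uv, Bv]
  rw [dot_mulVec_of_mem (hh_mem _), Fin.sum_univ_succAbove _ a₀]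
  simp only [Fin.insertNth_apply_same, Fin.insertNth_apply_succAbove]
  congr 1
  cases ε <;> simp [sg]

lemma continuous_uv (a₀ : Fin (n + 1)) (v : Fin (n + 1) → ℝ) (ε : Bool) : Continuous (uv a₀ v ε) := by
  unfold uv
  refine continuous_const.matrix_mulVec ?_
  exact Continuous.finInsertNth (A := fun _ => ℝ) a₀ continuous_const continuous_id

lemma continuous_lV (lam : Fin (n + 1) → ℝ) (a₀ : Fin (n + 1)) (v : Fin (n + 1) → ℝ) (ε : Bool) :
    Continuous (lV lam a₀ v ε) := by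
  have h := continuous_uv a₀ v ε
  unfold lV
  fun_prop

lemma cb_abs_sg (b : Bool) : |sg b| ≤ 1 := by cases b <;> simp [sg]

lemma cb_measurable_pB (e : ℕ) : Measurable (pB e : Oc N n → Om N) := by
  unfold pB
  fun_prop

lemma cb_spinVec_cons (ε : Bool) (σ : Fin N → Bool) :
    spinVec (Fin.cons ε σ : Fin (N + 1) → Bool) = Fin.cons (sg ε) (spinVec σ) := by
  funext i
  refine Fin.cases ?_ (fun j => ?_) i <;> simp [spinVec, sg]

lemma cb_spn_pS (A : O (N + 1)) (ω : Cfg (k + 2) (Oc N n)) :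
    spn (cmap pE (cmap (pS A) ω)) = Fin.cons (rS (cmap pR ω)) (spn (cmap pB ω)) := rfl

lemma cb_rot_pS (A : O (N + 1)) (ω : Cfg (k + 2) (Oc N n)) :
    (cmap pE (cmap (pS A) ω) 0).1.1 = A * extO (cmap pB ω 0).1.1 := rfl

lemma cb_Y_pS (A : O (N + 1)) (ω : Cfg (k + 2) (Oc N n)) (i : Fin (N + 1)) :
    Y i (cmap pE (cmap (pS A) ω)) =
      A.1.mulVec (Fin.cons (sg (rS (cmap pR ω))) fun j => Y j (cmap pB ω)) i := by
  unfold Y
  rw [cb_spn_pS, cb_rot_pS, yv_mul, yv, cb_spinVec_cons, extO_mulVec]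
  rfl

lemma cb_gl_pS_zero (A : O (N + 1)) (ω : Cfg (k + 2) (Oc N n)) (l : ℕ) :
    gl l 0 (cmap pE (cmap (pS A) ω)) = gl l (.inr (.inr ()) : Ic N n) ω := rfl

lemma cb_gl_pS_succ (A : O (N + 1)) (ω : Cfg (k + 2) (Oc N n)) (l : ℕ) (i : Fin N) :
    gl l i.succ (cmap pE (cmap (pS A) ω)) = gl l (.inl i : Ic N n) ω := rfl

lemma cb_gl_pB (ω : Cfg (k + 2) (Oc N n)) (l : ℕ) (i : Fin N) :
    gl l i (cmap pB ω) = gl l (.inl i : Ic N n) ω := rfl


namespace Cav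

variable (c : Cav n N) (h : Haar N)

lemma sp_idx (a : Fin (n + 1)) : c.sp (c.idx a) = a := c.hidx a
lemma sp'_idx' (a : Fin (n + 1)) : c.sp' (c.idx' a) = a := by
  unfold idx'
  split_ifs with ha
  · exact ha.symm
  · exact c.hidx a

lemma cb_idx'_inj : Function.Injective c.idx' := fun a b hab => by
  rw [← c.sp'_idx' a, hab, c.sp'_idx']

lemma cb_idx'_a₀ : c.idx' c.a₀ = 0 := by simp [idx']

lemma cb_idx'_succAbove (b : Fin n) : c.idx' (c.a₀.succAbove b) = (c.idx (c.a₀.succAbove b)).succ := by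
  simp [idx', Fin.succAbove_ne]

open Classical in
lemma cb_sum_base (G : Fin N → ℝ) : ∑ i, G i = ∑ b : Fin n, G (c.idx (c.a₀.succAbove b)) +
    ∑ i, if ∃ b : Fin n, i = c.idx (c.a₀.succAbove b) then 0 else G i := by
  have hj : Function.Injective fun b : Fin n => c.idx (c.a₀.succAbove b) := fun a b hab => by
    have := congrArg c.sp hab
    simp only [sp_idx] at this
    exact Fin.succAbove_right_injective this
  have h1 : ∑ b : Fin n, G (c.idx (c.a₀.succAbove b)) =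
      ∑ i, if ∃ b : Fin n, i = c.idx (c.a₀.succAbove b) then G i else 0 := by
    rw [← Finset.sum_filter, ← Finset.sum_image (s := univ) (f := G) fun a _ b _ hab => hj hab]
    refine Finset.sum_congr ?_ fun _ _ => rfl
    ext i
    simp [eq_comm]
  rw [h1, ← Finset.sum_add_distrib]
  refine Finset.sum_congr rfl fun i _ => ?_
  split_ifs <;> simp

open Classical in
lemma cb_sum_big (F : Fin (N + 1) → ℝ) : ∑ i, F i = ∑ a, F (c.idx' a) +
    ∑ i : Fin N, if ∃ b : Fin n, i = c.idx (c.a₀.succAbove b) then 0 else F i.succ := by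
  rw [Fin.sum_univ_succ, c.cb_sum_base fun i => F i.succ, Fin.sum_univ_succAbove _ c.a₀, cb_idx'_a₀]
  simp only [cb_idx'_succAbove]
  ring

/-- The column of the big Householder matrix. -/
noncomputable def cbVt (v : Fin (n + 1) → ℝ) : Fin (N + 1) → ℝ :=
  fun i => ∑ a, if i = c.idx' a then v a else 0

lemma cbVt_idx' (v : Fin (n + 1) → ℝ) (a : Fin (n + 1)) : c.cbVt v (c.idx' a) = v a := by
  simp [cbVt, c.cb_idx'_inj.eq_iff]

lemma cbVt_other (v : Fin (n + 1) → ℝ) {i : Fin N}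
    (hi : ¬∃ b : Fin n, i = c.idx (c.a₀.succAbove b)) : c.cbVt v i.succ = 0 := by
  refine Finset.sum_eq_zero fun a _ => if_neg fun h => ?_
  rcases eq_or_ne a c.a₀ with rfl | ha
  · rw [cb_idx'_a₀] at h; exact Fin.succ_ne_zero _ h
  · obtain ⟨b, rfl⟩ := Fin.exists_succAbove_eq ha
    rw [cb_idx'_succAbove] at h
    exact hi ⟨b, Fin.succ_injective _ h⟩

lemma cb_u_idx' (v : Fin (n + 1) → ℝ) (a : Fin (n + 1)) :
    (Pi.single 0 1 - c.cbVt v : Fin (N + 1) → ℝ) (c.idx' a) =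
      (Pi.single c.a₀ 1 - v : Fin (n + 1) → ℝ) a := by
  simp only [Pi.sub_apply, cbVt_idx', Pi.single_apply, ← c.cb_idx'_a₀, c.cb_idx'_inj.eq_iff]

lemma cb_u_other (v : Fin (n + 1) → ℝ) {i : Fin N}
    (hi : ¬∃ b : Fin n, i = c.idx (c.a₀.succAbove b)) :
    (Pi.single 0 1 - c.cbVt v : Fin (N + 1) → ℝ) i.succ = 0 := by
  simp [c.cbVt_other v hi]

lemma cb_sum_range {F : Fin (N + 1) → ℝ}
    (hF : ∀ i : Fin N, (¬∃ b : Fin n, i = c.idx (c.a₀.succAbove b)) → F i.succ = 0) :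
    ∑ i, F i = ∑ a, F (c.idx' a) := by
  rw [c.cb_sum_big F, Finset.sum_eq_zero (s := univ) (f := fun i : Fin N => _), add_zero]
  intro i _
  split_ifs with hi
  · rfl
  · exact hF i hi

lemma cb_AO (v : Fin (n + 1) → ℝ) : (c.AO v).1 = hh (Pi.single 0 1 - c.cbVt v) := rfl

lemma lin_Hx (h' : Haar (N + 1)) : (eLev ex h').Lin c.Hx := lin_He ex h' _ _ _ _ _
lemma lin_HS (v : Fin (n + 1) → ℝ) : (cLev ex h n).Lin (c.HS v) := by
  have h1 : ∀ e : ℕ, Measurable (pE e : Oe (N + 1) → Om (N + 1)) := fun e => by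
    unfold pE
    fun_prop
  have hS : Measurable (cmap (pS (c.AO v)) : Cfg (k + 2) (Oc N n) → Cfg (k + 2) (Oe (N + 1))) :=
    measurable_cmap (measurable_pS _)
  have hΦ : Measurable fun ω : Cfg (k + 2) (Oc N n) => cmap pE (cmap (pS (c.AO v)) ω) :=
    (measurable_cmap h1).comp hS
  have hY : ∀ i, (cLev ex h n).Lin fun ω => Y i (cmap pE (cmap (pS (c.AO v)) ω)) := fun i =>
    Lev.lin_of_bdd ((measurable_Y i).comp hΦ) _ fun ω => abs_Y_le i _
  have hg : ∀ l i, (cLev ex h n).Lin fun ω => gl l i (cmap pE (cmap (pS (c.AO v)) ω)) := by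
    intro l i
    refine Fin.cases ?_ (fun j => ?_) i
    · exact lin_gl l (.inr (.inr ()) : Ic N n)
    · exact lin_gl l (.inl j : Ic N n)
  have ha : ∀ l, (cLev ex h n).Lin fun ω => atl (cmap (pS (c.AO v)) ω) l fun z => sg z.1.2 := by
    intro l
    refine Lev.lin_of_bdd ((measurable_atl l ((measurable_of_countable sg).comp
      (measurable_snd.comp measurable_fst))).comp hS) 1 fun ω => ?_
    unfold atl
    split_ifs
    · exact cb_abs_sg _
    · simp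
  unfold HS Hx He Hm
  refine Lev.Lin.add (Lev.Lin.add (Lev.Lin.add (Lev.Lin.sum _ fun i _ => ?_)
    (Lev.Lin.sum _ fun l _ => Lev.Lin.sum _ fun i _ => ?_)) ?_) ?_
  · have := ((hY i).mul_bdd (hY i).1 _ fun ω => abs_Y_le i _).const_mul (c.lam' (c.sp' i) / 2)
    convert this using 2
    ring
  · exact ((hg l i).const_mul _).mul_bdd (hY i).1 _ fun ω => abs_Y_le i _
  · exact Lev.lin_of_bdd ((measurable_of_countable c.w').comp (measurable_spn.comp hΦ))
      (∑ σ, |c.w' σ|) fun ω => Finset.single_le_sum (f := fun σ => |c.w' σ|)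
        (fun _ _ => abs_nonneg _) (Finset.mem_univ _)
  · exact ((Lev.lin_const _).add (Lev.Lin.sum _ fun l _ => (ha l).const_mul _)).mul_bdd
      ((measurable_Sg 0).comp hΦ) 1 fun ω => cb_abs_sg _
lemma lin_H0 : (cLev ex h n).Lin c.H0 :=
  (lin_pB ex h (lin_Hm ex h _ _ _ _)).add (lin_pR ex h (lin_frR ex _ _))
lemma measurable_zc : Measurable (c.zc : Cfg (k + 2) (Oc N n) → Fin n → ℝ) :=
  measurable_pi_iff.2 fun _ => (measurable_Y _).comp (measurable_cmap cb_measurable_pB)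
lemma measurable_zg : Measurable (c.zg : Cfg (k + 2) (Oc N n) → Fin n → ℝ) := by
  refine measurable_pi_iff.2 fun b => Measurable.div_const (Finset.measurable_sum _ fun i _ => ?_) _
  refine Measurable.mul ?_ ((measurable_Y _).comp (measurable_cmap cb_measurable_pB))
  exact measurable_atl 0 ((measurable_pi_apply _).comp measurable_snd)
lemma measurable_fS (v : Fin (n + 1) → ℝ) : Measurable (c.fS v : Cfg (k + 2) (Oc N n) → ℝ) := by
  have h1 : ∀ e : ℕ, Measurable (pE e : Oe (N + 1) → Om (N + 1)) := fun e => by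
    unfold pE
    fun_prop
  exact (measurable_fr _ _).comp ((measurable_cmap h1).comp (measurable_cmap (measurable_pS _)))
lemma measurable_vbar : Measurable c.vbar :=
  measurable_pi_iff.2 fun _ =>
    (Finset.measurable_sum _ fun i _ => (measurable_O_entry i 0).pow_const 2).sqrt
lemma sum_vbar_sq (U : O (N + 1)) : ∑ a, c.vbar U a ^ 2 = 1 := by
  have h1 : ∀ a, c.vbar U a ^ 2 = ∑ i ∈ blk c.sp' a, U.1 i 0 ^ 2 := fun a =>
    Real.sq_sqrt (Finset.sum_nonneg fun _ _ => sq_nonneg _)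
  simp only [h1]
  rw [sum_blk]
  have h2 := congrFun (congrFun ((Matrix.mem_orthogonalGroup_iff' _ ℝ).1 U.2) 0) 0
  simpa [Matrix.mul_apply, pow_two] using h2
lemma E_H0 {f : Cfg (k + 2) (Om N) → ℝ} (hf : (mLev ex h (unif _)).Nice f) (l : ℕ)
    (ω : Cfg (k + 2) (Oc N n)) : (cLev ex h n).E l c.H0 (fun ω => f (cmap pB ω)) ω =
      (mLev ex h (unif _)).E l c.Hb f (cmap pB ω) :=
  Lev.E_prod_left (L := cLev ex h n) (L₁ := mLev ex h (unif _)) (L₂ := rLev ex n) rfl rfl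
    (fun e _ => mp_pB_pR ex h e) (lin_Hm ex h _ _ _ _) (lin_frR ex _ _) hf l ω
lemma cb_X0_prod {f : Cfg (k + 2) (Orb n) → ℝ} (hf : (rLev ex n).Lin f) :
    (cLev ex h n).X0 (fun ω => c.Hb (cmap pB ω) + f (cmap pR ω)) =
      (mLev ex h (unif _)).X0 c.Hb + (rLev ex n).X0 f := by
  have := (Lev.X_prod (L := cLev ex h n) (L₁ := mLev ex h (unif _)) (L₂ := rLev ex n) rfl rfl
    (fun e _ => mp_pB_pR ex h e) (H₁ := c.Hb) (lin_Hm ex h _ _ _ _).int hf.int).2 0 (cLev ex h n).pt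
  rw [Lev.X_zero, Lev.X_zero, Lev.X_zero] at this
  exact this
lemma X0_H0 (hy : c.y 0 = 0) :
    (cLev ex h n).X0 c.H0 = (mLev ex h (unif _)).X0 c.Hb + oX ex (c.b + c.y₀) 0 c.y := by
  rw [← X0_frR (n := n) ex _ hy]
  exact c.cb_X0_prod ex h (lin_frR ex _ _)
lemma X0_H0_add {f : Cfg (k + 2) (Orb n) → ℝ} (hf : (rLev ex n).Lin f) :
    (cLev ex h n).X0 (fun ω => c.H0 ω + f (cmap pR ω)) = (mLev ex h (unif _)).X0 c.Hb +
      (rLev ex n).X0 fun ω => frR (c.b + c.y₀) c.y ω + f ω := by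
  rw [← c.cb_X0_prod ex h ((lin_frR ex _ _).add hf)]
  congr 1
  funext ω
  unfold H0
  ring
lemma cb_E0_H0 {f : Cfg (k + 2) (Om N) → ℝ} (hf : (mLev ex h (unif _)).Nice f) :
    (cLev ex h n).E0 c.H0 (fun ω => f (cmap pB ω)) = (mLev ex h (unif _)).E0 c.Hb f := by
  have := c.E_H0 ex h hf 0 (cLev ex h n).pt
  rw [Lev.E_zero, Lev.E_zero] at this
  exact this
lemma cb_qq_H0 (I : Finset (Fin N)) (e : ℕ) :
    (cLev ex h n).qq c.H0 I (fun i ω => Y i (cmap pB ω)) e = (mLev ex h (unif _)).qq c.Hb I Y e := by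
  unfold Lev.qq
  congr 1
  simp only [fun i => c.E_H0 ex h (nice_Y ex h _ i)]
  exact c.cb_E0_H0 ex h (f := fun ω => ∑ i ∈ I, (mLev ex h (unif _)).E (e + 1) c.Hb (Y i) ω ^ 2)
    (Lev.Nice.sum _ fun i _ => (Lev.Nice.E (lin_Hm ex h _ _ _ _) (nice_Y ex h _ i) _).pow 2)
lemma cb_VV_H0 (I : Finset (Fin N)) (e : ℕ) (t : ℝ) :
    (cLev ex h n).VV c.H0 I (fun i ω => Y i (cmap pB ω)) e t =
      (mLev ex h (unif _)).VV c.Hb I Y e t := by
  unfold Lev.VV
  rw [cb_qq_H0]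
  congr 3
  have h1 := fun i j => c.E_H0 ex h (f := fun ω' => Y i ω' * Y j ω')
    ((nice_Y ex h _ i).mul (nice_Y ex h _ j)) (e + 1)
  simp only [h1]
  exact c.cb_E0_H0 ex h (f := fun ω => ∑ i ∈ I, ∑ j ∈ I, Y i ω * Y j ω *
      (mLev ex h (unif _)).E (e + 1) c.Hb (fun ω' => Y i ω' * Y j ω') ω)
    (Lev.Nice.sum _ fun i _ => Lev.Nice.sum _ fun j _ =>
      ((nice_Y ex h _ i).mul (nice_Y ex h _ j)).mul
        (Lev.Nice.E (lin_Hm ex h _ _ _ _) ((nice_Y ex h _ i).mul (nice_Y ex h _ j)) _))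
lemma pin_H0 (lam : Fin (n + 1) → ℝ) (s : ℕ → ℝ) :
    Pin (cLev ex h n) k c.H0 c.sp (fun i ω => Y i (cmap pB ω)) lam s =
      Pin (mLev ex h (unif _)) k c.Hb c.sp Y lam s := by
  unfold Pin
  refine Finset.sum_congr rfl fun a _ => ?_
  simp only [cb_VV_H0]
  congr 2
  exact c.cb_E0_H0 ex h (f := fun ω => (Lev.rr (blk c.sp a) Y ω - qh lam ex s a (k + 1)) ^ 2)
    (((Lev.Nice.div_const _ (Lev.Nice.sum _ fun i _ => (nice_Y ex h _ i).pow 2)).sub
      (Lev.nice_const _)).pow 2)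

lemma cb_cons_idx' (ω : Cfg (k + 2) (Oc N n)) (a : Fin (n + 1)) :
    (Fin.cons (sg (rS (cmap pR ω))) fun j => Y j (cmap pB ω) : Fin (N + 1) → ℝ) (c.idx' a) =
      (Fin.insertNth c.a₀ (sg (rS (cmap pR ω))) (c.zc ω) : Fin (n + 1) → ℝ) a := by
  rcases eq_or_ne a c.a₀ with rfl | ha
  · rw [cb_idx'_a₀, Fin.cons_zero, Fin.insertNth_apply_same]
  · obtain ⟨b, rfl⟩ := Fin.exists_succAbove_eq ha
    rw [cb_idx'_succAbove, Fin.cons_succ, Fin.insertNth_apply_succAbove]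
    rfl

/-- Rotated coordinates of the embedded configuration. -/
lemma Y_pS_idx' (v : Fin (n + 1) → ℝ) (ω : Cfg (k + 2) (Oc N n)) (a : Fin (n + 1)) :
    Y (c.idx' a) (cmap pE (cmap (pS (c.AO v)) ω)) = uv c.a₀ v (rS (cmap pR ω)) (c.zc ω) a := by
  have e : ∀ (u x : Fin (N + 1) → ℝ), u = Pi.single 0 1 - c.cbVt v →
      (hh u).mulVec x (c.idx' a) = x (c.idx' a) - 2 / (∑ j, u (c.idx' j) ^ 2) *
        (∑ j, u (c.idx' j) * x (c.idx' j)) * u (c.idx' a) := by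
    intro u x hu
    have h0 : ∀ i : Fin N, (¬∃ b : Fin n, i = c.idx (c.a₀.succAbove b)) → u i.succ = 0 :=
      fun i hi => by rw [hu]; exact c.cb_u_other v hi
    rw [hh_mulVec, c.cb_sum_range (F := fun j => u j ^ 2) (fun i hi => by simp [h0 i hi]),
      c.cb_sum_range (F := fun j => u j * x j) (fun i hi => by simp [h0 i hi])]
  rw [cb_Y_pS, cb_AO, e _ _ rfl, uv, Bv, hh_mulVec]
  simp only [cb_u_idx', cb_cons_idx']
lemma Y_pS_other (v : Fin (n + 1) → ℝ) (ω : Cfg (k + 2) (Oc N n)) {i : Fin N}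
    (hi : ¬∃ b : Fin n, i = c.idx (c.a₀.succAbove b)) :
    Y i.succ (cmap pE (cmap (pS (c.AO v)) ω)) = Y i (cmap pB ω) := by
  rw [cb_Y_pS, cb_AO, hh_mulVec, c.cb_u_other v hi]
  simp

lemma Hb_eq (ω : Cfg (k + 2) (Oc N n)) : c.Hb (cmap pB ω) = c.Hb0 (cmap pB ω) +
    ∑ l ∈ Icc 1 k, ∑ b : Fin n, c.x l (c.a₀.succAbove b) *
      gl l (.inl (c.idx (c.a₀.succAbove b)) : Ic N n) ω * c.zc ω b := by
  unfold Hb Hb0 Hm
  have h1 : ∀ l, ∑ i, c.x l (c.sp i) * gl l i (cmap pB ω) * Y i (cmap pB ω) =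
      ∑ i, (if ∃ b : Fin n, i = c.idx (c.a₀.succAbove b) then 0 else c.x l (c.sp i)) *
        gl l i (cmap pB ω) * Y i (cmap pB ω) + ∑ b : Fin n, c.x l (c.a₀.succAbove b) *
      gl l (.inl (c.idx (c.a₀.succAbove b)) : Ic N n) ω * c.zc ω b := by
    intro l
    rw [c.cb_sum_base, add_comm]
    congr 1
    · refine Finset.sum_congr rfl fun i _ => ?_
      split_ifs <;> simp
    · simp only [sp_idx]
      rfl
  simp only [h1, Finset.sum_add_distrib]
  ring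

/-- The cavity decomposition of the big Hamiltonian. -/
theorem HS_eq (v : Fin (n + 1) → ℝ) (ω : Cfg (k + 2) (Oc N n)) :
    c.HS v ω = c.Hb0 (cmap pB ω) + frR (c.b + c.y₀) c.y (cmap pR ω) + c.c₀ +
      c.kT (rS (cmap pR ω)) (spn (cmap pB ω)) + lV c.lam' c.a₀ v (rS (cmap pR ω)) (c.zc ω) +
      c.loc v ω := by
  have h1 : ∑ i, c.lam' (c.sp' i) * Y i (cmap pE (cmap (pS (c.AO v)) ω)) ^ 2 / 2 =
      ∑ i, c.lam' (c.sp i) * Y i (cmap pB ω) ^ 2 / 2 +
        lV c.lam' c.a₀ v (rS (cmap pR ω)) (c.zc ω) := by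
    rw [c.cb_sum_big, c.cb_sum_base fun i => c.lam' (c.sp i) * Y i (cmap pB ω) ^ 2 / 2]
    simp only [sp'_idx', Y_pS_idx', sp_idx, lV]
    have : ∀ i : Fin N, (if ∃ b : Fin n, i = c.idx (c.a₀.succAbove b) then 0 else
        c.lam' (c.sp' i.succ) * Y i.succ (cmap pE (cmap (pS (c.AO v)) ω)) ^ 2 / 2) =
        if ∃ b : Fin n, i = c.idx (c.a₀.succAbove b) then 0 else
          c.lam' (c.sp i) * Y i (cmap pB ω) ^ 2 / 2 := by
      intro i
      split_ifs with hi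
      · rfl
      · rw [c.Y_pS_other v ω hi]; rfl
    simp only [this]
    unfold zc
    ring
  have h2 : ∀ l, ∑ i, c.x l (c.sp' i) * gl l i (cmap pE (cmap (pS (c.AO v)) ω)) *
      Y i (cmap pE (cmap (pS (c.AO v)) ω)) =
      ∑ i, (if ∃ b : Fin n, i = c.idx (c.a₀.succAbove b) then 0 else c.x l (c.sp i)) *
        gl l i (cmap pB ω) * Y i (cmap pB ω) + ∑ a, c.x l a *
        gl l (if a = c.a₀ then (.inr (.inr ()) : Ic N n) else .inl (c.idx a)) ω *
          uv c.a₀ v (rS (cmap pR ω)) (c.zc ω) a := by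
    intro l
    rw [c.cb_sum_big, add_comm]
    congr 1
    · refine Finset.sum_congr rfl fun i _ => ?_
      split_ifs with hi
      · simp
      · rw [c.Y_pS_other v ω hi]; rfl
    · refine Finset.sum_congr rfl fun a _ => ?_
      rw [sp'_idx', Y_pS_idx']
      congr 2
      unfold idx'
      split_ifs <;> rfl
  have h3 : ∀ l, (atl (cmap (pS (c.AO v)) ω) l fun z => sg z.1.2) =
      atl (cmap pR ω) l fun z => sg z.1.2 := fun l => rfl
  have h4 : Sg 0 (cmap pE (cmap (pS (c.AO v)) ω)) = sg (rS (cmap pR ω)) := rfl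
  unfold HS Hx He Hb0 Hm frR kT loc
  simp only [h1, h2, h3, h4, cb_spn_pS, Finset.sum_add_distrib]
  ring

theorem fS_eq {v : Fin (n + 1) → ℝ} (hv : ∑ a, v a ^ 2 = 1) (ω : Cfg (k + 2) (Oc N n)) :
    c.fS v ω = ∑ a, v a ^ 2 * uv c.a₀ v (rS (cmap pR ω)) (c.zc ω) a ^ 2 := by
  have h1 : (hh (Pi.single 0 1 - c.cbVt v)).mulVec (Pi.single 0 1) = c.cbVt v := by
    refine hh_swap ?_
    rw [c.cb_sum_range (F := fun i => c.cbVt v i ^ 2) fun i hi => by rw [c.cbVt_other v hi]; simp]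
    simp only [cbVt_idx', hv]
    rw [Fin.sum_univ_succ]
    simp
  have h2 : ∀ (W : O N) i, (c.AO v * extO W).1 i 0 = c.cbVt v i := by
    intro W i
    rw [← h1, ← cb_AO, Matrix.mulVec_single]
    change ((c.AO v).1 * extM W.1) i 0 = _
    rw [Matrix.mul_apply, Fin.sum_univ_succ]
    simp [extM]
  unfold fS fr
  refine Finset.sum_congr rfl fun a _ => ?_
  rw [← mul_pow]
  congr 1
  simp only [cb_rot_pS, h2, blk, Finset.sum_filter]
  rw [c.cb_sum_range fun i hi => by rw [c.cbVt_other v hi]; simp]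
  simp only [sp'_idx', cbVt_idx', Y_pS_idx']
  simp

end Cav

end Crest.Agent.R164
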