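import Crest.Agent.R164.CavPsi

/-! # Row 164: auxiliary lemmas for `CavChain` -/

set_option autoImplicit false

namespace Crest.Agent.R164

open MeasureTheory ProbabilityTheory Real Finset Crest.ProbabilityR.InvariantGlass

namespace CC

variable {n N k : ℕ}

lemma meas_bool {α : Type} [MeasurableSpace α] {f : Bool → (Fin n → ℝ) → ℝ}
    (hf : ∀ e, Continuous (f e)) {e : α → Bool} {z : α → Fin n → ℝ} (he : Measurable e)
    (hz : Measurable z) : Measurable fun ω => f (e ω) (z ω) := by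
  have : (fun ω => f (e ω) (z ω)) = fun ω => if e ω = true then f true (z ω) else f false (z ω) := by
    funext ω
    cases e ω <;> simp
  rw [this]
  exact Measurable.ite (he (measurableSet_singleton true)) ((hf true).measurable.comp hz)
    ((hf false).measurable.comp hz)

lemma meas_pB : Measurable (cmap pB : Cfg (k + 2) (Oc N n) → Cfg (k + 2) (Om N)) :=
  measurable_cmap fun _ => by unfold pB; fun_prop

lemma meas_pR : Measurable (cmap pR : Cfg (k + 2) (Oc N n) → Cfg (k + 2) (Orb n)) :=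
  measurable_cmap fun _ => by unfold pR; fun_prop

lemma meas_e : Measurable fun ω : Cfg (k + 2) (Oc N n) => rS (cmap pR ω) :=
  measurable_rS.comp meas_pR

lemma meas_s : Measurable fun ω : Cfg (k + 2) (Oc N n) => spn (cmap pB ω) :=
  measurable_spn.comp meas_pB

lemma abs_uv_le (a₀ : Fin (n + 1)) (v : Fin (n + 1) → ℝ) (e : Bool) {z : Fin n → ℝ} {M : ℝ}
    (hz : ∀ b, |z b| ≤ M) (a : Fin (n + 1)) : |uv a₀ v e z a| ≤ 1 + n * M ^ 2 := by
  have h1 : uv a₀ v e z a ^ 2 ≤ 1 + ∑ b, z b ^ 2 := by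
    rw [← sum_uv_sq a₀ v e z]
    exact single_le_sum (f := fun a => uv a₀ v e z a ^ 2) (fun _ _ => sq_nonneg _) (mem_univ a)
  have h2 : ∑ b, z b ^ 2 ≤ n * M ^ 2 := by
    calc ∑ b, z b ^ 2 ≤ ∑ _b : Fin n, M ^ 2 := sum_le_sum fun b _ => by
          rw [← sq_abs]; exact pow_le_pow_left₀ (abs_nonneg _) (hz b) 2
      _ = n * M ^ 2 := by simp
  have h3 : (0 : ℝ) ≤ n * M ^ 2 := by positivity
  exact abs_le_of_sq_le_sq (by nlinarith) (by linarith)

lemma log_lip {δ χ : ℝ} (hδ : 0 < δ) (hχ : 0 ≤ χ) (a b : ℝ) :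
    |log (δ + χ * exp a) - log (δ + χ * exp b)| ≤ |a - b| := by
  have key : ∀ a b : ℝ, log (δ + χ * exp a) - log (δ + χ * exp b) ≤ |a - b| := by
    intro a b
    have h1 : δ + χ * exp a ≤ exp |a - b| * (δ + χ * exp b) := by
      have e1 : 1 ≤ exp |a - b| := one_le_exp (abs_nonneg _)
      have e2 : exp a ≤ exp |a - b| * exp b := by
        rw [← exp_add]; exact exp_le_exp.2 (by linarith [le_abs_self (a - b)])
      nlinarith [mul_le_mul_of_nonneg_left e2 hχ]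
    have h2 := log_le_log (by positivity) h1
    rw [log_mul (exp_pos _).ne' (by positivity), log_exp] at h2
    linarith
  refine abs_le.2 ⟨?_, key a b⟩
  have := key b a
  rw [abs_sub_comm] at this
  linarith

variable (c : Cav n N)

/-- The Gaussian coordinate attached to the species `a`. -/
def co (a : Fin (n + 1)) : Ic N n := if a = c.a₀ then .inr (.inr ()) else .inl (c.idx a)

lemma co_inj : Function.Injective (co c) := by
  intro a a' h
  unfold co at h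
  split_ifs at h with h1 h2 h2
  · rw [h1, h2]
  · have := congrArg c.sp (Sum.inl.inj h)
    rwa [c.sp_idx, c.sp_idx] at this

/-- Invariance under the shifts of the designated Gaussian coordinates. -/
def Inv {α : Type} (f : Cfg (k + 2) (Oc N n) → α) : Prop :=
  ∀ l a θ ω, f (shift l (co c a) θ ω) = f ω

lemma inv_e : Inv c fun ω : Cfg (k + 2) (Oc N n) => rS (cmap pR ω) := by
  intro l a θ ω
  simp only [rS, cmap, pR, shift_fst]

lemma inv_s : Inv c fun ω : Cfg (k + 2) (Oc N n) => spn (cmap pB ω) := by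
  intro l a θ ω
  simp only [spn, cmap, pB, shift_fst]

lemma inv_Y (i : Fin N) : Inv c fun ω : Cfg (k + 2) (Oc N n) => Y i (cmap pB ω) := by
  intro l a θ ω
  simp only [Y, spn, cmap, pB, shift_fst]

lemma inv_zc : Inv c (c.zc : Cfg (k + 2) (Oc N n) → Fin n → ℝ) := by
  intro l a θ ω
  funext b
  exact inv_Y c _ l a θ ω

lemma gl_pB (l : ℕ) (i : Fin N) (ω : Cfg (k + 2) (Oc N n)) :
    gl l i (cmap pB ω) = gl l (.inl i : Ic N n) ω := rfl

/-- Base system without the designated fields, plus the free spin. -/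
noncomputable def G0 (ω : Cfg (k + 2) (Oc N n)) : ℝ :=
  c.Hb0 (cmap pB ω) + frR (c.b + c.y₀) c.y (cmap pR ω)

lemma inv_G0 : Inv c (G0 c : Cfg (k + 2) (Oc N n) → ℝ) := by
  intro l a θ ω
  unfold G0
  congr 1
  · unfold Cav.Hb0 Hm
    have hY : ∀ i, Y i (cmap pB (shift l (co c a) θ ω)) = Y i (cmap pB ω) :=
      fun i => inv_Y c i l a θ ω
    have hs : spn (cmap pB (shift l (co c a) θ ω)) = spn (cmap pB ω) := inv_s c l a θ ω
    simp only [hY, hs, gl_pB, gl_shift]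
    congr 2
    refine sum_congr rfl fun l' _ => sum_congr rfl fun i _ => ?_
    by_cases hi : ∃ b : Fin n, i = c.idx (c.a₀.succAbove b)
    · simp [hi]
    · have : ¬(l' = l ∧ (Sum.inl i : Ic N n) = co c a ∧ l < k + 2) := by
        rintro ⟨-, h, -⟩
        unfold co at h
        split_ifs at h with ha
        obtain ⟨b, rfl⟩ := Fin.exists_succAbove_eq ha
        exact hi ⟨b, Sum.inl.inj h⟩
      simp [this]
  · simp only [frR, rS, atl, cmap, pR, shift_fst]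

variable (ex : Expo (k + 2)) (h : Haar N)

lemma lin_G0 : (cLev ex h n).Lin (G0 c) :=
  (lin_pB ex h (lin_Hm ex h _ _ _ _)).add (lin_pR ex h (lin_frR ex _ _))

/-- Designated fields acting on the vector `u`. -/
noncomputable def fld (u : Fin (n + 1) → Cfg (k + 2) (Oc N n) → ℝ) (ω : Cfg (k + 2) (Oc N n)) : ℝ :=
  ∑ l ∈ Icc 1 k, ∑ a, c.x l a * gl l (co c a) ω * u a ω

/-- Absolute values of the designated fields. -/
noncomputable def afld (ω : Cfg (k + 2) (Oc N n)) : ℝ :=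
  ∑ l ∈ Icc 1 k, ∑ a, c.x l a * |gl l (co c a) ω|

lemma lin_fld {u : Fin (n + 1) → Cfg (k + 2) (Oc N n) → ℝ} (hu : ∀ a, Measurable (u a)) {M : ℝ}
    (hM : ∀ a ω, |u a ω| ≤ M) : (cLev ex h n).Lin (fld c u) :=
  Lev.Lin.sum _ fun l _ => Lev.Lin.sum _ fun a _ =>
    ((lin_gl l (co c a)).const_mul (c.x l a)).mul_bdd (hu a) M (hM a)

lemma lin_afld : (cLev ex h n).Lin (afld c) :=
  Lev.Lin.sum _ fun l _ => Lev.Lin.sum _ fun a _ => (lin_gl l (co c a)).abs.const_mul (c.x l a)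

variable {c} {lam : Fin (n + 1) → ℝ} {B σ₀ : ℝ}

lemma x_nonneg (hc : c.Ok k lam B σ₀) {l : ℕ} (hl : l ∈ Icc 1 k) (a : Fin (n + 1)) : 0 ≤ c.x l a :=
  (hc.xmono l hl).1.trans ((hc.xmono l hl).2 (Fin.zero_le a))

lemma x_le (hc : c.Ok k lam B σ₀) {l : ℕ} (hl : l ∈ Icc 1 k) (a : Fin (n + 1)) : c.x l a ≤ σ₀ :=
  (single_le_sum (f := fun l => c.x l a) (fun _ hl => x_nonneg hc hl a) hl).trans (hc.xsum a)

lemma abs_fld_le (hc : c.Ok k lam B σ₀) {u : Fin (n + 1) → Cfg (k + 2) (Oc N n) → ℝ} {R : ℝ}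
    {ω : Cfg (k + 2) (Oc N n)} (hu : ∀ a, |u a ω| ≤ R) : |fld c u ω| ≤ R * afld c ω := by
  unfold fld afld
  rw [mul_sum]
  refine (abs_sum_le_sum_abs _ _).trans (sum_le_sum fun l hl => ?_)
  rw [mul_sum]
  refine (abs_sum_le_sum_abs _ _).trans (sum_le_sum fun a _ => ?_)
  rw [abs_mul, abs_mul, abs_of_nonneg (x_nonneg hc hl a), mul_comm R]
  exact mul_le_mul_of_nonneg_left (hu a) (mul_nonneg (x_nonneg hc hl a) (abs_nonneg _))

lemma lv_lt : ∀ j ∈ Icc 1 k ×ˢ (univ : Finset (Fin (n + 1))), j.1 < k + 2 := fun j hj => by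
  have := (mem_Icc.1 (mem_product.1 hj).1).2
  omega

lemma inj (c : Cav n N) : ∀ j ∈ Icc 1 k ×ˢ (univ : Finset (Fin (n + 1))),
    ∀ j' ∈ Icc 1 k ×ˢ (univ : Finset (Fin (n + 1))), j.1 = j'.1 → co c j.2 = co c j'.2 → j = j' :=
  fun _ _ _ _ h1 h2 => Prod.ext h1 (co_inj c h2)

lemma amp (hc : c.Ok k lam B σ₀) {G : Cfg (k + 2) (Oc N n) → ℝ} (hG : (cLev ex h n).Lin G)
    (hI : Inv c G) {u : Fin (n + 1) → Cfg (k + 2) (Oc N n) → ℝ} (hu : ∀ a, Measurable (u a)) {M : ℝ}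
    (hM : ∀ a ω, |u a ω| ≤ M) (hIu : ∀ a, Inv c (u a)) :
    (cLev ex h n).X0 G ≤ (cLev ex h n).X0 fun ω => G ω + fld c u ω := by
  have := (amp_mono (Icc 1 k ×ˢ (univ : Finset (Fin (n + 1)))) (fun j => j.1) (fun j => co c j.2)
    (c := fun j => u j.2) lv_lt (inj c) hG (fun j _ => hu j.2) (fun j _ => hM j.2)
    (fun j _ θ ω => ⟨hI _ _ θ ω, fun j' _ => hIu j'.2 _ _ θ ω⟩) (x := fun _ => 0)
    (x' := fun j => c.x j.1 j.2) (fun j hj => ⟨le_rfl, x_nonneg hc (mem_product.1 hj).1 _⟩)).1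
  simp only [zero_mul, sum_const_zero, add_zero, sum_product] at this
  exact this

lemma pas (hc : c.Ok k lam B σ₀) {G : Cfg (k + 2) (Oc N n) → ℝ} (hG : (cLev ex h n).Lin G)
    (hI : Inv c G) {R : ℝ} (hR : 0 ≤ R) (hRσ : R * σ₀ ≤ 1 / 2) :
    (cLev ex h n).X0 (fun ω => G ω + R * afld c ω) ≤ (cLev ex h n).X0 G + 2 * R * (n + 1) * σ₀ := by
  have := passive_abs (Icc 1 k ×ˢ (univ : Finset (Fin (n + 1)))) (fun j => j.1) (fun j => co c j.2)
    lv_lt (inj c) hG (fun j _ θ ω => hI _ _ θ ω) (x := fun j => R * c.x j.1 j.2)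
    (fun j hj => ⟨mul_nonneg hR (x_nonneg hc (mem_product.1 hj).1 _),
      (mul_le_mul_of_nonneg_left (x_le hc (mem_product.1 hj).1 _) hR).trans hRσ⟩)
  have e : (fun ω => G ω + R * afld c ω) = fun ω => G ω +
      ∑ j ∈ Icc 1 k ×ˢ (univ : Finset (Fin (n + 1))), R * c.x j.1 j.2 * |gl j.1 (co c j.2) ω| := by
    funext ω
    simp only [afld, sum_product, mul_sum, mul_assoc]
  rw [e]
  refine this.trans ?_
  have h2 : ∑ j ∈ Icc 1 k ×ˢ (univ : Finset (Fin (n + 1))), R * c.x j.1 j.2 ≤ R * ((n + 1) * σ₀) := by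
    rw [← mul_sum, sum_product_right]
    refine mul_le_mul_of_nonneg_left ?_ hR
    calc ∑ a, ∑ l ∈ Icc 1 k, c.x l a ≤ ∑ _a : Fin (n + 1), σ₀ := sum_le_sum fun a _ => hc.xsum a
      _ = (n + 1) * σ₀ := by simp
  change _ ≤ (gLev ex _ _ _).X0 G + _
  linarith

variable (c)

/-- The designated coordinates, completed by zero. -/
noncomputable def zh (a : Fin (n + 1)) (ω : Cfg (k + 2) (Oc N n)) : ℝ :=
  if a = c.a₀ then 0 else Y (c.idx a) (cmap pB ω)

lemma meas_zh (a : Fin (n + 1)) : Measurable (zh c a : Cfg (k + 2) (Oc N n) → ℝ) := by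
  unfold zh
  split_ifs
  · exact measurable_const
  · exact (measurable_Y _).comp meas_pB

lemma inv_zh (a : Fin (n + 1)) : Inv c (zh c a : Cfg (k + 2) (Oc N n) → ℝ) := by
  intro l a' θ ω
  unfold zh
  split_ifs
  · rfl
  · exact inv_Y c _ l a' θ ω

lemma abs_zh_le {ω : Cfg (k + 2) (Oc N n)} {M : ℝ} (hM : 0 ≤ M) (hz : ∀ b, |c.zc ω b| ≤ M)
    (a : Fin (n + 1)) : |zh c a ω| ≤ M := by
  unfold zh
  split_ifs with ha
  · simpa using hM
  · obtain ⟨b, rfl⟩ := Fin.exists_succAbove_eq ha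
    exact hz b

lemma abs_zc_le (ω : Cfg (k + 2) (Oc N n)) (b : Fin n) : |c.zc ω b| ≤ N := abs_Y_le _ _

lemma H0_eq (ω : Cfg (k + 2) (Oc N n)) : c.H0 ω = G0 c ω + fld c (zh c) ω := by
  unfold Cav.H0 G0 fld
  rw [c.Hb_eq]
  have : ∀ l, ∑ a, c.x l a * gl l (co c a) ω * zh c a ω = ∑ b : Fin n, c.x l (c.a₀.succAbove b) *
      gl l (.inl (c.idx (c.a₀.succAbove b)) : Ic N n) ω * c.zc ω b := by
    intro l
    rw [Fin.sum_univ_succAbove _ c.a₀]
    simp [zh, co, Cav.zc]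
  simp only [this]
  ring

/-- The designated coordinates of the big system. -/
noncomputable def uu (v : Fin (n + 1) → ℝ) (a : Fin (n + 1)) (ω : Cfg (k + 2) (Oc N n)) : ℝ :=
  uv c.a₀ v (rS (cmap pR ω)) (c.zc ω) a

lemma meas_uu (v : Fin (n + 1) → ℝ) (a : Fin (n + 1)) :
    Measurable (uu c v a : Cfg (k + 2) (Oc N n) → ℝ) :=
  meas_bool (f := fun e z => uv c.a₀ v e z a)
    (fun e => (continuous_apply a).comp (continuous_uv c.a₀ v e)) meas_e c.measurable_zc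

lemma inv_uu (v : Fin (n + 1) → ℝ) (a : Fin (n + 1)) :
    Inv c (uu c v a : Cfg (k + 2) (Oc N n) → ℝ) := by
  intro l a' θ ω
  unfold uu
  rw [inv_zc c l a' θ ω, show rS (cmap pR (shift l (co c a') θ ω)) = _ from inv_e c l a' θ ω]

lemma abs_uu_le (v : Fin (n + 1) → ℝ) (a : Fin (n + 1)) (ω : Cfg (k + 2) (Oc N n)) :
    |uu c v a ω| ≤ 1 + n * (N : ℝ) ^ 2 := abs_uv_le _ _ _ (abs_zc_le c ω) a

/-- The cavity energy with the remainder. -/
noncomputable def W (v : Fin (n + 1) → ℝ) (ω : Cfg (k + 2) (Oc N n)) : ℝ :=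
  lV c.lam' c.a₀ v (rS (cmap pR ω)) (c.zc ω) + c.kT (rS (cmap pR ω)) (spn (cmap pB ω))

lemma inv_W (v : Fin (n + 1) → ℝ) : Inv c (W c v : Cfg (k + 2) (Oc N n) → ℝ) := by
  intro l a' θ ω
  unfold W
  rw [inv_zc c l a' θ ω, show rS (cmap pR (shift l (co c a') θ ω)) = _ from inv_e c l a' θ ω,
    show spn (cmap pB (shift l (co c a') θ ω)) = _ from inv_s c l a' θ ω]

lemma HS_eq' (v : Fin (n + 1) → ℝ) (ω : Cfg (k + 2) (Oc N n)) :
    c.HS v ω = G0 c ω + W c v ω + c.c₀ + fld c (uu c v) ω := by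
  rw [c.HS_eq]
  have : c.loc v ω = fld c (uu c v) ω := rfl
  unfold G0 W
  rw [this]
  ring

lemma lin_W (v : Fin (n + 1) → ℝ) : (cLev ex h n).Lin (W c v) := by
  have := (((c.lin_HS ex h v).sub (lin_fld c ex h (meas_uu c v) (abs_uu_le c v))).sub
    (lin_G0 c ex h)).sub (Lev.lin_const c.c₀)
  convert this using 2 with ω
  rw [HS_eq']
  ring

end CC

end Crest.Agent.R164
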