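import Crest.Agent.R164.CavPsi
import Crest.Agent.R164.CavChainAux

/-! # Row 164: comparison of the conditioned big system with the truncated cavity system -/

set_option autoImplicit false

namespace Crest.Agent.R164

open MeasureTheory ProbabilityTheory Real Finset Crest.ProbabilityR.InvariantGlass

namespace CC

variable {n N k : ℕ} {c : Cav n N} (ex : Expo (k + 2)) (h : Haar N) {lam : Fin (n + 1) → ℝ}
  {B σ₀ δ L : ℝ} {χ : (Fin n → ℝ) → ℝ}

/-- The truncated cavity energy with the true column. -/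
noncomputable def ps (c : Cav n N) (δ : ℝ) (χ : (Fin n → ℝ) → ℝ) (v : Fin (n + 1) → ℝ)
    (ω : Cfg (k + 2) (Oc N n)) : ℝ := log (δ + χ (c.zc ω) * exp (W c v ω))

lemma inv_ps (v : Fin (n + 1) → ℝ) : Inv c (ps c δ χ v : Cfg (k + 2) (Oc N n) → ℝ) := by
  intro l a θ ω
  unfold ps
  rw [inv_zc c l a θ ω, inv_W c v l a θ ω]

include ex h in
lemma meas_ps (hχ : Cut L χ) (v : Fin (n + 1) → ℝ) :
    Measurable (ps c δ χ v : Cfg (k + 2) (Oc N n) → ℝ) :=
  (measurable_const.add ((hχ.smooth.continuous.measurable.comp c.measurable_zc).mul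
    (lin_W c ex h v).1.exp)).log

lemma first (hc : c.Ok k lam B σ₀) (hδ : 0 < δ) (hL : 0 < L) (hχ : Cut L χ)
    (hσ : 2 * L * σ₀ ≤ 1 / 2) (v : Fin (n + 1) → ℝ) :
    exp (ex.ζ 0 * (cLev ex h n).X0 (fun ω => c.H0 ω + ps c δ χ v ω)) ≤
      exp (ex.ζ 0 * ((cLev ex h n).X0 c.H0 + log δ)) +
        exp (ex.ζ 0 * ((cLev ex h n).X0 (c.HS v) - c.c₀ + 2 * (2 * L) * (n + 1) * σ₀)) := by
  have hG1 : (cLev ex h n).Lin fun ω => G0 c ω + W c v ω := (lin_G0 c ex h).add (lin_W c ex h v)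
  have hI1 : Inv c fun ω : Cfg (k + 2) (Oc N n) => G0 c ω + W c v ω := fun l a θ ω => by
    simp only [inv_G0 c l a θ ω, inv_W c v l a θ ω]
  have m := (Lev.minkowski_exp (L := cLev ex h n) (f := fun ω => c.H0 ω + log δ)
    (g := fun ω => G0 c ω + W c v ω + 2 * L * afld c ω) (H := fun ω => c.H0 ω + ps c δ χ v ω)
    ((c.lin_H0 ex h).add (Lev.lin_const _)).int (hG1.add ((lin_afld c ex h).const_mul _)).int
    ((c.lin_H0 ex h).1.add (meas_ps ex h hχ v)) (fun ω => ?_)).2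
  · rw [Lev.X0_add_const (c.lin_H0 ex h).int] at m
    refine m.trans (add_le_add le_rfl (exp_le_exp.2 (mul_le_mul_of_nonneg_left ?_ (ex.pos 0).le)))
    have p := pas ex h hc hG1 hI1 (R := 2 * L) (by positivity) hσ
    have a := amp ex h hc (hG1.add (Lev.lin_const c.c₀))
      (fun l a θ ω => by simp only [inv_G0 c l a θ ω, inv_W c v l a θ ω]) (meas_uu c v)
      (abs_uu_le c v) (inv_uu c v)
    rw [Lev.X0_add_const hG1.int] at a
    have e : (fun ω => G0 c ω + W c v ω + c.c₀ + fld c (uu c v) ω)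
        = (c.HS v : Cfg (k + 2) (Oc N n) → ℝ) := funext fun ω => (HS_eq' c v ω).symm
    rw [e] at a
    linarith
  · have hm := hχ.mem (c.zc ω)
    have hpos : 0 < δ + χ (c.zc ω) * exp (W c v ω) := by have := hm.1; positivity
    unfold ps
    rw [exp_add, exp_log hpos, exp_add, exp_log hδ, mul_add]
    refine add_le_add le_rfl ?_
    by_cases h0 : χ (c.zc ω) = 0
    · rw [h0, zero_mul, mul_zero]; positivity
    · have hz : ∀ b, |c.zc ω b| ≤ 2 * L := fun b => by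
        by_contra hb
        exact h0 (hχ.zero _ b (not_le.1 hb).le)
      have h1 := abs_fld_le hc (abs_zh_le c (by positivity) hz)
      have h2 : exp (c.H0 ω) * exp (W c v ω) ≤ exp (G0 c ω + W c v ω + 2 * L * afld c ω) := by
        rw [← exp_add, H0_eq]
        exact exp_le_exp.2 (by linarith [le_abs_self (fld c (zh c) ω)])
      have h3 : 0 < exp (c.H0 ω) * exp (W c v ω) := by positivity
      nlinarith [hm.2]

lemma second (hc : c.Ok k lam B σ₀) (hδ : 0 < δ) (hL : 0 < L) (hχ : Cut L χ)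
    (hσ : (1 + n * L ^ 2) * σ₀ ≤ 1 / 2) {v : Fin (n + 1) → ℝ} (hv : ∑ a, v a ^ 2 = 1)
    (hv' : ∀ a, 1 / (2 * ((n : ℝ) + 1)) ≤ v a ^ 2) (hps : (cLev ex h n).Lin (ps c δ χ v)) :
    exp (ex.ζ 0 * (cLev ex h n).X0 (c.HS v)) *
        (1 - 2 * (n + 1) / L ^ 2 * (cLev ex h n).E0 (c.HS v) (c.fS v)) ≤
      exp (ex.ζ 0 * ((cLev ex h n).X0 (fun ω => c.H0 ω + ps c δ χ v ω) + c.c₀ +
        2 * (1 + n * L ^ 2) * (n + 1) * σ₀)) := by
  set R : ℝ := 1 + n * L ^ 2 with hR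
  have hR0 : 0 ≤ R := by positivity
  have hG2 : (cLev ex h n).Lin fun ω => G0 c ω + ps c δ χ v ω := (lin_G0 c ex h).add hps
  have hI2 : Inv c fun ω : Cfg (k + 2) (Oc N n) => G0 c ω + ps c δ χ v ω := fun l a θ ω => by
    simp only [inv_G0 c l a θ ω, inv_ps v l a θ ω]
  have hG3 := hG2.add ((lin_afld c ex h).const_mul R)
  have hHS := c.lin_HS ex h v
  have hk : (cLev ex h n).Lin fun ω => G0 c ω + ps c δ χ v ω + R * afld c ω + c.c₀ - c.HS v ω :=
    (hG3.add (Lev.lin_const _)).sub hHS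
  have m := Lev.exp_X0_add_ge hHS hk
  simp only [add_sub_cancel] at m
  rw [Lev.X0_add_const hG3.int] at m
  have p := pas ex h hc hG2 hI2 hR0 hσ
  have a := amp ex h hc hG2 hI2 (meas_zh c) (M := N)
    (fun a ω => abs_zh_le c (Nat.cast_nonneg N) (abs_zc_le c ω) a) (inv_zh c)
  have e : (fun ω => G0 c ω + ps c δ χ v ω + fld c (zh c) ω)
      = fun ω : Cfg (k + 2) (Oc N n) => c.H0 ω + ps c δ χ v ω := funext fun ω => by
    rw [H0_eq]; ring
  rw [e] at a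
  have hfS : (cLev ex h n).Nice (c.fS v) :=
    Lev.nice_of_bdd (c.measurable_fS v) (N + 1 : ℕ) fun ω => by
      have := fr_bounds c.sp' 0 (cmap pE (cmap (pS (c.AO v)) ω))
      exact abs_le.2 ⟨by unfold Cav.fS; linarith [this.1, (Nat.cast_nonneg (N + 1) : (0 : ℝ) ≤ _)],
        this.2⟩
  have hE : 1 - 2 * (n + 1) / L ^ 2 * (cLev ex h n).E0 (c.HS v) (c.fS v) ≤
      (cLev ex h n).E0 (c.HS v) fun ω => exp ((cLev ex h n).ζ 0 *
        (G0 c ω + ps c δ χ v ω + R * afld c ω + c.c₀ - c.HS v ω)) := by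
    have e1 : 1 - 2 * (n + 1) / L ^ 2 * (cLev ex h n).E0 (c.HS v) (c.fS v)
        = (cLev ex h n).E0 (c.HS v) fun ω => 1 - 2 * (n + 1) / L ^ 2 * c.fS v ω := by
      unfold Lev.E0
      rw [Lev.E_sub hHS (Lev.nice_const 1) (hfS.const_mul _), Lev.E_const hHS, Lev.E_const_mul]
    rw [e1]
    refine Lev.E_mono hHS ((Lev.nice_const 1).sub (hfS.const_mul _)) (hk.const_mul _).exp
      (fun ω => ?_) 0 _
    have hf0 : 0 ≤ c.fS v ω := (fr_bounds _ _ _).1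
    by_cases hz : ∀ b, |c.zc ω b| ≤ L
    · have h1 := abs_fld_le hc (u := uu c v) (ω := ω) (R := R) (fun a => abs_uv_le _ _ _ hz a)
      have h2 : W c v ω ≤ ps c δ χ v ω := by
        unfold ps
        rw [hχ.one _ hz, one_mul, le_log_iff_exp_le (by positivity)]
        linarith
      have h3 : 0 ≤ G0 c ω + ps c δ χ v ω + R * afld c ω + c.c₀ - c.HS v ω := by
        rw [HS_eq']
        linarith [le_abs_self (fld c (uu c v) ω)]
      have h4 := one_le_exp (mul_nonneg ((cLev ex h n).pos 0).le h3)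
      have h5 : 0 ≤ 2 * ((n : ℝ) + 1) / L ^ 2 * c.fS v ω := by positivity
      linarith
    · push Not at hz
      obtain ⟨b, hb⟩ := hz
      have h1 : L ^ 2 ≤ ∑ a, uv c.a₀ v (rS (cmap pR ω)) (c.zc ω) a ^ 2 := by
        rw [sum_uv_sq]
        have h2 := single_le_sum (f := fun b => c.zc ω b ^ 2) (fun _ _ => sq_nonneg _) (mem_univ b)
        have h3 : L ^ 2 ≤ c.zc ω b ^ 2 := by
          rw [← sq_abs (c.zc ω b)]; exact pow_le_pow_left₀ hL.le hb.le 2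
        linarith
      have h2 : 1 / (2 * ((n : ℝ) + 1)) * L ^ 2 ≤ c.fS v ω := by
        rw [c.fS_eq hv]
        refine (mul_le_mul_of_nonneg_left h1 (by positivity)).trans ?_
        rw [mul_sum]
        exact sum_le_sum fun a _ => mul_le_mul_of_nonneg_right (hv' a) (sq_nonneg _)
      have h3 : 1 ≤ 2 * ((n : ℝ) + 1) / L ^ 2 * c.fS v ω := by
        refine le_trans (le_of_eq ?_) (mul_le_mul_of_nonneg_left h2 (by positivity))
        field_simp
      exact le_trans (by linarith) (exp_pos _).le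
  refine ((mul_le_mul_of_nonneg_left hE (exp_pos _).le).trans m).trans
    (exp_le_exp.2 (mul_le_mul_of_nonneg_left ?_ (ex.pos 0).le))
  linarith

end CC

theorem chain {n : ℕ} (hn : 1 ≤ n) (lam : Fin (n + 1) → ℝ) (B : ℝ) {δ L : ℝ} (hδ : 0 < δ) (hL : 0 < L)
    {χ : (Fin n → ℝ) → ℝ} (hχ : Cut L χ) {ε : ℝ} (hε : 0 < ε) :
    ∃ C σ₀ ε₂ : ℝ, 0 < σ₀ ∧ 0 < ε₂ ∧ 0 ≤ C ∧ ∀ (N k : ℕ) (ex : Expo (k + 2)) (c : Cav n N) (h : Haar N),
      c.Ok k lam B σ₀ → C ≤ N → ∀ t : (Fin N → Bool) → ℝ, (∀ e σ, |c.kT e σ| ≤ t σ) →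
      ∀ v : Fin (n + 1) → ℝ, ∑ a, v a ^ 2 = 1 → (∀ a, 0 ≤ v a ∧ |v a ^ 2 - 1 / (n + 1)| ≤ ε₂) →
      ∀ Xt err : ℝ,
        Xt = (cLev ex h n).X0 (fun ω => c.H0 ω + Psi lam c.a₀ δ χ (rS (cmap pR ω)) (c.zc ω)) →
        err = ε + C * (mLev ex h (unif _)).E0 c.Hb (fun ω => t (spn ω)) →
        exp (ex.ζ 0 * (Xt + c.c₀ - err)) ≤ exp (ex.ζ 0 * (cLev ex h n).X0 (c.HS v)) +
            δ ^ ex.ζ 0 * exp (ex.ζ 0 * ((cLev ex h n).X0 c.H0 + c.c₀)) ∧
          exp (ex.ζ 0 * (cLev ex h n).X0 (c.HS v)) *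
              (1 - 2 * (n + 1) / L ^ 2 * (cLev ex h n).E0 (c.HS v) (c.fS v)) ≤
            exp (ex.ζ 0 * (Xt + c.c₀ + err)) := by
  obtain ⟨C₁, hC₁, hS⟩ := smooth_Psi lam hδ hχ
  set C : ℝ := exp (C₁ - -C₁ + 2 * (1 + B)) with hC
  have hC0 : 0 < C := exp_pos _
  obtain ⟨ε', hε'0, hε'1, hε'C⟩ : ∃ ε' : ℝ, 0 < ε' ∧ ε' ≤ 1 ∧ C * ε' ≤ ε / 2 := by
    refine ⟨min 1 (ε / (2 * C)), by positivity, min_le_left _ _, ?_⟩
    refine (mul_le_mul_of_nonneg_left (min_le_right _ _) hC0.le).trans (le_of_eq ?_)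
    field_simp
  obtain ⟨ε₃, hε₃, hlV⟩ := lV_close hn lam (2 * L) hε'0
  set R : ℝ := 1 + n * L ^ 2 + 2 * L with hR
  have hR0 : 0 < R := by positivity
  obtain ⟨σ₀, hσ0, hσ1, hσ2, hσ3⟩ : ∃ σ₀ : ℝ, 0 < σ₀ ∧ σ₀ ≤ ε₃ ∧ R * σ₀ ≤ 1 / 2 ∧
      2 * R * (n + 1) * σ₀ ≤ ε / 2 := by
    refine ⟨min ε₃ (min (1 / (2 * R)) (ε / (4 * R * (n + 1)))), by positivity, min_le_left _ _, ?_, ?_⟩
    · refine (mul_le_mul_of_nonneg_left ((min_le_right _ _).trans (min_le_left _ _)) hR0.le).trans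
        (le_of_eq ?_)
      field_simp
    · refine (mul_le_mul_of_nonneg_left ((min_le_right _ _).trans (min_le_right _ _))
        (by positivity)).trans (le_of_eq ?_)
      field_simp
      ring
  refine ⟨C, σ₀, min ε₃ (1 / (2 * ((n : ℝ) + 1))), hσ0, by positivity, hC0.le, ?_⟩
  intro N k ex c h hc _ t ht v hv hv' Xt err hXt herr
  have hv3 : ∀ a, 0 ≤ v a ∧ |v a ^ 2 - 1 / (n + 1)| ≤ ε₃ :=
    fun a => ⟨(hv' a).1, (hv' a).2.trans (min_le_left _ _)⟩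
  have hv4 : ∀ a, 1 / (2 * ((n : ℝ) + 1)) ≤ v a ^ 2 := fun a => by
    have h1 := (abs_le.1 ((hv' a).2.trans (min_le_right _ _))).1
    have h2 : 1 / ((n : ℝ) + 1) = 2 * (1 / (2 * ((n : ℝ) + 1))) := by field_simp
    linarith
  have hΨm : Measurable fun ω : Cfg (k + 2) (Oc N n) =>
      Psi lam c.a₀ δ χ (rS (cmap pR ω)) (c.zc ω) := (hS c.a₀).measurable CC.meas_e c.measurable_zc
  have hΨb : ∀ e z, |Psi lam c.a₀ δ χ e z| ≤ C₁ := by
    obtain ⟨_, _, -, -, -, hb, -⟩ := hS c.a₀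
    exact hb
  have hd : ∀ ω : Cfg (k + 2) (Oc N n),
      |CC.ps c δ χ v ω - Psi lam c.a₀ δ χ (rS (cmap pR ω)) (c.zc ω)| ≤
        ε' + |c.kT (rS (cmap pR ω)) (spn (cmap pB ω))| := by
    intro ω
    unfold CC.ps Psi
    by_cases h0 : χ (c.zc ω) = 0
    · rw [h0, zero_mul, zero_mul, sub_self, abs_zero]; positivity
    · have hz : ∀ b, |c.zc ω b| ≤ 2 * L := fun b => by
        by_contra hb
        exact h0 (hχ.zero _ b (not_le.1 hb).le)
      refine (CC.log_lip hδ (hχ.mem _).1 _ _).trans ?_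
      have h1 := hlV c.a₀ c.lam' v (fun a => (hc.close a).trans hσ1) hv3 (rS (cmap pR ω)) _ hz
      unfold CC.W
      rw [add_sub_right_comm]
      exact (abs_add_le _ _).trans (add_le_add h1 le_rfl)
  have hpm := CC.meas_ps (c := c) (δ := δ) ex h hχ v
  have hd' : ∀ ω : Cfg (k + 2) (Oc N n),
      |CC.ps c δ χ v ω - Psi lam c.a₀ δ χ (rS (cmap pR ω)) (c.zc ω)| ≤ 1 + B :=
    fun ω => (hd ω).trans (add_le_add hε'1 (hc.hk _ _))
  have hps : (cLev ex h n).Lin (CC.ps c δ χ v) :=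
    Lev.lin_of_bdd hpm (1 + B + C₁) fun ω => by
      have h1 := abs_add_le (CC.ps c δ χ v ω - Psi lam c.a₀ δ χ (rS (cmap pR ω)) (c.zc ω))
        (Psi lam c.a₀ δ χ (rS (cmap pR ω)) (c.zc ω))
      rw [sub_add_cancel] at h1
      linarith [hd' ω, hΨb (rS (cmap pR ω)) (c.zc ω)]
  have hH0 := c.lin_H0 ex h
  have hA := Lev.abs_X0_add_sub_le hH0 hΨm
    (k := fun ω => CC.ps c δ χ v ω - Psi lam c.a₀ δ χ (rS (cmap pR ω)) (c.zc ω))
    (hpm.sub hΨm) (fun ω => abs_le.1 (hΨb _ _)) hd'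
  simp only [add_sub_cancel] at hA
  rw [← hXt, ← hC] at hA
  have htn : (mLev ex h (unif _)).Nice fun ω => t (spn ω) := (lin_spn ex h _ t).nice
  have hE : (cLev ex h n).E0 c.H0
      (fun ω => |CC.ps c δ χ v ω - Psi lam c.a₀ δ χ (rS (cmap pR ω)) (c.zc ω)|) ≤
      ε' + (mLev ex h (unif _)).E0 c.Hb (fun ω => t (spn ω)) := by
    have h1 := Lev.E_mono hH0 (Lev.nice_of_bdd (hpm.sub hΨm).abs (1 + B)
      fun ω => by rw [abs_abs]; exact hd' ω) ((Lev.nice_const ε').add (nice_pB ex h htn))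
      (fun ω => (hd ω).trans (add_le_add le_rfl (ht _ _))) 0 (cLev ex h n).pt
    rw [Lev.E_add hH0 (Lev.nice_const ε') (nice_pB ex h htn), Lev.E_const hH0, c.E_H0 ex h htn,
      Lev.E_zero (L := mLev ex h (unif _))] at h1
    exact h1
  have hB : |(cLev ex h n).X0 (fun ω => c.H0 ω + CC.ps c δ χ v ω) - Xt| ≤ err - ε / 2 := by
    refine hA.trans ((mul_le_mul_of_nonneg_left hE hC0.le).trans ?_)
    rw [herr]
    linarith
  obtain ⟨hB1, hB2⟩ := abs_le.1 hB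
  have hζ := ex.pos 0
  have hnL : 0 ≤ (n : ℝ) * L ^ 2 := by positivity
  have hn1 : (0 : ℝ) ≤ (n + 1) * σ₀ := by positivity
  constructor
  · have f := CC.first ex h hc hδ hL hχ (by nlinarith) v
    have s1 : 2 * (2 * L) * (n + 1) * σ₀ ≤ ε / 2 := by nlinarith
    have e1 : exp (ex.ζ 0 * (Xt + c.c₀ - err)) ≤ exp (ex.ζ 0 * (c.c₀ - ε / 2)) *
        exp (ex.ζ 0 * (cLev ex h n).X0 (fun ω => c.H0 ω + CC.ps c δ χ v ω)) := by
      rw [← exp_add, ← mul_add]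
      exact exp_le_exp.2 (mul_le_mul_of_nonneg_left (by linarith) hζ.le)
    refine e1.trans ((mul_le_mul_of_nonneg_left f (exp_pos _).le).trans ?_)
    rw [mul_add, add_comm, rpow_def_of_pos hδ, ← exp_add, ← exp_add, ← exp_add]
    refine add_le_add (exp_le_exp.2 ?_) (exp_le_exp.2 ?_)
    · rw [← mul_add]
      exact mul_le_mul_of_nonneg_left (by linarith) hζ.le
    · nlinarith
  · have f := CC.second ex h hc hδ hL hχ (by nlinarith) hv hv4 hps
    have s1 : 2 * (1 + n * L ^ 2) * (n + 1) * σ₀ ≤ ε / 2 := by nlinarith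
    exact f.trans (exp_le_exp.2 (mul_le_mul_of_nonneg_left (by linarith) hζ.le))

end Crest.Agent.R164
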