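import Crest.Agent.R164.CavBasic

/-! # Row 164: auxiliary facts for the crude cavity bound -/

set_option autoImplicit false

namespace Crest.Agent.R164

open MeasureTheory ProbabilityTheory Real Finset Crest.ProbabilityR.InvariantGlass

namespace CCr

variable {n N k : ℕ}

lemma sum_des {j : Fin n → Fin N} (hj : Function.Injective j) {f g : Fin N → ℝ}
    (h : ∀ i, (¬∃ b, i = j b) → f i = g i) :
    ∑ i, f i = ∑ i, g i + ∑ b, (f (j b) - g (j b)) := by
  have h1 : ∑ i, (f i - g i) = ∑ i ∈ univ.image j, (f i - g i) := by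
    symm
    refine sum_subset (subset_univ _) fun i _ hi => ?_
    rw [h i, sub_self]
    rintro ⟨b, rfl⟩
    exact hi (mem_image_of_mem _ (mem_univ b))
  rw [sum_image fun a _ b _ hab => hj hab, sum_sub_distrib] at h1
  linarith

lemma hh_symm {ι : Type} [Fintype ι] [DecidableEq ι] (u g w : ι → ℝ) :
    ∑ a, (hh u).mulVec g a * w a = ∑ a, g a * (hh u).mulVec w a := by
  simp only [hh_mulVec, sub_mul, mul_sub, sum_sub_distrib]
  congr 1
  have h1 : ∀ a, 2 / (∑ j, u j ^ 2) * (∑ j, u j * g j) * u a * w a =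
      2 / (∑ j, u j ^ 2) * (∑ j, u j * g j) * (u a * w a) := fun a => by ring
  have h2 : ∀ a, g a * (2 / (∑ j, u j ^ 2) * (∑ j, u j * w j) * u a) =
      2 / (∑ j, u j ^ 2) * (∑ j, u j * w j) * (u a * g a) := fun a => by ring
  simp only [h1, h2, ← mul_sum]
  ring

/-- Embedding of a vector along an injection. -/
noncomputable def emb {ι κ : Type} [Fintype κ] [DecidableEq ι] (co : κ → ι) (u : κ → ℝ) (i : ι) : ℝ :=
  ∑ a, if i = co a then u a else 0

lemma emb_co {ι κ : Type} [Fintype κ] [DecidableEq ι] {co : κ → ι} (hco : Function.Injective co)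
    (u : κ → ℝ) (a : κ) : emb co u (co a) = u a := by
  classical
  simp only [emb, hco.eq_iff]
  simp

lemma emb_off {ι κ : Type} [Fintype κ] [DecidableEq ι] {co : κ → ι} (u : κ → ℝ) {i : ι}
    (hi : ∀ a, i ≠ co a) : emb co u i = 0 :=
  sum_eq_zero fun a _ => if_neg (hi a)

lemma sum_emb {ι κ : Type} [Fintype ι] [Fintype κ] [DecidableEq ι] (co : κ → ι) (u : κ → ℝ)
    (g : ι → ℝ) : ∑ i, emb co u i * g i = ∑ a, u a * g (co a) := by
  simp only [emb, sum_mul]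
  rw [sum_comm]
  refine sum_congr rfl fun a _ => ?_
  simp

lemma hh_emb_co {ι κ : Type} [Fintype ι] [Fintype κ] [DecidableEq ι] [DecidableEq κ] {co : κ → ι}
    (hco : Function.Injective co) (u : κ → ℝ) (g : ι → ℝ) (a : κ) :
    (hh (emb co u)).mulVec g (co a) = (hh u).mulVec (fun a => g (co a)) a := by
  have h : ∑ j, emb co u j ^ 2 = ∑ j, u j ^ 2 := by
    simp only [pow_two, sum_emb, emb_co hco]
  simp only [hh_mulVec, h, sum_emb, emb_co hco]

lemma hh_emb_off {ι κ : Type} [Fintype ι] [Fintype κ] [DecidableEq ι] {co : κ → ι}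
    (u : κ → ℝ) (g : ι → ℝ) {i : ι} (hi : ∀ a, i ≠ co a) :
    (hh (emb co u)).mulVec g i = g i := by
  rw [hh_mulVec, emb_off u hi, mul_zero, sub_zero]

/-- Rotation of the Gaussian coordinates. -/
def rot {Z ι : Type} [Fintype ι] (M : Matrix ι ι ℝ) (_ : ℕ) (z : Z × (ι → ℝ)) : Z × (ι → ℝ) :=
  (z.1, M.mulVec z.2)

lemma gl_rot {K : ℕ} {Z ι : Type} [Fintype ι] (M : Matrix ι ι ℝ) (l : ℕ) (i : ι)
    (ω : Cfg K (Z × (ι → ℝ))) : gl l i (cmap (rot M) ω) = M.mulVec (fun i' => gl l i' ω) i := by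
  unfold gl atl
  split_ifs with h
  · rfl
  · simp [Matrix.mulVec]

lemma X0_rot {K : ℕ} {ex : Expo K} {Z ι : Type} [MeasurableSpace Z] [Fintype ι] [DecidableEq ι]
    {α : ℕ → Measure Z} {hα : ∀ l, IsProbabilityMeasure (α l)} {M : Matrix ι ι ℝ}
    (hM : M ∈ Matrix.orthogonalGroup ι ℝ) {H : Cfg K (Z × (ι → ℝ)) → ℝ} (hH : Measurable H) :
    (gLev ex ι α hα).X0 (fun ω => H (cmap (rot M) ω)) = (gLev ex ι α hα).X0 H := by
  refine Lev.X0_cmap rfl (fun e _ => ?_) hH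
  have := hα e
  exact (MeasurePreserving.id (α e)).prod (gam_mulVec hM)

lemma gl_pB (l : ℕ) (i : Fin N) (ω : Cfg (k + 2) (Oc N n)) :
    gl l i (cmap pB ω) = gl l (.inl i) ω := rfl

section congr

variable {ω ω' : Cfg (k + 2) (Oc N n)} (hf : ∀ e, (ω e).1 = (ω' e).1)
include hf

lemma spn_congr : spn (cmap pB ω) = spn (cmap pB ω') := by
  simp only [spn, cmap, pB, hf]

lemma Y_congr (i : Fin N) : Y i (cmap pB ω) = Y i (cmap pB ω') := by
  simp only [Y, spn_congr hf]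
  simp only [cmap, pB, hf]

lemma rS_congr : rS (cmap pR ω) = rS (cmap pR ω') := by
  simp only [rS, cmap, pR, hf]

lemma zc_congr (c : Cav n N) : c.zc ω = c.zc ω' := funext fun _ => Y_congr hf _

lemma Hm_congr (lam : Fin N → ℝ) {x : ℕ → Fin N → ℝ} (w : (Fin N → Bool) → ℝ)
    (hg : ∀ l i, x l i * gl l (.inl i) ω = x l i * gl l (.inl i) ω') :
    Hm lam x w (cmap pB ω) = Hm lam x w (cmap pB ω') := by
  simp only [Hm, Y_congr hf, spn_congr hf, gl_pB, hg]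

end congr

lemma abs_sg (b : Bool) : |sg b| = 1 := by unfold sg; split_ifs <;> simp

lemma sg_sq (b : Bool) : sg b ^ 2 = 1 := by unfold sg; split_ifs <;> simp

lemma abs_frR_le (b : ℝ) (y : ℕ → ℝ) (ω : Cfg (k + 2) (Orb n)) :
    |frR b y ω| ≤ |b| + ∑ l ∈ Icc 1 k, |y l| := by
  rw [frR, abs_mul, abs_sg, mul_one]
  refine (abs_add_le _ _).trans (add_le_add_right ((abs_sum_le_sum_abs _ _).trans
    (sum_le_sum fun l _ => ?_)) _)
  rw [abs_mul]
  refine mul_le_of_le_one_right (abs_nonneg _) ?_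
  unfold atl
  split_ifs
  · exact (abs_sg _).le
  · simp

lemma measurable_pR (e : ℕ) : Measurable (pR e : Oc N n → Orb n) := by
  unfold pR; fun_prop

lemma measurable_rS' : Measurable fun ω : Cfg (k + 2) (Oc N n) => rS (cmap pR ω) :=
  measurable_rS.comp (measurable_cmap measurable_pR)

variable (c : Cav n N)

/-- The designated coordinates. -/
def jd (b : Fin n) : Fin N := c.idx (c.a₀.succAbove b)

lemma sp_jd (b : Fin n) : c.sp (jd c b) = c.a₀.succAbove b := c.hidx _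

lemma jd_inj : Function.Injective (jd c) := fun a b h => by
  have := congrArg c.sp h
  rw [sp_jd, sp_jd] at this
  exact Fin.succAbove_right_injective this

/-- The local Gaussian coordinates. -/
def co (a : Fin (n + 1)) : Ic N n := if a = c.a₀ then .inr (.inr ()) else .inl (c.idx a)

lemma co_self : co c c.a₀ = .inr (.inr ()) := if_pos rfl

lemma co_succ (b : Fin n) : co c (c.a₀.succAbove b) = .inl (jd c b) :=
  if_neg (Fin.succAbove_ne _ _)

lemma co_inj : Function.Injective (co c) := fun a a' h => by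
  rcases Fin.eq_self_or_eq_succAbove c.a₀ a with rfl | ⟨b, rfl⟩ <;>
    rcases Fin.eq_self_or_eq_succAbove c.a₀ a' with rfl | ⟨b', rfl⟩
  · rfl
  · rw [co_self, co_succ] at h; cases h
  · rw [co_self, co_succ] at h; cases h
  · rw [co_succ, co_succ] at h
    rw [jd_inj c (Sum.inl_injective h)]

lemma ne_co {i : Fin N} (hi : ¬∃ b, i = jd c b) (a : Fin (n + 1)) : (.inl i : Ic N n) ≠ co c a := by
  rcases Fin.eq_self_or_eq_succAbove c.a₀ a with rfl | ⟨b, rfl⟩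
  · rw [co_self]; exact Sum.inl_ne_inr
  · rw [co_succ]; exact fun h => hi ⟨b, Sum.inl_injective h⟩

/-- Amplitudes with the value `t l` on the designated coordinates. -/
noncomputable def xt (t : ℕ → ℝ) (l : ℕ) (i : Fin N) : ℝ :=
  if ∃ b, i = jd c b then t l else c.x l (c.sp i)

/-- Eigenvalues with the values `m b'` on the designated coordinates. -/
noncomputable def lt (m : Fin (n + 1) → ℝ) (i : Fin N) : ℝ :=
  if ∃ b, i = jd c b then m (c.sp i) else c.lam' (c.sp i)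

lemma xt_jd (t : ℕ → ℝ) (l : ℕ) (b : Fin n) : xt c t l (jd c b) = t l := if_pos ⟨b, rfl⟩

lemma xt_off (t : ℕ → ℝ) (l : ℕ) {i : Fin N} (hi : ¬∃ b, i = jd c b) :
    xt c t l i = c.x l (c.sp i) := if_neg hi

lemma lt_jd (m : Fin (n + 1) → ℝ) (b : Fin n) : lt c m (jd c b) = m (c.a₀.succAbove b) := by
  rw [lt, if_pos ⟨b, rfl⟩, sp_jd]

lemma lt_off (m : Fin (n + 1) → ℝ) {i : Fin N} (hi : ¬∃ b, i = jd c b) :
    lt c m i = c.lam' (c.sp i) := if_neg hi

lemma Hb0_eq : (c.Hb0 : Cfg (k + 2) (Om N) → ℝ) = Hm (fun i => c.lam' (c.sp i)) (xt c 0) c.w := by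
  unfold Cav.Hb0
  congr 1

lemma Hm_lt (m : Fin (n + 1) → ℝ) (ω : Cfg (k + 2) (Om N)) :
    Hm (lt c m) (xt c 0) c.w ω = c.Hb0 ω +
      ∑ b, (m (c.a₀.succAbove b) - c.lam' (c.a₀.succAbove b)) * Y (jd c b) ω ^ 2 / 2 := by
  rw [Hb0_eq, Hm, Hm, sum_des (jd_inj c) (f := fun i => lt c m i * Y i ω ^ 2 / 2)
    (g := fun i => c.lam' (c.sp i) * Y i ω ^ 2 / 2) fun i hi => by rw [lt_off c m hi]]
  simp only [lt_jd, sp_jd, sub_mul, sub_div]
  ring

lemma Hm_xt (μ : Fin N → ℝ) (t : ℕ → ℝ) (ω : Cfg (k + 2) (Om N)) :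
    Hm μ (xt c t) c.w ω = Hm μ (xt c 0) c.w ω +
      ∑ l ∈ Icc 1 k, ∑ b, t l * gl l (jd c b) ω * Y (jd c b) ω := by
  have h : ∀ l, ∑ i, xt c t l i * gl l i ω * Y i ω = ∑ i, xt c 0 l i * gl l i ω * Y i ω +
      ∑ b, t l * gl l (jd c b) ω * Y (jd c b) ω := fun l => by
    rw [sum_des (jd_inj c) (f := fun i => xt c t l i * gl l i ω * Y i ω)
      (g := fun i => xt c 0 l i * gl l i ω * Y i ω) fun i hi => by rw [xt_off c t l hi, xt_off c 0 l hi]]
    simp only [xt_jd, Pi.zero_apply, zero_mul, sub_zero]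
  simp only [Hm, h, sum_add_distrib]
  ring

/-- The rotated designated coordinates. -/
noncomputable def uu (v : Fin (n + 1) → ℝ) (a : Fin (n + 1)) (ω : Cfg (k + 2) (Oc N n)) : ℝ :=
  uv c.a₀ v (rS (cmap pR ω)) (c.zc ω) a

lemma measurable_uu (v : Fin (n + 1) → ℝ) (a : Fin (n + 1)) :
    Measurable (uu c v a : Cfg (k + 2) (Oc N n) → ℝ) := by
  have h : Measurable fun p : (Fin n → ℝ) × Bool => uv c.a₀ v p.2 p.1 a :=
    measurable_from_prod_countable_left fun ε =>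
      ((continuous_apply a).comp (continuous_uv c.a₀ v ε)).measurable
  exact h.comp (c.measurable_zc.prodMk measurable_rS')

lemma abs_uu_le (v : Fin (n + 1) → ℝ) (a : Fin (n + 1)) (ω : Cfg (k + 2) (Oc N n)) :
    |uu c v a ω| ≤ 2 + n * N ^ 2 := by
  have h1 := (single_le_sum (f := fun a => uu c v a ω ^ 2) (fun _ _ => sq_nonneg _)
    (mem_univ a)).trans_eq (sum_uv_sq c.a₀ v _ _)
  have h2 : ∑ b, c.zc ω b ^ 2 ≤ ∑ _b : Fin n, (N : ℝ) ^ 2 := sum_le_sum fun b _ => by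
    rw [← sq_abs]
    exact pow_le_pow_left₀ (abs_nonneg _) (abs_Y_le _ _) 2
  simp only [sum_const, card_univ, Fintype.card_fin, nsmul_eq_mul] at h2
  have h3 := sq_abs (uu c v a ω)
  nlinarith [sq_nonneg (|uu c v a ω| - 1)]

variable (ex : Expo (k + 2)) (h : Haar N) (v : Fin (n + 1) → ℝ)

/-- The base system with the local fields. -/
noncomputable def F (μ : Fin N → ℝ) (y : ℕ → Fin (n + 1) → ℝ) (ω : Cfg (k + 2) (Oc N n)) : ℝ :=
  Hm μ (xt c 0) c.w (cmap pB ω) +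
    ∑ j ∈ Icc 1 k ×ˢ (univ : Finset (Fin (n + 1))), y j.1 j.2 * gl j.1 (co c j.2) ω * uu c v j.2 ω

lemma lin_F (μ : Fin N → ℝ) (y : ℕ → Fin (n + 1) → ℝ) : (cLev ex h n).Lin (F c v μ y) :=
  (lin_pB ex h (lin_Hm ex h _ μ _ _)).add (Lev.Lin.sum _ fun j _ =>
    ((lin_gl j.1 (co c j.2)).const_mul _).mul_bdd (measurable_uu c v _) _ (abs_uu_le c v _))

lemma loc_eq (ω : Cfg (k + 2) (Oc N n)) : c.loc v ω =
    ∑ j ∈ Icc 1 k ×ˢ (univ : Finset (Fin (n + 1))), c.x j.1 j.2 * gl j.1 (co c j.2) ω * uu c v j.2 ω := by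
  rw [sum_product]; rfl

lemma F_mono (μ : Fin N → ℝ) {y y' : ℕ → Fin (n + 1) → ℝ}
    (hy : ∀ l ∈ Icc 1 k, ∀ a, 0 ≤ y l a ∧ y l a ≤ y' l a) :
    (cLev ex h n).X0 (F c v μ y) ≤ (cLev ex h n).X0 (F c v μ y') := by
  refine (amp_mono (Icc 1 k ×ˢ (univ : Finset (Fin (n + 1)))) Prod.fst (fun j => co c j.2)
    (c := fun j => uu c v j.2) (fun j hj => ?_) (fun _ _ _ _ h1 h2 => Prod.ext h1 (co_inj c h2))
    (lin_pB ex h (lin_Hm ex h _ μ _ _)) (fun j _ => measurable_uu c v _)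
    (fun j _ => abs_uu_le c v _) (fun j _ θ ω => ⟨?_, fun j' _ => ?_⟩)
    (x := fun j => y j.1 j.2) (x' := fun j => y' j.1 j.2)
    fun j hj => hy _ (mem_product.1 hj).1 _).1
  · have := (mem_Icc.1 (mem_product.1 hj).1).2
    omega
  · refine Hm_congr (shift_fst _ _ _ _) _ _ fun l i => ?_
    by_cases hi : ∃ b, i = jd c b
    · obtain ⟨b, rfl⟩ := hi
      simp only [xt_jd, Pi.zero_apply, zero_mul]
    · rw [gl_shift, if_neg fun h => ne_co c hi _ h.2.1, add_zero]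
  · simp only [uu, rS_congr (shift_fst j.1 (co c j.2) θ ω), zc_congr (shift_fst j.1 (co c j.2) θ ω)]

lemma X0_pB (μ : Fin N → ℝ) (x : ℕ → Fin N → ℝ) :
    (cLev ex h n).X0 (fun ω => Hm μ x c.w (cmap pB ω)) = (mLev ex h (unif _)).X0 (Hm μ x c.w) :=
  Lev.X0_cmap (L := cLev ex h n) (L' := mLev ex h (unif _)) rfl (fun e _ => mp_pB ex h e)
    (lin_Hm ex h (unif _) μ x c.w).1

lemma X0_F_zero (μ : Fin N → ℝ) :
    (cLev ex h n).X0 (F c v μ 0) = (mLev ex h (unif _)).X0 (Hm μ (xt c 0) c.w) := by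
  rw [← X0_pB c ex h]
  congr 1
  funext ω
  simp [F]

/-- The rotated Hamiltonian. -/
noncomputable def G (μ : Fin N → ℝ) (t s : ℕ → ℝ) (ω : Cfg (k + 2) (Oc N n)) : ℝ :=
  Hm μ (xt c t) c.w (cmap pB ω) +
    ∑ l ∈ Icc 1 k, s l * gl l (.inr (.inr ()) : Ic N n) ω * sg (rS (cmap pR ω))

lemma measurable_sg : Measurable fun ω : Cfg (k + 2) (Oc N n) => sg (rS (cmap pR ω)) :=
  (measurable_of_finite sg).comp measurable_rS'

lemma lin_G (μ : Fin N → ℝ) (t s : ℕ → ℝ) : (cLev ex h n).Lin (G c μ t s) :=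
  (lin_pB ex h (lin_Hm ex h _ μ _ _)).add (Lev.Lin.sum _ fun l _ =>
    ((lin_gl l _).const_mul _).mul_bdd measurable_sg 1 fun _ => (abs_sg _).le)

lemma G_eq (μ : Fin N → ℝ) (t : ℕ → ℝ) (ω : Cfg (k + 2) (Oc N n)) :
    G c μ t t ω = Hm μ (xt c 0) c.w (cmap pB ω) + ∑ l ∈ Icc 1 k, t l *
      ∑ a, gl l (co c a) ω *
        (Fin.insertNth c.a₀ (sg (rS (cmap pR ω))) (c.zc ω) : Fin (n + 1) → ℝ) a := by
  rw [G, Hm_xt, add_assoc, ← sum_add_distrib]
  congr 1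
  refine sum_congr rfl fun l _ => ?_
  rw [Fin.sum_univ_succAbove _ c.a₀, Fin.insertNth_apply_same, co_self, mul_add, mul_sum, add_comm,
    mul_assoc]
  congr 1
  refine sum_congr rfl fun b _ => ?_
  rw [Fin.insertNth_apply_succAbove, co_succ, mul_assoc]
  rfl

lemma F_eq_G (μ : Fin N → ℝ) (t : ℕ → ℝ) (ω : Cfg (k + 2) (Oc N n)) :
    F c v μ (fun l _ => t l) ω =
      G c μ t t (cmap (rot (hh (emb (co c) (Pi.single c.a₀ 1 - v)))) ω) := by
  have hf : ∀ e, (cmap (rot (hh (emb (co c) (Pi.single c.a₀ 1 - v)))) ω e).1 = (ω e).1 :=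
    fun _ => rfl
  rw [G_eq, F, rS_congr hf, zc_congr hf, sum_product]
  congr 1
  · refine (Hm_congr hf _ _ fun l i => ?_).symm
    by_cases hi : ∃ b, i = jd c b
    · obtain ⟨b, rfl⟩ := hi
      simp only [xt_jd, Pi.zero_apply, zero_mul]
    · rw [gl_rot, hh_emb_off _ _ (ne_co c hi)]
  · refine sum_congr rfl fun l _ => ?_
    simp only [gl_rot, hh_emb_co (co_inj c), hh_symm, mul_sum, mul_assoc]
    rfl

lemma X0_F_eq (μ : Fin N → ℝ) (t : ℕ → ℝ) :
    (cLev ex h n).X0 (F c v μ fun l _ => t l) = (cLev ex h n).X0 (G c μ t t) := by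
  rw [funext (F_eq_G c v μ t)]
  exact X0_rot (hh_mem _) (lin_G c ex h μ t t).1

lemma X0_G_le (μ : Fin N → ℝ) {t : ℕ → ℝ} (ht : ∀ l ∈ Icc 1 k, 0 ≤ t l) :
    (cLev ex h n).X0 (G c μ t t) ≤
      (mLev ex h (unif _)).X0 (Hm μ (xt c t) c.w) + ∑ l ∈ Icc 1 k, t l * t l := by
  have h1 := (amp_mono (Icc 1 k) id (fun _ => (.inr (.inr ()) : Ic N n))
    (c := fun _ ω => sg (rS (cmap pR ω))) (fun l hl => by have := (mem_Icc.1 hl).2; simp; omega)
    (fun _ _ _ _ h1 _ => h1)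
    (lin_pB ex h (lin_Hm ex h _ μ (xt c t) c.w)) (fun j _ => measurable_sg)
    (fun j _ _ => (abs_sg _).le) (fun j _ θ ω => ⟨Hm_congr (shift_fst _ _ _ _) _ _ fun l i => by
      rw [gl_shift, if_neg fun h => Sum.inl_ne_inr h.2.1, add_zero],
      fun j' _ => by rw [rS_congr (shift_fst _ _ θ ω)]⟩)
    (x := fun _ => 0) (x' := t) fun l hl => ⟨le_rfl, ht l hl⟩).2
  simp only [zero_mul, sum_const_zero, add_zero, sub_zero, id, sg_sq] at h1
  have h2 : (cLev ex h n).E0 (G c μ t t) (fun _ => 1) = 1 := Lev.E_const (lin_G c ex h μ t t) _ _ _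
  refine h1.trans_eq ?_
  congr 1
  · exact X0_pB c ex h μ _
  · refine sum_congr rfl fun l _ => ?_
    exact (congrArg _ h2).trans (mul_one _)

/-- Changing the parameters on the designated coordinates only. -/
lemma cmp {μ μ' : Fin N → ℝ} {x x' : ℕ → Fin N → ℝ} {a m : ℝ} (ha0 : 0 ≤ a)
    (hoff : ∀ i, (¬∃ b, i = jd c b) → μ' i = μ i ∧ ∀ l, x' l i = x l i)
    (ha : ∀ b, |μ' (jd c b) - μ (jd c b)| / 2 +
      ∑ l ∈ Icc 1 k, |x' l (jd c b) - x l (jd c b)| * |x' l (jd c b)| ≤ a)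
    (hm : ∀ b, (mLev ex h (unif _)).E0 (Hm μ' x' c.w) (fun ω => Y (jd c b) ω ^ 2) ≤ m) :
    (mLev ex h (unif _)).X0 (Hm μ' x' c.w) - (mLev ex h (unif _)).X0 (Hm μ x c.w) ≤ n * (a * m) := by
  refine (X0_Hm_sub_le ex h _ μ x c.w μ' x' c.w (d := 0) fun σ => (sub_self _).le).trans ?_
  rw [add_zero, sum_des (jd_inj c) (g := fun _ => 0) fun i hi => by
    simp [(hoff i hi).1, (hoff i hi).2]]
  simp only [sum_const_zero, zero_add, sub_zero]
  refine (sum_le_sum (g := fun _ => a * m) fun b _ => ?_).trans_eq (by simp)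
  exact mul_le_mul (ha b) (hm b) (Lev.E_nonneg (fun _ => sq_nonneg _) _ _) ha0

end CCr

end Crest.Agent.R164
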