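import Crest.Agent.R164.CavTransfer
import Crest.Agent.R164.CavCrudeAux

/-! # Row 164: adding a site changes the value by a bounded amount -/

set_option autoImplicit false

namespace Crest.Agent.R164

open MeasureTheory ProbabilityTheory Real Finset Crest.ProbabilityR.InvariantGlass

namespace CCr

variable {n N k : ℕ}

lemma sum_amp_le {s t : ℕ → ℝ} (hs : ∀ l ∈ Icc 1 k, 0 ≤ s l ∧ s l ≤ t l)
    (ht : ∑ l ∈ Icc 1 k, t l ≤ 1) : ∑ l ∈ Icc 1 k, |t l - s l| * |t l| ≤ 1 := by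
  refine le_trans (sum_le_sum fun l hl => ?_) ht
  have h0 : ∀ l ∈ Icc 1 k, 0 ≤ t l := fun l hl => (hs l hl).1.trans (hs l hl).2
  have h1 : t l ≤ 1 := (single_le_sum h0 hl).trans ht
  rw [abs_of_nonneg (sub_nonneg.2 (hs l hl).2), abs_of_nonneg (h0 l hl)]
  exact mul_le_of_le_one_left (h0 l hl) (by linarith [(hs l hl).1])

lemma lV_ge {lam : Fin (n + 1) → ℝ} {Λ : ℝ} (hΛ : ∀ a, |lam a| ≤ Λ) (a₀ : Fin (n + 1))
    (v : Fin (n + 1) → ℝ) (ε : Bool) (z : Fin n → ℝ) :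
    -(Λ / 2) - Λ * ∑ b, z b ^ 2 ≤ lV lam a₀ v ε z := by
  have h1 : ∑ a, -(Λ / 2) * uv a₀ v ε z a ^ 2 ≤ ∑ a, lam a * uv a₀ v ε z a ^ 2 / 2 :=
    sum_le_sum fun a _ => by nlinarith [(abs_le.1 (hΛ a)).1, sq_nonneg (uv a₀ v ε z a)]
  have h2 : ∑ b, lam (a₀.succAbove b) * z b ^ 2 / 2 ≤ ∑ b, Λ / 2 * z b ^ 2 :=
    sum_le_sum fun b _ => by nlinarith [(abs_le.1 (hΛ (a₀.succAbove b))).2, sq_nonneg (z b)]
  rw [← mul_sum, sum_uv_sq] at h1
  rw [← mul_sum] at h2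
  rw [lV]
  linarith

lemma lV_le {lam : Fin (n + 1) → ℝ} {M : ℝ} (hM : ∀ a, lam a ≤ M) (a₀ : Fin (n + 1))
    (v : Fin (n + 1) → ℝ) (ε : Bool) (z : Fin n → ℝ) :
    lV lam a₀ v ε z ≤ M / 2 + ∑ b, (M - lam (a₀.succAbove b)) * z b ^ 2 / 2 := by
  have h1 : ∑ a, lam a * uv a₀ v ε z a ^ 2 / 2 ≤ ∑ a, M / 2 * uv a₀ v ε z a ^ 2 :=
    sum_le_sum fun a _ => by nlinarith [hM a, sq_nonneg (uv a₀ v ε z a)]
  have h2 : ∑ b, (M - lam (a₀.succAbove b)) * z b ^ 2 / 2 =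
      M / 2 * ∑ b, z b ^ 2 - ∑ b, lam (a₀.succAbove b) * z b ^ 2 / 2 := by
    rw [mul_sum, ← sum_sub_distrib]
    exact sum_congr rfl fun b _ => by ring
  rw [← mul_sum, sum_uv_sq] at h1
  rw [lV, h2]
  linarith

variable {c : Cav n N} {lam : Fin (n + 1) → ℝ} {B : ℝ}

lemma abs_lam_le (hc : c.Ok k lam B 1) (a : Fin (n + 1)) : |c.lam' a| ≤ ∑ a, |lam a| + 1 := by
  have h1 := single_le_sum (f := fun a => |lam a|) (fun _ _ => abs_nonneg _) (mem_univ a)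
  have h2 := abs_sub_abs_le_abs_sub (c.lam' a) (lam a)
  linarith [hc.close a]

lemma x_nonneg (hc : c.Ok k lam B 1) {l : ℕ} (hl : l ∈ Icc 1 k) (a : Fin (n + 1)) : 0 ≤ c.x l a :=
  (hc.xmono l hl).1.trans ((hc.xmono l hl).2 (Fin.zero_le a))

lemma abs_rest_le (hc : c.Ok k lam B 1) (ω : Cfg (k + 2) (Oc N n)) :
    |frR (c.b + c.y₀) c.y (cmap pR ω) + c.c₀ + c.kT (rS (cmap pR ω)) (spn (cmap pB ω))| ≤
      3 * B + 1 := by
  have h1 := abs_frR_le (c.b + c.y₀) c.y (cmap pR ω)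
  have h2 := abs_add_le c.b c.y₀
  have h3 := abs_add_three (frR (c.b + c.y₀) c.y (cmap pR ω)) c.c₀
    (c.kT (rS (cmap pR ω)) (spn (cmap pB ω)))
  linarith [hc.hb, hc.hc, hc.hk (rS (cmap pR ω)) (spn (cmap pB ω)), hc.hy]

lemma div_card_le (hc : c.Ok k lam B 1) (hN : 2 * (n + 1) * (B + 1) ≤ N) (a : Fin (n + 1))
    {I : Finset (Fin N)} (hI : blk c.sp a ⊆ I) : (N : ℝ) / I.card ≤ 2 * (n + 1) := by
  have hB : 0 ≤ B := (abs_nonneg _).trans hc.hb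
  have h1 := (abs_le.1 (hc.bal a)).1
  have h2 : ((blk c.sp a).card : ℝ) ≤ I.card := by exact_mod_cast card_le_card hI
  have hn : (0 : ℝ) < n + 1 := by positivity
  have h3 : (N : ℝ) / (n + 1) * (n + 1) = N := div_mul_cancel₀ _ hn.ne'
  have h4 : 2 * (B + 1) ≤ (N : ℝ) / (n + 1) := by
    rw [le_div_iff₀ hn]; linarith
  rw [div_le_iff₀ (by linarith)]
  nlinarith

variable (ex : Expo (k + 2)) (h : Haar N) (v : Fin (n + 1) → ℝ)

lemma lower (hc : c.Ok k lam B 1) {Λ : ℝ} (hΛ : ∀ a, |c.lam' a| ≤ Λ)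
    (hN : 2 * (n + 1) * (B + 1) ≤ N) :
    (mLev ex h (unif _)).X0 c.Hb - (3 * B + 1 + Λ / 2) - n * ((Λ + 1) * (2 * (n + 1))) ≤
      (cLev ex h n).X0 (c.HS v) := by
  have hΛ0 : 0 ≤ Λ := (abs_nonneg _).trans (hΛ 0)
  have h1 : (cLev ex h n).X0 (fun ω => F c v (lt c fun a => c.lam' a - 2 * Λ) c.x ω +
      -(3 * B + 1 + Λ / 2)) ≤ (cLev ex h n).X0 (c.HS v) := by
    refine Lev.X0_mono (c.lin_HS ex h v).int ((lin_F c ex h v _ _).1.add_const _) fun ω => ?_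
    have h2 := (abs_le.1 (abs_rest_le hc ω)).1
    have h3 := lV_ge hΛ c.a₀ v (rS (cmap pR ω)) (c.zc ω)
    have h4 : ∑ b, (c.lam' (c.a₀.succAbove b) - 2 * Λ - c.lam' (c.a₀.succAbove b)) *
        Y (jd c b) (cmap pB ω) ^ 2 / 2 = -Λ * ∑ b, c.zc ω b ^ 2 := by
      rw [mul_sum]
      refine sum_congr rfl fun b _ => ?_
      rw [show c.zc ω b = Y (jd c b) (cmap pB ω) from rfl]
      ring
    rw [c.HS_eq, F, Hm_lt, ← loc_eq, h4]
    linarith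
  rw [Lev.X0_add_const (lin_F c ex h v _ _).int] at h1
  have h2 := F_mono c ex h v (lt c fun a => c.lam' a - 2 * Λ) (y := 0) (y' := c.x)
    fun l hl a => ⟨le_rfl, x_nonneg hc hl a⟩
  rw [X0_F_zero] at h2
  have h3 := cmp c ex h (μ := lt c fun a => c.lam' a - 2 * Λ) (μ' := fun i => c.lam' (c.sp i))
    (x := xt c 0) (x' := fun l i => c.x l (c.sp i)) (a := Λ + 1) (m := 2 * (n + 1))
    (by linarith) (fun i hi => ⟨(lt_off c _ hi).symm, fun l => (xt_off c _ l hi).symm⟩)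
    (fun b => ?_) fun b => ?_
  · have h4 : (c.Hb : Cfg (k + 2) (Om N) → ℝ) =
        Hm (fun i => c.lam' (c.sp i)) (fun l i => c.x l (c.sp i)) c.w := rfl
    rw [h4]
    linarith
  · simp only [lt_jd, xt_jd, sp_jd]
    refine add_le_add ?_ (sum_amp_le (fun l hl => ⟨le_rfl, x_nonneg hc hl _⟩) (hc.xsum _))
    rw [sub_sub_cancel, abs_of_nonneg (by linarith)]
    linarith
  · refine (E0_Y_sq_le ex h _ _ _ _ (I := blk c.sp (c.sp (jd c b))) (fun i hi j hj => ?_)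
      (mem_filter.2 ⟨mem_univ _, rfl⟩)).trans (div_card_le hc hN _ subset_rfl)
    rw [(mem_filter.1 hi).2, (mem_filter.1 hj).2]
    exact ⟨rfl, fun _ _ => rfl⟩

lemma upper (hc : c.Ok k lam B 1) {Λ : ℝ} (hΛ : ∀ a, |c.lam' a| ≤ Λ)
    (hN : 2 * (n + 1) * (B + 1) ≤ N) :
    (cLev ex h n).X0 (c.HS v) ≤
      (mLev ex h (unif _)).X0 c.Hb + (3 * B + 2 + Λ / 2) + n * ((Λ + 1) * (2 * (n + 1))) := by
  have hΛ0 : 0 ≤ Λ := (abs_nonneg _).trans (hΛ 0)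
  have hx : ∀ l ∈ Icc 1 k, ∀ a, 0 ≤ c.x l a ∧ c.x l a ≤ c.x l (Fin.last n) := fun l hl a =>
    ⟨x_nonneg hc hl a, (hc.xmono l hl).2 (Fin.le_last a)⟩
  have h1 : (cLev ex h n).X0 (c.HS v) ≤ (cLev ex h n).X0
      (fun ω => F c v (lt c fun _ => c.lam' (Fin.last n)) c.x ω + (3 * B + 1 + Λ / 2)) := by
    refine Lev.X0_mono ((lin_F c ex h v _ _).add (Lev.lin_const _)).int (c.lin_HS ex h v).1
      fun ω => ?_
    have h2 := (abs_le.1 (abs_rest_le hc ω)).2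
    have h3 := lV_le (fun a => hc.mono (Fin.le_last a)) c.a₀ v (rS (cmap pR ω)) (c.zc ω)
    have h4 : ∑ b, (c.lam' (Fin.last n) - c.lam' (c.a₀.succAbove b)) *
        Y (jd c b) (cmap pB ω) ^ 2 / 2 =
        ∑ b, (c.lam' (Fin.last n) - c.lam' (c.a₀.succAbove b)) * c.zc ω b ^ 2 / 2 := rfl
    have h5 := (abs_le.1 (hΛ (Fin.last n))).2
    rw [c.HS_eq, F, Hm_lt, ← loc_eq, h4]
    linarith
  rw [Lev.X0_add_const (lin_F c ex h v _ _).int] at h1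
  have h2 := F_mono c ex h v (lt c fun _ => c.lam' (Fin.last n)) (y := c.x)
    (y' := fun l _ => c.x l (Fin.last n)) hx
  rw [X0_F_eq] at h2
  have h3 := X0_G_le c ex h (lt c fun _ => c.lam' (Fin.last n)) (t := fun l => c.x l (Fin.last n))
    fun l hl => x_nonneg hc hl _
  have h4 : ∑ l ∈ Icc 1 k, c.x l (Fin.last n) * c.x l (Fin.last n) ≤ 1 := by
    refine le_trans (sum_le_sum fun l _ => ?_) (sum_amp_le (s := 0) (t := fun l => c.x l (Fin.last n))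
      (fun l hl => ⟨le_rfl, x_nonneg hc hl _⟩) (hc.xsum _))
    rw [Pi.zero_apply, sub_zero, abs_mul_abs_self]
  have h5 := cmp c ex h (μ' := lt c fun _ => c.lam' (Fin.last n)) (μ := fun i => c.lam' (c.sp i))
    (x' := xt c fun l => c.x l (Fin.last n)) (x := fun l i => c.x l (c.sp i)) (a := Λ + 1)
    (m := 2 * (n + 1)) (by linarith) (fun i hi => ⟨lt_off c _ hi, fun l => xt_off c _ l hi⟩)
    (fun b => ?_) fun b => ?_
  · have h6 : (c.Hb : Cfg (k + 2) (Om N) → ℝ) =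
        Hm (fun i => c.lam' (c.sp i)) (fun l i => c.x l (c.sp i)) c.w := rfl
    rw [h6]
    linarith
  · simp only [lt_jd, xt_jd, sp_jd]
    refine add_le_add ?_ (sum_amp_le (fun l hl => hx l hl _) (hc.xsum _))
    have := abs_sub (c.lam' (Fin.last n)) (c.lam' (c.a₀.succAbove b))
    linarith [hΛ (Fin.last n), hΛ (c.a₀.succAbove b)]
  · have key : ∀ i, (∃ b, i = jd c b) ∨ c.sp i = Fin.last n →
        lt c (fun _ => c.lam' (Fin.last n)) i = c.lam' (Fin.last n) ∧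
          ∀ l, xt c (fun l => c.x l (Fin.last n)) l i = c.x l (Fin.last n) := fun i hi => by
      by_cases h' : ∃ b, i = jd c b
      · obtain ⟨b, rfl⟩ := h'
        exact ⟨lt_jd c _ b, fun l => xt_jd c _ l b⟩
      · have h'' := hi.resolve_left h'
        exact ⟨by rw [lt_off c _ h', h''], fun l => by rw [xt_off c _ l h', h'']⟩
    refine (E0_Y_sq_le ex h _ _ _ _
      (I := univ.filter fun i => (∃ b, i = jd c b) ∨ c.sp i = Fin.last n) (fun i hi j hj => ?_)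
      (mem_filter.2 ⟨mem_univ _, Or.inl ⟨b, rfl⟩⟩)).trans (div_card_le hc hN (Fin.last n)
        fun i hi => mem_filter.2 ⟨mem_univ _, Or.inr (mem_filter.1 hi).2⟩)
    have h7 := key i (mem_filter.1 hi).2
    have h8 := key j (mem_filter.1 hj).2
    exact ⟨h7.1.trans h8.1.symm, fun l _ => (h7.2 l).trans (h8.2 l).symm⟩

end CCr

theorem crude_HS {n : ℕ} (lam : Fin (n + 1) → ℝ) (B : ℝ) : ∃ C : ℝ, ∀ (N k : ℕ) (ex : Expo (k + 2))
    (c : Cav n N) (h : Haar N), c.Ok k lam B 1 → C ≤ N → ∀ v : Fin (n + 1) → ℝ,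
    |(cLev ex h n).X0 (c.HS v) - (mLev ex h (unif _)).X0 c.Hb| ≤ C := by
  refine ⟨max (2 * (n + 1) * (B + 1)) (3 * B + 2 + (∑ a, |lam a| + 1) / 2 +
    n * ((∑ a, |lam a| + 1 + 1) * (2 * (n + 1)))), fun N k ex c h hc hN v => ?_⟩
  have h1 := CCr.lower ex h v hc (CCr.abs_lam_le hc) ((le_max_left _ _).trans hN)
  have h2 := CCr.upper ex h v hc (CCr.abs_lam_le hc) ((le_max_left _ _).trans hN)
  exact le_trans (abs_le.2 ⟨by linarith, by linarith⟩) (le_max_right _ _)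

theorem crude {n : ℕ} (lam : Fin (n + 1) → ℝ) (B : ℝ) : ∃ C : ℝ, ∀ (N k : ℕ) (ex : Expo (k + 2))
    (c : Cav n N) (h : Haar N) (h' : Haar (N + 1)), c.Ok k lam B 1 → C ≤ N →
    |(mLev ex h' (unif _)).X0 c.Hbig - (mLev ex h (unif _)).X0 c.Hb| ≤ C := by
  obtain ⟨C, hC⟩ := crude_HS lam B
  refine ⟨C, fun N k ex c h h' hc hN => ?_⟩
  let c' : Cav n N := { c with y₀ := 0, y := 0 }
  have hc' : c'.Ok k lam B 1 :=
    ⟨hc.mono, hc.close, hc.xmono, hc.xsum, hc.bal, hc.hb, hc.hc, hc.hk, rfl, by simp [c']⟩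
  obtain ⟨Φ, Φf, hΦ, -, hI, -, hU⟩ := c'.transfer ex h h'
  have e1 : (eLev ex h').X0 c'.Hx = (mLev ex h' (unif _)).X0 c.Hbig := X0_He_zero ex h' _ _ _
  have e2 : (c'.Hb : Cfg (k + 2) (Om N) → ℝ) = c.Hb := rfl
  have hb := fun U => abs_le.1 (hC N k ex c' h hc' hN (c'.vbar U))
  rw [e1] at hI
  rw [e2] at hb
  have hz := ex.pos 0
  have h1 : ∫ U, Φ U ∂h'.κ ≤ ∫ _U, exp (ex.ζ 0 * ((mLev ex h (unif _)).X0 c.Hb + C)) ∂h'.κ :=
    integral_mono hΦ (integrable_const _) fun U => (hU U).1.trans_le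
      (exp_le_exp.2 (mul_le_mul_of_nonneg_left (by linarith [(hb U).2]) hz.le))
  have h2 : ∫ _U, exp (ex.ζ 0 * ((mLev ex h (unif _)).X0 c.Hb - C)) ∂h'.κ ≤ ∫ U, Φ U ∂h'.κ :=
    integral_mono (integrable_const _) hΦ fun U => le_of_le_of_eq
      (exp_le_exp.2 (mul_le_mul_of_nonneg_left (by linarith [(hb U).1]) hz.le)) (hU U).1.symm
  rw [hI, integral_const, probReal_univ, one_smul, exp_le_exp] at h1 h2
  have h3 := le_of_mul_le_mul_left h1 hz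
  have h4 := le_of_mul_le_mul_left h2 hz
  exact abs_le.2 ⟨by linarith, by linarith⟩

end Crest.Agent.R164
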