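import Crest.Agent.R164.ModelBasic

/-! # Row 164: the cavity step (definitions) -/

set_option autoImplicit false

namespace Crest.Agent.R164

open MeasureTheory ProbabilityTheory Real Finset Crest.ProbabilityR.InvariantGlass

/-! The system of size `N + 1` with a coin at each level. -/

abbrev Oe (N : ℕ) : Type := (Zm N × Bool) × (Fin N → ℝ)

noncomputable def eLev {k N : ℕ} (ex : Expo (k + 2)) (h : Haar N) : Lev (k + 2) (Oe N) :=
  gLev ex (Fin N) (fun l => ((h.lev l).prod (unif (Fin N → Bool))).prod (unif Bool))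
    (fun _ => inferInstance)

def pE {N : ℕ} (_ : ℕ) (z : Oe N) : Om N := (z.1.1, z.2)

/-- The model with the extra field `y₀ + ∑ y l τ_l` on the site `0`. -/
noncomputable def He {k N : ℕ} (lam : Fin (N + 1) → ℝ) (x : ℕ → Fin (N + 1) → ℝ)
    (w : (Fin (N + 1) → Bool) → ℝ) (y₀ : ℝ) (y : ℕ → ℝ) (ω : Cfg (k + 2) (Oe (N + 1))) : ℝ :=
  Hm lam x w (cmap pE ω) +
    (y₀ + ∑ l ∈ Icc 1 k, y l * atl ω l fun z => sg z.1.2) * Sg 0 (cmap pE ω)

/-! The replica-symmetry-breaking space: cavity spin, coin, `n` Gaussian coordinates. -/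

abbrev Orb (n : ℕ) : Type := (Bool × Bool) × (Fin n → ℝ)

noncomputable def rLev {K : ℕ} (ex : Expo K) (n : ℕ) : Lev K (Orb n) :=
  gLev ex (Fin n) (fun _ => unif (Bool × Bool)) (fun _ => inferInstance)

/-- The cavity spin. -/
def rS {k n : ℕ} (ω : Cfg (k + 2) (Orb n)) : Bool := (ω (Fin.last (k + 1))).1.1

/-- The free cavity spin in the field `b + ∑ y l τ_l`. -/
noncomputable def frR {k n : ℕ} (b : ℝ) (y : ℕ → ℝ) (ω : Cfg (k + 2) (Orb n)) : ℝ :=
  (b + ∑ l ∈ Icc 1 k, y l * atl ω l fun z => sg z.1.2) * sg (rS ω)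

/-- The hierarchical Gaussian vector with standard deviations `sd l`. -/
noncomputable def zR {k n : ℕ} (sd : ℕ → Fin n → ℝ) (ω : Cfg (k + 2) (Orb n)) (b : Fin n) : ℝ :=
  ∑ l ∈ Icc 1 (k + 1), sd l b * gl l b ω

/-- The standard deviations attached to the sequence `s`. -/
noncomputable def sdv {n K : ℕ} (lam : Fin (n + 1) → ℝ) (ex : Expo K) (s : ℕ → ℝ) (a₀ : Fin (n + 1))
    (l : ℕ) (b : Fin n) : ℝ := √(sg2 lam ex s (a₀.succAbove b) l)

/-- The small Householder matrix with column `a₀` equal to `v`. -/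
noncomputable def Bv {n : ℕ} (a₀ : Fin (n + 1)) (v : Fin (n + 1) → ℝ) :
    Matrix (Fin (n + 1)) (Fin (n + 1)) ℝ := hh (Pi.single a₀ 1 - v)

/-- The typical column. -/
noncomputable def v0 (n : ℕ) : Fin (n + 1) → ℝ := fun _ => √(1 / (n + 1))

/-- The designated rotated coordinates. -/
noncomputable def uv {n : ℕ} (a₀ : Fin (n + 1)) (v : Fin (n + 1) → ℝ) (ε : Bool) (z : Fin n → ℝ) :
    Fin (n + 1) → ℝ := (Bv a₀ v).mulVec (Fin.insertNth a₀ (sg ε) z)

/-- The cavity energy. -/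
noncomputable def lV {n : ℕ} (lam : Fin (n + 1) → ℝ) (a₀ : Fin (n + 1)) (v : Fin (n + 1) → ℝ) (ε : Bool)
    (z : Fin n → ℝ) : ℝ :=
  ∑ a, lam a * uv a₀ v ε z a ^ 2 / 2 - ∑ b, lam (a₀.succAbove b) * z b ^ 2 / 2

/-- Smooth cut-off at scale `L`. -/
structure Cut {n : ℕ} (L : ℝ) (χ : (Fin n → ℝ) → ℝ) : Prop where
  smooth : ContDiff ℝ 2 χ
  mem : ∀ z, 0 ≤ χ z ∧ χ z ≤ 1
  one : ∀ z, (∀ b, |z b| ≤ L) → χ z = 1
  zero : ∀ z b, 2 * L ≤ |z b| → χ z = 0

/-- The truncated cavity energy. -/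
noncomputable def Psi {n : ℕ} (lam : Fin (n + 1) → ℝ) (a₀ : Fin (n + 1)) (δ : ℝ) (χ : (Fin n → ℝ) → ℝ)
    (ε : Bool) (z : Fin n → ℝ) : ℝ := log (δ + χ z * exp (lV lam a₀ (v0 n) ε z))

/-- Bounded, with bounded first and pure second derivatives, and stable under scalings. -/
def Smooth {n : ℕ} (Ψ : Bool → (Fin n → ℝ) → ℝ) (C : ℝ) : Prop :=
  ∃ Ψ₁ Ψ₂ : Bool → Fin n → (Fin n → ℝ) → ℝ,
    (∀ ε z, HasFDerivAt (Ψ ε)
      (∑ b, Ψ₁ ε b z • (ContinuousLinearMap.proj b : (Fin n → ℝ) →L[ℝ] ℝ)) z) ∧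
    (∀ ε b z, HasDerivAt (fun θ => Ψ₁ ε b (Function.update z b (z b + θ))) (Ψ₂ ε b z) 0) ∧
    (∀ ε b, Continuous (Ψ₁ ε b) ∧ Continuous (Ψ₂ ε b)) ∧
    (∀ ε z, |Ψ ε z| ≤ C) ∧ (∀ ε b z, |Ψ₁ ε b z| ≤ C ∧ |Ψ₂ ε b z| ≤ C) ∧
    ∀ ε z (t : Fin n → ℝ), (∀ b, 1 / 2 ≤ t b ∧ t b ≤ 2) →
      |Ψ ε (fun b => t b * z b) - Ψ ε z| ≤ C * ∑ b, |t b - 1|

/-! The cavity space: base system of size `N`, cavity spin and coin, `n` hierarchical coordinates and
the local field of the new eigen-direction. -/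

abbrev Ic (N n : ℕ) : Type := Fin N ⊕ (Fin n ⊕ Unit)
abbrev Oc (N n : ℕ) : Type := (Zm N × (Bool × Bool)) × (Ic N n → ℝ)

noncomputable def cLev {k N : ℕ} (ex : Expo (k + 2)) (h : Haar N) (n : ℕ) : Lev (k + 2) (Oc N n) :=
  gLev ex (Ic N n) (fun l => ((h.lev l).prod (unif (Fin N → Bool))).prod (unif (Bool × Bool)))
    (fun _ => inferInstance)

/-- Projection to the base system. -/
def pB {N n : ℕ} (_ : ℕ) (z : Oc N n) : Om N := (z.1.1, fun i => z.2 (.inl i))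

/-- Projection to the replica-symmetry-breaking space. -/
def pR {N n : ℕ} (_ : ℕ) (z : Oc N n) : Orb n := (z.1.2, fun b => z.2 (.inr (.inl b)))

/-- Embedding in the system of size `N + 1` with rotation `A (1 ⊕ W)`. -/
noncomputable def pS {N n : ℕ} (A : O (N + 1)) (l : ℕ) (z : Oc N n) : Oe (N + 1) :=
  (((if l = 0 then A * extO z.1.1.1 else 1, Fin.cons z.1.2.1 z.1.1.2), z.1.2.2),
    Fin.cons (z.2 (.inr (.inr ()))) fun i => z.2 (.inl i))

/-- Data of a cavity step. -/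
structure Cav (n N : ℕ) where
  sp' : Fin (N + 1) → Fin (n + 1)
  idx : Fin (n + 1) → Fin N
  hidx : ∀ a, sp' (idx a).succ = a
  lam' : Fin (n + 1) → ℝ
  x : ℕ → Fin (n + 1) → ℝ
  w' : (Fin (N + 1) → Bool) → ℝ
  w : (Fin N → Bool) → ℝ
  b : ℝ
  c₀ : ℝ
  y₀ : ℝ
  y : ℕ → ℝ

namespace Cav

variable {n N k : ℕ} (c : Cav n N)

/-- The added species. -/
def a₀ : Fin (n + 1) := c.sp' 0

/-- The labelling of the base system. -/
def sp (i : Fin N) : Fin (n + 1) := c.sp' i.succ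

/-- Designated coordinates in the big system. -/
def idx' (a : Fin (n + 1)) : Fin (N + 1) := if a = c.a₀ then 0 else (c.idx a).succ

/-- Base Hamiltonian. -/
noncomputable def Hb : Cfg (k + 2) (Om N) → ℝ :=
  Hm (fun i => c.lam' (c.sp i)) (fun l i => c.x l (c.sp i)) c.w

/-- Base Hamiltonian without the local fields on the designated coordinates. -/
noncomputable def Hb0 : Cfg (k + 2) (Om N) → ℝ :=
  Hm (fun i => c.lam' (c.sp i))
    (fun l i => if ∃ b : Fin n, i = c.idx (c.a₀.succAbove b) then 0 else c.x l (c.sp i)) c.w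

/-- Big Hamiltonian without extra field. -/
noncomputable def Hbig : Cfg (k + 2) (Om (N + 1)) → ℝ :=
  Hm (fun i => c.lam' (c.sp' i)) (fun l i => c.x l (c.sp' i)) c.w'

/-- Big Hamiltonian with extra field. -/
noncomputable def Hx : Cfg (k + 2) (Oe (N + 1)) → ℝ :=
  He (fun i => c.lam' (c.sp' i)) (fun l i => c.x l (c.sp' i)) c.w' c.y₀ c.y

/-- The remainder of the deterministic weight. -/
noncomputable def kT (ε : Bool) (σ : Fin N → Bool) : ℝ :=
  c.w' (Fin.cons ε σ) - c.w σ - c.b * sg ε - c.c₀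

/-- The big Householder matrix. -/
noncomputable def AO (v : Fin (n + 1) → ℝ) : O (N + 1) :=
  ⟨hh (Pi.single 0 1 - fun i => ∑ a, if i = c.idx' a then v a else 0), hh_mem _⟩

/-- Block norms of the first column. -/
noncomputable def vbar (U : O (N + 1)) (a : Fin (n + 1)) : ℝ := √(∑ i ∈ blk c.sp' a, U.1 i 0 ^ 2)

/-- The big system conditioned on the block norms `v`. -/
noncomputable def HS (v : Fin (n + 1) → ℝ) (ω : Cfg (k + 2) (Oc N n)) : ℝ :=
  c.Hx (cmap (pS (c.AO v)) ω)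

/-- The observable controlling the size of the designated coordinates. -/
noncomputable def fS (v : Fin (n + 1) → ℝ) (ω : Cfg (k + 2) (Oc N n)) : ℝ :=
  fr c.sp' 0 (cmap pE (cmap (pS (c.AO v)) ω))

/-- Designated coordinates of the base system. -/
noncomputable def zc (ω : Cfg (k + 2) (Oc N n)) (b : Fin n) : ℝ :=
  Y (c.idx (c.a₀.succAbove b)) (cmap pB ω)

/-- Random Gaussian directions in the blocks. -/
noncomputable def zg (ω : Cfg (k + 2) (Oc N n)) (b : Fin n) : ℝ :=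
  (∑ i ∈ blk c.sp (c.a₀.succAbove b), gl 0 (.inl i) ω * Y i (cmap pB ω)) /
    √(blk c.sp (c.a₀.succAbove b)).card

/-- Base system plus free cavity spin. -/
noncomputable def H0 (ω : Cfg (k + 2) (Oc N n)) : ℝ :=
  c.Hb (cmap pB ω) + frR (c.b + c.y₀) c.y (cmap pR ω)

/-- The local fields seen by the designated coordinates of the big system. -/
noncomputable def loc (v : Fin (n + 1) → ℝ) (ω : Cfg (k + 2) (Oc N n)) : ℝ :=
  ∑ l ∈ Icc 1 k, ∑ a, c.x l a *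
    gl l (if a = c.a₀ then (.inr (.inr ()) : Ic N n) else .inl (c.idx a)) ω *
      uv c.a₀ v (rS (cmap pR ω)) (c.zc ω) a

/-- Standing hypotheses. -/
structure Ok (k : ℕ) (lam : Fin (n + 1) → ℝ) (B σ₀ : ℝ) : Prop where
  mono : Monotone c.lam'
  close : ∀ a, |c.lam' a - lam a| ≤ σ₀
  xmono : ∀ l ∈ Icc 1 k, 0 ≤ c.x l 0 ∧ Monotone (c.x l)
  xsum : ∀ a, ∑ l ∈ Icc 1 k, c.x l a ≤ σ₀
  bal : Bal c.sp B
  hb : |c.b| ≤ B
  hc : |c.c₀| ≤ B
  hk : ∀ ε σ, |c.kT ε σ| ≤ B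
  y0 : c.y 0 = 0
  hy : |c.y₀| + ∑ l ∈ Icc 1 k, |c.y l| ≤ 1

end Cav

end Crest.Agent.R164
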