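import Crest.Agent.R164.CavDirAux

/-! # Row 164: from designated coordinates to Gaussian directions -/

set_option autoImplicit false

namespace Crest.Agent.R164

open MeasureTheory ProbabilityTheory Real Finset Crest.ProbabilityR.InvariantGlass

namespace CD

variable {n N k : ℕ} (ex : Expo (k + 2)) (c : Cav n N) (h : Haar N)
  {Ψ : Bool → (Fin n → ℝ) → ℝ} {C : ℝ}

/-- The Hamiltonian with rescaled designated coordinates. -/
noncomputable def G (Ψ : Bool → (Fin n → ℝ) → ℝ) (t : Fin n → ℝ) (ω : Cfg (k + 2) (Oc N n)) : ℝ :=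
  c.H0 ω + Ψ (rS (cmap pR ω)) fun b => t b * c.zc ω b

lemma meas_rS : Measurable fun ω : Cfg (k + 2) (Oc N n) => rS (cmap pR ω) :=
  measurable_rS.comp (NI.meas_cmap fun e _ => by unfold pR; fun_prop)

lemma bdd (hΨ : Smooth Ψ C) (ε : Bool) (z : Fin n → ℝ) : |Ψ ε z| ≤ C := by
  obtain ⟨_, _, -, -, -, h, -⟩ := hΨ
  exact h ε z

lemma lin_G (hΨ : Smooth Ψ C) (t : Fin n → ℝ) : (cLev ex h n).Lin (G c Ψ t) :=
  (c.lin_H0 ex h).add (Lev.lin_of_bdd (hΨ.measurable meas_rS (measurable_pi_iff.2 fun b =>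
    ((measurable_pi_apply b).comp c.measurable_zc).const_mul (t b))) C fun _ => bdd hΨ _ _)

/-- The value after integrating out the levels `≥ 1`. -/
noncomputable def W (Ψ : Bool → (Fin n → ℝ) → ℝ) (t : Fin n → ℝ) (z : Zm N × (Bool × Bool)) : ℝ :=
  (cLev ex h n).X 1 (G c Ψ t) (upd (cLev ex h n).pt 0 (z, 0))

lemma meas_W (hΨ : Smooth Ψ C) (t : Fin n → ℝ) : Measurable (W ex c h Ψ t) :=
  (NI.meas_upd (Lev.measurable_X (lin_G ex c h hΨ t).1 1) _ 0).comp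
    (measurable_id.prodMk measurable_const)

lemma X_rot (hΨ : Smooth Ψ C) (t : Fin n → ℝ) (D : O N) (ω : Cfg (k + 2) (Oc N n)) :
    (cLev ex h n).X 1 (fun ω => G c Ψ t (cmap (rot n D) ω)) ω = W ex c h Ψ t (rotZ D (ω 0).1) := by
  rw [Lev.X_cmap (L' := cLev ex h n) rfl (fun e he _ => mp_rot ex h D he) (lin_G ex c h hΨ t).1]
  refine Lev.dep_X 1 _ _ _ fun i hi => ?_
  have : i = 0 := Fin.ext (by simpa using hi)
  subst this
  simp [cmap, upd, rot]

lemma G_rot_one (t : Fin n → ℝ) (ω : Cfg (k + 2) (Oc N n)) :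
    G c Ψ t (cmap (rot n 1) ω) = G c Ψ t ω := by
  have h1 : IsBlk c.sp (1 : O N) := fun i i' hi =>
    Matrix.one_apply_ne (fun h => hi (congrArg _ h))
  unfold G Cav.zc
  rw [H0_rot c h1, rS_rot]
  simp [Y_rot]

lemma exp_X0_G (hΨ : Smooth Ψ C) (t : Fin n → ℝ) :
    exp (ex.ζ 0 * (cLev ex h n).X0 (G c Ψ t)) = ∫ z, exp (ex.ζ 0 * W ex c h Ψ t z)
      ∂((h.lev 0).prod (unif (Fin N → Bool))).prod (unif (Bool × Bool)) := by
  refine (Lev.exp_X0 (by omega) (lin_G ex c h hΨ t).int (cLev ex h n).pt).trans ?_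
  have h1 : ∀ x : Oc N n, (cLev ex h n).X 1 (G c Ψ t) (upd (cLev ex h n).pt 0 x) =
      W ex c h Ψ t x.1 := fun x => by
    have := X_rot ex c h hΨ t 1 (upd (cLev ex h n).pt 0 x)
    simp only [G_rot_one] at this
    rw [this]
    simp [rotZ, upd]
  simp only [h1]
  exact NI.integral_mp measurePreserving_fst ((meas_W ex c h hΨ t).const_mul _).exp

/-- The normalised block norms of the Gaussian directions. -/
noncomputable def tt (γ : Ic N n → ℝ) (b : Fin n) : ℝ :=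
  √(∑ i ∈ blk c.sp (c.a₀.succAbove b), γ (.inl i) ^ 2) / √(blk c.sp (c.a₀.succAbove b)).card

lemma exp_X0_zg (hΨ : Smooth Ψ C) :
    Integrable (fun γ => exp (ex.ζ 0 * (cLev ex h n).X0 (G c Ψ (tt c γ)))) (gam (Ic N n)) ∧
    exp (ex.ζ 0 * (cLev ex h n).X0 fun ω => c.H0 ω + Ψ (rS (cmap pR ω)) (c.zg ω)) =
      ∫ γ, exp (ex.ζ 0 * (cLev ex h n).X0 (G c Ψ (tt c γ))) ∂gam (Ic N n) := by
  have hL : (cLev ex h n).Lin fun ω => c.H0 ω + Ψ (rS (cmap pR ω)) (c.zg ω) :=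
    (c.lin_H0 ex h).add (Lev.lin_of_bdd (hΨ.measurable meas_rS c.measurable_zg) C
      fun _ => bdd hΨ _ _)
  have hi := hL.int.2 0 (by omega) (cLev ex h n).pt
  have key : ∀ γ : Ic N n → ℝ, ∫ z, exp ((cLev ex h n).ζ 0 * (cLev ex h n).X (0 + 1)
      (fun ω => c.H0 ω + Ψ (rS (cmap pR ω)) (c.zg ω)) (upd (cLev ex h n).pt 0 (z, γ)))
      ∂((h.lev 0).prod (unif (Fin N → Bool))).prod (unif (Bool × Bool)) =
      exp (ex.ζ 0 * (cLev ex h n).X0 (G c Ψ (tt c γ))) := by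
    intro γ
    obtain ⟨D, hD, hDγ⟩ := exists_blk_rot c.sp c.idx c.sp_idx fun i => γ (.inl i)
    have h1 : ∀ z, (cLev ex h n).X (0 + 1) (fun ω => c.H0 ω + Ψ (rS (cmap pR ω)) (c.zg ω))
        (upd (cLev ex h n).pt 0 (z, γ)) = W ex c h Ψ (tt c γ) (rotZ D z) := fun z => by
      refine Eq.trans ?_ (X_rot ex c h hΨ (tt c γ) D (upd (cLev ex h n).pt 0 (z, γ)))
      refine Lev.X_congr_loc _ _ fun ω hω => ?_
      have h0 : ω 0 = (z, γ) := hω 0 (by simp)
      unfold G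
      rw [H0_rot c hD, rS_rot]
      congr 2
      funext b
      have h2 : ∀ i, gl 0 (.inl i : Ic N n) ω = γ (.inl i) := fun i => by
        simp [gl, atl, h0]
      have h3 := hD.sum_mul (c.a₀.succAbove b) (fun i => γ (.inl i)) fun j => Y j (cmap pB ω)
      unfold Cav.zg Cav.zc tt
      simp only [h2]
      rw [← h3, Y_rot, sum_eq_single (c.idx (c.a₀.succAbove b)), hDγ, c.sp_idx, if_pos rfl]
      · ring
      · intro i hi hne
        rw [hDγ, (mem_filter.1 hi).2, if_neg hne, zero_mul]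
      · intro hne
        exact (hne (mem_filter.2 ⟨mem_univ _, c.sp_idx _⟩)).elim
    simp only [h1]
    rw [exp_X0_G ex c h hΨ]
    exact NI.integral_mp (mp_rotZ h D) ((meas_W ex c h hΨ _).const_mul _).exp
  refine ⟨?_, (Lev.exp_X0 (by omega) hL.int (cLev ex h n).pt).trans ?_⟩
  · simpa only [key] using Integrable.integral_prod_right hi
  · exact (integral_prod_symm _ hi).trans (by simp only [key])

lemma abs_X0_G_sub (hΨ : Smooth Ψ C) (t : Fin n → ℝ) :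
    |(cLev ex h n).X0 (G c Ψ t) - (cLev ex h n).X0 (G c Ψ 1)| ≤ 2 * C ∧
      |(cLev ex h n).X0 (G c Ψ t) - (cLev ex h n).X0 (G c Ψ 1)| ≤ 4 * C * ∑ b, |t b - 1| := by
  have hC : 0 ≤ C := (abs_nonneg _).trans (bdd hΨ true 0)
  have hs : 0 ≤ ∑ b, |t b - 1| := sum_nonneg fun _ _ => abs_nonneg _
  have h1 : |(cLev ex h n).X0 (G c Ψ t) - (cLev ex h n).X0 (G c Ψ 1)| ≤ 2 * C := by
    refine Lev.abs_X_sub_le (lin_G ex c h hΨ 1).int (lin_G ex c h hΨ t).1 (fun ω => ?_) 0 _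
    unfold G
    rw [add_sub_add_left_eq_sub, two_mul]
    exact (abs_sub _ _).trans (add_le_add (bdd hΨ _ _) (bdd hΨ _ _))
  refine ⟨h1, ?_⟩
  by_cases ht : ∀ b, 1 / 2 ≤ t b ∧ t b ≤ 2
  · refine Lev.abs_X_sub_le (lin_G ex c h hΨ 1).int (lin_G ex c h hΨ t).1 (fun ω => ?_) 0 _
    obtain ⟨_, _, -, -, -, -, -, h⟩ := hΨ
    unfold G
    rw [add_sub_add_left_eq_sub]
    simp only [Pi.one_apply, one_mul]
    refine (h _ _ t ht).trans ?_
    nlinarith [mul_nonneg hC hs]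
  · obtain ⟨b, hb⟩ := not_forall.1 ht
    have h2 : 1 / 2 ≤ |t b - 1| := by
      rcases not_and_or.1 hb with hb | hb
      · rw [le_abs]; right; linarith [not_le.1 hb]
      · rw [le_abs]; left; linarith [not_le.1 hb]
    have h3 : |t b - 1| ≤ ∑ b, |t b - 1| :=
      single_le_sum (f := fun b => |t b - 1|) (fun _ _ => abs_nonneg _) (mem_univ b)
    nlinarith

end CD

open CD in
theorem cav_dir (n : ℕ) (B C : ℝ) : ∃ C' : ℝ, 0 ≤ C' ∧ ∀ (N k : ℕ) (ex : Expo (k + 2)) (c : Cav n N)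
    (h : Haar N) (Ψ : Bool → (Fin n → ℝ) → ℝ), Smooth Ψ C → Bal c.sp B → C' ≤ N →
    |(cLev ex h n).X0 (fun ω => c.H0 ω + Ψ (rS (cmap pR ω)) (c.zc ω)) -
      (cLev ex h n).X0 (fun ω => c.H0 ω + Ψ (rS (cmap pR ω)) (c.zg ω))| ≤ C' / √N := by
  refine ⟨2 * (n + 1) * |B| + 1 + exp (2 * C) * (4 * |C| * (n * (2 * √(2 * (n + 1))))),
    by positivity, fun N k ex c h Ψ hΨ hB hN => ?_⟩
  have hC : 0 ≤ C := (abs_nonneg _).trans (bdd hΨ true 0)
  rw [abs_of_nonneg hC] at hN ⊢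
  have hp : 0 ≤ exp (2 * C) * (4 * C * (n * (2 * √(2 * (n + 1))))) := by positivity
  have hp' : 0 ≤ 2 * ((n : ℝ) + 1) * |B| := by positivity
  have hN0 : (0 : ℝ) < N := by linarith
  have hcard : ∀ a, (N : ℝ) / (2 * (n + 1)) ≤ (blk c.sp a).card := fun a => by
    have h1 := (abs_le.1 (hB a)).1
    have h2 : |B| ≤ N / (2 * (n + 1)) := by
      rw [le_div_iff₀ (by positivity)]; linarith
    have h3 : (N : ℝ) / (n + 1) = N / (2 * (n + 1)) + N / (2 * (n + 1)) := by field_simp; ring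
    linarith [le_abs_self B]
  have hdev := fun b : Fin n => integral_norm_dev (ι := Ic N n) (j := Sum.inl) Sum.inl_injective
    (I := blk c.sp (c.a₀.succAbove b)) (card_pos.1 (by
      have : (0 : ℝ) < (blk c.sp (c.a₀.succAbove b)).card := lt_of_lt_of_le (by positivity) (hcard _)
      exact_mod_cast this))
  have e1 : (fun ω => c.H0 ω + Ψ (rS (cmap pR ω)) (c.zc ω)) =
      (G c Ψ 1 : Cfg (k + 2) (Oc N n) → ℝ) := by
    funext ω; simp [G]
  obtain ⟨hi, he⟩ := exp_X0_zg ex c h hΨ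
  have hmain := abs_le_of_exp (μ := gam (Ic N n))
    (d := fun γ => (cLev ex h n).X0 (G c Ψ (tt c γ)) - (cLev ex h n).X0 (G c Ψ 1))
    (Δ := fun γ => 4 * C * ∑ b, |tt c γ b - 1|) (A := 2 * C)
    (y := (cLev ex h n).X0 (fun ω => c.H0 ω + Ψ (rS (cmap pR ω)) (c.zg ω)) -
      (cLev ex h n).X0 (G c Ψ 1)) (ex.pos 0) (ex.le_one 0)
    (fun γ => (abs_X0_G_sub ex c h hΨ _).1) (fun γ => (abs_X0_G_sub ex c h hΨ _).2)
    ((integrable_finsetSum _ fun b _ => (hdev b).1).const_mul _)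
    (by simp only [mul_sub, exp_sub]; exact hi.div_const _)
    (by simp only [mul_sub, exp_sub]; rw [he, integral_div])
  rw [e1, abs_sub_comm]
  refine hmain.trans ?_
  rw [integral_const_mul, integral_finsetSum (f := fun b γ => |tt c γ b - 1|) _
    fun b _ => (hdev b).1]
  have h1 : ∀ b : Fin n, ∫ γ, |tt c γ b - 1| ∂gam (Ic N n) ≤ 2 * √(2 * (n + 1)) / √N := fun b => by
    refine (hdev b).2.trans ?_
    have h2 := sqrt_le_sqrt (hcard (c.a₀.succAbove b))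
    rw [sqrt_div hN0.le] at h2
    calc 2 / √(blk c.sp (c.a₀.succAbove b)).card ≤ 2 / (√N / √(2 * (n + 1))) := by gcongr
      _ = _ := by field_simp
  have h2 : ∑ b : Fin n, ∫ γ, |tt c γ b - 1| ∂gam (Ic N n) ≤ n * (2 * √(2 * (n + 1)) / √N) := by
    simpa using sum_le_sum fun b (_ : b ∈ univ) => h1 b
  calc _ ≤ exp (2 * C) * (4 * C * (n * (2 * √(2 * (n + 1)) / √N))) := by gcongr
    _ = exp (2 * C) * (4 * C * (n * (2 * √(2 * (n + 1))))) / √N := by ring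
    _ ≤ _ := by gcongr; linarith

end Crest.Agent.R164
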