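import Crest.Agent.R164.CavPsi

/-! # Row 164: auxiliary facts for `CavDir` -/

set_option autoImplicit false

namespace Crest.Agent.R164.CD

open MeasureTheory ProbabilityTheory Real Finset Crest.ProbabilityR.InvariantGlass

/-- Comparison of an exponential moment with the first moment of a bound. -/
lemma abs_le_of_exp {α : Type} [MeasurableSpace α] {μ : Measure α} [IsProbabilityMeasure μ]
    {d Δ : α → ℝ} {A η y : ℝ} (hη : 0 < η) (hη1 : η ≤ 1) (hA : ∀ a, |d a| ≤ A)
    (hΔ : ∀ a, |d a| ≤ Δ a) (hi : Integrable Δ μ) (he : Integrable (fun a => exp (η * d a)) μ)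
    (hy : exp (η * y) = ∫ a, exp (η * d a) ∂μ) : |y| ≤ exp A * ∫ a, Δ a ∂μ := by
  set m := ∫ a, Δ a ∂μ with hm
  have hm0 : 0 ≤ m := integral_nonneg fun a => (abs_nonneg _).trans (hΔ a)
  obtain ⟨a₀⟩ := nonempty_of_isProbabilityMeasure μ
  have hA1 : 1 ≤ exp A := one_le_exp ((abs_nonneg _).trans (hA a₀))
  have hup : exp (η * y) ≤ exp (η * (exp A * m)) := by
    have h1 : ∀ a, exp (η * d a) ≤ 1 + η * exp A * Δ a := fun a => by
      have h2 : η * d a ≤ η * |d a| := mul_le_mul_of_nonneg_left (le_abs_self _) hη.le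
      have h3 : η * |d a| ≤ A := (mul_le_of_le_one_left (abs_nonneg _) hη1).trans (hA a)
      have h4 : 0 ≤ η * |d a| := by positivity
      have h5 := add_one_le_exp (-(η * |d a|))
      have h6 : exp (η * |d a|) * exp (-(η * |d a|)) = 1 := by rw [← exp_add]; simp
      have h7 := exp_pos (η * |d a|)
      have h8 : exp (η * |d a|) ≤ 1 + η * |d a| * exp (η * |d a|) := by nlinarith
      calc exp (η * d a) ≤ exp (η * |d a|) := exp_le_exp.2 h2
        _ ≤ 1 + η * |d a| * exp (η * |d a|) := h8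
        _ ≤ 1 + η * Δ a * exp A := by
          gcongr
          · exact mul_nonneg hη.le ((abs_nonneg _).trans (hΔ a))
          · exact hΔ a
        _ = _ := by ring
    rw [hy]
    refine (integral_mono he ((integrable_const 1).add (hi.const_mul _)) h1).trans ?_
    simp only [Pi.add_apply]
    rw [integral_add (integrable_const 1) (hi.const_mul _), integral_const_mul]
    simp only [integral_const, probReal_univ, smul_eq_mul, mul_one]
    have := add_one_le_exp (η * (exp A * m))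
    linarith
  have hlo : exp (η * -m) ≤ exp (η * y) := by
    have h1 : ∀ a, exp (η * -m) * (1 + η * m - η * Δ a) ≤ exp (η * d a) := fun a => by
      have h2 : η * -m + (η * m - η * Δ a) ≤ η * d a := by
        have := (abs_le.1 (hΔ a)).1
        nlinarith
      refine le_trans ?_ (exp_le_exp.2 h2)
      rw [exp_add]
      gcongr
      linarith [add_one_le_exp (η * m - η * Δ a)]
    rw [hy]
    refine le_trans (le_of_eq ?_) (integral_mono
      (((integrable_const (1 + η * m)).sub (hi.const_mul η)).const_mul _) he h1)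
    simp only [Pi.sub_apply]
    rw [integral_const_mul, integral_sub (integrable_const _) (hi.const_mul η), integral_const_mul]
    simp [hm]
  rw [exp_le_exp, mul_le_mul_iff_right₀ hη] at hup hlo
  rw [abs_le]
  constructor <;> nlinarith

lemma integral_chi {ι : Type} [Fintype ι] :
    Integrable (fun g : ι → ℝ => (∑ i, g i ^ 2 - Fintype.card ι) ^ 2) (gam ι) ∧
      ∫ g, (∑ i, g i ^ 2 - Fintype.card ι) ^ 2 ∂gam ι = 2 * Fintype.card ι := by
  have hm : ∀ i : ι, MemLp (fun g : ι → ℝ => g i ^ 2) 2 (gam ι) := fun i =>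
    GA.memLp_sq_gauss.comp_measurePreserving (gam_eval i)
  have h1 : MemLp (∑ i, fun g : ι → ℝ => g i ^ 2) 2 (gam ι) := memLp_finsetSum' _ fun i _ => hm i
  have h3 : Var[∑ i, fun g : ι → ℝ => g i ^ 2; gam ι] = 2 * Fintype.card ι := by
    rw [gam, variance_sum_pi (X := fun _ s => s ^ 2) (fun _ => GA.memLp_sq_gauss)]
    simp [GA.variance_sq_gauss, mul_comm]
  have h4 : ∫ g, (∑ i, fun g : ι → ℝ => g i ^ 2) g ∂gam ι = Fintype.card ι := by
    simp only [Finset.sum_apply]
    rw [integral_finsetSum _ fun i _ => (hm i).integrable one_le_two]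
    have : ∀ i : ι, ∫ g : ι → ℝ, g i ^ 2 ∂gam ι = 1 := fun i => by
      rw [← GA.integral_sq_gauss, ← (gam_eval i).map_eq,
        integral_map (gam_eval i).measurable.aemeasurable (by fun_prop)]
    simp [this]
  rw [variance_eq_integral h1.aemeasurable, h4] at h3
  have h5 := (h1.sub (memLp_const (Fintype.card ι : ℝ))).integrable_sq
  simp only [Finset.sum_apply, Pi.sub_apply] at h3 h5
  exact ⟨h5, h3⟩

/-- The normalised norm of a block of Gaussians is close to `1`. -/
lemma integral_norm_dev {ι κ : Type} [Fintype ι] {j : κ → ι} (hj : Function.Injective j)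
    {I : Finset κ} (hI : I.Nonempty) :
    Integrable (fun g : ι → ℝ => |√(∑ i ∈ I, g (j i) ^ 2) / √I.card - 1|) (gam ι) ∧
      ∫ g, |√(∑ i ∈ I, g (j i) ^ 2) / √I.card - 1| ∂gam ι ≤ 2 / √I.card := by
  have hmp := gam_comp (ι := ι) (κ := I) (j := fun i => j i.1) (hj.comp Subtype.val_injective)
  obtain ⟨h1, h2⟩ := integral_chi (ι := I)
  have h3 := hmp.integrable_comp_of_integrable h1
  rw [← NI.integral_mp hmp (by fun_prop)] at h2
  have e : ∀ g : ι → ℝ, ∑ i : I, g (j i) ^ 2 = ∑ i ∈ I, g (j i) ^ 2 := fun g =>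
    Finset.sum_coe_sort I (fun i => g (j i) ^ 2)
  simp only [Function.comp_def, Fintype.card_coe, e] at h2 h3
  have hc : (0 : ℝ) < I.card := by exact_mod_cast hI.card_pos
  set s := √(I.card : ℝ) with hs
  have hs0 : 0 < s := sqrt_pos.2 hc
  have hs2 : (I.card : ℝ) = s ^ 2 := (sq_sqrt hc.le).symm
  clear_value s
  clear hs
  have hb : ∀ g : ι → ℝ, |√(∑ i ∈ I, g (j i) ^ 2) / s - 1| ≤
      1 / (2 * s ^ 3) * (∑ i ∈ I, g (j i) ^ 2 - I.card) ^ 2 + 1 / (2 * s) := fun g => by
    set r := √(∑ i ∈ I, g (j i) ^ 2) with hr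
    have hr0 : 0 ≤ r := sqrt_nonneg _
    have hr2 : ∑ i ∈ I, g (j i) ^ 2 = r ^ 2 := (sq_sqrt (sum_nonneg fun _ _ => sq_nonneg _)).symm
    clear_value r
    clear hr
    rw [hr2, hs2]
    have e1 : r / s - 1 = (r - s) / s := by field_simp
    have e2 : 1 / (2 * s ^ 3) * (r ^ 2 - s ^ 2) ^ 2 + 1 / (2 * s) =
        (((r ^ 2 - s ^ 2) / s) ^ 2 + 1) / 2 / s := by field_simp
    rw [e1, e2, abs_div, abs_of_pos hs0]
    refine div_le_div_of_nonneg_right ?_ hs0.le
    have h4 : |r - s| ≤ |(r ^ 2 - s ^ 2) / s| := by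
      rw [abs_div, abs_of_pos hs0, le_div_iff₀ hs0, show r ^ 2 - s ^ 2 = (r - s) * (r + s) by ring,
        abs_mul, abs_of_pos (by positivity : 0 < r + s)]
      gcongr; linarith
    rw [← sq_abs ((r ^ 2 - s ^ 2) / s)]
    nlinarith [sq_nonneg (|(r ^ 2 - s ^ 2) / s| - 1)]
  have hi := (h3.const_mul (1 / (2 * s ^ 3))).add (integrable_const (1 / (2 * s)))
  have hi' : Integrable (fun g : ι → ℝ => |√(∑ i ∈ I, g (j i) ^ 2) / s - 1|) (gam ι) :=
    hi.mono' (Continuous.aestronglyMeasurable (by fun_prop)) (ae_of_all _ fun g => by rw [Real.norm_eq_abs, abs_abs]; exact hb g)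
  refine ⟨hi', (integral_mono hi' hi hb).trans ?_⟩
  simp only [Pi.add_apply]
  rw [integral_add (h3.const_mul _) (integrable_const _), integral_const_mul, h2, hs2]
  simp only [integral_const, probReal_univ, smul_eq_mul, one_mul]
  have : 1 / (2 * s ^ 3) * (2 * s ^ 2) + 1 / (2 * s) = 3 / 2 / s := by field_simp; ring
  rw [this]
  gcongr
  norm_num

variable {n N k : ℕ}

/-- Rotation of the base coordinates. -/
noncomputable def rotG (n : ℕ) (D : O N) (g : Ic N n → ℝ) : Ic N n → ℝ :=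
  (Matrix.fromBlocks D.1 0 0 (1 : Matrix (Fin n ⊕ Unit) (Fin n ⊕ Unit) ℝ)).mulVec g

lemma rotG_inl (D : O N) (g : Ic N n → ℝ) (i : Fin N) :
    rotG n D g (.inl i) = D.1.mulVec (fun j => g (.inl j)) i := by
  simp [rotG, Matrix.fromBlocks_mulVec, Function.comp_def]

lemma mp_rotG (D : O N) : MeasurePreserving (rotG n D) (gam (Ic N n)) (gam (Ic N n)) := by
  refine gam_mulVec ?_
  have h1 : D.1 * D.1.transpose = 1 := (Matrix.mem_orthogonalGroup_iff _ ℝ).1 D.2
  rw [Matrix.mem_orthogonalGroup_iff, Matrix.fromBlocks_transpose, Matrix.fromBlocks_multiply]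
  simp [h1]

/-- Rotation of the level-`0` non-Gaussian variable. -/
def rotZ (D : O N) (z : Zm N × (Bool × Bool)) : Zm N × (Bool × Bool) := ((D * z.1.1, z.1.2), z.2)

/-- The levelwise rotation (it also forgets the Gaussians of level `0`). -/
noncomputable def rot (n : ℕ) (D : O N) (e : ℕ) (x : Oc N n) : Oc N n :=
  if e = 0 then (rotZ D x.1, 0) else (x.1, rotG n D x.2)

lemma mp_rot (ex : Expo (k + 2)) (h : Haar N) (D : O N) {e : ℕ} (he : 1 ≤ e) :
    MeasurePreserving (rot n D e) ((cLev ex h n).μ e) ((cLev ex h n).μ e) := by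
  have : rot n D e = Prod.map id (rotG n D) := by
    funext x; simp [rot, show e ≠ 0 by omega]; rfl
  rw [this]
  exact (MeasurePreserving.id _).prod (mp_rotG D)

lemma mp_rotZ (h : Haar N) (D : O N) : MeasurePreserving (rotZ D)
    (((h.lev 0).prod (unif (Fin N → Bool))).prod (unif (Bool × Bool)))
    (((h.lev 0).prod (unif (Fin N → Bool))).prod (unif (Bool × Bool))) :=
  ((h.left D).prod (MeasurePreserving.id _)).prod (MeasurePreserving.id _)

lemma spn_rot (D : O N) (ω : Cfg (k + 2) (Oc N n)) :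
    spn (cmap pB (cmap (rot n D) ω)) = spn (cmap pB ω) := by
  simp [spn, cmap, pB, rot]

lemma Y_rot (D : O N) (ω : Cfg (k + 2) (Oc N n)) (i : Fin N) :
    Y i (cmap pB (cmap (rot n D) ω)) = D.1.mulVec (fun j => Y j (cmap pB ω)) i := by
  unfold Y
  rw [spn_rot, ← yv_mul]
  rfl

lemma gl_rot (D : O N) (ω : Cfg (k + 2) (Oc N n)) {l : ℕ} (hl : l ∈ Icc 1 k) (i : Fin N) :
    gl l i (cmap pB (cmap (rot n D) ω)) = D.1.mulVec (fun j => gl l j (cmap pB ω)) i := by
  have h1 := mem_Icc.1 hl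
  have h2 : l < k + 2 := by omega
  simp [gl, atl, h2, cmap, pB, rot, show l ≠ 0 by omega, rotG_inl]

lemma rS_rot (D : O N) (ω : Cfg (k + 2) (Oc N n)) :
    rS (cmap pR (cmap (rot n D) ω)) = rS (cmap pR ω) := by
  simp [rS, cmap, pR, rot]

lemma frR_rot (D : O N) (ω : Cfg (k + 2) (Oc N n)) (b : ℝ) (y : ℕ → ℝ) :
    frR b y (cmap pR (cmap (rot n D) ω)) = frR b y (cmap pR ω) := by
  unfold frR
  rw [rS_rot]
  congr 2
  refine sum_congr rfl fun l hl => ?_
  have h1 := mem_Icc.1 hl
  have h2 : l < k + 2 := by omega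
  simp [atl, h2, cmap, pR, rot, show l ≠ 0 by omega]

lemma H0_rot (c : Cav n N) {D : O N} (hD : IsBlk c.sp D) (ω : Cfg (k + 2) (Oc N n)) :
    c.H0 (cmap (rot n D) ω) = c.H0 ω := by
  unfold Cav.H0 Cav.Hb Hm
  rw [frR_rot, spn_rot]
  congr 3
  · have := hD.sum_mul' (fun a => c.lam' a / 2) (fun j => Y j (cmap pB ω)) (fun j => Y j (cmap pB ω))
    simp only [Y_rot]
    convert this using 2 <;> ring
  · refine sum_congr rfl fun l hl => ?_
    simp only [Y_rot, gl_rot D ω hl]
    exact hD.sum_mul' (c.x l) _ _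

end Crest.Agent.R164.CD
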