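import Crest.Agent.R164.NestInt

/-! # Row 164: comparison of two Hamiltonians `H` and `H + k` -/

set_option autoImplicit false

namespace Crest.Agent.R164

open MeasureTheory ProbabilityTheory Real Finset

namespace Lev

variable {K : ℕ} {Ω : Type} [MeasurableSpace Ω] {L : Lev K Ω} {H f k : Cfg K Ω → ℝ}

/-- Downward induction on the level. -/
lemma ineq_down_ind {P : ℕ → Prop} (h0 : ∀ l, K ≤ l → P l) (h1 : ∀ l, l < K → P (l + 1) → P l)
    (l : ℕ) : P l := by
  induction h : K - l generalizing l with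
  | zero => exact h0 l (by omega)
  | succ n ih => exact h1 l (by omega) (ih (l + 1) (by omega))

/-- The increment of the nested power mean. -/
noncomputable def incr (L : Lev K Ω) (l : ℕ) (H k : Cfg K Ω → ℝ) (ω : Cfg K Ω) : ℝ :=
  L.X l (fun ω => H ω + k ω) ω - L.X l H ω

lemma lin_incr (hH : L.Lin H) (hk : L.Lin k) (l : ℕ) : L.Lin (L.incr l H k) :=
  ((hH.add hk).X l).sub (hH.X l)

lemma dep_incr (l : ℕ) : Dep l (L.incr l H k) := fun ω ω' h => by
  simp only [incr, dep_X l _ ω ω' h]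

lemma incr_of_ge {l : ℕ} (h : K ≤ l) : L.incr l H k = k := by
  funext ω; simp [incr, X_of_ge _ h]

lemma ineq_exp_X {G : Cfg K Ω → ℝ} (hG : L.Lin G) {l : ℕ} (hl : l < K) (ω : Cfg K Ω) :
    exp (L.ζ l * L.X l G ω) = ∫ x, exp (L.ζ l * L.X (l + 1) G (upd ω l x)) ∂L.μ l := by
  rw [X_of_lt _ hl, T, ← mul_assoc, mul_inv_cancel₀ (L.pos l).ne', one_mul,
    exp_log (integral_exp_pos (hG.int.2 l hl ω))]

/-- The one-step identity. -/
lemma E_exp_incr (hH : L.Lin H) (hk : L.Lin k) {l : ℕ} (hl : l < K) (ω : Cfg K Ω) :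
    L.E l H (fun ω' => exp (L.ζ l * (L.incr (l + 1) H k ω' - L.incr l H k ω))) ω = 1 := by
  have hd : Dep (l + 1) fun ω' => exp (L.ζ l * (L.incr (l + 1) H k ω' - L.incr l H k ω)) :=
    fun ω₁ ω₂ h => by simp only [dep_incr (l + 1) ω₁ ω₂ h]
  rw [E_of_lt _ hl]
  simp only [E_dep hH hd]
  have h1 : ∀ x, exp (L.ζ l * (L.X (l + 1) H (upd ω l x) - L.X l H ω)) *
      exp (L.ζ l * (L.incr (l + 1) H k (upd ω l x) - L.incr l H k ω)) =
      exp (L.ζ l * L.X (l + 1) (fun ω => H ω + k ω) (upd ω l x)) /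
        exp (L.ζ l * L.X l (fun ω => H ω + k ω) ω) := fun x => by
    rw [← exp_add, ← exp_sub]; congr 1; simp only [incr]; ring
  simp only [h1]
  rw [integral_div, ← ineq_exp_X (hH.add hk) hl, div_self (exp_pos _).ne']

lemma ineq_exp_le {r : ℝ} (h0 : 0 ≤ r) (h1 : r ≤ 1) (x : ℝ) :
    exp (r * x) ≤ r * exp x + (1 - r) := by
  have := convexOn_exp.2 (Set.mem_univ x) (Set.mem_univ 0) h0 (sub_nonneg.2 h1) (by ring)
  simpa using this

lemma nice_exp_incr (hH : L.Lin H) (hk : L.Lin k) (l : ℕ) (a c : ℝ) :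
    L.Nice fun ω' => exp (a * (L.incr l H k ω' - c)) :=
  (((lin_incr hH hk l).sub (lin_const c)).const_mul a).exp

lemma E_exp_incr_split (l : ℕ) (a : ℝ) (ω : Cfg K Ω) :
    L.E l H (fun ω' => exp (a * L.incr (l + 1) H k ω')) ω = exp (a * L.incr l H k ω) *
      L.E l H (fun ω' => exp (a * (L.incr (l + 1) H k ω' - L.incr l H k ω))) ω := by
  rw [← E_const_mul]
  congr 1
  funext ω'
  rw [← exp_add]; congr 1; ring

lemma E_exp_incr_le (hH : L.Lin H) (hk : L.Lin k) {l : ℕ} (hl : l < K) {a : ℝ} (h0 : 0 ≤ a)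
    (h1 : a ≤ L.ζ l) (ω : Cfg K Ω) :
    L.E l H (fun ω' => exp (a * L.incr (l + 1) H k ω')) ω ≤ exp (a * L.incr l H k ω) := by
  rw [E_exp_incr_split]
  refine mul_le_of_le_one_right (exp_pos _).le ?_
  have hz := L.pos l
  have hn := nice_exp_incr hH hk (l + 1) (L.ζ l) (L.incr l H k ω)
  have h2 := E_mono hH (nice_exp_incr hH hk (l + 1) a (L.incr l H k ω))
    ((hn.const_mul (a / L.ζ l)).add (nice_const (1 - a / L.ζ l))) (fun ω' => by
      have := ineq_exp_le (div_nonneg h0 hz.le) ((div_le_one hz).2 h1)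
        (L.ζ l * (L.incr (l + 1) H k ω' - L.incr l H k ω))
      rwa [← mul_assoc, div_mul_cancel₀ _ hz.ne'] at this) l ω
  rw [E_add hH (hn.const_mul _) (nice_const _), E_const_mul, E_exp_incr hH hk hl,
    E_const hH] at h2
  linarith

lemma le_E_exp_incr (hH : L.Lin H) (hk : L.Lin k) {l : ℕ} (hl : l < K) {a : ℝ}
    (h1 : L.ζ l ≤ a) (ω : Cfg K Ω) :
    exp (a * L.incr l H k ω) ≤ L.E l H (fun ω' => exp (a * L.incr (l + 1) H k ω')) ω := by
  rw [E_exp_incr_split]
  refine le_mul_of_one_le_right (exp_pos _).le ?_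
  have hz := L.pos l
  have ha : 0 < a := hz.trans_le h1
  have hn := nice_exp_incr hH hk (l + 1) a (L.incr l H k ω)
  have h2 := E_mono hH (nice_exp_incr hH hk (l + 1) (L.ζ l) (L.incr l H k ω))
    ((hn.const_mul (L.ζ l / a)).add (nice_const (1 - L.ζ l / a))) (fun ω' => by
      have := ineq_exp_le (div_nonneg hz.le ha.le) ((div_le_one ha).2 h1)
        (a * (L.incr (l + 1) H k ω' - L.incr l H k ω))
      rwa [← mul_assoc, div_mul_cancel₀ _ ha.ne'] at this) l ω
  rw [E_add hH (hn.const_mul _) (nice_const _), E_const_mul, E_exp_incr hH hk hl,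
    E_const hH] at h2
  have h3 : 0 < L.ζ l / a := div_pos hz ha
  refine le_of_mul_le_mul_left ?_ h3
  linarith

lemma E_le_incr (hH : L.Lin H) (hk : L.Lin k) (l : ℕ) : ∀ ω, L.E l H k ω ≤ L.incr l H k ω := by
  refine ineq_down_ind (K := K) (P := fun l => ∀ ω, L.E l H k ω ≤ L.incr l H k ω) ?_ ?_ l
  · intro l hl ω
    rw [E_of_ge _ hl, incr_of_ge hl]
  · intro l hl ih ω
    have hi := lin_incr hH hk (l + 1)
    have h1 := E_mono hH (hk.nice.E hH (l + 1)) hi.nice ih l ω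
    rw [E_E hH hk.nice (Nat.le_succ l)] at h1
    have h2 := E_mono hH (((hi.sub (lin_const (L.incr l H k ω))).const_mul (L.ζ l)).nice.add
      (nice_const 1)) (nice_exp_incr hH hk (l + 1) (L.ζ l) (L.incr l H k ω))
      (fun ω' => add_one_le_exp _) l ω
    rw [E_add hH ((hi.sub (lin_const _)).const_mul _).nice (nice_const _), E_const_mul,
      E_sub hH hi.nice (nice_const _), E_exp_incr hH hk hl, E_const hH, E_const hH] at h2
    have h3 : L.E l H (L.incr (l + 1) H k) ω - L.incr l H k ω ≤ 0 := by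
      have hz := L.pos l
      by_contra h
      have := mul_pos hz (not_le.1 h)
      linarith
    linarith

lemma incr_mem (hH : L.Lin H) (hk : Measurable k) {a b : ℝ} (h : ∀ ω, a ≤ k ω ∧ k ω ≤ b) (l : ℕ)
    (ω : Cfg K Ω) : a ≤ L.incr l H k ω ∧ L.incr l H k ω ≤ b := by
  have hkl : L.Lin k := lin_of_bdd hk (max |a| |b|) fun ω => abs_le_max_abs_abs (h ω).1 (h ω).2
  have h1 := (Int.mono (hH.add hkl).int (hH.add (lin_const a)).1
    (fun ω => by linarith [(h ω).1])).2 l ω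
  have h2 := (Int.mono (hH.add (lin_const b)).int (hH.add hkl).1
    (fun ω => by linarith [(h ω).2])).2 l ω
  rw [(hH.int.add_const a).2] at h1
  rw [(hH.int.add_const b).2] at h2
  constructor <;> simp only [incr] <;> linarith

lemma ineq_two_add_sq_le (x : ℝ) : 2 + x ^ 2 ≤ exp x + exp (-x) := by
  have h1 : |x / 2| ≤ |sinh (x / 2)| := by
    rw [abs_sinh]; exact self_le_sinh_iff.2 (abs_nonneg _)
  have h2 : (x / 2) ^ 2 ≤ sinh (x / 2) ^ 2 := sq_le_sq.2 h1
  have h3 : exp x = exp (x / 2) * exp (x / 2) := by rw [← exp_add]; congr 1; ring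
  have h4 : exp (-x) = exp (-(x / 2)) * exp (-(x / 2)) := by rw [← exp_add]; congr 1; ring
  have h5 : exp (x / 2) * exp (-(x / 2)) = 1 := by rw [← exp_add]; simp
  rw [sinh_eq] at h2
  nlinarith

/-- Tangent inequality (Jensen). -/
lemma X_add_ge (hH : L.Lin H) (hk : L.Lin k) (l : ℕ) (ω : Cfg K Ω) :
    L.X l H ω + L.E l H k ω ≤ L.X l (fun ω => H ω + k ω) ω := by
  have := E_le_incr hH hk l ω
  simp only [incr] at this
  linarith

lemma X0_add_ge (hH : L.Lin H) (hk : L.Lin k) :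
    L.X0 H + L.E0 H k ≤ L.X0 (fun ω => H ω + k ω) := by
  exact X_add_ge hH hk 0 L.pt

/-- The tangent inequality seen from the other end. -/
lemma X0_add_le (hH : L.Lin H) (hk : L.Lin k) :
    L.X0 (fun ω => H ω + k ω) ≤ L.X0 H + L.E0 (fun ω => H ω + k ω) k := by
  have h := X0_add_ge (hH.add hk) hk.neg
  simp only [add_neg_cancel_right] at h
  have h2 : L.E0 (fun ω => H ω + k ω) (fun ω => -k ω) = -L.E0 (fun ω => H ω + k ω) k :=
    E_neg _ _ _ _
  rw [h2] at h
  have h3 : L.X0 (fun ω => H ω) = L.X0 H := rfl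
  linarith

/-- The same for two Hamiltonians. -/
lemma X0_sub_le {G : Cfg K Ω → ℝ} (hH : L.Lin H) (hG : L.Lin G) :
    L.X0 G - L.X0 H ≤ L.E0 G (fun ω => G ω - H ω) := by
  have h := X0_add_le hH (hG.sub hH)
  simp only [add_sub_cancel] at h
  have h3 : L.X0 (fun ω => G ω) = L.X0 G := rfl
  have h4 : L.E0 (fun ω => G ω) = L.E0 G := rfl
  rw [h3, h4] at h
  linarith

/-- All exponents are at least `ζ 0`. -/
lemma exp_X0_add_ge (hH : L.Lin H) (hk : L.Lin k) :
    exp (L.ζ 0 * L.X0 H) * L.E0 H (fun ω => exp (L.ζ 0 * k ω)) ≤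
      exp (L.ζ 0 * L.X0 (fun ω => H ω + k ω)) := by
  have hn := (hk.const_mul (L.ζ 0)).exp
  have key : ∀ l ω, L.E l H (fun ω => exp (L.ζ 0 * k ω)) ω ≤ exp (L.ζ 0 * L.incr l H k ω) := by
    refine ineq_down_ind (K := K) ?_ ?_
    · intro l hl ω
      rw [E_of_ge _ hl, incr_of_ge hl]
    · intro l hl ih ω
      have h1 := E_mono hH (hn.E hH (l + 1)) ((lin_incr hH hk (l + 1)).const_mul _).exp ih l ω
      rw [E_E hH hn (Nat.le_succ l)] at h1
      exact h1.trans (E_exp_incr_le hH hk hl (L.pos 0).le (L.mono (Nat.zero_le l)) ω)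
  calc exp (L.ζ 0 * L.X0 H) * L.E0 H (fun ω => exp (L.ζ 0 * k ω))
      ≤ exp (L.ζ 0 * L.X0 H) * exp (L.ζ 0 * L.incr 0 H k L.pt) :=
        mul_le_mul_of_nonneg_left (key 0 L.pt) (exp_pos _).le
    _ = _ := by rw [← exp_add]; congr 1; simp only [incr, X0]; ring

/-- All exponents are at most `1`. -/
lemma X0_add_le_log (hH : L.Lin H) (hk : L.Lin k) :
    L.X0 (fun ω => H ω + k ω) ≤ L.X0 H + log (L.E0 H (fun ω => exp (k ω))) := by
  have hn := hk.exp
  have key : ∀ l ω, exp (1 * L.incr l H k ω) ≤ L.E l H (fun ω => exp (k ω)) ω := by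
    refine ineq_down_ind (K := K) ?_ ?_
    · intro l hl ω
      rw [E_of_ge _ hl, incr_of_ge hl, one_mul]
    · intro l hl ih ω
      have h1 := E_mono hH ((lin_incr hH hk (l + 1)).const_mul _).exp (hn.E hH (l + 1)) ih l ω
      rw [E_E hH hn (Nat.le_succ l)] at h1
      exact (le_E_exp_incr hH hk hl (L.toExpo.le_one l) ω).trans h1
  have h1 := log_le_log (exp_pos _) (key 0 L.pt)
  rw [log_exp, one_mul] at h1
  simp only [incr] at h1
  simp only [X0, E0]
  linarith

/-- The density of the tilted measure of `H + k` (levels `≥ l`) with respect to that of `H`. -/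
noncomputable def dens (L : Lev K Ω) (l : ℕ) (H k : Cfg K Ω → ℝ) (ω : Cfg K Ω) : ℝ :=
  exp (∑ e ∈ Ico l K, L.ζ e * ((L.X (e + 1) (fun ω => H ω + k ω) ω - L.X (e + 1) H ω) -
    (L.X e (fun ω => H ω + k ω) ω - L.X e H ω)))

lemma nice_dens (hH : L.Lin H) (hk : L.Lin k) (l : ℕ) : L.Nice (L.dens l H k) := by
  exact (Lin.sum _ fun e _ =>
    ((lin_incr hH hk (e + 1)).sub (lin_incr hH hk e)).const_mul (L.ζ e)).exp

lemma dens_of_lt {l : ℕ} (hl : l < K) (ω : Cfg K Ω) : L.dens l H k ω =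
    exp (L.ζ l * (L.incr (l + 1) H k ω - L.incr l H k ω)) * L.dens (l + 1) H k ω := by
  rw [dens, dens, sum_eq_sum_Ico_succ_bot hl, exp_add]
  rfl

set_option linter.unusedVariables false in
lemma E_add_eq_dens (hH : L.Lin H) (hk : L.Lin k) (hf : L.Nice f) (l : ℕ) (ω : Cfg K Ω) :
    L.E l (fun ω => H ω + k ω) f ω = L.E l H (fun ω => L.dens l H k ω * f ω) ω := by
  revert ω
  refine ineq_down_ind (K := K) (P := fun l => ∀ ω, L.E l (fun ω => H ω + k ω) f ω =
    L.E l H (fun ω => L.dens l H k ω * f ω) ω) ?_ ?_ l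
  · intro l hl ω
    rw [E_of_ge _ hl, E_of_ge _ hl, dens, Ico_eq_empty_of_le hl]
    simp
  · intro l hl ih ω
    rw [E_of_lt _ hl, E_of_lt _ hl]
    refine integral_congr_ae (Filter.Eventually.of_forall fun x => ?_)
    have hd : Dep (l + 1) fun ω' => exp (L.ζ l * (L.incr (l + 1) H k ω' - L.incr l H k ω')) :=
      fun ω₁ ω₂ h => by
        simp only [dep_incr (l + 1) ω₁ ω₂ h, (dep_incr l).mono (Nat.le_succ l) ω₁ ω₂ h]
    simp only [dens_of_lt hl, mul_assoc]
    rw [E_dep_mul hd, ih, (dep_incr l).upd le_rfl, ← mul_assoc, ← exp_add]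
    congr 2
    simp only [incr]
    ring

lemma dens_bounds (hH : L.Lin H) (hk : Measurable k) {a b : ℝ} (h : ∀ ω, a ≤ k ω ∧ k ω ≤ b) (l : ℕ)
    (ω : Cfg K Ω) : exp (-(b - a)) ≤ L.dens l H k ω ∧ L.dens l H k ω ≤ exp (b - a) := by
  have hm := fun l => incr_mem hH hk h l ω
  have key : ∀ l, a - (1 - L.ζ l) * b ≤
      ∑ e ∈ Ico l K, L.ζ e * (L.incr (e + 1) H k ω - L.incr e H k ω) + L.ζ l * L.incr l H k ω ∧
      ∑ e ∈ Ico l K, L.ζ e * (L.incr (e + 1) H k ω - L.incr e H k ω) + L.ζ l * L.incr l H k ω ≤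
        b - (1 - L.ζ l) * a := by
    refine ineq_down_ind (K := K) ?_ ?_
    · intro l hl
      rw [Ico_eq_empty_of_le hl, L.top l (by omega)]
      simpa using hm l
    · intro l hl ih
      rw [sum_eq_sum_Ico_succ_bot hl]
      have h1 : 0 ≤ L.ζ (l + 1) - L.ζ l := L.toExpo.Δ_nonneg l
      have h2 := mul_le_mul_of_nonneg_left (hm (l + 1)).1 h1
      have h3 := mul_le_mul_of_nonneg_left (hm (l + 1)).2 h1
      constructor <;> nlinarith [ih.1, ih.2]
  have h1 := mul_le_mul_of_nonneg_left (hm l).1 (L.pos l).le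
  have h2 := mul_le_mul_of_nonneg_left (hm l).2 (L.pos l).le
  have h3 : L.dens l H k ω =
      exp (∑ e ∈ Ico l K, L.ζ e * (L.incr (e + 1) H k ω - L.incr e H k ω)) := rfl
  rw [h3]
  constructor <;> refine exp_le_exp.2 ?_ <;> nlinarith [(key l).1, (key l).2]

lemma E_add_le_of_bdd (hH : L.Lin H) (hk : Measurable k) {a b : ℝ} (h : ∀ ω, a ≤ k ω ∧ k ω ≤ b)
    (hf : L.Nice f) (hf0 : ∀ ω, 0 ≤ f ω) (l : ℕ) (ω : Cfg K Ω) :
    L.E l (fun ω => H ω + k ω) f ω ≤ exp (b - a) * L.E l H f ω := by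
  have hkl : L.Lin k := lin_of_bdd hk (max |a| |b|) fun ω => abs_le_max_abs_abs (h ω).1 (h ω).2
  rw [E_add_eq_dens hH hkl hf, ← E_const_mul]
  exact E_mono hH ((nice_dens hH hkl l).mul hf) (hf.const_mul _)
    (fun ω => mul_le_mul_of_nonneg_right (dens_bounds hH hk h l ω).2 (hf0 ω)) l ω

/-- A bounded change `k` of a bounded change `ψ` of `H`. -/
lemma abs_X0_add_sub_le (hH : L.Lin H) {ψ : Cfg K Ω → ℝ} (hψ : Measurable ψ) (hk : Measurable k)
    {a b B : ℝ} (h : ∀ ω, a ≤ ψ ω ∧ ψ ω ≤ b) (hB : ∀ ω, |k ω| ≤ B) :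
    |L.X0 (fun ω => H ω + (ψ ω + k ω)) - L.X0 (fun ω => H ω + ψ ω)| ≤
      exp (b - a + 2 * B) * L.E0 H (fun ω => |k ω|) := by
  have hψl : L.Lin ψ := lin_of_bdd hψ (max |a| |b|) fun ω => abs_le_max_abs_abs (h ω).1 (h ω).2
  have hkl : L.Lin k := lin_of_bdd hk B hB
  have hB0 : 0 ≤ B := (abs_nonneg _).trans (hB L.pt)
  have h1 := hH.add hψl
  have h2 := hH.add (hψl.add hkl)
  have a1 := X0_sub_le h1 h2
  have a2 := X0_sub_le h2 h1
  have b1 := E_mono h2 (h2.sub h1).nice hkl.abs.nice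
    (fun ω => by linarith [le_abs_self (k ω)]) 0 L.pt
  have b2 := E_mono h1 (h1.sub h2).nice hkl.abs.nice
    (fun ω => by linarith [neg_abs_le (k ω)]) 0 L.pt
  have c1 := E_add_le_of_bdd hH (hψl.add hkl).1 (a := a - B) (b := b + B)
    (fun ω => ⟨by linarith [(h ω).1, (abs_le.1 (hB ω)).1],
      by linarith [(h ω).2, (abs_le.1 (hB ω)).2]⟩) hkl.abs.nice (fun ω => abs_nonneg _) 0 L.pt
  have c2 := E_add_le_of_bdd hH hψ (a := a - B) (b := b + B)
    (fun ω => ⟨by linarith [(h ω).1], by linarith [(h ω).2]⟩) hkl.abs.nice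
    (fun ω => abs_nonneg _) 0 L.pt
  rw [show b + B - (a - B) = b - a + 2 * B by ring] at c1 c2
  simp only [E0] at a1 a2 ⊢
  rw [abs_le]
  constructor <;> linarith

/-- Control of mean and variance of `k` from two one-sided bounds on increments. -/
lemma touch (hH : L.Lin H) (hk : L.Lin k) {δ a B : ℝ} (hδ : 0 < δ)
    (h₁ : L.X0 (fun ω => H ω + δ * k ω) ≤ L.X0 H + δ * a + B)
    (h₂ : L.X0 (fun ω => H ω - δ * k ω) ≤ L.X0 H - δ * a + B) :
    |L.E0 H k - a| ≤ B / δ ∧ L.Var H k ≤ (exp (2 * L.ζ 0 * B) - 1) / (L.ζ 0 * δ) ^ 2 := by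
  have hp := hk.const_mul δ
  have hm := (hk.const_mul δ).neg
  have h₂' : L.X0 (fun ω => H ω + -(δ * k ω)) ≤ L.X0 H - δ * a + B := by
    simpa only [sub_eq_add_neg] using h₂
  have hz := L.pos 0
  constructor
  · have a1 := X0_add_ge hH hp
    have a2 := X0_add_ge hH hm
    simp only [E0] at a1 a2 ⊢
    rw [E_const_mul] at a1
    rw [E_neg, E_const_mul] at a2
    rw [le_div_iff₀ hδ, ← abs_of_pos hδ, ← abs_mul, abs_le]
    constructor <;> linarith
  · set m := L.E0 H k with hmdef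
    set z := L.ζ 0 with hzdef
    have a1 := (exp_X0_add_ge hH hp).trans (exp_le_exp.2 (mul_le_mul_of_nonneg_left h₁ hz.le))
    have a2 := (exp_X0_add_ge hH hm).trans (exp_le_exp.2 (mul_le_mul_of_nonneg_left h₂' hz.le))
    have hu : L.Lin fun ω => z * δ * (k ω - m) := (hk.sub (lin_const m)).const_mul _
    set A := L.E0 H fun ω => exp (z * δ * (k ω - m)) with hA
    set A' := L.E0 H fun ω => exp (-(z * δ * (k ω - m))) with hA'
    have e1 : L.E0 H (fun ω => exp (z * (δ * k ω))) = exp (z * δ * m) * A := by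
      rw [hA, E0, E0, ← E_const_mul]
      congr 1; funext ω; rw [← exp_add]; congr 1; ring
    have e2 : L.E0 H (fun ω => exp (z * -(δ * k ω))) = exp (-(z * δ * m)) * A' := by
      rw [hA', E0, E0, ← E_const_mul]
      congr 1; funext ω; rw [← exp_add]; congr 1; ring
    rw [← hzdef, e1] at a1
    rw [← hzdef, e2] at a2
    have hEu : L.E 0 H (fun ω => z * δ * (k ω - m)) L.pt = 0 := by
      rw [E_const_mul, E_sub hH hk.nice (nice_const _), E_const hH]
      have : L.E 0 H k L.pt = m := rfl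
      rw [this]; ring
    have b1 : 1 ≤ A := by
      have := E_mono hH (hu.nice.add (nice_const 1)) hu.exp (fun ω => add_one_le_exp _) 0 L.pt
      rw [E_add hH hu.nice (nice_const _), hEu, E_const hH, zero_add] at this
      exact this
    have b2 : 1 ≤ A' := by
      have := E_mono hH (hu.neg.nice.add (nice_const 1)) hu.neg.exp
        (fun ω => add_one_le_exp _) 0 L.pt
      rw [E_add hH hu.neg.nice (nice_const _), E_neg, hEu, E_const hH, neg_zero, zero_add] at this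
      exact this
    have b3 : 2 + (z * δ) ^ 2 * L.Var H k ≤ A + A' := by
      have hsq := ((hk.sub (lin_const m)).nice.pow 2).const_mul ((z * δ) ^ 2)
      have := E_mono hH ((nice_const 2).add hsq) (hu.exp.add hu.neg.exp)
        (fun ω => by rw [← mul_pow]; exact ineq_two_add_sq_le _) 0 L.pt
      rw [E_add hH (nice_const _) hsq, E_add hH hu.exp hu.neg.exp, E_const hH, E_const_mul] at this
      have h3 := E0_sub_sq hH hk.nice m
      rw [← hmdef, sub_self, zero_pow two_ne_zero, add_zero] at h3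
      rw [← h3]
      exact this
    have c1 : A ≤ exp (z * (δ * a + B) - z * δ * m) := by
      have : exp (z * (L.X0 H + δ * a + B)) =
          exp (z * L.X0 H) * (exp (z * δ * m) * exp (z * (δ * a + B) - z * δ * m)) := by
        rw [← exp_add, ← exp_add]; congr 1; ring
      rw [this] at a1
      exact le_of_mul_le_mul_left (le_of_mul_le_mul_left a1 (exp_pos _)) (exp_pos _)
    have c2 : A' ≤ exp (z * (-(δ * a) + B) + z * δ * m) := by
      have : exp (z * (L.X0 H - δ * a + B)) =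
          exp (z * L.X0 H) * (exp (-(z * δ * m)) * exp (z * (-(δ * a) + B) + z * δ * m)) := by
        rw [← exp_add, ← exp_add]; congr 1; ring
      rw [this] at a2
      exact le_of_mul_le_mul_left (le_of_mul_le_mul_left a2 (exp_pos _)) (exp_pos _)
    have c3 : A * A' ≤ exp (2 * z * B) := by
      refine (mul_le_mul c1 c2 (by linarith) (exp_pos _).le).trans (le_of_eq ?_)
      rw [← exp_add]; congr 1; ring
    rw [le_div_iff₀ (by positivity)]
    nlinarith [mul_nonneg (sub_nonneg.2 b1) (sub_nonneg.2 b2)]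

end Lev

end Crest.Agent.R164
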