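import Crest.Agent.R164.NestBasic

/-! # Row 164: elementary facts on overlaps, grids and the eigenvalues `Dev` -/

set_option autoImplicit false

namespace Crest.Agent.R164

open MeasureTheory ProbabilityTheory Real Finset

lemma exists_grid {η : ℝ} (h0 : 0 < η) (h1 : η < 1) {k : ℕ} (hk : 1 ≤ k) :
    ∃ ex : Expo (k + 2), IsGrid ex η := by
  have hk' : (0 : ℝ) < k := by exact_mod_cast hk
  have hd : 0 ≤ (1 - η) / k := div_nonneg (by linarith) hk'.le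
  have hkd : (k : ℝ) * ((1 - η) / k) = 1 - η := by field_simp
  have hm : Monotone fun l : ℕ => η + ((l - 1 : ℕ) : ℝ) * ((1 - η) / k) := fun a b hab => by
    have : ((a - 1 : ℕ) : ℝ) ≤ ((b - 1 : ℕ) : ℝ) := by exact_mod_cast Nat.sub_le_sub_right hab 1
    simp only
    gcongr
  have hk1 : η + ((k + 1 - 1 : ℕ) : ℝ) * ((1 - η) / k) = 1 := by
    rw [Nat.add_sub_cancel, hkd]; ring
  refine ⟨⟨fun l => min 1 (η + ((l - 1 : ℕ) : ℝ) * ((1 - η) / k)), fun l => lt_min one_pos ?_,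
    monotone_const.min hm, fun l hl => min_eq_left ?_⟩, ?_, ?_, fun l hl => ?_⟩
  · positivity
  · exact hk1.ge.trans (hm (by omega : k + 1 ≤ l))
  · simpa using h1.le
  · simpa using h1.le
  · obtain ⟨hl1, hl2⟩ := mem_Icc.1 hl
    simp only [Expo.Δ]
    rw [min_eq_right ((hm (by omega : l + 1 ≤ k + 1)).trans hk1.le),
      min_eq_right ((hm (by omega : l ≤ k + 1)).trans hk1.le)]
    simp only [Nat.add_sub_cancel, Nat.cast_sub hl1]
    push_cast; ring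

section Dev

variable {k : ℕ} (ex : Expo (k + 2)) (d : ℝ) (q : ℕ → ℝ)

lemma Dev_last (hk : 1 ≤ k) : Dev ex k d q k = d - q k := by
  have : k ≠ 0 := by omega
  simp [Dev, ex.top (k + 1) le_rfl, this]

lemma Dev_step {e : ℕ} (h1 : 1 ≤ e) (hk : e ≤ k) :
    Dev ex k d q (e - 1) - Dev ex k d q e = ex.ζ e * (q e - if e = 1 then 0 else q (e - 1)) := by
  obtain ⟨m, rfl⟩ : ∃ m, e = m + 1 := ⟨e - 1, by omega⟩
  simp only [Dev, Nat.add_sub_cancel, Nat.add_eq_right, Nat.add_eq_zero_iff, one_ne_zero, and_false,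
    if_false]
  rw [← sum_Ioc_consecutive _ (Nat.le_succ m) hk, Nat.Ioc_succ_singleton, sum_singleton, Expo.Δ]
  split_ifs <;> ring

lemma Dev_eq_tail {e : ℕ} (h1 : 1 ≤ e) (hk : e ≤ k + 1) :
    Dev ex k d q (e - 1) = d - (if e = 1 then 0 else ex.ζ e * q (e - 1)) - tail ex k q e := by
  obtain ⟨m, rfl⟩ : ∃ m, e = m + 1 := ⟨e - 1, by omega⟩
  simp only [Dev, tail, Nat.add_sub_cancel, Nat.add_eq_right, Finset.Icc_add_one_left_eq_Ioc]

/-- The entries are recovered from the eigenvalues. -/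
lemma q_eq_sum {e : ℕ} (h1 : 1 ≤ e) (hk : e ≤ k) :
    q e = ∑ l ∈ Icc 1 e, (Dev ex k d q (l - 1) - Dev ex k d q l) / ex.ζ l := by
  induction e, h1 using Nat.le_induction with
  | base =>
    rw [Icc_self, sum_singleton, Dev_step ex d q le_rfl hk]
    simp [(ex.pos 1).ne']
  | succ n hn ih =>
    rw [sum_Icc_succ_top (by omega), ← ih (by omega), Dev_step ex d q (by omega) hk,
      if_neg (by omega), Nat.add_sub_cancel, mul_div_cancel_left₀ _ (ex.pos _).ne']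
    ring

lemma d_eq_sum : d = Dev ex k d q k + ∑ l ∈ Icc 1 k, (Dev ex k d q (l - 1) - Dev ex k d q l) / ex.ζ l := by
  rcases Nat.eq_zero_or_pos k with rfl | hk
  · simp [Dev]
  · rw [← q_eq_sum ex d q hk le_rfl, Dev_last ex d q hk]; ring

lemma sum_Δ_Ioc {e : ℕ} (he : e ≤ k) : ∑ l ∈ Ioc e k, ex.Δ l = 1 - ex.ζ (e + 1) := by
  rw [← ex.top (k + 1) le_rfl, ← Lev.sum_Δ ex (Nat.add_le_add_right he 1)]
  congr 1
  ext l; simp only [mem_Ioc, mem_Ico]; omega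

lemma Dev_nonneg (hq : ∀ e ∈ Icc 1 k, q e ≤ d) (hd : 0 ≤ d) {e : ℕ} (he : e ≤ k) :
    0 ≤ Dev ex k d q e := by
  have h1 : ∑ l ∈ Ioc e k, ex.Δ l * q l ≤ (1 - ex.ζ (e + 1)) * d := by
    rw [← sum_Δ_Ioc ex he, sum_mul]
    refine sum_le_sum fun l hl => mul_le_mul_of_nonneg_left (hq l ?_) (ex.Δ_nonneg l)
    simp only [mem_Ioc, mem_Icc] at hl ⊢; omega
  have h2 : (if e = 0 then 0 else ex.ζ (e + 1) * q e) ≤ ex.ζ (e + 1) * d := by
    split_ifs with h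
    · exact mul_nonneg (ex.pos _).le hd
    · exact mul_le_mul_of_nonneg_left (hq e (mem_Icc.2 ⟨by omega, he⟩)) (ex.pos _).le
  unfold Dev
  linarith

lemma Dev_le (hq : ∀ e ∈ Icc 1 k, 0 ≤ q e) {e : ℕ} (he : e ≤ k) : Dev ex k d q e ≤ d := by
  have h1 : 0 ≤ ∑ l ∈ Ioc e k, ex.Δ l * q l := by
    refine sum_nonneg fun l hl => mul_nonneg (ex.Δ_nonneg l) (hq l ?_)
    simp only [mem_Ioc, mem_Icc] at hl ⊢; omega
  have h2 : 0 ≤ (if e = 0 then 0 else ex.ζ (e + 1) * q e) := by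
    split_ifs with h
    · exact le_rfl
    · exact mul_nonneg (ex.pos _).le (hq e (mem_Icc.2 ⟨by omega, he⟩))
  unfold Dev
  linarith

lemma Dev_sum {A : Type} (s : Finset A) (c d : A → ℝ) (q : A → ℕ → ℝ) (e : ℕ) :
    Dev ex k (∑ a ∈ s, c a * d a) (fun l => ∑ a ∈ s, c a * q a l) e =
      ∑ a ∈ s, c a * Dev ex k (d a) (q a) e := by
  simp only [Dev, mul_sub, sum_sub_distrib, mul_sum]
  congr 1
  · congr 1
    split_ifs
    · simp
    · exact sum_congr rfl fun a _ => by ring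
  · rw [sum_comm]
    exact sum_congr rfl fun a _ => sum_congr rfl fun l _ => by ring

lemma abel_eq (a : ℕ → ℝ) (e : ℕ) : ∑ l ∈ Icc 1 e, (a (l - 1) - a l) / ex.ζ l =
    a 0 / ex.ζ 1 - ∑ l ∈ Icc 1 e, ex.Δ l * a l / (ex.ζ l * ex.ζ (l + 1)) - a e / ex.ζ (e + 1) := by
  induction e with
  | zero => simp
  | succ n ih =>
    rw [sum_Icc_succ_top (by omega), sum_Icc_succ_top (by omega), ih, Nat.add_sub_cancel, Expo.Δ]
    have h1 := (ex.pos (n + 1)).ne'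
    have h2 := (ex.pos (n + 1 + 1)).ne'
    field_simp
    ring

lemma abs_div_ζ_le {η : ℝ} (hη : ex.ζ 1 = η) (x : ℝ) {l : ℕ} (hl : 1 ≤ l) :
    |x / ex.ζ l| ≤ |x| / η ^ 2 := by
  have h0 : 0 < η := hη ▸ ex.pos 1
  have h1 : η ≤ 1 := hη ▸ ex.le_one 1
  have h2 : η ≤ ex.ζ l := hη ▸ ex.mono hl
  rw [abs_div, abs_of_pos (ex.pos l)]
  exact div_le_div_of_nonneg_left (abs_nonneg _) (by positivity) (by nlinarith)

lemma abs_abel_sum_le {η : ℝ} (hη : ex.ζ 1 = η) (a : ℕ → ℝ) {e : ℕ} (hk : e ≤ k) :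
    |∑ l ∈ Icc 1 e, ex.Δ l * a l / (ex.ζ l * ex.ζ (l + 1))| ≤
      (∑ l ∈ Icc 1 k, ex.Δ l * |a l|) / η ^ 2 := by
  have h0 : 0 < η := hη ▸ ex.pos 1
  refine (abs_sum_le_sum_abs _ _).trans ?_
  rw [sum_div]
  refine (sum_le_sum fun l hl => ?_).trans (sum_le_sum_of_subset_of_nonneg
    (Icc_subset_Icc_right hk) fun l _ _ =>
      div_nonneg (mul_nonneg (ex.Δ_nonneg l) (abs_nonneg _)) (by positivity))
  have h2 : η ≤ ex.ζ l := hη ▸ ex.mono (mem_Icc.1 hl).1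
  have h3 : η ≤ ex.ζ (l + 1) := hη ▸ ex.mono (by omega)
  rw [abs_div, abs_mul, abs_of_nonneg (ex.Δ_nonneg l),
    abs_of_pos (mul_pos (ex.pos l) (ex.pos _))]
  refine div_le_div_of_nonneg_left (mul_nonneg (ex.Δ_nonneg l) (abs_nonneg _)) (by positivity) ?_
  rw [sq]
  exact mul_le_mul h2 h3 h0.le (ex.pos l).le

/-- Abel summation: errors in the eigenvalues propagate to sums of the form
`∑ (a (l-1) - a l) / ζ l`. -/
lemma abs_abel_le {η : ℝ} (hη : ex.ζ 1 = η) (a : ℕ → ℝ) {e : ℕ} (hk : e ≤ k) :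
    |∑ l ∈ Icc 1 e, (a (l - 1) - a l) / ex.ζ l| ≤
      (|a 0| + ∑ l ∈ Icc 1 k, ex.Δ l * |a l| + |a e|) / η ^ 2 := by
  rw [abel_eq, add_div, add_div]
  exact (abs_sub _ _).trans (add_le_add ((abs_sub _ _).trans (add_le_add
    (abs_div_ζ_le ex hη _ le_rfl) (abs_abel_sum_le ex hη a hk))) (abs_div_ζ_le ex hη _ (by omega)))

lemma abs_abel_le' {η : ℝ} (hη : ex.ζ 1 = η) (a : ℕ → ℝ) :
    |a k + ∑ l ∈ Icc 1 k, (a (l - 1) - a l) / ex.ζ l| ≤
      (|a 0| + ∑ l ∈ Icc 1 k, ex.Δ l * |a l|) / η ^ 2 := by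
  rw [abel_eq, add_div, ex.top (k + 1) le_rfl, div_one, add_sub_cancel]
  exact (abs_sub _ _).trans (add_le_add (abs_div_ζ_le ex hη _ le_rfl)
    (abs_abel_sum_le ex hη a le_rfl))

lemma sum_Δ_Icc_le : ∑ l ∈ Icc 1 k, ex.Δ l ≤ 1 := by
  have h := sum_Δ_Ioc ex (Nat.zero_le k)
  rw [← Finset.Icc_add_one_left_eq_Ioc] at h
  simp only [zero_add] at h
  linarith [ex.pos 1]

/-- Jensen for the weights `Δ`. -/
lemma sum_Δ_sqrt_le (a : ℕ → ℝ) (ha : ∀ l ∈ Icc 1 k, 0 ≤ a l) :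
    ∑ l ∈ Icc 1 k, ex.Δ l * √(a l) ≤ √(∑ l ∈ Icc 1 k, ex.Δ l * a l) := by
  have h := Real.sum_sqrt_mul_sqrt_le (Icc 1 k) (f := ex.Δ) (g := fun l => ex.Δ l * max (a l) 0)
    ex.Δ_nonneg fun l => mul_nonneg (ex.Δ_nonneg l) (le_max_right _ _)
  have e1 : ∑ l ∈ Icc 1 k, √(ex.Δ l) * √(ex.Δ l * max (a l) 0) = ∑ l ∈ Icc 1 k, ex.Δ l * √(a l) :=
    sum_congr rfl fun l hl => by
      rw [max_eq_left (ha l hl), Real.sqrt_mul (ex.Δ_nonneg l), ← mul_assoc,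
        Real.mul_self_sqrt (ex.Δ_nonneg l)]
  have e2 : ∑ l ∈ Icc 1 k, ex.Δ l * max (a l) 0 = ∑ l ∈ Icc 1 k, ex.Δ l * a l :=
    sum_congr rfl fun l hl => by rw [max_eq_left (ha l hl)]
  rw [e1, e2] at h
  exact h.trans (mul_le_of_le_one_left (Real.sqrt_nonneg _)
    (Real.sqrt_le_one.2 (sum_Δ_Icc_le ex)))

end Dev

namespace Lev

variable {K : ℕ} {Ω ι : Type} [MeasurableSpace Ω] {L : Lev K Ω} {H : Cfg K Ω → ℝ} {I : Finset ι}
  {y : ι → Cfg K Ω → ℝ}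

lemma nice_rr (hy : ∀ i ∈ I, L.Nice (y i)) : L.Nice (rr I y) := Nice.div_const _ (Nice.sum I fun i hi => (hy i hi).pow 2)
lemma qq_nonneg (e : ℕ) : 0 ≤ L.qq H I y e := div_nonneg (E_nonneg (fun _ => sum_nonneg fun _ _ => sq_nonneg _) _ _) (Nat.cast_nonneg _)
lemma E0_sum_sq_E_le (hH : L.Lin H) (hy : ∀ i ∈ I, L.Nice (y i)) (l : ℕ) :
    L.E0 H (fun ω => ∑ i ∈ I, L.E l H (y i) ω ^ 2) ≤ L.E0 H (fun ω => ∑ i ∈ I, y i ω ^ 2) := by
  unfold E0
  rw [E_sum hH I fun i hi => ((hy i hi).E hH l).pow 2, E_sum hH I fun i hi => (hy i hi).pow 2]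
  refine sum_le_sum fun i hi => ?_
  rw [← E_E hH ((hy i hi).pow 2) (Nat.zero_le l)]
  exact E_mono hH (((hy i hi).E hH l).pow 2) (((hy i hi).pow 2).E hH l)
    (fun ω => sq_E_le hH (hy i hi) l ω) _ _
lemma qq_mono (hH : L.Lin H) (hy : ∀ i ∈ I, L.Nice (y i)) : Monotone (L.qq H I y) := by
  intro a b hab
  refine div_le_div_of_nonneg_right ?_ (Nat.cast_nonneg _)
  refine le_of_eq_of_le ?_ (E0_sum_sq_E_le (y := fun i => L.E (b + 1) H (y i)) hH
    (fun i hi => (hy i hi).E hH _) (a + 1))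
  congr 1
  funext ω
  exact sum_congr rfl fun i hi => by rw [E_E hH (hy i hi) (by omega)]
lemma qq_le_dd (hH : L.Lin H) (hy : ∀ i ∈ I, L.Nice (y i)) (e : ℕ) : L.qq H I y e ≤ L.dd H I y := by
  unfold dd rr
  rw [E0, E_div_const]
  exact div_le_div_of_nonneg_right (E0_sum_sq_E_le hH hy _) (Nat.cast_nonneg _)
lemma dd_nonneg : 0 ≤ L.dd H I y := E_nonneg (fun _ => div_nonneg (sum_nonneg fun _ _ => sq_nonneg _) (Nat.cast_nonneg _)) _ _
lemma dd_le (hH : L.Lin H) (hy : ∀ i ∈ I, L.Nice (y i)) {κ : ℝ} (hκ : ∀ ω, rr I y ω ≤ κ) :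
    L.dd H I y ≤ κ := (E_mono hH (nice_rr hy) (nice_const κ) hκ _ _).trans (E_const hH _ _ _).le
lemma VV_eq (e : ℕ) (c : ℝ) :
    L.VV H I y e c = L.VV H I y e (L.qq H I y e) + (L.qq H I y e - c) ^ 2 := by
  unfold VV; ring
lemma E_two_eq (hH : L.Lin H) (hy : ∀ i ∈ I, L.Nice (y i)) (l : ℕ) (c : ℝ) (ω : Cfg K Ω) :
    L.E l H (fun ω' => ((∑ i ∈ I, y i ω * y i ω') / I.card - c) ^ 2) ω =
      (∑ i ∈ I, ∑ j ∈ I, y i ω * y j ω * L.E l H (fun ω' => y i ω' * y j ω') ω) /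
        (I.card : ℝ) ^ 2 - 2 * c * ((∑ i ∈ I, y i ω * L.E l H (y i) ω) / I.card) + c ^ 2 := by
  have e : (fun ω' => ((∑ i ∈ I, y i ω * y i ω') / I.card - c) ^ 2) = fun ω' =>
      (∑ i ∈ I, ∑ j ∈ I, y i ω * y j ω * (y i ω' * y j ω')) / (I.card : ℝ) ^ 2 -
        2 * c * ((∑ i ∈ I, y i ω * y i ω') / I.card) + c ^ 2 := by
    funext ω'
    have : ∑ i ∈ I, ∑ j ∈ I, y i ω * y j ω * (y i ω' * y j ω') = (∑ i ∈ I, y i ω * y i ω') ^ 2 := by
      rw [sq, sum_mul_sum]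
      exact sum_congr rfl fun i _ => sum_congr rfl fun j _ => by ring
    rw [this]; ring
  have n0 : ∀ i ∈ I, ∀ j ∈ I, L.Nice fun ω' => y i ω * y j ω * (y i ω' * y j ω') :=
    fun i hi j hj => ((hy i hi).mul (hy j hj)).const_mul _
  have n1 := Nice.sum I fun i hi => Nice.sum I (n0 i hi)
  have n2 := Nice.sum I fun i hi => (hy i hi).const_mul (y i ω)
  rw [e, E_add hH ((n1.div_const _).sub ((n2.div_const _).const_mul _)) (nice_const _),
    E_sub hH (n1.div_const _) ((n2.div_const _).const_mul _), E_const hH, E_const_mul, E_div_const,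
    E_div_const, E_sum hH I fun i hi => Nice.sum I (n0 i hi),
    E_sum hH I fun i hi => (hy i hi).const_mul (y i ω)]
  simp only [E_const_mul]
  congr 3
  refine sum_congr rfl fun i hi => ?_
  rw [E_sum hH I (n0 i hi)]
  simp only [E_const_mul]

/-- `VV` as a two-replica mean square. -/
lemma VV_eq_two (hH : L.Lin H) (hy : ∀ i ∈ I, L.Nice (y i)) (e : ℕ) (c : ℝ) :
    L.Nice (fun ω => L.E (e + 1) H (fun ω' => ((∑ i ∈ I, y i ω * y i ω') / I.card - c) ^ 2) ω) ∧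
    L.VV H I y e c = L.E0 H (fun ω =>
      L.E (e + 1) H (fun ω' => ((∑ i ∈ I, y i ω * y i ω') / I.card - c) ^ 2) ω) := by
  rw [funext (E_two_eq hH hy (e + 1) c)]
  have n1 := Nice.sum I fun i hi => Nice.sum I fun j hj =>
    ((hy i hi).mul (hy j hj)).mul (((hy i hi).mul (hy j hj)).E hH (e + 1))
  have n2 := Nice.sum I fun i hi => (hy i hi).mul ((hy i hi).E hH (e + 1))
  refine ⟨((n1.div_const _).sub ((n2.div_const _).const_mul _)).add (nice_const _), ?_⟩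
  unfold VV qq E0
  rw [E_add hH ((n1.div_const _).sub ((n2.div_const _).const_mul _)) (nice_const _),
    E_sub hH (n1.div_const _) ((n2.div_const _).const_mul _), E_const hH, E_const_mul, E_div_const,
    E_div_const, E_sum hH I fun i hi => (hy i hi).mul ((hy i hi).E hH (e + 1)),
    E_sum hH I fun i hi => ((hy i hi).E hH (e + 1)).pow 2]
  congr 4
  refine sum_congr rfl fun i hi => ?_
  rw [E_mul_E hH (hy i hi) (hy i hi) (Nat.zero_le _)]
  simp only [sq]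
lemma VV_nonneg (hH : L.Lin H) (hy : ∀ i ∈ I, L.Nice (y i)) (e : ℕ) (c : ℝ) : 0 ≤ L.VV H I y e c := by
  rw [(VV_eq_two hH hy e c).2]
  exact E_nonneg (fun ω => E_nonneg (fun _ => sq_nonneg _) _ _) _ _
/-- The one-replica observable `y · m_e / |I|` fluctuates less than the overlap. -/
lemma var_N_le_VV (hH : L.Lin H) (hy : ∀ i ∈ I, L.Nice (y i)) (e : ℕ) (c : ℝ) :
    L.E0 H (fun ω => ((∑ i ∈ I, y i ω * L.E (e + 1) H (y i) ω) / I.card - c) ^ 2) ≤ L.VV H I y e c := by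
  rw [(VV_eq_two hH hy e c).2]
  refine E_mono hH ((((Nice.sum I fun i hi => (hy i hi).mul ((hy i hi).E hH (e + 1))).div_const
    _).sub (nice_const _)).pow 2) (VV_eq_two hH hy e c).1 (fun ω => ?_) _ _
  have n2 := Nice.sum I fun i hi => (hy i hi).const_mul (y i ω)
  refine le_of_eq_of_le ?_ (sq_E_le hH ((n2.div_const I.card).sub (nice_const c)) (e + 1) ω)
  rw [E_sub hH (n2.div_const _) (nice_const _), E_const hH, E_div_const,
    E_sum hH I fun i hi => (hy i hi).const_mul (y i ω)]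
  simp only [E_const_mul]
/-- The two-replica estimate used in the Guerra interpolation. -/
lemma two_replica_le (hH : L.Lin H) (hy : ∀ i ∈ I, L.Nice (y i)) (e : ℕ) (c : ℝ)
    {φ ρ : Cfg K Ω → ℝ} (hφ : Measurable φ) (hρ : Measurable ρ) {A B : ℝ} (hA : ∀ ω, |φ ω| ≤ A)
    (hB : ∀ ω, |ρ ω| ≤ B) :
    |L.E0 H (fun ω => ρ ω * ((∑ i ∈ I, L.E (e + 1) H (fun ω => φ ω * y i ω) ω ^ 2) / I.card -
      c * L.E (e + 1) H φ ω ^ 2))| ≤ B * A ^ 2 * √(L.VV H I y e c) := by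
  obtain ⟨nW, eW⟩ := VV_eq_two hH hy e c
  set W : Cfg K Ω → ℝ := fun ω =>
    L.E (e + 1) H (fun ω' => ((∑ i ∈ I, y i ω * y i ω') / I.card - c) ^ 2) ω with hW
  have W0 : ∀ ω, 0 ≤ W ω := fun ω => E_nonneg (fun _ => sq_nonneg _) _ _
  have A0 : 0 ≤ A := (abs_nonneg _).trans (hA L.pt)
  have B0 : 0 ≤ B := (abs_nonneg _).trans (hB L.pt)
  have nφ : L.Nice φ := nice_of_bdd hφ A hA
  have nρ : L.Nice ρ := nice_of_bdd hρ B hB
  have nS : L.Nice fun ω => √(W ω) := by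
    refine Nice.of_le nW.1.sqrt ((nice_const 1).add nW) fun ω => ?_
    rw [abs_of_nonneg (Real.sqrt_nonneg _), abs_of_nonneg (by linarith [W0 ω])]
    nlinarith [Real.sq_sqrt (W0 ω), sq_nonneg (√(W ω) - 1)]
  have m : ∀ i ∈ I, L.Nice (L.E (e + 1) H fun ω => φ ω * y i ω) := fun i hi =>
    (nφ.mul (hy i hi)).E hH _
  -- the one-replica function
  set G : Cfg K Ω → ℝ := fun ω => (∑ i ∈ I, L.E (e + 1) H (fun ω => φ ω * y i ω) ω *
    (φ ω * y i ω)) / I.card - c * (L.E (e + 1) H φ ω * φ ω) with hG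
  have g1 := Nice.sum I fun i hi => (m i hi).mul (nφ.mul (hy i hi))
  have g2 := ((nφ.E hH (e + 1)).mul nφ).const_mul c
  have nG : L.Nice G := (g1.div_const _).sub g2
  have EG : ∀ ω, L.E (e + 1) H G ω = (∑ i ∈ I, L.E (e + 1) H (fun ω => φ ω * y i ω) ω ^ 2) /
      I.card - c * L.E (e + 1) H φ ω ^ 2 := fun ω => by
    rw [hG, E_sub hH (g1.div_const _) g2, E_div_const, E_const_mul,
      E_sum hH I fun i hi => (m i hi).mul (nφ.mul (hy i hi)), E_dep_mul (dep_E _ _ _), sq]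
    congr 2
    exact sum_congr rfl fun i _ => by rw [E_dep_mul (dep_E _ _ _), sq]
  have bG : ∀ ω, |G ω| ≤ A ^ 2 * √(W ω) := fun ω => by
    have n2 := Nice.sum I fun i hi => (hy i hi).const_mul (y i ω)
    have n3 := (n2.div_const I.card).sub (nice_const c)
    have h1 := E_mul_sq_le hH nφ n3 (e + 1) ω
    have h2 : L.E (e + 1) H (fun ω => φ ω ^ 2) ω ≤ A ^ 2 :=
      (E_mono hH (nφ.pow 2) (nice_const _) (fun ω => sq_le_sq' (abs_le.1 (hA ω)).1
        (abs_le.1 (hA ω)).2) _ _).trans (E_const hH _ _ _).le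
    have h3 : G ω = φ ω * L.E (e + 1) H
        (fun ω' => φ ω' * ((∑ i ∈ I, y i ω * y i ω') / I.card - c)) ω := by
      have e1 : (fun ω' => φ ω' * ((∑ i ∈ I, y i ω * y i ω') / I.card - c)) = fun ω' =>
          (∑ i ∈ I, y i ω * (φ ω' * y i ω')) / I.card - c * φ ω' := by
        funext ω'
        rw [mul_sub, ← mul_div_assoc, mul_sum, mul_comm (φ ω') c]
        congr 2
        exact sum_congr rfl fun i _ => by ring
      have n4 := fun i hi => (nφ.mul (hy i hi)).const_mul (y i ω)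
      rw [e1, E_sub hH ((Nice.sum I n4).div_const _) (nφ.const_mul c), E_div_const, E_const_mul,
        E_sum hH I n4, hG, mul_sub, ← mul_div_assoc, mul_sum]
      simp only [E_const_mul]
      congr 1
      · congr 1
        exact sum_congr rfl fun i _ => by ring
      · ring
    have h4 := Real.abs_le_sqrt (h1.trans (mul_le_mul_of_nonneg_right h2 (W0 ω)))
    rw [Real.sqrt_mul (sq_nonneg A), Real.sqrt_sq A0] at h4
    rw [h3, abs_mul, sq, mul_assoc]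
    exact mul_le_mul (hA ω) h4 (abs_nonneg _) A0
  have nB := ((nS.const_mul (A ^ 2)).E hH (e + 1)).const_mul B
  simp only [← EG]
  refine (abs_E_le hH (nρ.mul (nG.E hH (e + 1))) nB (fun ω => ?_) 0 L.pt).trans ?_
  · rw [abs_mul]
    exact mul_le_mul (hB ω) (abs_E_le hH nG (nS.const_mul _) bG _ ω) (abs_nonneg _) B0
  rw [E_const_mul, E_E hH (nS.const_mul _) (Nat.zero_le _), E_const_mul, mul_assoc, eW]
  refine mul_le_mul_of_nonneg_left (mul_le_mul_of_nonneg_left ?_ (sq_nonneg A)) B0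
  refine Real.le_sqrt_of_sq_le ((sq_E_le hH nS 0 L.pt).trans (le_of_eq ?_))
  simp only [Real.sq_sqrt (W0 _)]
  rfl

end Lev

end Crest.Agent.R164
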