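import Crest.Agent.R164.SpecDefs
import Crest.Agent.R164.Overlap

/-! # Row 164: properties of the finite R-transform -/

set_option autoImplicit false

namespace Crest.Agent.R164

open MeasureTheory Real Finset Crest.ProbabilityR.InvariantGlass

variable {n : ℕ} {lam : Fin (n + 1) → ℝ}

lemma muf_prob (lam : Fin (n + 1) → ℝ) : IsProbabilityMeasure (muf lam) := by
  constructor
  have h : ((n + 1 : ℕ) : ENNReal) ≠ 0 := by simp
  have h' : ((n + 1 : ℕ) : ENNReal) ≠ ⊤ := ENNReal.natCast_ne_top _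
  simp only [muf, Measure.finsetSum_apply, Measure.smul_apply, measure_univ, smul_eq_mul, mul_one,
    sum_const, card_univ, Fintype.card_fin, nsmul_eq_mul]
  exact ENNReal.mul_inv_cancel h h'

lemma integral_muf (lam : Fin (n + 1) → ℝ) (f : ℝ → ℝ) (hf : Measurable f) :
    ∫ x, f x ∂muf lam = (∑ a, f (lam a)) / (n + 1) := by
  have h : ((n + 1 : ℕ) : ENNReal)⁻¹ ≠ ⊤ := by simp
  rw [muf, integral_finsetSum_measure (fun a _ =>
    (integrable_dirac (by simp)).smul_measure h)]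
  simp only [integral_smul_measure, integral_dirac, smul_eq_mul, ENNReal.toReal_inv,
    ENNReal.toReal_natCast]
  rw [← mul_sum, div_eq_inv_mul]
  push_cast
  rfl

lemma dl_nonneg (h : Monotone lam) (a : Fin (n + 1)) : 0 ≤ dl lam a :=
  sub_nonneg.2 (h (Fin.le_last a))

lemma spec_one_le (h : Monotone lam) (a : Fin (n + 1)) {s : ℝ} (hs : 0 ≤ s) :
    1 ≤ 1 + dl lam a * s := le_add_of_nonneg_right (mul_nonneg (dl_nonneg h a) hs)

lemma spec_pos (h : Monotone lam) (a : Fin (n + 1)) {s : ℝ} (hs : 0 ≤ s) :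
    0 < 1 + dl lam a * s := one_pos.trans_le (spec_one_le h a hs)

lemma spec_np : (0 : ℝ) < n + 1 := by positivity

lemma spec_dl_last : dl lam (Fin.last n) = 0 := sub_self _

lemma spec_sum_const (c : ℝ) : ∑ _a : Fin (n + 1), c = (n + 1) * c := by
  simp

lemma Dn_bounds (h : Monotone lam) {s : ℝ} (hs : 0 ≤ s) : 1 / (n + 1) ≤ Dn lam s ∧ Dn lam s ≤ 1 := by
  constructor
  · refine div_le_div_of_nonneg_right ?_ spec_np.le
    have := single_le_sum (f := fun a => 1 / (1 + dl lam a * s))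
      (fun a _ => (one_div_pos.2 (spec_pos h a hs)).le) (mem_univ (Fin.last n))
    simpa [spec_dl_last] using this
  · rw [Dn, div_le_one spec_np]
    calc ∑ a, 1 / (1 + dl lam a * s) ≤ ∑ _a : Fin (n + 1), (1 : ℝ) :=
          sum_le_sum fun a _ => (div_le_one (spec_pos h a hs)).2 (spec_one_le h a hs)
      _ = n + 1 := by simp

lemma spec_Dn_pos (h : Monotone lam) {s : ℝ} (hs : 0 ≤ s) : 0 < Dn lam s :=
  (one_div_pos.2 spec_np).trans_le (Dn_bounds h hs).1

lemma spec_Dn_zero : Dn lam 0 = 1 := by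
  simp only [Dn, mul_zero, add_zero, div_one, spec_sum_const, mul_one]
  exact div_self spec_np.ne'

lemma Phi_eq (s : ℝ) : Phi lam s = (∑ a, phi lam a s) / (n + 1) := by
  simp only [Phi, Dn, phi, ← mul_div_assoc, mul_sum, mul_one]

lemma spec_phi_sub (h : Monotone lam) (a : Fin (n + 1)) {s s' : ℝ} (hs : 0 ≤ s) (hs' : 0 ≤ s') :
    phi lam a s' - phi lam a s = (s' - s) / ((1 + dl lam a * s') * (1 + dl lam a * s)) := by
  have h1 := (spec_pos h a hs).ne'
  have h2 := (spec_pos h a hs').ne'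
  simp only [phi]
  rw [div_sub_div _ _ h2 h1]
  congr 1
  ring

lemma phi_mono (h : Monotone lam) (a : Fin (n + 1)) {s s' : ℝ} (hs : 0 ≤ s) (hss : s ≤ s') :
    phi lam a s ≤ phi lam a s' ∧ phi lam a s' - phi lam a s ≤ s' - s := by
  have hs' := hs.trans hss
  have h1 := spec_one_le h a hs
  have h2 := spec_one_le h a hs'
  have h3 : 1 ≤ (1 + dl lam a * s') * (1 + dl lam a * s) := one_le_mul_of_one_le_of_one_le h2 h1
  have h4 := spec_phi_sub h a hs hs'
  constructor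
  · rw [← sub_nonneg, h4]
    exact div_nonneg (sub_nonneg.2 hss) (zero_le_one.trans h3)
  · rw [h4]
    exact div_le_self (sub_nonneg.2 hss) h3

lemma spec_phi_zero (a : Fin (n + 1)) : phi lam a 0 = 0 := by simp [phi]

lemma phi_nonneg (h : Monotone lam) (a : Fin (n + 1)) {s : ℝ} (hs : 0 ≤ s) :
    0 ≤ phi lam a s ∧ phi lam a s ≤ s := by
  have := phi_mono h a le_rfl hs
  rw [spec_phi_zero] at this
  constructor <;> linarith [this.1, this.2]

lemma Phi_sub_ge (h : Monotone lam) {s s' : ℝ} (hs : 0 ≤ s) (hss : s ≤ s') :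
    (s' - s) / (n + 1) ≤ Phi lam s' - Phi lam s := by
  rw [Phi_eq, Phi_eq, ← sub_div, ← sum_sub_distrib]
  refine div_le_div_of_nonneg_right ?_ spec_np.le
  have := single_le_sum (f := fun a => phi lam a s' - phi lam a s)
    (fun a _ => sub_nonneg.2 (phi_mono h a hs hss).1) (mem_univ (Fin.last n))
  simpa [phi, spec_dl_last] using this

lemma spec_Phi_zero : Phi lam 0 = 0 := by simp [Phi]

lemma spec_Phi_lt (h : Monotone lam) {s s' : ℝ} (hs : 0 ≤ s) (hss : s < s') :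
    Phi lam s < Phi lam s' := by
  have h1 := Phi_sub_ge h hs hss.le
  have h2 : 0 < (s' - s) / (n + 1) := div_pos (sub_pos.2 hss) spec_np
  linarith

lemma sOf_nonneg (D : ℝ) : 0 ≤ sOf lam D := Real.sInf_nonneg fun _ hx => hx.1

lemma sOf_Phi (h : Monotone lam) {s : ℝ} (hs : 0 ≤ s) : sOf lam (Phi lam s) = s := by
  refine IsLeast.csInf_eq ⟨⟨hs, le_rfl⟩, fun t ht => ?_⟩
  by_contra hlt
  exact absurd ht.2 (not_le.2 (spec_Phi_lt h ht.1 (not_le.1 hlt)))

lemma spec_phi_deriv (h : Monotone lam) (a : Fin (n + 1)) {s : ℝ} (hs : 0 ≤ s) :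
    HasDerivAt (phi lam a) (1 / (1 + dl lam a * s) ^ 2) s := by
  have h1 := (spec_pos h a hs).ne'
  have h2 : HasDerivAt (fun t => 1 + dl lam a * t) (dl lam a) s := by
    simpa using ((hasDerivAt_id s).const_mul (dl lam a)).const_add 1
  refine ((hasDerivAt_id' s).fun_div h2 h1).congr_deriv ?_
  congr 1
  ring

/-- `Phi'`. -/
noncomputable def specP2 (lam : Fin (n + 1) → ℝ) (s : ℝ) : ℝ :=
  (∑ a, 1 / (1 + dl lam a * s) ^ 2) / (n + 1)

lemma specP2_pos (h : Monotone lam) {s : ℝ} (hs : 0 ≤ s) : 0 < specP2 lam s :=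
  div_pos (sum_pos (fun a _ => one_div_pos.2 (pow_pos (spec_pos h a hs) 2)) univ_nonempty) spec_np

lemma spec_Phi_deriv (h : Monotone lam) {s : ℝ} (hs : 0 ≤ s) :
    HasDerivAt (Phi lam) (specP2 lam s) s := by
  have h1 : Phi lam = fun t => (∑ a, phi lam a t) / (n + 1) := funext fun t => Phi_eq t
  rw [h1]
  exact (HasDerivAt.fun_sum fun a _ => spec_phi_deriv h a hs).div_const _

lemma Phi_sOf (h : Monotone lam) {D : ℝ} (hD : 0 ≤ D) : Phi lam (sOf lam D) = D := by
  have hb : (0 : ℝ) ≤ (n + 1) * D := mul_nonneg spec_np.le hD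
  have hc : ContinuousOn (Phi lam) (Set.Icc 0 ((n + 1) * D)) := fun t ht =>
    (spec_Phi_deriv h ht.1).continuousAt.continuousWithinAt
  have h1 := Phi_sub_ge h le_rfl hb
  rw [spec_Phi_zero, sub_zero, sub_zero, mul_div_cancel_left₀ _ spec_np.ne'] at h1
  obtain ⟨s, hs, hsD⟩ := intermediate_value_Icc hb hc (⟨by rw [spec_Phi_zero]; exact hD, h1⟩ :
    D ∈ Set.Icc (Phi lam 0) (Phi lam ((n + 1) * D)))
  rw [← hsD, sOf_Phi h hs.1]

lemma spec_sOf_nonpos {D : ℝ} (hD : D ≤ 0) : sOf lam D = 0 :=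
  IsLeast.csInf_eq ⟨⟨le_rfl, by rw [spec_Phi_zero]; exact hD⟩, fun _ ht => ht.1⟩

lemma sOf_zero : sOf lam 0 = 0 := spec_sOf_nonpos le_rfl

lemma sOf_mono (h : Monotone lam) {D D' : ℝ} (hD : 0 ≤ D) (hDD : D ≤ D') :
    sOf lam D ≤ sOf lam D' ∧ sOf lam D' - sOf lam D ≤ (n + 1) * (D' - D) := by
  have hD' := hD.trans hDD
  have h1 : sOf lam D ≤ sOf lam D' := by
    by_contra hlt
    have := spec_Phi_lt h (sOf_nonneg D') (not_le.1 hlt)
    rw [Phi_sOf h hD, Phi_sOf h hD'] at this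
    linarith
  refine ⟨h1, ?_⟩
  have h2 := Phi_sub_ge h (sOf_nonneg D) h1
  rw [Phi_sOf h hD, Phi_sOf h hD', div_le_iff₀ spec_np] at h2
  linarith

lemma spec_sOf_max (D : ℝ) : sOf lam D = sOf lam (max D 0) := by
  rcases le_total D 0 with hD | hD
  · rw [max_eq_right hD, spec_sOf_nonpos hD, sOf_zero]
  · rw [max_eq_left hD]

lemma spec_sOf_monotone (h : Monotone lam) : Monotone (sOf lam) := fun D D' hDD => by
  rw [spec_sOf_max D, spec_sOf_max D']
  exact (sOf_mono h (le_max_right _ _) (max_le_max_right 0 hDD)).1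

lemma spec_abs_sOf (h : Monotone lam) {D D' : ℝ} (hD : 0 ≤ D) (hD' : 0 ≤ D') :
    |sOf lam D - sOf lam D'| ≤ (n + 1) * |D - D'| := by
  rcases le_total D D' with hle | hle
  · have := sOf_mono h hD hle
    rw [abs_sub_comm, abs_of_nonneg (sub_nonneg.2 this.1), abs_sub_comm,
      abs_of_nonneg (sub_nonneg.2 hle)]
    exact this.2
  · have := sOf_mono h hD' hle
    rw [abs_of_nonneg (sub_nonneg.2 this.1), abs_of_nonneg (sub_nonneg.2 hle)]
    exact this.2

lemma spec_sOf_cont (h : Monotone lam) : Continuous (sOf lam) := by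
  refine (LipschitzWith.of_dist_le' (K := (n + 1 : ℝ)) fun D D' => ?_).continuous
  rw [Real.dist_eq, Real.dist_eq, spec_sOf_max D, spec_sOf_max D']
  refine (spec_abs_sOf h (le_max_right _ _) (le_max_right _ _)).trans ?_
  exact mul_le_mul_of_nonneg_left (abs_max_sub_max_le_abs _ _ _) spec_np.le

lemma spec_sOf_pos (h : Monotone lam) {D : ℝ} (hD : 0 < D) : 0 < sOf lam D := by
  refine lt_of_le_of_ne (sOf_nonneg D) fun h0 => ?_
  have := Phi_sOf h hD.le
  rw [← h0, spec_Phi_zero] at this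
  exact hD.ne this

lemma spec_sOf_deriv (h : Monotone lam) {x : ℝ} (hx : 0 < x) :
    HasDerivAt (sOf lam) (specP2 lam (sOf lam x))⁻¹ x := by
  refine HasDerivAt.of_local_left_inverse (spec_sOf_cont h).continuousAt
    (spec_Phi_deriv h (sOf_nonneg x)) (specP2_pos h (sOf_nonneg x)).ne' ?_
  filter_upwards [Ioi_mem_nhds hx] with y hy
  exact Phi_sOf h (le_of_lt hy)

/-- Weighted means are monotone under a monotone likelihood ratio. -/
lemma spec_wmean {ι : Type} [Fintype ι] (x w w' : ι → ℝ) (hw : 0 < ∑ a, w a) (hw' : 0 < ∑ a, w' a)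
    (hlr : ∀ a b, 0 ≤ (x a - x b) * (w' a * w b - w a * w' b)) :
    (∑ a, x a * w a) / ∑ a, w a ≤ (∑ a, x a * w' a) / ∑ a, w' a := by
  rw [div_le_div_iff₀ hw hw']
  have h1 : 0 ≤ ∑ a, ∑ b, (x a - x b) * (w' a * w b - w a * w' b) :=
    sum_nonneg fun a _ => sum_nonneg fun b _ => hlr a b
  have e1 : ∑ a, ∑ b, x a * w' a * w b = (∑ a, x a * w' a) * ∑ a, w a := by rw [sum_mul_sum]
  have e2 : ∑ a, ∑ b, x a * w a * w' b = (∑ a, x a * w a) * ∑ a, w' a := by rw [sum_mul_sum]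
  have e3 : ∑ a, ∑ b, w' a * (x b * w b) = (∑ a, w' a) * ∑ a, x a * w a := by rw [sum_mul_sum]
  have e4 : ∑ a, ∑ b, w a * (x b * w' b) = (∑ a, w a) * ∑ a, x a * w' a := by rw [sum_mul_sum]
  have h2 : ∑ a, ∑ b, (x a - x b) * (w' a * w b - w a * w' b) =
      ∑ a, ∑ b, x a * w' a * w b - ∑ a, ∑ b, x a * w a * w' b - ∑ a, ∑ b, w' a * (x b * w b) +
        ∑ a, ∑ b, w a * (x b * w' b) := by
    simp only [← sum_sub_distrib, ← sum_add_distrib]
    exact sum_congr rfl fun a _ => sum_congr rfl fun b _ => by ring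
  rw [h2, e1, e2, e3, e4] at h1
  linarith

lemma spec_Rs_mean (s : ℝ) :
    Rs lam s = (∑ a, lam a * (1 / (1 + dl lam a * s))) / ∑ a, 1 / (1 + dl lam a * s) := by
  simp only [Rs, Dn, mul_one_div]
  rw [div_div_div_cancel_right₀ spec_np.ne']

lemma spec_sum_pos (h : Monotone lam) {s : ℝ} (hs : 0 ≤ s) : 0 < ∑ a, 1 / (1 + dl lam a * s) :=
  sum_pos (fun a _ => one_div_pos.2 (spec_pos h a hs)) univ_nonempty

lemma Rs_bounds (h : Monotone lam) {s : ℝ} (hs : 0 ≤ s) :
    lam 0 ≤ Rs lam s ∧ Rs lam s ≤ lam (Fin.last n) := by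
  rw [spec_Rs_mean, le_div_iff₀ (spec_sum_pos h hs), div_le_iff₀ (spec_sum_pos h hs), mul_sum,
    mul_sum]
  exact ⟨sum_le_sum fun a _ => mul_le_mul_of_nonneg_right (h (Fin.zero_le a))
      (one_div_pos.2 (spec_pos h a hs)).le,
    sum_le_sum fun a _ => mul_le_mul_of_nonneg_right (h (Fin.le_last a))
      (one_div_pos.2 (spec_pos h a hs)).le⟩

lemma Rs_zero : Rs lam 0 = (∑ a, lam a) / (n + 1) := by
  simp [Rs, spec_Dn_zero]

/-- Mean of `dl / (1 + dl s)`. -/
noncomputable def specM (lam : Fin (n + 1) → ℝ) (s : ℝ) : ℝ :=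
  (∑ a, dl lam a / (1 + dl lam a * s)) / (n + 1)

lemma spec_Dn_add (h : Monotone lam) {s : ℝ} (hs : 0 ≤ s) : Dn lam s + s * specM lam s = 1 := by
  rw [Dn, specM, ← mul_div_assoc, ← add_div, mul_sum, ← sum_add_distrib, div_eq_one_iff_eq spec_np.ne']
  rw [sum_congr rfl (g := fun _ => (1 : ℝ)) fun a _ => ?_]
  · simp
  · have := (spec_pos h a hs).ne'
    field_simp

lemma spec_Rs_M (h : Monotone lam) {s : ℝ} (hs : 0 ≤ s) :
    Rs lam s = lam (Fin.last n) - specM lam s / Dn lam s := by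
  have h1 : (∑ a, lam a / (1 + dl lam a * s)) / (n + 1) =
      lam (Fin.last n) * Dn lam s - specM lam s := by
    rw [Dn, specM, ← mul_div_assoc, ← sub_div, mul_sum, ← sum_sub_distrib]
    congr 1
    refine sum_congr rfl fun a _ => ?_
    rw [mul_one_div, ← sub_div]
    congr 1
    simp [dl]
  rw [Rs, h1, sub_div, mul_div_cancel_right₀ _ (spec_Dn_pos h hs).ne']

lemma Rs_eq (h : Monotone lam) {s : ℝ} (hs : 0 < s) :
    Rs lam s = lam (Fin.last n) + 1 / s - 1 / Phi lam s := by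
  have h1 := spec_Dn_add h hs.le
  have h2 := (spec_Dn_pos h hs.le).ne'
  have h3 : specM lam s = (1 - Dn lam s) / s := by
    rw [eq_div_iff hs.ne']; linarith
  rw [spec_Rs_M h hs.le, h3, Phi]
  field_simp
  ring

lemma spec_lr (a b : Fin (n + 1)) (s s' : ℝ) :
    (1 + dl lam a * s) * (1 + dl lam b * s') - (1 + dl lam a * s') * (1 + dl lam b * s) =
      (lam a - lam b) * (s' - s) := by
  simp only [dl]; ring

lemma spec_aux1 {A A' B B' : ℝ} (h1 : A ≠ 0) (h2 : A' ≠ 0) (h3 : B ≠ 0) (h4 : B' ≠ 0) :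
    1 / A' * (1 / B) - 1 / A * (1 / B') = (A * B' - A' * B) / (A' * B * (A * B')) := by
  field_simp

lemma spec_aux2 {A A' B B' : ℝ} (h1 : A ≠ 0) (h2 : A' ≠ 0) (h3 : B ≠ 0) (h4 : B' ≠ 0) :
    1 / A' ^ 2 * (1 / B ^ 2) - 1 / A ^ 2 * (1 / B' ^ 2) =
      (A * B' - A' * B) * ((A * B' + A' * B) / (A' * B * (A * B')) ^ 2) := by
  field_simp
  ring

lemma Rs_mono (h : Monotone lam) {s s' : ℝ} (hs : 0 ≤ s) (hss : s ≤ s') : Rs lam s ≤ Rs lam s' := by
  have hs' := hs.trans hss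
  rw [spec_Rs_mean, spec_Rs_mean]
  refine spec_wmean _ _ _ (spec_sum_pos h hs) (spec_sum_pos h hs') fun a b => ?_
  have h1 := spec_pos h a hs
  have h2 := spec_pos h a hs'
  have h3 := spec_pos h b hs
  have h4 := spec_pos h b hs'
  have h5 : 1 / (1 + dl lam a * s') * (1 / (1 + dl lam b * s)) -
      1 / (1 + dl lam a * s) * (1 / (1 + dl lam b * s')) = (lam a - lam b) * (s' - s) /
        ((1 + dl lam a * s') * (1 + dl lam b * s) * ((1 + dl lam a * s) * (1 + dl lam b * s'))) := by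
    rw [← spec_lr]
    exact spec_aux1 h1.ne' h2.ne' h3.ne' h4.ne'
  rw [h5, ← mul_div_assoc, ← mul_assoc]
  exact div_nonneg (mul_nonneg (mul_self_nonneg _) (sub_nonneg.2 hss)) (by positivity)

lemma Rf_mono (h : Monotone lam) : Monotone (Rf lam) := fun _ _ hDD =>
  Rs_mono h (sOf_nonneg _) (spec_sOf_monotone h hDD)

lemma spec_Rs_lip (h : Monotone lam) {s s' : ℝ} (hs : 0 ≤ s) (hss : s ≤ s') :
    Rs lam s' - Rs lam s ≤ (∑ a, dl lam a ^ 2) * (s' - s) := by
  have hs' := hs.trans hss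
  have hD := spec_Dn_pos h hs
  have hD' := spec_Dn_pos h hs'
  have hM : 0 ≤ specM lam s :=
    div_nonneg (sum_nonneg fun a _ => div_nonneg (dl_nonneg h a) (spec_pos h a hs).le) spec_np.le
  have hDD : Dn lam s' ≤ Dn lam s := by
    refine div_le_div_of_nonneg_right (sum_le_sum fun a _ => ?_) spec_np.le
    refine one_div_le_one_div_of_le (spec_pos h a hs) ?_
    have := mul_le_mul_of_nonneg_left hss (dl_nonneg h a)
    linarith
  have hMM : specM lam s - specM lam s' ≤ (∑ a, dl lam a ^ 2) * (s' - s) / (n + 1) := by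
    rw [specM, specM, ← sub_div, ← sum_sub_distrib, sum_mul]
    refine div_le_div_of_nonneg_right (sum_le_sum fun a _ => ?_) spec_np.le
    have h1 := spec_one_le h a hs
    have h2 := spec_one_le h a hs'
    have h3 : dl lam a / (1 + dl lam a * s) - dl lam a / (1 + dl lam a * s') =
        dl lam a ^ 2 * (s' - s) / ((1 + dl lam a * s) * (1 + dl lam a * s')) := by
      have h1' : 1 + dl lam a * s ≠ 0 := by linarith
      have h2' : 1 + dl lam a * s' ≠ 0 := by linarith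
      field_simp
      ring
    rw [h3]
    exact div_le_self (mul_nonneg (sq_nonneg _) (sub_nonneg.2 hss))
      (one_le_mul_of_one_le_of_one_le h1 h2)
  have hK : 0 ≤ (∑ a, dl lam a ^ 2) * (s' - s) :=
    mul_nonneg (sum_nonneg fun a _ => sq_nonneg _) (sub_nonneg.2 hss)
  have h1 : specM lam s / Dn lam s ≤ specM lam s / Dn lam s' := div_le_div_of_nonneg_left hM hD' hDD
  have h2 : (specM lam s - specM lam s') / Dn lam s' ≤ (∑ a, dl lam a ^ 2) * (s' - s) := by
    rw [div_le_iff₀ hD']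
    refine hMM.trans ?_
    rw [div_eq_mul_one_div]
    exact mul_le_mul_of_nonneg_left (Dn_bounds h hs').1 hK
  rw [spec_Rs_M h hs, spec_Rs_M h hs']
  rw [sub_div] at h2
  linarith

lemma exists_Rf_lip (h : Monotone lam) :
    ∃ C : ℝ, 0 ≤ C ∧ ∀ D D', 0 ≤ D → D ≤ D' → Rf lam D' - Rf lam D ≤ C * (D' - D) := by
  have hK : 0 ≤ ∑ a, dl lam a ^ 2 := sum_nonneg fun a _ => sq_nonneg _
  refine ⟨(∑ a, dl lam a ^ 2) * (n + 1), mul_nonneg hK spec_np.le, fun D D' hD hDD => ?_⟩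
  have h1 := sOf_mono h hD hDD
  refine (spec_Rs_lip h (sOf_nonneg D) h1.1).trans ?_
  rw [mul_assoc]
  exact mul_le_mul_of_nonneg_left h1.2 hK

lemma spec_Phi_mul_Rs (h : Monotone lam) {s : ℝ} (hs : 0 ≤ s) :
    Phi lam s * Rs lam s = (∑ a, lam a * phi lam a s) / (n + 1) := by
  have h2 := (spec_Dn_pos h hs).ne'
  rw [Phi, Rs, mul_assoc, mul_div_cancel₀ _ h2, ← mul_div_assoc, mul_sum]
  congr 1
  refine sum_congr rfl fun a _ => ?_
  simp only [phi]
  ring

lemma rho_eq (h : Monotone lam) {D : ℝ} (hD : 0 ≤ D) :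
    rho lam D = (∑ a, lam a * phi lam a (sOf lam D)) / (n + 1) := by
  rw [← spec_Phi_mul_Rs h (sOf_nonneg D), Phi_sOf h hD, rho, Rf]

lemma spec_stieltjes (h : Monotone lam) {b : ℝ} (hb : lam (Fin.last n) < b) :
    ∫ x, (b - x)⁻¹ ∂muf lam = Phi lam (1 / (b - lam (Fin.last n))) := by
  rw [integral_muf lam _ (by fun_prop), Phi_eq]
  congr 1
  refine sum_congr rfl fun a _ => ?_
  have h1 : b - lam (Fin.last n) ≠ 0 := (sub_pos.2 hb).ne'
  have h2 : b - lam a ≠ 0 := (sub_pos.2 ((h (Fin.le_last a)).trans_lt hb)).ne'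
  have h3 : 1 + dl lam a * (1 / (b - lam (Fin.last n))) =
      (b - lam a) / (b - lam (Fin.last n)) := by
    simp only [dl]
    field_simp
    ring
  rw [phi, h3]
  field_simp

/-- The prelude's R-transform of the finite law. -/
theorem rTransform_muf (h : Monotone lam) {D : ℝ} (hD : 0 ≤ D) :
    rTransform (muf lam) (lam (Fin.last n)) D = Rf lam D := by
  rcases hD.eq_or_lt with rfl | hD'
  · rw [rTransform, if_neg (lt_irrefl _), integral_muf lam _ measurable_id', Rf, sOf_zero, Rs_zero]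
  · have hs := spec_sOf_pos h hD'
    have hset : {b : ℝ | lam (Fin.last n) < b ∧ ∫ x, (b - x)⁻¹ ∂muf lam = D} =
        {lam (Fin.last n) + 1 / sOf lam D} := by
      ext b
      simp only [Set.mem_ofPred_eq, Set.mem_singleton_iff]
      constructor
      · rintro ⟨hb, hb'⟩
        rw [spec_stieltjes h hb] at hb'
        rw [← hb', sOf_Phi h (one_div_pos.2 (sub_pos.2 hb)).le, one_div_one_div]
        ring
      · rintro rfl
        have hb : lam (Fin.last n) < lam (Fin.last n) + 1 / sOf lam D :=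
          lt_add_of_pos_right _ (one_div_pos.2 hs)
        refine ⟨hb, ?_⟩
        rw [spec_stieltjes h hb, add_sub_cancel_left, one_div_one_div, Phi_sOf h hD]
    have hex : ∃ b : ℝ, lam (Fin.last n) < b ∧ ∫ x, (b - x)⁻¹ ∂muf lam = D := by
      have : lam (Fin.last n) + 1 / sOf lam D ∈
          {b : ℝ | lam (Fin.last n) < b ∧ ∫ x, (b - x)⁻¹ ∂muf lam = D} := by
        rw [hset]; rfl
      exact ⟨_, this⟩
    rw [rTransform, if_pos hD', resolventPoint, if_pos hex, hset, csInf_singleton, Rf,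
      Rs_eq h hs, Phi_sOf h hD]

lemma lgd_zero (a : Fin (n + 1)) : lgd lam a 0 = 0 := by
  simp [lgd, spec_Dn_zero]

lemma exists_lgd_bound (h : Monotone lam) :
    ∃ C : ℝ, ∀ a (s : ℝ), 0 ≤ s → s ≤ n + 1 → |lgd lam a s| ≤ C := by
  refine ⟨(∑ a, dl lam a) * (n + 1) + (n + 1), fun a s hs hs' => ?_⟩
  have h1 := Dn_bounds h hs
  have h2 := spec_one_le h a hs
  have h3 := spec_Dn_pos h hs
  have h4 : dl lam a ≤ ∑ a, dl lam a :=
    single_le_sum (f := dl lam) (fun a _ => dl_nonneg h a) (mem_univ a)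
  have h5 : dl lam a * s ≤ (∑ a, dl lam a) * (n + 1) :=
    mul_le_mul h4 hs' hs ((dl_nonneg h a).trans h4)
  have h6 : 0 ≤ (∑ a, dl lam a) * (n + 1) := (mul_nonneg (dl_nonneg h a) hs).trans h5
  have hx : 0 < (1 + dl lam a * s) * Dn lam s := mul_pos (by linarith) h3
  rw [lgd, abs_le]
  constructor
  · have h7 : 1 / (n + 1) ≤ (1 + dl lam a * s) * Dn lam s :=
      h1.1.trans (le_mul_of_one_le_left h3.le h2)
    have h8 := log_le_log (one_div_pos.2 spec_np) h7
    rw [one_div, log_inv] at h8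
    have h9 := log_le_sub_one_of_pos (spec_np (n := n))
    linarith
  · have h7 : (1 + dl lam a * s) * Dn lam s ≤ 1 + dl lam a * s :=
      mul_le_of_le_one_right (by linarith) h1.2
    have h8 := log_le_sub_one_of_pos hx
    linarith [spec_np (n := n)]

/-- `d/ds` of `Phi * Rs`. -/
noncomputable def specN2 (lam : Fin (n + 1) → ℝ) (s : ℝ) : ℝ :=
  (∑ a, lam a * (1 / (1 + dl lam a * s) ^ 2)) / (n + 1)

lemma spec_N_deriv (h : Monotone lam) {s : ℝ} (hs : 0 ≤ s) :
    HasDerivAt (fun t => (∑ a, lam a * phi lam a t) / (n + 1)) (specN2 lam s) s :=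
  (HasDerivAt.fun_sum fun a _ => (spec_phi_deriv h a hs).const_mul (lam a)).div_const _

lemma spec_N2_mono (h : Monotone lam) {s s' : ℝ} (hs : 0 ≤ s) (hss : s ≤ s') :
    specN2 lam s * (specP2 lam s)⁻¹ ≤ specN2 lam s' * (specP2 lam s')⁻¹ := by
  have hs' := hs.trans hss
  rw [← div_eq_mul_inv, ← div_eq_mul_inv, specN2, specN2, specP2, specP2,
    div_div_div_cancel_right₀ spec_np.ne', div_div_div_cancel_right₀ spec_np.ne']
  refine spec_wmean _ _ _
    (sum_pos (fun a _ => one_div_pos.2 (pow_pos (spec_pos h a hs) 2)) univ_nonempty)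
    (sum_pos (fun a _ => one_div_pos.2 (pow_pos (spec_pos h a hs') 2)) univ_nonempty) fun a b => ?_
  have h1 := spec_pos h a hs
  have h2 := spec_pos h a hs'
  have h3 := spec_pos h b hs
  have h4 := spec_pos h b hs'
  have h5 : 1 / (1 + dl lam a * s') ^ 2 * (1 / (1 + dl lam b * s) ^ 2) -
      1 / (1 + dl lam a * s) ^ 2 * (1 / (1 + dl lam b * s') ^ 2) = (lam a - lam b) * (s' - s) *
        (((1 + dl lam a * s) * (1 + dl lam b * s') + (1 + dl lam a * s') * (1 + dl lam b * s)) /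
        ((1 + dl lam a * s') * (1 + dl lam b * s) * ((1 + dl lam a * s) * (1 + dl lam b * s'))) ^ 2) := by
    rw [← spec_lr]
    exact spec_aux2 h1.ne' h2.ne' h3.ne' h4.ne'
  rw [h5, ← mul_assoc, ← mul_assoc]
  exact mul_nonneg (mul_nonneg (mul_self_nonneg _) (sub_nonneg.2 hss)) (by positivity)

lemma spec_rho_deriv (h : Monotone lam) {x : ℝ} (hx : 0 < x) :
    HasDerivAt (rho lam) (specN2 lam (sOf lam x) * (specP2 lam (sOf lam x))⁻¹) x := by
  refine ((spec_N_deriv h (sOf_nonneg x)).comp x (spec_sOf_deriv h hx)).congr_of_eventuallyEq ?_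
  filter_upwards [Ioi_mem_nhds hx] with y hy
  exact rho_eq h (le_of_lt hy)

lemma spec_rho_cont (h : Monotone lam) : ContinuousOn (rho lam) (Set.Ici 0) := by
  have h1 : Continuous fun x => (∑ a, lam a * phi lam a (sOf lam x)) / (n + 1) :=
    continuous_iff_continuousAt.2 fun x =>
      ContinuousAt.comp (f := sOf lam) (spec_N_deriv h (sOf_nonneg x)).continuousAt
        (spec_sOf_cont h).continuousAt
  exact h1.continuousOn.congr fun x hx => rho_eq h hx

/-- `x R(x)` is convex and differentiable on `(0, ∞)`. -/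
theorem exists_rho_deriv (h : Monotone lam) : ∃ rho' : ℝ → ℝ, Monotone rho' ∧
    (∀ x, 0 < x → HasDerivAt (rho lam) (rho' x) x) ∧ ContinuousOn (rho lam) (Set.Ici 0) :=
  ⟨fun x => specN2 lam (sOf lam x) * (specP2 lam (sOf lam x))⁻¹,
    fun _ _ hxy => spec_N2_mono h (sOf_nonneg _) (spec_sOf_monotone h hxy),
    fun _ hx => spec_rho_deriv h hx, spec_rho_cont h⟩

/-- `-Dn'`. -/
noncomputable def specM2 (lam : Fin (n + 1) → ℝ) (s : ℝ) : ℝ :=
  (∑ a, dl lam a / (1 + dl lam a * s) ^ 2) / (n + 1)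

lemma spec_lin_deriv (a : Fin (n + 1)) (s : ℝ) :
    HasDerivAt (fun t => 1 + dl lam a * t) (dl lam a) s := by
  simpa using ((hasDerivAt_id s).const_mul (dl lam a)).const_add 1

lemma spec_Dn_deriv (h : Monotone lam) {s : ℝ} (hs : 0 ≤ s) :
    HasDerivAt (Dn lam) (-specM2 lam s) s := by
  have h1 : ∀ a, HasDerivAt (fun t => 1 / (1 + dl lam a * t))
      (-(dl lam a / (1 + dl lam a * s) ^ 2)) s := fun a => by
    simp only [one_div]
    refine ((spec_lin_deriv (lam := lam) a s).fun_inv (spec_pos h a hs).ne').congr_deriv ?_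
    rw [neg_div]
  refine ((HasDerivAt.fun_sum fun a (_ : a ∈ univ) => h1 a).div_const ((n : ℝ) + 1)).congr_deriv ?_
  rw [specM2, sum_neg_distrib, neg_div]

lemma spec_lgd_deriv (h : Monotone lam) (a : Fin (n + 1)) {s : ℝ} (hs : 0 ≤ s) :
    HasDerivAt (lgd lam a) (dl lam a / (1 + dl lam a * s) - specM2 lam s / Dn lam s) s := by
  have h1 := (spec_pos h a hs).ne'
  have h2 := (spec_Dn_pos h hs).ne'
  refine (((spec_lin_deriv (lam := lam) a s).fun_mul (spec_Dn_deriv h hs)).log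
    (mul_ne_zero h1 h2)).congr_deriv ?_
  rw [div_sub_div _ _ h1 h2]
  congr 1
  ring

lemma spec_L_deriv (h : Monotone lam) {s : ℝ} (hs : 0 ≤ s) :
    HasDerivAt (fun t => (∑ a, lgd lam a t) / (n + 1))
      (specM lam s - specM2 lam s / Dn lam s) s := by
  refine ((HasDerivAt.fun_sum fun a (_ : a ∈ univ) => spec_lgd_deriv h a hs).div_const
    ((n : ℝ) + 1)).congr_deriv ?_
  rw [sum_sub_distrib, sub_div, spec_sum_const, mul_div_cancel_left₀ _ spec_np.ne', specM]

lemma spec_P2_add (h : Monotone lam) {s : ℝ} (hs : 0 ≤ s) :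
    specP2 lam s + s * specM2 lam s = Dn lam s := by
  rw [Dn, specM2, specP2, ← mul_div_assoc, ← add_div, mul_sum, ← sum_add_distrib]
  congr 1
  refine sum_congr rfl fun a _ => ?_
  have := (spec_pos h a hs).ne'
  field_simp

lemma spec_N2_eq (s : ℝ) : specN2 lam s = lam (Fin.last n) * specP2 lam s - specM2 lam s := by
  rw [specN2, specM2, specP2, ← mul_div_assoc, ← sub_div, mul_sum, ← sum_sub_distrib]
  congr 1
  refine sum_congr rfl fun a _ => ?_
  rw [mul_one_div, mul_one_div, ← sub_div]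
  congr 1
  simp [dl]

lemma spec_G_eq (h : Monotone lam) {s : ℝ} (hs : 0 ≤ s) :
    specN2 lam s - (specM lam s - specM2 lam s / Dn lam s) = Rs lam s * specP2 lam s := by
  have h1 := spec_Dn_add h hs
  have h2 := spec_P2_add h hs
  have h3 := (spec_Dn_pos h hs).ne'
  rw [spec_N2_eq, spec_Rs_M h hs]
  field_simp
  linear_combination (-specM2 lam s) * h1 + specM lam s * h2

theorem Af_deriv (h : Monotone lam) : Af lam 0 = 0 ∧
    (∀ x, 0 < x → HasDerivAt (Af lam) (Rf lam x) x) ∧ ContinuousOn (Af lam) (Set.Ici 0) := by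
  refine ⟨by simp [Af, rho, sOf_zero, lgd_zero], fun x hx => ?_, ?_⟩
  · refine ((spec_rho_deriv h hx).fun_sub
      ((spec_L_deriv h (sOf_nonneg x)).comp x (spec_sOf_deriv h hx))).congr_deriv ?_
    rw [← sub_mul, spec_G_eq h (sOf_nonneg x), mul_assoc,
      mul_inv_cancel₀ (specP2_pos h (sOf_nonneg x)).ne', mul_one, Rf]
  · have h1 : Continuous fun x => (∑ a, lgd lam a (sOf lam x)) / (n + 1) :=
      continuous_iff_continuousAt.2 fun x =>
        ContinuousAt.comp (f := sOf lam) (spec_L_deriv h (sOf_nonneg x)).continuousAt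
          (spec_sOf_cont h).continuousAt
    exact (spec_rho_cont h).sub h1.continuousOn

lemma spec_abs_phi (h : Monotone lam) (a : Fin (n + 1)) {s s' : ℝ} (hs : 0 ≤ s) (hs' : 0 ≤ s') :
    |phi lam a s - phi lam a s'| ≤ |s - s'| := by
  rcases le_total s s' with hle | hle
  · have := phi_mono h a hs hle
    rw [abs_sub_comm, abs_of_nonneg (sub_nonneg.2 this.1), abs_sub_comm,
      abs_of_nonneg (sub_nonneg.2 hle)]
    exact this.2
  · have := phi_mono h a hs' hle
    rw [abs_of_nonneg (sub_nonneg.2 this.1), abs_of_nonneg (sub_nonneg.2 hle)]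
    exact this.2

/-- Solving the approximate Schwinger-Dyson relations. -/
theorem solve_sd (h : Monotone lam) {D w : Fin (n + 1) → ℝ} {κ ε ε' : ℝ} (hD : ∀ a, 0 ≤ D a ∧ D a ≤ κ)
    (hw : ∀ a, |w a - 1 / (n + 1)| ≤ ε') (hw0 : ∀ a, 0 ≤ w a)
    (hrel : ∀ a, |D a - D (Fin.last n) + dl lam a * (D (Fin.last n) * D a)| ≤ ε) (a : Fin (n + 1)) :
    |D a - phi lam a (sOf lam (∑ b, w b * D b))| ≤ (n + 2) * ε + (n + 1) ^ 2 * κ * ε' := by
  have hL := (hD (Fin.last n)).1
  have h1 : ∀ b, |D b - phi lam b (D (Fin.last n))| ≤ ε := fun b => by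
    have hp := spec_pos h b hL
    have e : D b - phi lam b (D (Fin.last n)) =
        (D b - D (Fin.last n) + dl lam b * (D (Fin.last n) * D b)) /
          (1 + dl lam b * D (Fin.last n)) := by
      rw [phi, sub_div' hp.ne']
      congr 1
      ring
    rw [e, abs_div, abs_of_pos hp]
    exact (div_le_self (abs_nonneg _) (spec_one_le h b hL)).trans (hrel b)
  have hε' : 0 ≤ ε' := (abs_nonneg _).trans (hw a)
  have h2 : |∑ b, w b * D b - Phi lam (D (Fin.last n))| ≤ ε + (n + 1) * κ * ε' := by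
    have e : ∑ b, w b * D b - Phi lam (D (Fin.last n)) =
        ∑ b, ((w b - 1 / (n + 1)) * D b + (D b - phi lam b (D (Fin.last n))) / (n + 1)) := by
      rw [Phi_eq, sum_div, ← sum_sub_distrib]
      exact sum_congr rfl fun b _ => by ring
    rw [e]
    refine (abs_sum_le_sum_abs _ _).trans ?_
    refine (sum_le_sum (g := fun _ => ε' * κ + ε / (n + 1)) fun b _ => ?_).trans ?_
    · refine (abs_add_le _ _).trans (add_le_add ?_ ?_)
      · rw [abs_mul, abs_of_nonneg (hD b).1]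
        exact mul_le_mul (hw b) (hD b).2 (hD b).1 hε'
      · rw [abs_div, abs_of_pos spec_np]
        exact div_le_div_of_nonneg_right (h1 b) spec_np.le
    · rw [spec_sum_const, mul_add, mul_div_cancel₀ _ spec_np.ne']
      exact le_of_eq (by ring)
  have hS : 0 ≤ ∑ b, w b * D b := sum_nonneg fun b _ => mul_nonneg (hw0 b) (hD b).1
  have hP : 0 ≤ Phi lam (D (Fin.last n)) := mul_nonneg hL (spec_Dn_pos h hL).le
  have h3 := spec_abs_sOf h hS hP
  rw [sOf_Phi h hL] at h3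
  have h4 := spec_abs_phi h a (sOf_nonneg (lam := lam) (∑ b, w b * D b)) hL
  have h5 := mul_le_mul_of_nonneg_left h2 (spec_np (n := n)).le
  have h6 := abs_sub_le (D a) (phi lam a (D (Fin.last n))) (phi lam a (sOf lam (∑ b, w b * D b)))
  rw [abs_sub_comm (phi lam a (D (Fin.last n)))] at h6
  have h7 := h1 a
  calc _ ≤ ε + (n + 1) * (ε + (n + 1) * κ * ε') := by linarith
    _ = _ := by ring

lemma isSeq_sq (h : Monotone lam) {k : ℕ} (ex : Expo (k + 2)) {q : ℕ → ℝ} (hq : IsOv k q) :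
    IsSeq n k (sq lam ex k q) := by
  refine ⟨?_, fun l hl => ?_, by simp [sq]⟩
  · have h0 := Dev_nonneg ex 1 q (fun e he => (hq.1 e he).2) zero_le_one (Nat.zero_le k)
    have h1 := Dev_le ex 1 q (fun e he => (hq.1 e he).1) (Nat.zero_le k)
    have h2 := (sOf_mono h le_rfl h0).2
    rw [sOf_zero, sub_zero, sub_zero] at h2
    simp only [sq, Nat.zero_le, if_true]
    exact h2.trans (mul_le_of_le_one_right spec_np.le h1)
  · simp only [sq, if_pos hl]
    split_ifs with hl'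
    · refine spec_sOf_monotone h ?_
      have h1 := Dev_step ex 1 q (e := l + 1) (by omega) hl'
      rw [Nat.add_sub_cancel] at h1
      have h2 : 0 ≤ q (l + 1) - if l + 1 = 1 then 0 else q l := by
        split_ifs with h3
        · rw [sub_zero]; exact (hq.1 _ (mem_Icc.2 ⟨by omega, hl'⟩)).1
        · exact sub_nonneg.2 (hq.2 l (by omega) (by omega))
      have := mul_nonneg (ex.pos (l + 1)).le h2
      linarith
    · exact sOf_nonneg _

lemma IsSeq.spec_anti {k : ℕ} {s : ℕ → ℝ} (hs : IsSeq n k s) {l m : ℕ} (hlm : l ≤ m)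
    (hm : m ≤ k + 1) : s m ≤ s l := by
  induction m, hlm using Nat.le_induction with
  | base => exact le_rfl
  | succ m _ ih => exact (hs.2.1 m (by omega)).trans (ih (by omega))

lemma IsSeq.nonneg {k : ℕ} {s : ℕ → ℝ} (hs : IsSeq n k s) {l : ℕ} (hl : l ≤ k + 1) :
    0 ≤ s l ∧ s l ≤ n + 1 :=
  ⟨hs.2.2 ▸ hs.spec_anti hl le_rfl, (hs.spec_anti (Nat.zero_le l) hl).trans hs.1⟩

lemma vv_nonneg (h : Monotone lam) {k : ℕ} (ex : Expo (k + 2)) {s : ℕ → ℝ} (hs : IsSeq n k s) {l : ℕ}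
    (hl : l ≤ k + 1) : 0 ≤ vv lam ex s l :=
  div_nonneg (sub_nonneg.2 (Rs_mono h (hs.nonneg hl).1 (hs.spec_anti (Nat.sub_le l 1) hl)))
    (ex.pos l).le

lemma vv_zero {K : ℕ} (ex : Expo K) (s : ℕ → ℝ) : vv lam ex s 0 = 0 := by
  simp [vv]

lemma spec_telescope (f : ℕ → ℝ) (k : ℕ) :
    ∑ l ∈ range (k + 1), (f (l - 1) - f l) = f 0 - f k := by
  induction k with
  | zero => simp
  | succ k ih => rw [sum_range_succ, ih, Nat.add_sub_cancel]; ring

lemma sum_vv_le (h : Monotone lam) {k : ℕ} (ex : Expo (k + 2)) {s : ℕ → ℝ} (hs : IsSeq n k s) :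
    ∑ l ∈ range (k + 1), vv lam ex s l ≤ (lam (Fin.last n) - lam 0) / ex.ζ 0 := by
  calc ∑ l ∈ range (k + 1), vv lam ex s l
      ≤ ∑ l ∈ range (k + 1), (Rs lam (s (l - 1)) - Rs lam (s l)) / ex.ζ 0 := by
        refine sum_le_sum fun l hl => ?_
        have hl' : l ≤ k + 1 := (mem_range.1 hl).le
        exact div_le_div_of_nonneg_left
          (sub_nonneg.2 (Rs_mono h (hs.nonneg hl').1 (hs.spec_anti (Nat.sub_le l 1) hl')))
          (ex.pos 0) (ex.mono (Nat.zero_le l))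
    _ = (Rs lam (s 0) - Rs lam (s k)) / ex.ζ 0 := by
        rw [← sum_div, spec_telescope (fun l => Rs lam (s l))]
    _ ≤ _ := by
        refine div_le_div_of_nonneg_right ?_ (ex.pos 0).le
        have h1 := (Rs_bounds h (hs.nonneg (Nat.zero_le _)).1).2
        have h2 := (Rs_bounds h (hs.nonneg (Nat.le_succ k)).1).1
        linarith

lemma sg2_nonneg (h : Monotone lam) {k : ℕ} (ex : Expo (k + 2)) {s : ℕ → ℝ} (hs : IsSeq n k s)
    (a : Fin (n + 1)) {l : ℕ} (hl : l ≤ k + 1) : 0 ≤ sg2 lam ex s a l :=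
  div_nonneg (sub_nonneg.2 (phi_mono h a (hs.nonneg hl).1 (hs.spec_anti (Nat.sub_le l 1) hl)).1)
    (ex.pos l).le

lemma exists_cst_bound (h : Monotone lam) {η : ℝ} (hη : 0 < η) : ∃ C : ℝ, ∀ (k : ℕ) (ex : Expo (k + 2))
    (s : ℕ → ℝ) (a : Fin (n + 1)), ex.ζ 1 = η → IsSeq n k s → |cst lam ex k s a| ≤ C := by
  obtain ⟨C, hC⟩ := exists_lgd_bound h
  refine ⟨max |lam 0| |lam (Fin.last n)| / 2 + (C + C) / η ^ 2 / 2, fun k ex s a hζ hs => ?_⟩
  have hb : ∀ l ≤ k + 1, |lgd lam a (s l)| ≤ C := fun l hl =>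
    hC a _ (hs.nonneg hl).1 (hs.nonneg hl).2
  have hC0 : 0 ≤ C := (abs_nonneg _).trans (hb 0 (Nat.zero_le _))
  have h1 := abs_abel_le' ex hζ (fun l => lgd lam a (s l))
  have h2 : ∑ l ∈ Icc 1 k, ex.Δ l * |lgd lam a (s l)| ≤ C := by
    calc _ ≤ ∑ l ∈ Icc 1 k, ex.Δ l * C := sum_le_sum fun l hl =>
          mul_le_mul_of_nonneg_left (hb l (by have := (mem_Icc.1 hl).2; omega)) (ex.Δ_nonneg l)
      _ = (∑ l ∈ Icc 1 k, ex.Δ l) * C := by rw [sum_mul]
      _ ≤ C := mul_le_of_le_one_left hC0 (sum_Δ_Icc_le ex)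
  have h3 : (|lgd lam a (s 0)| + ∑ l ∈ Icc 1 k, ex.Δ l * |lgd lam a (s l)|) / η ^ 2 ≤
      (C + C) / η ^ 2 :=
    div_le_div_of_nonneg_right (add_le_add (hb 0 (Nat.zero_le _)) h2) (sq_nonneg _)
  have h4 : ∑ l ∈ Icc 1 (k + 1), (lgd lam a (s (l - 1)) - lgd lam a (s l)) / (2 * ex.ζ l) =
      (lgd lam a (s k) + ∑ l ∈ Icc 1 k, (lgd lam a (s (l - 1)) - lgd lam a (s l)) / ex.ζ l) / 2 := by
    rw [sum_Icc_succ_top (by omega), Nat.add_sub_cancel, hs.2.2, lgd_zero, ex.top (k + 1) le_rfl,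
      add_div, sum_div, add_comm]
    congr 1
    · ring
    · exact sum_congr rfl fun l _ => by rw [div_div, mul_comm]
  have h5 := Rs_bounds h (hs.nonneg (Nat.le_succ k)).1
  have h6 := abs_le_max_abs_abs h5.1 h5.2
  rw [cst, h4]
  refine (abs_sub _ _).trans (add_le_add ?_ ?_)
  · rw [abs_div, abs_two]
    exact div_le_div_of_nonneg_right h6 zero_le_two
  · rw [abs_div, abs_two]
    exact div_le_div_of_nonneg_right (h1.trans h3) zero_le_two

end Crest.Agent.R164
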