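import Crest.Agent.R164.CavPsi
import Crest.Agent.R164.Spec
import Crest.Agent.R164.NestIneq

/-! # Row 164: generic tools for the Guerra interpolation of the cavity step -/

set_option autoImplicit false

namespace Crest.Agent.R164.CI

open MeasureTheory ProbabilityTheory Real Finset

/-- The part of `Smooth` that is used, with named derivatives. -/
structure Sm {n : ℕ} (Ψ : Bool → (Fin n → ℝ) → ℝ) (Ψ₁ Ψ₂ : Bool → Fin n → (Fin n → ℝ) → ℝ)
    (C : ℝ) : Prop where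
  d1 : ∀ ε z, HasFDerivAt (Ψ ε)
      (∑ b, Ψ₁ ε b z • (ContinuousLinearMap.proj b : (Fin n → ℝ) →L[ℝ] ℝ)) z
  d2 : ∀ ε b z, HasDerivAt (fun θ => Ψ₁ ε b (Function.update z b (z b + θ))) (Ψ₂ ε b z) 0
  cont : ∀ ε b, Continuous (Ψ₁ ε b) ∧ Continuous (Ψ₂ ε b)
  b0 : ∀ ε z, |Ψ ε z| ≤ C
  b1 : ∀ ε b z, |Ψ₁ ε b z| ≤ C ∧ |Ψ₂ ε b z| ≤ C

lemma meas_bool {n : ℕ} {G : Bool → (Fin n → ℝ) → ℝ} (hG : ∀ ε, Continuous (G ε)) {α : Type}
    [MeasurableSpace α] {e : α → Bool} {z : α → Fin n → ℝ} (he : Measurable e) (hz : Measurable z) :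
    Measurable fun ω => G (e ω) (z ω) := by
  have : (fun ω => G (e ω) (z ω)) = fun ω => if e ω = true then G true (z ω) else G false (z ω) := by
    funext ω
    cases e ω <;> simp
  rw [this]
  exact Measurable.ite (he (measurableSet_singleton true)) ((hG true).measurable.comp hz)
    ((hG false).measurable.comp hz)

section smooth

variable {n : ℕ} {Ψ : Bool → (Fin n → ℝ) → ℝ} {Ψ₁ Ψ₂ : Bool → Fin n → (Fin n → ℝ) → ℝ} {C : ℝ}

lemma Sm.cont0 (h : Sm Ψ Ψ₁ Ψ₂ C) (ε : Bool) : Continuous (Ψ ε) :=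
  continuous_iff_continuousAt.2 fun z => (h.d1 ε z).continuousAt

lemma Sm.nonneg (h : Sm Ψ Ψ₁ Ψ₂ C) : 0 ≤ C := (abs_nonneg _).trans (h.b0 true 0)

lemma Sm.chain (h : Sm Ψ Ψ₁ Ψ₂ C) (ε : Bool) {z : ℝ → Fin n → ℝ} {z' : Fin n → ℝ} {θ : ℝ}
    (hz : ∀ b, HasDerivAt (fun t => z t b) (z' b) θ) :
    HasDerivAt (fun t => Ψ ε (z t)) (∑ b, Ψ₁ ε b (z θ) * z' b) θ := by
  have h1 := (h.d1 ε (z θ)).comp_hasDerivAt θ (hasDerivAt_pi.2 hz)
  refine h1.congr_deriv ?_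
  simp

lemma Sm.line0 (h : Sm Ψ Ψ₁ Ψ₂ C) (b : Fin n) (ε : Bool) (z : Fin n → ℝ) (u θ : ℝ) :
    HasDerivAt (fun t => Ψ ε (Function.update z b (z b + t * u)))
      (Ψ₁ ε b (Function.update z b (z b + θ * u)) * u) θ := by
  have h1 := h.chain ε (z := fun t => Function.update z b (z b + t * u))
    (z' := Pi.single b u) (θ := θ) fun b' => by
      by_cases hb : b' = b
      · subst hb
        simpa using ((hasDerivAt_id θ).mul_const u).const_add (z b')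
      · simpa [Function.update_of_ne hb, Pi.single_eq_of_ne hb] using hasDerivAt_const θ (z b')
  refine h1.congr_deriv ?_
  rw [Finset.sum_eq_single b]
  · simp
  · intro b' _ hb
    simp [Pi.single_eq_of_ne hb]
  · simp

lemma Sm.line1 (h : Sm Ψ Ψ₁ Ψ₂ C) (b : Fin n) (ε : Bool) (z : Fin n → ℝ) (u θ : ℝ) :
    HasDerivAt (fun t => Ψ₁ ε b (Function.update z b (z b + t * u)))
      (Ψ₂ ε b (Function.update z b (z b + θ * u)) * u) θ := by
  have h1 := h.d2 ε b (Function.update z b (z b + θ * u))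
  have h2 : HasDerivAt (fun t => (t - θ) * u) u θ := by
    simpa using ((hasDerivAt_id θ).sub_const θ).mul_const u
  have h3 := HasDerivAt.comp_of_eq θ h1 h2 (by simp)
  refine h3.congr_of_eventuallyEq (Filter.Eventually.of_forall fun t => ?_)
  simp only [Function.comp_apply, Function.update_idem, Function.update_self]
  congr 2
  ring

end smooth

section general

variable {K : ℕ} {Ω : Type} [MeasurableSpace Ω] {L : Lev K Ω} {n : ℕ}

lemma hasDL_line {Φ : ℝ → Cfg K Ω → Cfg K Ω} {g g' : Bool → (Fin n → ℝ) → ℝ} {b : Fin n} {C U : ℝ}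
    (hg : ∀ ε, Continuous (g ε)) (hg' : ∀ ε, Continuous (g' ε)) (hb : ∀ ε z, |g ε z| ≤ C)
    (hb' : ∀ ε z, |g' ε z| ≤ C)
    (hd : ∀ ε z u θ, HasDerivAt (fun t => g ε (Function.update z b (z b + t * u)))
      (g' ε (Function.update z b (z b + θ * u)) * u) θ)
    {e : Cfg K Ω → Bool} {z : Cfg K Ω → Fin n → ℝ} {u : Cfg K Ω → ℝ} (he : Measurable e)
    (hz : Measurable z) (hu : Measurable u) (hU : ∀ ω, |u ω| ≤ U)
    (he' : ∀ θ ω, e (Φ θ ω) = e ω)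
    (hz' : ∀ θ ω, z (Φ θ ω) = Function.update (z ω) b (z ω b + θ * u ω)) :
    L.HasDL Φ (fun ω => g (e ω) (z ω)) (fun ω => g' (e ω) (z ω) * u ω) := by
  have hm : ∀ θ : ℝ, Measurable fun ω => Function.update (z ω) b (z ω b + θ * u ω) := fun θ => by
    refine measurable_pi_iff.2 fun b' => ?_
    by_cases hb : b' = b
    · subst hb
      simp only [Function.update_self]
      exact ((measurable_pi_apply b').comp hz).add (hu.const_mul θ)
    · simp only [Function.update_of_ne hb]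
      exact (measurable_pi_apply b').comp hz
  refine ⟨Set.univ, fun θ ω => g' (e ω) (Function.update (z ω) b (z ω b + θ * u ω)) * u ω,
    isOpen_univ, Set.mem_univ _, ?_, by funext ω; simp⟩
  simp only [he', hz']
  refine Lev.LFam.of (Lev.DFam.of (fun θ _ => meas_bool hg he (hm θ))
    (fun θ _ => (meas_bool hg' he (hm θ)).mul hu) (fun ω θ _ => hd _ _ _ _)
    (Lev.ul_of_bdd (R := C) fun θ _ ω => hb _ _).ub
    (Lev.ul_of_bdd (R := C * U) fun θ _ ω => ?_).ub) (Lev.ul_of_bdd (R := C) fun θ _ ω => hb _ _)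
  rw [abs_mul]
  exact mul_le_mul (hb' _ _) (hU _) (abs_nonneg _) ((abs_nonneg _).trans (hb' true 0))

variable {H ψ : Cfg K Ω → ℝ} {C : ℝ}

lemma abs_dens_le (hH : L.Lin H) (hψ : Measurable ψ) (hC : ∀ ω, |ψ ω| ≤ C) (l : ℕ) (ω : Cfg K Ω) :
    |L.dens l H ψ ω| ≤ exp (2 * C) := by
  have h := Lev.dens_bounds hH hψ (a := -C) (b := C) (fun ω => abs_le.1 (hC ω)) l ω
  rw [abs_of_pos ((exp_pos _).trans_le h.1)]
  refine h.2.trans_eq ?_
  congr 1
  ring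

/-- Self-overlap term. -/
lemma bound_self (hH : L.Lin H) (hψ : Measurable ψ) (hC : ∀ ω, |ψ ω| ≤ C) {W r : Cfg K Ω → ℝ}
    (hW : Measurable W) {A : ℝ} (hA : ∀ ω, |W ω| ≤ A) (hr : L.Nice r) (q : ℝ) :
    |L.E0 (fun ω => H ω + ψ ω) (fun ω => r ω * W ω) - q * L.E0 (fun ω => H ω + ψ ω) W| ≤
      exp (2 * C) * A * √(L.E0 H fun ω => (r ω - q) ^ 2) := by
  have hψl : L.Lin ψ := Lev.lin_of_bdd hψ C hC
  have hG := hH.add hψl
  have nW : L.Nice W := Lev.nice_of_bdd hW A hA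
  have nr : L.Nice fun ω => r ω - q := hr.sub (Lev.nice_const q)
  have nd := Lev.nice_dens hH hψl 0
  have hA0 : 0 ≤ A := (abs_nonneg _).trans (hA L.pt)
  have e1 : L.E0 (fun ω => H ω + ψ ω) (fun ω => r ω * W ω) - q * L.E0 (fun ω => H ω + ψ ω) W =
      L.E0 H (fun ω => (L.dens 0 H ψ ω * W ω) * (r ω - q)) := by
    unfold Lev.E0
    rw [← Lev.E_const_mul, ← Lev.E_sub hG (hr.mul nW) (nW.const_mul q),
      Lev.E_add_eq_dens hH hψl ((hr.mul nW).sub (nW.const_mul q))]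
    congr 1
    funext ω
    ring
  rw [e1]
  have h2 := Lev.E_mul_sq_le hH (nd.mul nW) nr 0 L.pt
  have h3 : L.E 0 H (fun ω => (L.dens 0 H ψ ω * W ω) ^ 2) L.pt ≤ (exp (2 * C) * A) ^ 2 := by
    refine (Lev.E_mono hH ((nd.mul nW).pow 2) (Lev.nice_const _) (fun ω => ?_) 0 _).trans_eq
      (Lev.E_const hH 0 _ _)
    rw [← sq_abs, abs_mul]
    exact pow_le_pow_left₀ (by positivity)
      (mul_le_mul (abs_dens_le hH hψ hC 0 ω) (hA ω) (abs_nonneg _) (exp_pos _).le) 2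
  have h4 : 0 ≤ L.E 0 H (fun ω => (r ω - q) ^ 2) L.pt := Lev.E_nonneg (fun _ => sq_nonneg _) _ _
  refine abs_le_of_sq_le_sq ?_ (by positivity)
  unfold Lev.E0
  rw [mul_pow, sq_sqrt h4]
  exact h2.trans (mul_le_mul_of_nonneg_right h3 h4)

/-- Two-replica term. -/
lemma bound_two (hH : L.Lin H) (hψ : Measurable ψ) (hC : ∀ ω, |ψ ω| ≤ C) {P : Cfg K Ω → ℝ}
    (hP : Measurable P) {A : ℝ} (hA : ∀ ω, |P ω| ≤ A) {ι : Type} {I : Finset ι}
    {y : ι → Cfg K Ω → ℝ} (hy : ∀ i ∈ I, L.Nice (y i)) (e : ℕ) (q : ℝ) :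
    |(∑ i ∈ I, L.E0 (fun ω => H ω + ψ ω)
        (fun ω => L.E (e + 1) (fun ω => H ω + ψ ω) (fun ω => P ω * y i ω) ω ^ 2)) / I.card -
      q * L.E0 (fun ω => H ω + ψ ω) (fun ω => L.E (e + 1) (fun ω => H ω + ψ ω) P ω ^ 2)| ≤
      exp (2 * C) * (exp (2 * C) * A) ^ 2 * √(L.VV H I y e q) := by
  have hψl : L.Lin ψ := Lev.lin_of_bdd hψ C hC
  have hG := hH.add hψl
  have nP : L.Nice P := Lev.nice_of_bdd hP A hA
  have h1 := Lev.two_replica_le hH hy e q (φ := fun ω => L.dens (e + 1) H ψ ω * P ω)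
    (ρ := L.dens 0 H ψ) ((Lev.nice_dens hH hψl _).1.mul hP) (Lev.nice_dens hH hψl _).1
    (A := exp (2 * C) * A) (B := exp (2 * C)) (fun ω => by
      rw [abs_mul]
      exact mul_le_mul (abs_dens_le hH hψ hC _ ω) (hA ω) (abs_nonneg _) (exp_pos _).le)
    (abs_dens_le hH hψ hC 0)
  refine le_of_eq_of_le ?_ h1
  congr 1
  have n1 : ∀ i ∈ I, L.Nice fun ω =>
      L.E (e + 1) (fun ω => H ω + ψ ω) (fun ω => P ω * y i ω) ω ^ 2 := fun i hi =>
    (Lev.Nice.E hG (nP.mul (hy i hi)) _).pow 2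
  have n2 : L.Nice fun ω => L.E (e + 1) (fun ω => H ω + ψ ω) P ω ^ 2 := (Lev.Nice.E hG nP _).pow 2
  unfold Lev.E0
  rw [← Lev.E_sum hG I n1, ← Lev.E_div_const, ← Lev.E_const_mul,
    ← Lev.E_sub hG ((Lev.Nice.sum I n1).div_const _) (n2.const_mul q),
    Lev.E_add_eq_dens hH hψl (((Lev.Nice.sum I n1).div_const _).sub (n2.const_mul q))]
  congr 1
  funext ω
  rw [Lev.E_add_eq_dens hH hψl nP, Finset.sum_congr rfl fun i hi => by
    rw [Lev.E_add_eq_dens hH hψl (nP.mul (hy i hi))]]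
  simp only [mul_assoc]

end general

section gauss

variable {K : ℕ} {ex : Expo K} {Z ι : Type} [MeasurableSpace Z] [Fintype ι] [DecidableEq ι]
  {α : ℕ → Measure Z} {hα : ∀ l, IsProbabilityMeasure (α l)}

local notation "𝓛" => gLev ex ι α hα

/-- Gaussian integration by parts for a coordinate that moves only `z b`. -/
lemma ibp_psi {n : ℕ} {Ψ : Bool → (Fin n → ℝ) → ℝ} {Ψ₁ Ψ₂ : Bool → Fin n → (Fin n → ℝ) → ℝ} {C : ℝ}
    (h : Sm Ψ Ψ₁ Ψ₂ C) {l : ℕ} (hl : l < K) (i : ι) (b : Fin n)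
    {H₀ y : Cfg K (Z × (ι → ℝ)) → ℝ} {e : Cfg K (Z × (ι → ℝ)) → Bool}
    {z : Cfg K (Z × (ι → ℝ)) → Fin n → ℝ} (hH : (𝓛).Lin H₀) (he : Measurable e) (hz : Measurable z)
    (hy : Measurable y) {U x : ℝ} (hU : ∀ ω, |y ω| ≤ U) (hH' : ∀ θ ω, H₀ (shift l i θ ω) = H₀ ω)
    (he' : ∀ θ ω, e (shift l i θ ω) = e ω) (hy' : ∀ θ ω, y (shift l i θ ω) = y ω)
    (hz' : ∀ θ ω, z (shift l i θ ω) = Function.update (z ω) b (z ω b + θ * (x * y ω))) :
    (𝓛).E0 (fun ω => H₀ ω + Ψ (e ω) (z ω)) (fun ω => gl l i ω * (Ψ₁ (e ω) b (z ω) * y ω)) =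
      x * ((𝓛).E0 (fun ω => H₀ ω + Ψ (e ω) (z ω))
          (fun ω => y ω ^ 2 * (Ψ₂ (e ω) b (z ω) + Ψ₁ (e ω) b (z ω) ^ 2)) -
        ∑ m ∈ Ico l (K - 1), ex.Δ m * (𝓛).E0 (fun ω => H₀ ω + Ψ (e ω) (z ω)) (fun ω =>
          (𝓛).E (m + 1) (fun ω => H₀ ω + Ψ (e ω) (z ω)) (fun ω => Ψ₁ (e ω) b (z ω) * y ω) ω ^ 2)) := by
  have hU' : ∀ ω, |x * y ω| ≤ |x| * U := fun ω => by
    rw [abs_mul]
    exact mul_le_mul_of_nonneg_left (hU ω) (abs_nonneg _)
  have d0 : (𝓛).HasDL (shift l i) (fun ω => H₀ ω + Ψ (e ω) (z ω))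
      (fun ω => x * (Ψ₁ (e ω) b (z ω) * y ω)) :=
    ((Lev.hasDL_of_invariant hH hH').add (hasDL_line h.cont0 (fun ε => (h.cont ε b).1) h.b0
      (fun ε z => (h.b1 ε b z).1) (h.line0 b) he hz (hy.const_mul x) hU' he' hz')).congr'
      fun ω => by ring
  have d1 : (𝓛).HasDL (shift l i) (fun ω => Ψ₁ (e ω) b (z ω) * y ω)
      (fun ω => x * (y ω ^ 2 * Ψ₂ (e ω) b (z ω))) :=
    ((hasDL_line (g := fun ε => Ψ₁ ε b) (g' := fun ε => Ψ₂ ε b) (fun ε => (h.cont ε b).1)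
      (fun ε => (h.cont ε b).2) (fun ε z => (h.b1 ε b z).1) (fun ε z => (h.b1 ε b z).2) (h.line1 b)
      he hz (hy.const_mul x) hU' he' hz').mul_invariant hy hU hy').congr' fun ω => by ring
  have hL := d0.lin (shift_zero l i)
  have nf := d1.hasD.nice (shift_zero l i)
  have nf' := d1.hasD.nice'
  rw [ibp hl i d0 d1.hasD]
  have e1 := Lev.E0_mul_St hL nf (nf.const_mul x) l
  unfold Lev.E0 at e1 ⊢
  rw [Lev.E_add hL nf' (nf.mul (Lev.Nice.St hL (nf.const_mul x) l)), e1, ← add_sub_assoc,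
    ← Lev.E_add hL nf' (nf.mul (nf.const_mul x)), mul_sub, Finset.mul_sum, ← Lev.E_const_mul]
  congr 1
  · congr 1
    funext ω
    ring
  · refine Finset.sum_congr rfl fun m _ => ?_
    rw [mul_left_comm, ← Lev.E_const_mul 0 x]
    congr 2
    funext ω
    rw [Lev.E_const_mul]
    ring

end gauss

end Crest.Agent.R164.CI
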