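import Crest.Agent.R164.CavPsi
import Crest.Agent.R164.Spec
import Crest.Agent.R164.CavInterpAux

/-! # Row 164: Guerra interpolation to the hierarchical Gaussian vector -/

set_option autoImplicit false

namespace Crest.Agent.R164

open MeasureTheory ProbabilityTheory Real Finset Crest.ProbabilityR.InvariantGlass

namespace CI

variable {n N k : ℕ}

lemma pB_shift_inl (l : ℕ) (i : Fin N) (θ : ℝ) (ω : Cfg (k + 2) (Oc N n)) :
    cmap pB (shift l (.inl i : Ic N n) θ ω) = shift l i θ (cmap pB ω) := by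
  funext e
  simp only [shift, cmap, pB]
  split_ifs
  · refine Prod.ext rfl (funext fun j => ?_)
    by_cases hj : j = i
    · subst hj; simp
    · simp [Function.update_of_ne hj, Function.update_of_ne (Sum.inl_injective.ne hj)]
  · rfl

lemma pB_shift_inr (l : ℕ) (j : Fin n ⊕ Unit) (θ : ℝ) (ω : Cfg (k + 2) (Oc N n)) :
    cmap pB (shift l (.inr j : Ic N n) θ ω) = cmap pB ω := by
  funext e
  simp only [shift, cmap, pB]
  split_ifs
  · refine Prod.ext rfl (funext fun i => ?_)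
    simp
  · rfl

lemma pR_shift_inl (l : ℕ) (i : Fin N) (θ : ℝ) (ω : Cfg (k + 2) (Oc N n)) :
    cmap pR (shift l (.inl i : Ic N n) θ ω) = cmap pR ω := by
  funext e
  simp only [shift, cmap, pR]
  split_ifs
  · refine Prod.ext rfl (funext fun i => ?_)
    simp
  · rfl

lemma pR_shift_inr (l : ℕ) (b : Fin n) (θ : ℝ) (ω : Cfg (k + 2) (Oc N n)) :
    cmap pR (shift l (.inr (.inl b) : Ic N n) θ ω) = shift l b θ (cmap pR ω) := by
  funext e
  simp only [shift, cmap, pR]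
  split_ifs
  · refine Prod.ext rfl (funext fun j => ?_)
    by_cases hj : j = b
    · subst hj; simp
    · simp [Function.update_of_ne hj,
        Function.update_of_ne (Sum.inr_injective.ne (Sum.inl_injective.ne hj))]
  · rfl

lemma gl_pR (l : ℕ) (b : Fin n) (ω : Cfg (k + 2) (Oc N n)) :
    gl l b (cmap pR ω) = gl l (.inr (.inl b) : Ic N n) ω := rfl

lemma rS_shift (l : ℕ) (b : Fin n) (θ : ℝ) (ω : Cfg (k + 2) (Orb n)) :
    rS (shift l b θ ω) = rS ω := by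
  simp only [rS, shift_fst]

lemma frR_shift (l : ℕ) (b : Fin n) (θ : ℝ) (ω : Cfg (k + 2) (Orb n)) (x : ℝ) (y : ℕ → ℝ) :
    frR x y (shift l b θ ω) = frR x y ω := by
  simp only [frR, rS_shift, atl_fst_shift l _ b θ (fun z : Bool × Bool => sg z.2)]

lemma Hm_shift0 (lam : Fin N → ℝ) (x : ℕ → Fin N → ℝ) (w : (Fin N → Bool) → ℝ) (i : Fin N) (θ : ℝ)
    (ω : Cfg (k + 2) (Om N)) : Hm lam x w (shift 0 i θ ω) = Hm lam x w ω := by
  simp only [Hm, Y_shift, spn_shift]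
  congr 2
  refine Finset.sum_congr rfl fun l hl => Finset.sum_congr rfl fun j _ => ?_
  have : l ≠ 0 := by have := (Finset.mem_Icc.1 hl).1; omega
  rw [gl_shift, if_neg (fun h => this h.1), add_zero]

variable (c : Cav n N)

lemma H0_shift_inl (i : Fin N) (θ : ℝ) (ω : Cfg (k + 2) (Oc N n)) :
    c.H0 (shift 0 (.inl i : Ic N n) θ ω) = c.H0 ω := by
  simp only [Cav.H0, Cav.Hb, pB_shift_inl, pR_shift_inl, Hm_shift0]

lemma H0_shift_inr (l : ℕ) (b : Fin n) (θ : ℝ) (ω : Cfg (k + 2) (Oc N n)) :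
    c.H0 (shift l (.inr (.inl b) : Ic N n) θ ω) = c.H0 ω := by
  simp only [Cav.H0, pB_shift_inr, pR_shift_inr, frR_shift]

/-- The interpolating vector. -/
noncomputable def zA (sd : ℕ → Fin n → ℝ) (α : ℝ) (ω : Cfg (k + 2) (Oc N n)) (b : Fin n) : ℝ :=
  cos α * c.zg ω b + sin α * zR sd (cmap pR ω) b

lemma zA_shift_inl (sd : ℕ → Fin n → ℝ) (α : ℝ) {b : Fin n} {i : Fin N}
    (hi : i ∈ blk c.sp (c.a₀.succAbove b)) (θ : ℝ) (ω : Cfg (k + 2) (Oc N n)) :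
    zA c sd α (shift 0 (.inl i : Ic N n) θ ω) = Function.update (zA c sd α ω) b (zA c sd α ω b +
      θ * (cos α / √(blk c.sp (c.a₀.succAbove b)).card * Y i (cmap pB ω))) := by
  funext b'
  have h1 : ∀ I : Finset (Fin N), ∑ j ∈ I, gl 0 (.inl j : Ic N n) (shift 0 (.inl i : Ic N n) θ ω) *
      Y j (cmap pB ω) = ∑ j ∈ I, gl 0 (.inl j : Ic N n) ω * Y j (cmap pB ω) +
        if i ∈ I then θ * Y i (cmap pB ω) else 0 := fun I => by
    simp only [gl_shift, add_mul, Finset.sum_add_distrib, Sum.inl.injEq, true_and,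
      Nat.zero_lt_succ, and_true, ite_mul, zero_mul, Finset.sum_ite_eq']
  by_cases hb : b' = b
  · subst hb
    simp only [zA, Cav.zg, pR_shift_inl, pB_shift_inl, Y_shift, h1, if_pos hi, Function.update_self]
    ring
  · have : i ∉ blk c.sp (c.a₀.succAbove b') := fun h => by
      simp only [blk, Finset.mem_filter, Finset.mem_univ, true_and] at h hi
      exact hb (Fin.succAbove_right_injective (h.symm.trans hi))
    simp only [zA, Cav.zg, pR_shift_inl, pB_shift_inl, Y_shift, h1, if_neg this,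
      Function.update_of_ne hb, add_zero]

lemma zA_shift_inr (sd : ℕ → Fin n → ℝ) (α : ℝ) (b : Fin n) {l : ℕ} (hl : l ∈ Icc 1 (k + 1)) (θ : ℝ)
    (ω : Cfg (k + 2) (Oc N n)) :
    zA c sd α (shift l (.inr (.inl b) : Ic N n) θ ω) = Function.update (zA c sd α ω) b
      (zA c sd α ω b + θ * (sin α * sd l b * 1)) := by
  funext b'
  have hl' : l < k + 2 := by have := (Finset.mem_Icc.1 hl).2; omega
  have h1 : c.zg (shift l (.inr (.inl b) : Ic N n) θ ω) b' = c.zg ω b' := by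
    simp only [Cav.zg, pB_shift_inr, gl_shift, reduceCtorEq, false_and, and_false, if_false, add_zero]
  by_cases hb : b' = b
  · subst hb
    simp only [zA, h1, pR_shift_inr, zR, gl_shift, hl', and_true, mul_add, Finset.sum_add_distrib,
      mul_ite, mul_zero, Finset.sum_ite_eq', if_pos hl, Function.update_self]
    ring
  · simp only [zA, h1, pR_shift_inr, zR, gl_shift, hb, false_and, and_false, if_false, add_zero,
      Function.update_of_ne hb]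

variable (ex : Expo (k + 2)) (h : Haar N)

lemma meas_pB : Measurable (cmap pB : Cfg (k + 2) (Oc N n) → Cfg (k + 2) (Om N)) :=
  measurable_cmap fun _ => by unfold pB; fun_prop

lemma meas_pR : Measurable (cmap pR : Cfg (k + 2) (Oc N n) → Cfg (k + 2) (Orb n)) :=
  measurable_cmap fun _ => by unfold pR; fun_prop

lemma meas_Y (i : Fin N) : Measurable fun ω : Cfg (k + 2) (Oc N n) => Y i (cmap pB ω) :=
  (measurable_Y i).comp meas_pB

lemma meas_rS : Measurable fun ω : Cfg (k + 2) (Oc N n) => rS (cmap pR ω) :=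
  measurable_rS.comp meas_pR

lemma lin_zg (b : Fin n) : (cLev ex h n).Lin fun ω => c.zg ω b := by
  have h1 := (Lev.Lin.sum (L := cLev ex h n) (blk c.sp (c.a₀.succAbove b)) fun i _ =>
    (lin_gl 0 (.inl i : Ic N n)).mul_bdd (meas_Y i) N fun ω => abs_Y_le i _).const_mul
      (√(blk c.sp (c.a₀.succAbove b)).card)⁻¹
  convert h1 using 2 with ω
  rw [Cav.zg, div_eq_inv_mul]

lemma lin_zR (sd : ℕ → Fin n → ℝ) (b : Fin n) :
    (cLev ex h n).Lin fun ω => zR sd (cmap pR ω) b :=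
  Lev.Lin.sum (L := cLev ex h n) (Icc 1 (k + 1)) fun l _ =>
    (lin_gl l (.inr (.inl b) : Ic N n)).const_mul (sd l b)

include ex h in
lemma meas_zA (sd : ℕ → Fin n → ℝ) (α : ℝ) :
    Measurable (zA c sd α : Cfg (k + 2) (Oc N n) → Fin n → ℝ) :=
  measurable_pi_iff.2 fun b =>
    ((lin_zg c ex h b).1.const_mul _).add ((lin_zR ex h sd b).1.const_mul _)

variable {Ψ : Bool → (Fin n → ℝ) → ℝ} {Ψ₁ Ψ₂ : Bool → Fin n → (Fin n → ℝ) → ℝ} {C : ℝ}

/-- The interpolating Hamiltonian. -/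
noncomputable def HA (Ψ : Bool → (Fin n → ℝ) → ℝ) (sd : ℕ → Fin n → ℝ) (α : ℝ)
    (ω : Cfg (k + 2) (Oc N n)) : ℝ := c.H0 ω + Ψ (rS (cmap pR ω)) (zA c sd α ω)

lemma lfam (hΨ : Sm Ψ Ψ₁ Ψ₂ C) (sd : ℕ → Fin n → ℝ) :
    (cLev ex h n).LFam Set.univ (HA c Ψ sd) (fun α ω => ∑ b, Ψ₁ (rS (cmap pR ω)) b (zA c sd α ω) *
      (-sin α * c.zg ω b + cos α * zR sd (cmap pR ω) b)) := by
  have hH := c.lin_H0 ex h
  have hL : (cLev ex h n).UL Set.univ (HA c Ψ sd) :=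
    hH.ul.add (Lev.ul_of_bdd (R := C) fun θ _ ω => hΨ.b0 _ _)
  refine Lev.LFam.of (Lev.DFam.of
    (fun α _ => hH.1.add (meas_bool hΨ.cont0 meas_rS (meas_zA c ex h sd α)))
    (fun α _ => Finset.measurable_sum _ fun b _ =>
      (meas_bool (G := fun ε => Ψ₁ ε b) (fun ε => (hΨ.cont ε b).1) meas_rS (meas_zA c ex h sd α)).mul
        (((lin_zg c ex h b).1.const_mul _).add ((lin_zR ex h sd b).1.const_mul _)))
    (fun ω α _ => ?_) hL.ub (Lev.UL.ub (Lev.UL.sum _ fun b _ => ?_))) hL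
  · exact (hΨ.chain _ (z := fun t => zA c sd t ω) fun b =>
      ((hasDerivAt_cos α).mul_const _).add ((hasDerivAt_sin α).mul_const _)).const_add _
  · refine Lev.UL.bdd_mul (R := C) (Lev.UL.add ?_ ?_) fun θ _ ω => (hΨ.b1 _ _ _).1
    · exact Lev.UL.bdd_mul (R := 1) (lin_zg c ex h b).ul fun θ _ ω => by
        rw [abs_neg]; exact abs_sin_le_one θ
    · exact Lev.UL.bdd_mul (R := 1) (lin_zR ex h sd b).ul fun θ _ ω => abs_cos_le_one θ

/-- Integration by parts in the level-`0` directions. -/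
lemma E0_zg (hΨ : Sm Ψ Ψ₁ Ψ₂ C) (hζ : ex.ζ 0 = ex.ζ 1) (sd : ℕ → Fin n → ℝ) (α : ℝ) (b : Fin n) :
    (cLev ex h n).E0 (HA c Ψ sd α) (fun ω => Ψ₁ (rS (cmap pR ω)) b (zA c sd α ω) * c.zg ω b) =
      cos α * ((cLev ex h n).E0 (HA c Ψ sd α) (fun ω =>
        Lev.rr (blk c.sp (c.a₀.succAbove b)) (fun i ω => Y i (cmap pB ω)) ω *
          (Ψ₂ (rS (cmap pR ω)) b (zA c sd α ω) + Ψ₁ (rS (cmap pR ω)) b (zA c sd α ω) ^ 2)) -
        ∑ m ∈ Icc 1 k, ex.Δ m * ((∑ i ∈ blk c.sp (c.a₀.succAbove b),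
          (cLev ex h n).E0 (HA c Ψ sd α) fun ω => (cLev ex h n).E (m + 1) (HA c Ψ sd α)
            (fun ω => Ψ₁ (rS (cmap pR ω)) b (zA c sd α ω) * Y i (cmap pB ω)) ω ^ 2) /
              (blk c.sp (c.a₀.succAbove b)).card)) := by
  set I := blk c.sp (c.a₀.succAbove b) with hI
  have hL := (lfam c ex h hΨ sd).lin' (Set.mem_univ α)
  have m1 := meas_bool (G := fun ε => Ψ₁ ε b) (fun ε => (hΨ.cont ε b).1) meas_rS (meas_zA c ex h sd α)
  have m2 := meas_bool (G := fun ε => Ψ₂ ε b) (fun ε => (hΨ.cont ε b).2) meas_rS (meas_zA c ex h sd α)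
  have n1 := Lev.nice_of_bdd (L := cLev ex h n) m1 C fun ω => (hΨ.b1 _ _ _).1
  have n2 := Lev.nice_of_bdd (L := cLev ex h n) m2 C fun ω => (hΨ.b1 _ _ _).2
  have nY : ∀ i, (cLev ex h n).Nice fun ω => Y i (cmap pB ω) := fun i =>
    Lev.nice_of_bdd (meas_Y i) N fun ω => abs_Y_le i _
  have key : ∀ i ∈ I, (cLev ex h n).E0 (HA c Ψ sd α) (fun ω => gl 0 (.inl i : Ic N n) ω *
      (Ψ₁ (rS (cmap pR ω)) b (zA c sd α ω) * Y i (cmap pB ω))) = cos α / √I.card *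
      ((cLev ex h n).E0 (HA c Ψ sd α) (fun ω => Y i (cmap pB ω) ^ 2 *
        (Ψ₂ (rS (cmap pR ω)) b (zA c sd α ω) + Ψ₁ (rS (cmap pR ω)) b (zA c sd α ω) ^ 2)) -
        ∑ m ∈ Ico 0 (k + 2 - 1), ex.Δ m * (cLev ex h n).E0 (HA c Ψ sd α) fun ω =>
          (cLev ex h n).E (m + 1) (HA c Ψ sd α)
            (fun ω => Ψ₁ (rS (cmap pR ω)) b (zA c sd α ω) * Y i (cmap pB ω)) ω ^ 2) := fun i hi =>
    ibp_psi hΨ (Nat.zero_lt_succ _) (.inl i : Ic N n) b (c.lin_H0 ex h) meas_rS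
      (meas_zA c ex h sd α) (meas_Y i) (fun ω => abs_Y_le i _) (H0_shift_inl c i)
      (fun θ ω => by rw [pR_shift_inl]) (fun θ ω => by rw [pB_shift_inl, Y_shift])
      (zA_shift_inl c sd α hi)
  have e1 : (cLev ex h n).E0 (HA c Ψ sd α)
      (fun ω => Ψ₁ (rS (cmap pR ω)) b (zA c sd α ω) * c.zg ω b) =
      (∑ i ∈ I, (cLev ex h n).E0 (HA c Ψ sd α) (fun ω => gl 0 (.inl i : Ic N n) ω *
        (Ψ₁ (rS (cmap pR ω)) b (zA c sd α ω) * Y i (cmap pB ω)))) / √I.card := by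
    unfold Lev.E0
    rw [← Lev.E_sum hL I fun i _ => (lin_gl 0 (.inl i : Ic N n)).nice.mul (n1.mul (nY i)),
      ← Lev.E_div_const]
    congr 1
    funext ω
    rw [Cav.zg, ← hI, ← mul_div_assoc, Finset.mul_sum]
    congr 1
    exact Finset.sum_congr rfl fun i _ => by ring
  have e2 : (cLev ex h n).E0 (HA c Ψ sd α) (fun ω => Lev.rr I (fun i ω => Y i (cmap pB ω)) ω *
      (Ψ₂ (rS (cmap pR ω)) b (zA c sd α ω) + Ψ₁ (rS (cmap pR ω)) b (zA c sd α ω) ^ 2)) =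
      (∑ i ∈ I, (cLev ex h n).E0 (HA c Ψ sd α) (fun ω => Y i (cmap pB ω) ^ 2 *
        (Ψ₂ (rS (cmap pR ω)) b (zA c sd α ω) + Ψ₁ (rS (cmap pR ω)) b (zA c sd α ω) ^ 2))) /
          I.card := by
    unfold Lev.E0
    rw [← Lev.E_sum hL I fun i _ => ((nY i).pow 2).mul (n2.add (n1.pow 2)), ← Lev.E_div_const]
    congr 1
    funext ω
    rw [Lev.rr, div_mul_eq_mul_div, Finset.sum_mul]
  have e3 : ∀ f : ℕ → ℝ, ∑ m ∈ Ico 0 (k + 2 - 1), ex.Δ m * f m = ∑ m ∈ Icc 1 k, ex.Δ m * f m :=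
    fun f => by
      rw [show k + 2 - 1 = k + 1 from rfl, Finset.sum_eq_sum_Ico_succ_bot (Nat.zero_lt_succ k),
        Expo.Δ, ← hζ, sub_self, zero_mul, zero_add]
      rfl
  have e4 : ∀ a : ℝ, cos α / √I.card * a / √I.card = cos α * (a / I.card) := fun a => by
    rw [div_mul_eq_mul_div, div_div, mul_self_sqrt (Nat.cast_nonneg _), mul_div_assoc]
  rw [e1, Finset.sum_congr rfl key, ← Finset.mul_sum, e4, e2, Finset.sum_sub_distrib, sub_div,
    Finset.sum_comm]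
  congr 2
  simp only [← Finset.mul_sum]
  rw [e3, Finset.sum_div]
  simp only [mul_div_assoc]

/-- Integration by parts in the hierarchical directions. -/
lemma E0_zR (hΨ : Sm Ψ Ψ₁ Ψ₂ C) (sd : ℕ → Fin n → ℝ) (α : ℝ) (b : Fin n) :
    (cLev ex h n).E0 (HA c Ψ sd α)
      (fun ω => Ψ₁ (rS (cmap pR ω)) b (zA c sd α ω) * zR sd (cmap pR ω) b) =
      sin α * ((∑ l ∈ Icc 1 (k + 1), sd l b ^ 2) * (cLev ex h n).E0 (HA c Ψ sd α) (fun ω =>
          Ψ₂ (rS (cmap pR ω)) b (zA c sd α ω) + Ψ₁ (rS (cmap pR ω)) b (zA c sd α ω) ^ 2) -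
        ∑ m ∈ Icc 1 k, ex.Δ m * ((∑ l ∈ Icc 1 m, sd l b ^ 2) *
          (cLev ex h n).E0 (HA c Ψ sd α) fun ω => (cLev ex h n).E (m + 1) (HA c Ψ sd α)
            (fun ω => Ψ₁ (rS (cmap pR ω)) b (zA c sd α ω)) ω ^ 2)) := by
  have hL := (lfam c ex h hΨ sd).lin' (Set.mem_univ α)
  have m1 := meas_bool (G := fun ε => Ψ₁ ε b) (fun ε => (hΨ.cont ε b).1) meas_rS (meas_zA c ex h sd α)
  have n1 := Lev.nice_of_bdd (L := cLev ex h n) m1 C fun ω => (hΨ.b1 _ _ _).1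
  have key : ∀ l ∈ Icc 1 (k + 1), (cLev ex h n).E0 (HA c Ψ sd α)
      (fun ω => gl l (.inr (.inl b) : Ic N n) ω * (Ψ₁ (rS (cmap pR ω)) b (zA c sd α ω) * 1)) =
      sin α * sd l b * ((cLev ex h n).E0 (HA c Ψ sd α) (fun ω => 1 ^ 2 *
        (Ψ₂ (rS (cmap pR ω)) b (zA c sd α ω) + Ψ₁ (rS (cmap pR ω)) b (zA c sd α ω) ^ 2)) -
        ∑ m ∈ Ico l (k + 2 - 1), ex.Δ m * (cLev ex h n).E0 (HA c Ψ sd α) fun ω =>
          (cLev ex h n).E (m + 1) (HA c Ψ sd α)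
            (fun ω => Ψ₁ (rS (cmap pR ω)) b (zA c sd α ω) * 1) ω ^ 2) :=
    fun l hl => ibp_psi hΨ (by have := (Finset.mem_Icc.1 hl).2; omega) (.inr (.inl b) : Ic N n) b
      (c.lin_H0 ex h) meas_rS (meas_zA c ex h sd α) (y := fun _ => 1) measurable_const (U := 1)
      (fun ω => by simp) (H0_shift_inr c l b) (fun θ ω => by rw [pR_shift_inr, rS_shift])
      (fun θ ω => rfl) (zA_shift_inr c sd α b hl)
  simp only [mul_one, one_pow, one_mul] at key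
  have e1 : (cLev ex h n).E0 (HA c Ψ sd α)
      (fun ω => Ψ₁ (rS (cmap pR ω)) b (zA c sd α ω) * zR sd (cmap pR ω) b) =
      ∑ l ∈ Icc 1 (k + 1), sd l b * (cLev ex h n).E0 (HA c Ψ sd α)
        (fun ω => gl l (.inr (.inl b) : Ic N n) ω * Ψ₁ (rS (cmap pR ω)) b (zA c sd α ω)) := by
    unfold Lev.E0
    simp only [← Lev.E_const_mul]
    rw [← Lev.E_sum hL _ fun l _ =>
      ((lin_gl l (.inr (.inl b) : Ic N n)).nice.mul n1).const_mul (sd l b)]
    congr 1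
    funext ω
    rw [zR, Finset.mul_sum]
    exact Finset.sum_congr rfl fun l _ => by rw [gl_pR]; ring
  have e2 : ∀ f : ℕ → ℝ, ∑ l ∈ Icc 1 (k + 1), sd l b ^ 2 * ∑ m ∈ Ico l (k + 2 - 1), ex.Δ m * f m =
      ∑ m ∈ Icc 1 k, ex.Δ m * ((∑ l ∈ Icc 1 m, sd l b ^ 2) * f m) := fun f => by
    simp only [Finset.mul_sum, Finset.sum_mul]
    rw [Finset.sum_comm' (t' := Icc 1 k) (s' := fun m => Icc 1 m)]
    · exact Finset.sum_congr rfl fun m _ => Finset.sum_congr rfl fun l _ => by ring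
    · intro l m
      simp only [Finset.mem_Icc, Finset.mem_Ico]
      omega
  rw [e1, Finset.sum_congr rfl fun l hl => by rw [key l hl], ← e2, Finset.sum_mul,
    ← Finset.sum_sub_distrib, Finset.mul_sum]
  exact Finset.sum_congr rfl fun l _ => by ring

lemma arith {Δ : ℕ → ℝ} (hΔ : ∀ m, 0 ≤ Δ m) {A₁ A₂ P c₁ c₂ α : ℝ} {u v w : ℕ → ℝ} {t : Finset ℕ}
    (h1 : |A₁ - A₂| ≤ c₁ * P) (h2 : ∀ m ∈ t, |u m - v m| ≤ c₂ * w m) (hc₁ : 0 ≤ c₁)
    (hc₂ : 0 ≤ c₂) (hP : 0 ≤ P) (hw : ∀ m, 0 ≤ w m) :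
    |-sin α * (cos α * (A₁ - ∑ m ∈ t, Δ m * u m)) + cos α * (sin α * (A₂ - ∑ m ∈ t, Δ m * v m))| ≤
      (c₁ + c₂) * (P + ∑ m ∈ t, Δ m * w m) := by
  have e : -sin α * (cos α * (A₁ - ∑ m ∈ t, Δ m * u m)) +
      cos α * (sin α * (A₂ - ∑ m ∈ t, Δ m * v m)) =
      -(sin α * cos α) * ((A₁ - A₂) - ∑ m ∈ t, Δ m * (u m - v m)) := by
    simp only [mul_sub (Δ _), Finset.sum_sub_distrib]
    ring
  have h3 : |∑ m ∈ t, Δ m * (u m - v m)| ≤ c₂ * ∑ m ∈ t, Δ m * w m := by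
    rw [Finset.mul_sum]
    refine (Finset.abs_sum_le_sum_abs _ _).trans (Finset.sum_le_sum fun m hm => ?_)
    rw [abs_mul, abs_of_nonneg (hΔ m), mul_left_comm]
    exact mul_le_mul_of_nonneg_left (h2 m hm) (hΔ m)
  have h4 : |-(sin α * cos α)| ≤ 1 := by
    rw [abs_neg, abs_mul]
    exact mul_le_one₀ (abs_sin_le_one α) (abs_nonneg _) (abs_cos_le_one α)
  have h5 : 0 ≤ ∑ m ∈ t, Δ m * w m := Finset.sum_nonneg fun m _ => mul_nonneg (hΔ m) (hw m)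
  rw [e, abs_mul]
  refine (mul_le_of_le_one_left (abs_nonneg _) h4).trans ((abs_sub _ _).trans ?_)
  nlinarith [mul_nonneg hc₁ h5, mul_nonneg hc₂ hP]

lemma deriv_b (hΨ : Sm Ψ Ψ₁ Ψ₂ C) (hζ : ex.ζ 0 = ex.ζ 1) (sd : ℕ → Fin n → ℝ) (α : ℝ) (b : Fin n)
    {q : ℕ → ℝ} (hq : ∀ m ≤ k + 1, ∑ l ∈ Icc 1 m, sd l b ^ 2 = q m) :
    |(cLev ex h n).E0 (HA c Ψ sd α) (fun ω => Ψ₁ (rS (cmap pR ω)) b (zA c sd α ω) *
      (-sin α * c.zg ω b + cos α * zR sd (cmap pR ω) b))| ≤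
      (exp (2 * C) * (C + C ^ 2) + exp (2 * C) * (exp (2 * C) * C) ^ 2) *
        (√((cLev ex h n).E0 c.H0 fun ω => (Lev.rr (blk c.sp (c.a₀.succAbove b))
          (fun i ω => Y i (cmap pB ω)) ω - q (k + 1)) ^ 2) +
        ∑ m ∈ Icc 1 k, ex.Δ m * √((cLev ex h n).VV c.H0 (blk c.sp (c.a₀.succAbove b))
          (fun i ω => Y i (cmap pB ω)) m (q m))) := by
  have hC := hΨ.nonneg
  have hH := c.lin_H0 ex h
  have hL := (lfam c ex h hΨ sd).lin' (Set.mem_univ α)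
  have m0 := meas_bool hΨ.cont0 meas_rS (meas_zA c ex h sd α)
  have m1 := meas_bool (G := fun ε => Ψ₁ ε b) (fun ε => (hΨ.cont ε b).1) meas_rS (meas_zA c ex h sd α)
  have m2 := meas_bool (G := fun ε => Ψ₂ ε b) (fun ε => (hΨ.cont ε b).2) meas_rS (meas_zA c ex h sd α)
  have n1 := Lev.nice_of_bdd (L := cLev ex h n) m1 C fun ω => (hΨ.b1 _ _ _).1
  have nY : ∀ i, (cLev ex h n).Nice fun ω => Y i (cmap pB ω) := fun i =>
    Lev.nice_of_bdd (meas_Y i) N fun ω => abs_Y_le i _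
  have e1 : (cLev ex h n).E0 (HA c Ψ sd α) (fun ω => Ψ₁ (rS (cmap pR ω)) b (zA c sd α ω) *
      (-sin α * c.zg ω b + cos α * zR sd (cmap pR ω) b)) =
      -sin α * (cLev ex h n).E0 (HA c Ψ sd α)
        (fun ω => Ψ₁ (rS (cmap pR ω)) b (zA c sd α ω) * c.zg ω b) +
      cos α * (cLev ex h n).E0 (HA c Ψ sd α)
        (fun ω => Ψ₁ (rS (cmap pR ω)) b (zA c sd α ω) * zR sd (cmap pR ω) b) := by
    unfold Lev.E0
    rw [← Lev.E_const_mul, ← Lev.E_const_mul, ← Lev.E_add hL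
      ((n1.mul (lin_zg c ex h b).nice).const_mul _) ((n1.mul (lin_zR ex h sd b).nice).const_mul _)]
    congr 1
    funext ω
    ring
  have b1 := bound_self hH m0 (fun ω => hΨ.b0 _ _) (m2.add (m1.pow_const 2)) (A := C + C ^ 2)
    (fun ω => (abs_add_le _ _).trans (add_le_add (hΨ.b1 _ _ _).2 (by
      rw [abs_pow]
      exact pow_le_pow_left₀ (abs_nonneg _) (hΨ.b1 _ _ _).1 2)))
    (Lev.nice_rr (I := blk c.sp (c.a₀.succAbove b)) fun i _ => nY i) (q (k + 1))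
  have b2 := fun m => bound_two hH m0 (fun ω => hΨ.b0 _ _) m1 (fun ω => (hΨ.b1 _ _ _).1)
    (I := blk c.sp (c.a₀.succAbove b)) (fun i _ => nY i) m (q m)
  rw [e1, E0_zg c ex h hΨ hζ, E0_zR c ex h hΨ, hq _ le_rfl]
  refine arith ex.Δ_nonneg b1 (fun m hm => ?_) (by positivity) (by positivity) (sqrt_nonneg _)
    fun m => sqrt_nonneg _
  rw [hq m (by have := (Finset.mem_Icc.1 hm).2; omega)]
  exact b2 m

end CI

theorem cav_interp (C : ℝ) : ∃ C' : ℝ, 0 ≤ C' ∧ ∀ (n N k : ℕ) (lam : Fin (n + 1) → ℝ)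
    (ex : Expo (k + 2)) (c : Cav n N) (h : Haar N) (Ψ : Bool → (Fin n → ℝ) → ℝ) (s : ℕ → ℝ),
    Monotone lam → Smooth Ψ C → ex.ζ 0 = ex.ζ 1 → IsSeq n k s →
    |(cLev ex h n).X0 (fun ω => c.H0 ω + Ψ (rS (cmap pR ω)) (c.zg ω)) -
      (cLev ex h n).X0 (fun ω => c.H0 ω +
        Ψ (rS (cmap pR ω)) (zR (sdv lam ex s c.a₀) (cmap pR ω)))| ≤
      C' * Pin (mLev ex h (unif _)) k c.Hb c.sp Y lam s := by
  refine ⟨(exp (2 * C) * (|C| + C ^ 2) + exp (2 * C) * (exp (2 * C) * C) ^ 2) * (π / 2),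
    by positivity, fun n N k lam ex c h Ψ s hlam hΨ hζ hs => ?_⟩
  obtain ⟨Ψ₁, Ψ₂, d1, d2, cont, b0, b1, -⟩ := hΨ
  have hΨ : CI.Sm Ψ Ψ₁ Ψ₂ C := ⟨d1, d2, cont, b0, b1⟩
  have hC := hΨ.nonneg
  rw [abs_of_nonneg hC, ← c.pin_H0 ex h]
  set sd := sdv lam ex s c.a₀ with hsd
  set M := exp (2 * C) * (C + C ^ 2) + exp (2 * C) * (exp (2 * C) * C) ^ 2 with hM
  have hM0 : 0 ≤ M := by positivity
  have hF := CI.lfam c ex h hΨ sd
  have hD : ∀ α : ℝ, |(cLev ex h n).E0 (CI.HA c Ψ sd α) (fun ω => ∑ b,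
      Ψ₁ (rS (cmap pR ω)) b (CI.zA c sd α ω) * (-sin α * c.zg ω b + cos α * zR sd (cmap pR ω) b))| ≤
      M * Pin (cLev ex h n) k c.H0 c.sp (fun i ω => Y i (cmap pB ω)) lam s := fun α => by
    have hL := hF.lin' (Set.mem_univ α)
    have hb := fun b => CI.deriv_b c ex h hΨ hζ sd α b (q := qh lam ex s (c.a₀.succAbove b))
      fun m hm => Finset.sum_congr rfl fun l hl => by
        rw [hsd, sdv, sq_sqrt (sg2_nonneg hlam ex hs _ ((Finset.mem_Icc.1 hl).2.trans hm))]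
    unfold Lev.E0 at hb ⊢
    rw [Lev.E_sum hL _ fun b _ => (Lev.nice_of_bdd (CI.meas_bool (G := fun ε => Ψ₁ ε b)
      (fun ε => (hΨ.cont ε b).1) CI.meas_rS (CI.meas_zA c ex h sd α)) C
      fun ω => (hΨ.b1 _ _ _).1).mul (((CI.lin_zg c ex h b).const_mul _).add
        ((CI.lin_zR ex h sd b).const_mul _)).nice]
    refine (Finset.abs_sum_le_sum_abs _ _).trans ((Finset.sum_le_sum fun b _ => hb b).trans ?_)
    rw [← Finset.mul_sum, Pin, Fin.sum_univ_succAbove _ c.a₀]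
    refine mul_le_mul_of_nonneg_left (le_add_of_nonneg_left (add_nonneg (sqrt_nonneg _)
      (Finset.sum_nonneg fun e _ => mul_nonneg (Expo.Δ_nonneg _ _) (sqrt_nonneg _)))) hM0
  have hmv := convex_univ.norm_image_sub_le_of_norm_hasDerivWithin_le
    (f := fun t => (cLev ex h n).X0 (CI.HA c Ψ sd t))
    (fun α _ => (hF.hasDerivAt_X0 isOpen_univ (Set.mem_univ α)).hasDerivWithinAt)
    (fun α _ => hD α) (Set.mem_univ (π / 2)) (Set.mem_univ 0)
  have e0 : CI.HA c Ψ sd 0 = fun ω : Cfg (k + 2) (Oc N n) =>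
      c.H0 ω + Ψ (rS (cmap pR ω)) (c.zg ω) := by
    funext ω
    simp only [CI.HA]
    congr 2
    funext b
    simp [CI.zA]
  have e1 : CI.HA c Ψ sd (π / 2) = fun ω : Cfg (k + 2) (Oc N n) =>
      c.H0 ω + Ψ (rS (cmap pR ω)) (zR sd (cmap pR ω)) := by
    funext ω
    simp only [CI.HA]
    congr 2
    funext b
    simp [CI.zA]
  simp only [e0, e1, Real.norm_eq_abs, zero_sub, abs_neg, abs_of_pos pi_div_two_pos] at hmv
  refine hmv.trans_eq ?_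
  ring

end Crest.Agent.R164
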