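import Crest.Agent.R164.CavBasic

/-! # Row 164: the truncated cavity energy is smooth -/

set_option autoImplicit false

namespace Crest.Agent.R164

open MeasureTheory ProbabilityTheory Real Finset Crest.ProbabilityR.InvariantGlass

namespace CavPsi

open Filter Topology

variable {n : ℕ}

lemma uv_eq (a₀ : Fin (n + 1)) (v : Fin (n + 1) → ℝ) (ε : Bool) (z : Fin n → ℝ) (a : Fin (n + 1)) :
    uv a₀ v ε z a = Bv a₀ v a a₀ * sg ε + ∑ b, Bv a₀ v a (a₀.succAbove b) * z b := by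
  show ∑ j, Bv a₀ v a j * (Fin.insertNth a₀ (sg ε) z : Fin (n + 1) → ℝ) j = _
  rw [Fin.sum_univ_succAbove _ a₀, Fin.insertNth_apply_same]
  exact congrArg _ (sum_congr rfl fun b _ => by rw [Fin.insertNth_apply_succAbove])

lemma lV_eq (lam : Fin (n + 1) → ℝ) (a₀ : Fin (n + 1)) (v : Fin (n + 1) → ℝ) (ε : Bool)
    (z : Fin n → ℝ) : lV lam a₀ v ε z =
      ∑ a, lam a * (Bv a₀ v a a₀ * sg ε + ∑ b, Bv a₀ v a (a₀.succAbove b) * z b) ^ 2 / 2 -
        ∑ b, lam (a₀.succAbove b) * z b ^ 2 / 2 :=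
  congrArg (· - _) (sum_congr rfl fun a _ => by rw [uv_eq])

lemma contDiff_lV (lam : Fin (n + 1) → ℝ) (a₀ : Fin (n + 1)) (v : Fin (n + 1) → ℝ) (ε : Bool) :
    ContDiff ℝ 2 (lV lam a₀ v ε) := by
  rw [funext (lV_eq lam a₀ v ε)]
  generalize Bv a₀ v = B
  generalize sg ε = s
  fun_prop

lemma bdd {G : (Fin n → ℝ) → ℝ} (hG : Continuous G) (hc : HasCompactSupport G) :
    ∀ᶠ C in atTop, ∀ z, |G z| ≤ C := by
  obtain ⟨M, hM⟩ := hG.bounded_above_of_compact_support hc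
  exact (eventually_ge_atTop M).mono fun C hC z => (hM z).trans hC

/-- first partial derivative -/
noncomputable def D1 (F : (Fin n → ℝ) → ℝ) (b : Fin n) (z : Fin n → ℝ) : ℝ :=
  fderiv ℝ F z (Pi.single b 1)

lemma contDiff_D1 {F : (Fin n → ℝ) → ℝ} (hF : ContDiff ℝ 2 F) (b : Fin n) :
    ContDiff ℝ 1 (D1 F b) :=
  (hF.fderiv_right (m := 1) (by norm_num)).clm_apply contDiff_const

lemma continuous_D1 {F : (Fin n → ℝ) → ℝ} (hF : ContDiff ℝ 1 F) (b : Fin n) :
    Continuous (D1 F b) :=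
  (hF.continuous_fderiv one_ne_zero).clm_apply continuous_const

lemma hasFDerivAt_D1 {F : (Fin n → ℝ) → ℝ} (hF : ContDiff ℝ 2 F) (z : Fin n → ℝ) :
    HasFDerivAt F (∑ b, D1 F b z • (ContinuousLinearMap.proj b : (Fin n → ℝ) →L[ℝ] ℝ)) z := by
  refine (hF.differentiable two_ne_zero z).hasFDerivAt.congr_fderiv
    (ContinuousLinearMap.ext fun x => ?_)
  conv_lhs => rw [pi_eq_sum_univ' x, map_sum]
  rw [_root_.sum_apply]
  exact sum_congr rfl fun b _ => (map_smul _ _ _).trans (mul_comm _ _)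

lemma hasDerivAt_D1 {F : (Fin n → ℝ) → ℝ} (hF : ContDiff ℝ 1 F) (b : Fin n) (z : Fin n → ℝ) :
    HasDerivAt (fun θ => F (Function.update z b (z b + θ))) (D1 F b z) 0 := by
  have h1 : HasDerivAt (fun θ : ℝ => Function.update z b (z b + θ)) (Pi.single b 1) 0 :=
    (hasDerivAt_update z b (z b + 0)).comp_const_add (z b) 0
  exact (hF.differentiable one_ne_zero z).hasFDerivAt.comp_hasDerivAt_of_eq 0 h1 (by simp)

lemma bounds {F : (Fin n → ℝ) → ℝ} (hF : ContDiff ℝ 2 F) {c R : ℝ} (hR : 0 ≤ R)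
    (h0 : ∀ z b, R ≤ |z b| → F z = c) :
    ∀ᶠ C in atTop, (∀ z, |F z| ≤ C) ∧ (∀ b z, |D1 F b z| ≤ C ∧ |D1 (D1 F b) b z| ≤ C) ∧
      ∀ (z t : Fin n → ℝ), (∀ b, 1 / 2 ≤ t b ∧ t b ≤ 2) →
        |F (fun b => t b * z b) - F z| ≤ C * ∑ b, |t b - 1| := by
  have hc : HasCompactSupport fun z => F z - c :=
    HasCompactSupport.intro (isCompact_closedBall 0 R) fun z hz => by
      by_contra h
      refine hz (mem_closedBall_zero_iff.2 ((pi_norm_le_iff_of_nonneg hR).2 fun b => ?_))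
      by_contra h'
      exact h (sub_eq_zero.2 (h0 z b (not_le.1 h').le))
  have hc0 : HasCompactSupport (fderiv ℝ F) := by
    have := hc.fderiv ℝ
    rwa [show fderiv ℝ (fun z => F z - c) = fderiv ℝ F from funext fun z => fderiv_sub_const c]
      at this
  have hc1 : ∀ b, HasCompactSupport (D1 F b) := fun b =>
    hc0.comp_left (g := fun L : (Fin n → ℝ) →L[ℝ] ℝ => L (Pi.single b 1)) rfl
  have hc2 : ∀ b, HasCompactSupport (D1 (D1 F b) b) := fun b => (hc1 b).fderiv_apply ℝ _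
  obtain ⟨M, hM⟩ := (hF.continuous_fderiv two_ne_zero).bounded_above_of_compact_support hc0
  obtain ⟨M', hM'⟩ := (hF.continuous.sub continuous_const).bounded_above_of_compact_support hc
  have hM0 : 0 ≤ M := (norm_nonneg _).trans (hM 0)
  filter_upwards [eventually_ge_atTop (M' + |c|), eventually_ge_atTop (M * (2 * R)),
    eventually_all.2 fun b => bdd (contDiff_D1 hF b).continuous (hc1 b),
    eventually_all.2 fun b => bdd (continuous_D1 (contDiff_D1 hF b) b) (hc2 b)] with C h1 h2 h3 h4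
  refine ⟨fun z => ?_, fun b z => ⟨h3 b z, h4 b z⟩, fun z t ht => ?_⟩
  · have h5 : |F z - c| ≤ M' := hM' z
    have := abs_sub_abs_le_abs_sub (F z) c
    linarith
  have hs : 0 ≤ ∑ b, |t b - 1| := sum_nonneg fun _ _ => abs_nonneg _
  by_cases hz : ∀ b, |z b| ≤ 2 * R
  · have h5 := convex_univ.norm_image_sub_le_of_norm_fderiv_le
      (fun x _ => hF.differentiable two_ne_zero x) (fun x _ => hM x) (Set.mem_univ z)
      (Set.mem_univ fun b => t b * z b)
    refine h5.trans (le_trans ?_ (mul_le_mul_of_nonneg_right h2 hs))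
    rw [mul_assoc]
    refine mul_le_mul_of_nonneg_left ((pi_norm_le_iff_of_nonneg (by positivity)).2 fun b => ?_) hM0
    show |t b * z b - z b| ≤ _
    rw [← sub_one_mul, abs_mul, mul_comm]
    exact mul_le_mul (hz b) (single_le_sum (f := fun b => |t b - 1|) (fun _ _ => abs_nonneg _)
      (mem_univ b)) (abs_nonneg _) (by positivity)
  · obtain ⟨b, hb⟩ := not_forall.1 hz
    have hb' := not_le.1 hb
    rw [h0 z b (by linarith), h0 _ b (by
      rw [abs_mul, abs_of_nonneg (by linarith [(ht b).1] : 0 ≤ t b)]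
      nlinarith [(ht b).1]), sub_self, abs_zero]
    exact mul_nonneg ((mul_nonneg hM0 (by positivity)).trans h2) hs

lemma continuousAt_Bv (hn : 1 ≤ n) (a₀ i j : Fin (n + 1)) :
    ContinuousAt (fun v => Bv a₀ v i j) (v0 n) := by
  show ContinuousAt (fun v : Fin (n + 1) → ℝ => (1 : Matrix (Fin (n + 1)) (Fin (n + 1)) ℝ) i j -
    (2 / ∑ k, ((Pi.single a₀ 1 : Fin (n + 1) → ℝ) k - v k) ^ 2) *
      (((Pi.single a₀ 1 : Fin (n + 1) → ℝ) i - v i) * ((Pi.single a₀ 1 : Fin (n + 1) → ℝ) j - v j)))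
    (v0 n)
  have h : ∑ k, ((Pi.single a₀ 1 : Fin (n + 1) → ℝ) k - v0 n k) ^ 2 ≠ 0 := by
    refine (lt_of_lt_of_le ?_ (single_le_sum
      (f := fun k => ((Pi.single a₀ 1 : Fin (n + 1) → ℝ) k - v0 n k) ^ 2) (fun _ _ => sq_nonneg _)
      (mem_univ (a₀.succAbove ⟨0, hn⟩)))).ne'
    show 0 < (_ - √(1 / ((n : ℝ) + 1))) ^ 2
    rw [Pi.single_eq_of_ne (Fin.succAbove_ne _ _), zero_sub, neg_sq]
    positivity
  refine continuousAt_const.sub (ContinuousAt.mul (ContinuousAt.div continuousAt_const ?_ h) ?_)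
  all_goals exact Continuous.continuousAt (by fun_prop)

end CavPsi

open CavPsi

theorem exists_cut (n : ℕ) {L : ℝ} (hL : 0 < L) : ∃ χ : (Fin n → ℝ) → ℝ, Cut L χ := by
  let f : ContDiffBump (0 : ℝ) := ⟨L, 2 * L, hL, by linarith⟩
  refine ⟨fun z => ∏ b, f (z b), contDiff_prod fun b _ => f.contDiff.comp (contDiff_apply ℝ ℝ b),
    fun z => ⟨prod_nonneg fun _ _ => f.nonneg, prod_le_one (fun _ _ => f.nonneg) fun _ _ => f.le_one⟩,
    fun z hz => prod_eq_one fun b _ => f.one_of_mem_closedBall (mem_closedBall_zero_iff.2 (hz b)),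
    fun z b hb => prod_eq_zero (mem_univ b) (f.zero_of_le_dist ?_)⟩
  rw [dist_zero_right]
  exact hb

theorem smooth_Psi {n : ℕ} (lam : Fin (n + 1) → ℝ) {δ L : ℝ} (hδ : 0 < δ) {χ : (Fin n → ℝ) → ℝ}
    (hχ : Cut L χ) : ∃ C : ℝ, 0 < C ∧ ∀ a₀, Smooth (Psi lam a₀ δ χ) C := by
  have hF : ∀ a₀ ε, ContDiff ℝ 2 (Psi lam a₀ δ χ ε) := fun a₀ ε =>
    (contDiff_const.add (hχ.smooth.mul (contDiff_lV lam a₀ (v0 n) ε).exp)).log fun z =>
      (add_pos_of_pos_of_nonneg hδ (mul_nonneg (hχ.mem z).1 (exp_pos _).le)).ne'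
  have h0 : ∀ a₀ ε z b, |2 * L| ≤ |z b| → Psi lam a₀ δ χ ε z = log δ := fun a₀ ε z b h =>
    congrArg log (by rw [hχ.zero z b ((le_abs_self _).trans h), zero_mul, add_zero])
  obtain ⟨C, hC, h⟩ := ((Filter.eventually_gt_atTop 0).and (Filter.eventually_all.2 fun a₀ =>
    Filter.eventually_all.2 fun ε => bounds (hF a₀ ε) (abs_nonneg _) (h0 a₀ ε))).exists
  exact ⟨C, hC, fun a₀ => ⟨fun ε => D1 (Psi lam a₀ δ χ ε), fun ε b => D1 (D1 (Psi lam a₀ δ χ ε) b) b,
    fun ε => hasFDerivAt_D1 (hF a₀ ε), fun ε b => hasDerivAt_D1 (contDiff_D1 (hF a₀ ε) b) b,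
    fun ε b => ⟨(contDiff_D1 (hF a₀ ε) b).continuous, continuous_D1 (contDiff_D1 (hF a₀ ε) b) b⟩,
    fun ε => (h a₀ ε).1, fun ε => (h a₀ ε).2.1, fun ε => (h a₀ ε).2.2⟩⟩

lemma Smooth.continuous {n : ℕ} {Ψ : Bool → (Fin n → ℝ) → ℝ} {C : ℝ} (h : Smooth Ψ C) (ε : Bool) :
    Continuous (Ψ ε) := by
  obtain ⟨_, _, h1, -⟩ := h
  exact continuous_iff_continuousAt.2 fun z => (h1 ε z).continuousAt

lemma Smooth.measurable {n : ℕ} {Ψ : Bool → (Fin n → ℝ) → ℝ} {C : ℝ} (h : Smooth Ψ C) {α : Type}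
    [MeasurableSpace α] {e : α → Bool} {z : α → Fin n → ℝ} (he : Measurable e) (hz : Measurable z) :
    Measurable fun ω => Ψ (e ω) (z ω) := by
  have : (fun ω => Ψ (e ω) (z ω)) = fun ω => if e ω = true then Ψ true (z ω) else Ψ false (z ω) :=
    funext fun ω => by cases e ω <;> rfl
  rw [this]
  exact Measurable.ite (he (measurableSet_singleton true)) ((h.continuous true).measurable.comp hz)
    ((h.continuous false).measurable.comp hz)

/-- Continuity of the cavity energy in the column and in the eigenvalues, on bounded sets. -/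
theorem lV_close {n : ℕ} (hn : 1 ≤ n) (lam : Fin (n + 1) → ℝ) (R : ℝ) {ε : ℝ} (hε : 0 < ε) :
    ∃ ε₂ : ℝ, 0 < ε₂ ∧ ∀ (a₀ : Fin (n + 1)) (lam' v : Fin (n + 1) → ℝ), (∀ a, |lam' a - lam a| ≤ ε₂) →
      (∀ a, 0 ≤ v a ∧ |v a ^ 2 - 1 / (n + 1)| ≤ ε₂) → ∀ (e : Bool) (z : Fin n → ℝ), (∀ b, |z b| ≤ R) →
        |lV lam' a₀ v e z - lV lam a₀ (v0 n) e z| ≤ ε := by
  have key : ∀ (a₀ : Fin (n + 1)) (e : Bool), ∀ᶠ x in nhds (lam, v0 n),
      ∀ z ∈ Metric.closedBall (0 : Fin n → ℝ) |R|,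
        |lV x.1 a₀ x.2 e z - lV lam a₀ (v0 n) e z| < ε := fun a₀ e => by
    refine (isCompact_closedBall _ _).eventually_forall_of_forall_eventually fun z _ => ?_
    have h1 : ContinuousAt (fun p : ((Fin (n + 1) → ℝ) × (Fin (n + 1) → ℝ)) × (Fin n → ℝ) =>
        lV p.1.1 a₀ p.1.2 e p.2) ((lam, v0 n), z) := by
      have hB : ∀ i j, ContinuousAt
          (fun p : ((Fin (n + 1) → ℝ) × (Fin (n + 1) → ℝ)) × (Fin n → ℝ) => Bv a₀ p.1.2 i j)
          ((lam, v0 n), z) := fun i j =>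
        (continuousAt_Bv hn a₀ i j).comp_of_eq (continuousAt_snd.comp continuousAt_fst) rfl
      rw [funext fun p : ((Fin (n + 1) → ℝ) × (Fin (n + 1) → ℝ)) × (Fin n → ℝ) =>
        lV_eq p.1.1 a₀ p.1.2 e p.2]
      refine ContinuousAt.sub (tendsto_finsetSum _ fun a _ => ?_) (Continuous.continuousAt ?_)
      · refine ContinuousAt.div_const (ContinuousAt.mul (Continuous.continuousAt (by fun_prop))
          (ContinuousAt.pow (((hB _ _).mul continuousAt_const).add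
            (tendsto_finsetSum _ fun b _ => ?_)) 2)) 2
        exact (hB _ _).mul (Continuous.continuousAt (by fun_prop))
      · fun_prop
    have h2 := (h1.sub ((contDiff_lV lam a₀ (v0 n) e).continuous.comp
      continuous_snd).continuousAt).abs
    exact h2.eventually_lt continuousAt_const (((congrArg abs (sub_self _)).trans abs_zero).trans_lt hε)
  obtain ⟨η, hη, h⟩ := Metric.eventually_nhds_iff.1
    (Filter.eventually_all.2 fun a₀ => Filter.eventually_all.2 (key a₀))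
  refine ⟨min (η / 2) ((η / 2) ^ 2), by positivity, fun a₀ lam' v h1 h2 e z hz =>
    (h (y := (lam', v)) ?_ a₀ e z (mem_closedBall_zero_iff.2 ((pi_norm_le_iff_of_nonneg
      (abs_nonneg _)).2 fun b => (hz b).trans (le_abs_self _)))).le⟩
  refine lt_of_le_of_lt (max_le ((dist_pi_le_iff (half_pos hη).le).2 fun a =>
    (h1 a).trans (min_le_left _ _)) ((dist_pi_le_iff (half_pos hη).le).2 fun a => ?_))
    (half_lt_self hη)
  show |v a - √(1 / ((n : ℝ) + 1))| ≤ η / 2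
  have h3 := (h2 a).2.trans (min_le_right _ _)
  have h4 : (1 : ℝ) / (n + 1) = √(1 / ((n : ℝ) + 1)) ^ 2 := (sq_sqrt (by positivity)).symm
  have h5 := sqrt_nonneg (1 / ((n : ℝ) + 1))
  have h6 := (h2 a).1
  generalize √(1 / ((n : ℝ) + 1)) = w at h4 h5 ⊢
  rw [h4, sq_sub_sq, abs_mul, abs_of_nonneg (add_nonneg h6 h5)] at h3
  have h7 : |v a - w| ≤ v a + w := abs_le.2 ⟨by linarith, by linarith⟩
  exact abs_le_of_sq_le_sq' (by nlinarith [abs_nonneg (v a - w)]) (half_pos hη).le |>.2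

end Crest.Agent.R164
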