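import Crest.Agent.R164.RsbMat
import Crest.Agent.R164.CavPsi

/-! # Row 164: removing the truncation in the hierarchical system -/

set_option autoImplicit false

namespace Crest.Agent.R164

open MeasureTheory ProbabilityTheory Real Finset Matrix

/-- The diagonal solution of the Riccati recursion. -/
noncomputable def trM (d θ s : ℝ) : ℝ := (d + 2 * θ) * (1 + d * s) / (1 - 2 * θ * s)

/-- Its logarithmic potential. -/
noncomputable def trG (d θ s : ℝ) : ℝ := log (1 + d * s) - log (1 - 2 * θ * s)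

lemma trM_entry {d θ s s' : ℝ} (h1 : 0 < 1 + d * s) (h1' : 0 < 1 + d * s') (h2 : 0 < 1 - 2 * θ * s) :
    1 - (s' / (1 + d * s') - s / (1 + d * s)) * trM d θ s
      = (1 + d * s) * (1 - 2 * θ * s') / ((1 - 2 * θ * s) * (1 + d * s')) := by
  unfold trM
  rw [div_sub_div _ _ h1'.ne' h1.ne', div_mul_div_comm, one_sub_div (by positivity),
    div_eq_div_iff (by positivity) (by positivity)]
  ring

lemma trG_mono {d θ s s' : ℝ} (hd : 0 ≤ d) (hθ : 0 ≤ θ) (hs : 0 ≤ s) (hss : s ≤ s')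
    (h2' : 0 < 1 - 2 * θ * s') : trG d θ s ≤ trG d θ s' := by
  unfold trG
  have a : log (1 + d * s) ≤ log (1 + d * s') :=
    log_le_log (by positivity) (by nlinarith [mul_le_mul_of_nonneg_left hss hd])
  have b : log (1 - 2 * θ * s') ≤ log (1 - 2 * θ * s) :=
    log_le_log h2' (by nlinarith [mul_le_mul_of_nonneg_left hss hθ])
  linarith

lemma tr_telescope (f : ℕ → ℝ) (k : ℕ) : ∑ l ∈ Icc 1 k, (f (l - 1) - f l) = f 0 - f k := by
  induction k with
  | zero => simp
  | succ k ih => rw [Finset.sum_Icc_succ_top (by omega), ih, Nat.add_sub_cancel]; ring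

theorem rsb_diag {n : ℕ} {lam : Fin (n + 1) → ℝ} (hlam : Monotone lam) {η : ℝ} (hη : 0 < η) :
    ∃ θ C : ℝ, 0 < θ ∧ ∀ (k : ℕ) (ex : Expo (k + 2)) (s : ℕ → ℝ) (a₀ : Fin (n + 1)) (b : ℝ) (y : ℕ → ℝ),
      ex.ζ 1 = η → IsSeq n k s → y 0 = 0 →
      (rLev ex n).Int (fun ω => frR b y ω +
          ∑ i, (dl lam (a₀.succAbove i) + 2 * θ) * zR (sdv lam ex s a₀) ω i ^ 2 / 2) ∧
        (rLev ex n).X0 (fun ω => frR b y ω +
          ∑ i, (dl lam (a₀.succAbove i) + 2 * θ) * zR (sdv lam ex s a₀) ω i ^ 2 / 2) ≤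
          oX ex b 0 y + C := by
  set θ : ℝ := 1 / (4 * (n + 1)) with hθdef
  have hθ : 0 < θ := by positivity
  refine ⟨θ, n * (dl lam 0 * (n + 1) + 1) / (2 * η), hθ, fun k ex s a₀ b y hζ hs hy => ?_⟩
  set d : Fin n → ℝ := fun i => dl lam (a₀.succAbove i) with hd
  have hd0 : ∀ i, 0 ≤ d i := fun i => dl_nonneg hlam _
  have hK : ∀ l ≤ k + 1, 1 / 2 ≤ 1 - 2 * θ * s l := by
    intro l hl
    have h1 := (hs.nonneg hl).2
    have h2 : θ * s l ≤ θ * (n + 1) := mul_le_mul_of_nonneg_left h1 hθ.le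
    have h3 : θ * (n + 1) = 1 / 4 := by rw [hθdef]; field_simp
    linarith
  have hK' : ∀ l ≤ k + 1, 0 < 1 - 2 * θ * s l := fun l hl => by linarith [hK l hl]
  have hE : ∀ i, ∀ l ≤ k + 1, 0 < 1 + d i * s l := fun i l hl =>
    spec_pos hlam _ (hs.nonneg hl).1
  set M : ℕ → Matrix (Fin n) (Fin n) ℝ := fun l => diagonal fun i => trM (d i) θ (s (l - 1)) with hM
  set sd := sdv lam ex s a₀ with hsd
  have hsq : ∀ l ≤ k + 1, ∀ i, ex.ζ l * sd l i ^ 2
      = s (l - 1) / (1 + d i * s (l - 1)) - s l / (1 + d i * s l) := by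
    intro l hl i
    have hz := (ex.pos l).ne'
    simp only [hsd, sdv]
    rw [sq_sqrt (sg2_nonneg hlam ex hs _ hl), sg2, mul_div_cancel₀ _ hz]
    rfl
  set e : ℕ → Fin n → ℝ := fun l i => (1 + d i * s l) * (1 - 2 * θ * s (l - 1))
    / ((1 - 2 * θ * s l) * (1 + d i * s (l - 1))) with he
  have hent : ∀ l ≤ k + 1, ∀ i, 1 - ex.ζ l * sd l i ^ 2 * trM (d i) θ (s l) = e l i := by
    intro l hl i
    rw [hsq l hl i]
    exact trM_entry (hE i l hl) (hE i _ (by omega)) (hK' l hl)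
  have hepos : ∀ l ≤ k + 1, ∀ i, 0 < e l i := fun l hl i =>
    div_pos (mul_pos (hE i l hl) (hK' _ (by omega))) (mul_pos (hK' l hl) (hE i _ (by omega)))
  have hS : ∀ l ≤ k + 1, (1 - ex.ζ l • (diagonal (sd l) * M (l + 1) * diagonal (sd l)))
      = diagonal (e l) := by
    intro l hl
    simp only [hM, diagonal_mul_diagonal, Nat.add_sub_cancel]
    rw [← diagonal_smul, ← diagonal_one, diagonal_sub]
    congr 1
    funext i
    rw [← hent l hl i]
    simp only [Pi.smul_apply, smul_eq_mul]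
    ring
  have hS' : ∀ l ≤ k + 1, (1 - ex.ζ l • (M (l + 1) * diagonal fun i => sd l i ^ 2))
      = diagonal (e l) := by
    intro l hl
    simp only [hM, diagonal_mul_diagonal, Nat.add_sub_cancel]
    rw [← diagonal_smul, ← diagonal_one, diagonal_sub]
    congr 1
    funext i
    rw [← hent l hl i]
    simp only [Pi.smul_apply, smul_eq_mul]
    ring
  obtain ⟨hI, hX⟩ := rsb_eval ex M (fun _ => 0) sd (fun l _ => isSymm_diagonal _)
    (fun l hl => by
      rw [hS l (mem_Icc.1 hl).2]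
      exact PosDef.diagonal (hepos l (mem_Icc.1 hl).2))
    (fun l hl => by
      have hl' := (mem_Icc.1 hl).2
      rw [hS' l hl']
      simp only [hM, diagonal_mul_diagonal, Nat.add_sub_cancel]
      congr 1
      funext i
      simp only [he, trM]
      have := (hE i l hl').ne'
      have := (hE i (l - 1) (by omega)).ne'
      have := (hK' l hl').ne'
      have := (hK' (l - 1) (by omega)).ne'
      field_simp)
    (fun l _ => by simp) (fun _ => 0) rfl (fun l _ => by simp) b 0 hy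
    (fun ω => frR b y ω + ∑ i, (d i + 2 * θ) * zR sd ω i ^ 2 / 2)
    (fun ω => by
      have h0 : s (k + 2 - 1) = 0 := hs.2.2
      simp only [hM, h0, trM, mul_zero, add_zero, sub_zero, mul_one, div_one, 
        zero_add, dotProduct, mulVec_diagonal, Finset.sum_div, Pi.zero_apply, zero_mul,
        Finset.sum_const_zero]
      congr 1
      exact Finset.sum_congr rfl fun i _ => by ring)
  refine ⟨hI, ?_⟩
  rw [hX]
  have h0 : (fun _ : ℕ => √(0 : ℝ)) = 0 := by funext l; simp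
  rw [h0]
  have hlog : ∀ l ∈ Icc 1 (k + 1),
      -(log (1 - ex.ζ l • (diagonal (sd l) * M (l + 1) * diagonal (sd l))).det / (2 * ex.ζ l))
        ≤ (∑ i, trG (d i) θ (s (l - 1)) - ∑ i, trG (d i) θ (s l)) / (2 * η) := by
    intro l hl
    obtain ⟨hl1, hl'⟩ := mem_Icc.1 hl
    rw [hS l hl', det_diagonal, Real.log_prod (fun i _ => (hepos l hl' i).ne'), ← neg_div,
      ← Finset.sum_neg_distrib, ← Finset.sum_sub_distrib]
    have h1 : ∀ i, -log (e l i) = trG (d i) θ (s (l - 1)) - trG (d i) θ (s l) := by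
      intro i
      have a1 := (hE i l hl').ne'
      have a2 := (hE i (l - 1) (by omega)).ne'
      have a3 := (hK' l hl').ne'
      have a4 := (hK' (l - 1) (by omega)).ne'
      simp only [he, trG]
      rw [log_div (mul_ne_zero a1 a4) (mul_ne_zero a3 a2), log_mul a1 a4, log_mul a3 a2]
      ring
    simp only [h1]
    refine div_le_div_of_nonneg_left (Finset.sum_nonneg fun i _ => sub_nonneg.2 ?_) (by positivity) ?_
    · exact trG_mono (hd0 i) hθ.le (hs.nonneg hl').1 (hs.spec_anti (Nat.sub_le l 1) hl')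
        (hK' _ (by omega))
    · have := ex.mono hl1
      linarith
  have hsum := Finset.sum_le_sum hlog
  rw [Finset.sum_neg_distrib, ← Finset.sum_div,
    tr_telescope (fun l => ∑ i, trG (d i) θ (s l)) (k + 1)] at hsum
  have hz : ∑ i, trG (d i) θ (s (k + 1)) = 0 := by simp [hs.2.2, trG]
  have hb : ∑ i, trG (d i) θ (s 0) ≤ n * (dl lam 0 * (n + 1) + 1) := by
    have : ∀ i, trG (d i) θ (s 0) ≤ dl lam 0 * (n + 1) + 1 := by
      intro i
      have a1 : log (1 + d i * s 0) ≤ d i * s 0 := by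
        have := log_le_sub_one_of_pos (hE i 0 (by omega))
        linarith
      have a2 : d i * s 0 ≤ dl lam 0 * (n + 1) := by
        refine mul_le_mul ?_ hs.1 (hs.nonneg (Nat.zero_le _)).1 (dl_nonneg hlam 0)
        have := hlam (Fin.zero_le (a₀.succAbove i))
        simp only [hd, dl]
        linarith
      have a3 : log (1 / 2) ≤ log (1 - 2 * θ * s 0) := log_le_log (by norm_num) (hK 0 (by omega))
      have a4 : -1 ≤ log (1 / 2 : ℝ) := by
        rw [one_div, log_inv]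
        have := log_le_sub_one_of_pos (show (0 : ℝ) < 2 by norm_num)
        linarith
      unfold trG
      linarith
    calc ∑ i, trG (d i) θ (s 0) ≤ ∑ _i : Fin n, (dl lam 0 * (n + 1) + 1) :=
          Finset.sum_le_sum fun i _ => this i
      _ = _ := by simp [mul_add]
  have hb' : (∑ i, trG (d i) θ (s 0) - ∑ i, trG (d i) θ (s (k + 1))) / (2 * η)
      ≤ n * (dl lam 0 * (n + 1) + 1) / (2 * η) := by
    rw [hz, sub_zero]
    exact div_le_div_of_nonneg_right hb (by positivity)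
  linarith

lemma tr_up {η ε a b c : ℝ} (hη : 0 < η) (hε : 0 < ε)
    (h : exp (η * a) ≤ exp (η * b) + exp (η * c)) (hc : c ≤ b + log (η * ε) / η) : a ≤ b + ε := by
  have h1 : exp (η * c) ≤ exp (η * b) * (η * ε) := by
    rw [← exp_log (mul_pos hη hε), ← exp_add]
    refine exp_le_exp.2 ?_
    have := mul_le_mul_of_nonneg_left hc hη.le
    rwa [mul_add, mul_div_cancel₀ _ hη.ne'] at this
  have h2 : exp (η * a) ≤ exp (η * (b + ε)) := by
    rw [mul_add, exp_add]
    have := mul_le_mul_of_nonneg_left (add_one_le_exp (η * ε)) (exp_pos (η * b)).le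
    nlinarith
  exact le_of_mul_le_mul_left (exp_le_exp.1 h2) hη

lemma tr_lo {η ε a b c : ℝ} (hη : 0 < η) (hε : 0 < ε)
    (h : exp (η * a) ≤ exp (η * b) + exp (η * c)) (hc : c ≤ a + log (1 - exp (-(η * ε))) / η) :
    a ≤ b + ε := by
  have hκ : 0 < 1 - exp (-(η * ε)) := by
    have : exp (-(η * ε)) < 1 := exp_lt_one_iff.2 (by have := mul_pos hη hε; linarith)
    linarith
  have h1 : exp (η * c) ≤ exp (η * a) * (1 - exp (-(η * ε))) := by
    rw [← exp_log hκ, ← exp_add]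
    refine exp_le_exp.2 ?_
    have := mul_le_mul_of_nonneg_left hc hη.le
    rwa [mul_add, mul_div_cancel₀ _ hη.ne'] at this
  have h2 : exp (η * (a - ε)) ≤ exp (η * b) := by
    rw [mul_sub, sub_eq_add_neg, exp_add]
    nlinarith
  have := le_of_mul_le_mul_left (exp_le_exp.1 h2) hη
  linarith

lemma tr_lV_le {n : ℕ} {lam : Fin (n + 1) → ℝ} (hlam : Monotone lam) (a₀ : Fin (n + 1))
    (v : Fin (n + 1) → ℝ) (e : Bool) (z : Fin n → ℝ) :
    lV lam a₀ v e z ≤ lam (Fin.last n) / 2 + ∑ i, dl lam (a₀.succAbove i) * z i ^ 2 / 2 := by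
  have h1 : ∑ a, lam a * uv a₀ v e z a ^ 2 / 2 ≤ lam (Fin.last n) * (1 + ∑ b, z b ^ 2) / 2 := by
    rw [← sum_uv_sq a₀ v e z, Finset.mul_sum, Finset.sum_div]
    refine Finset.sum_le_sum fun a _ => div_le_div_of_nonneg_right ?_ (by norm_num)
    exact mul_le_mul_of_nonneg_right (hlam (Fin.le_last a)) (sq_nonneg _)
  have h2 : ∑ i, dl lam (a₀.succAbove i) * z i ^ 2 / 2
      = lam (Fin.last n) * (∑ b, z b ^ 2) / 2 - ∑ b, lam (a₀.succAbove b) * z b ^ 2 / 2 := by
    rw [Finset.mul_sum, Finset.sum_div, ← Finset.sum_sub_distrib]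
    exact Finset.sum_congr rfl fun i _ => by rw [dl]; ring
  unfold lV
  rw [h2]
  linarith

theorem rsb_trunc {n : ℕ} {lam : Fin (n + 1) → ℝ} (hlam : Monotone lam) {η : ℝ} (hη : 0 < η) {ε : ℝ}
    (hε : 0 < ε) : ∃ L₀ δ₀ : ℝ, 0 < δ₀ ∧ ∀ L δ : ℝ, L₀ ≤ L → 0 < L → 0 < δ → δ ≤ δ₀ →
      ∀ χ : (Fin n → ℝ) → ℝ, Cut L χ → ∀ (k : ℕ) (ex : Expo (k + 2)) (s : ℕ → ℝ) (a₀ : Fin (n + 1))
        (b : ℝ) (y : ℕ → ℝ), ex.ζ 0 = η → ex.ζ 1 = η → IsSeq n k s → y 0 = 0 →
        |(rLev ex n).X0 (fun ω => frR b y ω + Psi lam a₀ δ χ (rS ω) (zR (sdv lam ex s a₀) ω)) -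
          (cst lam ex k s a₀ + oX ex b (fun l => √(vv lam ex s l)) y)| ≤ ε := by
  obtain ⟨θ, C, hθ, hdiag⟩ := rsb_diag hlam hη
  obtain ⟨Cc, hCc⟩ := exists_cst_bound hlam hη
  set A : ℝ := Cc + C + lam (Fin.last n) / 2 - log (1 - exp (-(η * ε))) / η with hA
  refine ⟨max 1 (A / θ), exp (log (η * ε) / η - Cc), exp_pos _,
    fun L δ hL hL0 hδ hδ0 χ hχ k ex s a₀ b y h0 h1 hs hy => ?_⟩
  obtain ⟨hIf, hXf⟩ := rsb_exact hlam ex hs a₀ b hy
  obtain ⟨hId, hXd⟩ := hdiag k ex s a₀ b y h1 hs hy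
  rw [← hXf]
  set sd := sdv lam ex s a₀ with hsd
  have hc := hCc k ex s a₀ h1 hs
  have hamp := oX_amp ex b (x := fun l => √(vv lam ex s l)) (fun l => sqrt_nonneg _) y
  set Xf := (rLev ex n).X0 (fun ω => frR b y ω + lV lam a₀ (v0 n) (rS ω) (zR sd ω)) with hXfdef
  have hle : oX ex b 0 y ≤ Xf + Cc := by
    have := neg_abs_le (cst lam ex k s a₀)
    linarith
  obtain ⟨CP, -, hsm⟩ := smooth_Psi lam hδ hχ
  have hmeas : Measurable fun ω : Cfg (k + 2) (Orb n) => Psi lam a₀ δ χ (rS ω) (zR sd ω) :=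
    (hsm a₀).measurable measurable_rS (measurable_zR sd)
  have hlin : (rLev ex n).Lin fun ω => frR b y ω + Psi lam a₀ δ χ (rS ω) (zR sd ω) := by
    obtain ⟨_, _, _, _, _, hb, _⟩ := hsm a₀
    exact (lin_frR ex b y).add (Lev.lin_of_bdd hmeas CP fun ω => hb _ _)
  have hζ : (rLev ex n).ζ 0 = η := h0
  have hpos : ∀ e z, 0 < δ + χ z * exp (lV lam a₀ (v0 n) e z) := fun e z =>
    add_pos_of_pos_of_nonneg hδ (mul_nonneg (hχ.mem z).1 (exp_pos _).le)
  have hPsi : ∀ e z, exp (Psi lam a₀ δ χ e z) = δ + χ z * exp (lV lam a₀ (v0 n) e z) := fun e z =>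
    exp_log (hpos e z)
  rw [abs_sub_le_iff]
  constructor
  · have hI0 : (rLev ex n).Int (frR b y) := (lin_frR ex b y).int
    have hm := (Lev.minkowski_exp hIf (hI0.add_const (log δ)).1 hlin.1 fun ω => by
      rw [exp_add, exp_add, exp_add, hPsi, exp_log hδ, ← mul_add]
      refine mul_le_mul_of_nonneg_left ?_ (exp_pos _).le
      have := mul_le_mul_of_nonneg_right (hχ.mem (zR sd ω)).2
        (exp_pos (lV lam a₀ (v0 n) (rS ω) (zR sd ω))).le
      linarith).2
    rw [hζ, Lev.X0_add_const hI0, X0_frR ex b hy] at hm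
    have hlog : log δ ≤ log (η * ε) / η - Cc := (log_le_iff_le_exp hδ).2 hδ0
    have := tr_up hη hε hm (by linarith)
    linarith
  · have hL1 : 1 ≤ L := (le_max_left _ _).trans hL
    have hLA : A ≤ θ * L ^ 2 := by
      have a1 : A / θ ≤ L := (le_max_right _ _).trans hL
      rw [div_le_iff₀ hθ] at a1
      have a2 : L ≤ L ^ 2 := by nlinarith
      nlinarith [mul_le_mul_of_nonneg_left a2 hθ.le]
    have hm := (Lev.minkowski_exp hlin.int (hId.add_const (lam (Fin.last n) / 2 - θ * L ^ 2)).1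
      hIf.1 fun ω => by
      by_cases hz : ∀ i, |zR sd ω i| ≤ L
      · refine le_add_of_le_of_nonneg ?_ (exp_pos _).le
        rw [exp_add, exp_add, hPsi, hχ.one _ hz, one_mul]
        refine mul_le_mul_of_nonneg_left ?_ (exp_pos _).le
        linarith
      · refine le_add_of_nonneg_of_le (exp_pos _).le (exp_le_exp.2 ?_)
        push Not at hz
        obtain ⟨i, hi⟩ := hz
        have a1 := tr_lV_le hlam a₀ (v0 n) (rS ω) (zR sd ω)
        have a2 : L ^ 2 ≤ ∑ j, zR sd ω j ^ 2 := by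
          refine le_trans ?_ (Finset.single_le_sum (f := fun j => zR sd ω j ^ 2)
            (fun j _ => sq_nonneg _) (Finset.mem_univ i))
          rw [← sq_abs (zR sd ω i)]
          exact pow_le_pow_left₀ hL0.le hi.le 2
        have a3 : ∑ j, (dl lam (a₀.succAbove j) + 2 * θ) * zR sd ω j ^ 2 / 2
            = ∑ j, dl lam (a₀.succAbove j) * zR sd ω j ^ 2 / 2 + θ * ∑ j, zR sd ω j ^ 2 := by
          rw [Finset.mul_sum, ← Finset.sum_add_distrib]
          exact Finset.sum_congr rfl fun j _ => by ring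
        rw [a3]
        nlinarith [mul_le_mul_of_nonneg_left a2 hθ.le]).2
    rw [hζ, Lev.X0_add_const hId] at hm
    have := tr_lo hη hε hm (by linarith)
    linarith

end Crest.Agent.R164
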