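import Crest.Agent.R164.CavCrude
import Crest.Agent.R164.CavChain
import Crest.Agent.R164.CavDir
import Crest.Agent.R164.CavInterp
import Crest.Agent.R164.RsbTrunc

/-! # Row 164: the cavity theorem -/

set_option autoImplicit false

namespace Crest.Agent.R164

open MeasureTheory ProbabilityTheory Real Finset Crest.ProbabilityR.InvariantGlass

namespace CM

lemma int_lower {Ω : Type} [MeasurableSpace Ω] {κ : Measure Ω} [IsProbabilityMeasure κ] {Φ : Ω → ℝ}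
    (i1 : Integrable Φ κ) {S : Set Ω} (hS : MeasurableSet S) {a θ : ℝ} (ha : 0 ≤ a)
    (h0 : ∀ U, 0 ≤ Φ U) (hg : ∀ U ∉ S, a ≤ Φ U) (hp : κ.real S ≤ θ) :
    a * (1 - θ) ≤ ∫ U, Φ U ∂κ := by
  have iS : Integrable (S.indicator fun _ => a) κ := (integrable_const a).indicator hS
  have h1 : ∫ U, (a - S.indicator (fun _ => a) U) ∂κ ≤ ∫ U, Φ U ∂κ := by
    refine integral_mono ((integrable_const a).sub iS) i1 fun U => ?_
    by_cases hU : U ∈ S
    · simpa [hU] using h0 U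
    · simpa [hU] using hg U hU
  rw [integral_sub (integrable_const a) iS, integral_indicator_const _ hS] at h1
  simp only [integral_const, probReal_univ, smul_eq_mul, one_mul] at h1
  nlinarith [mul_le_mul_of_nonneg_right hp ha]

lemma int_upper {Ω : Type} [MeasurableSpace Ω] {κ : Measure Ω} [IsProbabilityMeasure κ]
    {Φ Φf : Ω → ℝ} (i1 : Integrable Φ κ) (i2 : Integrable Φf κ) {S : Set Ω} (hS : MeasurableSet S)
    {A c M : ℝ} (hA : 0 ≤ A) (hc : 0 ≤ c) (h0 : ∀ U, 0 ≤ Φf U)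
    (hg : ∀ U ∉ S, Φ U ≤ A + c * Φf U) (hb : ∀ U, Φ U ≤ M) :
    ∫ U, Φ U ∂κ ≤ A + c * ∫ U, Φf U ∂κ + κ.real S * M := by
  have iS : Integrable (S.indicator fun _ => M) κ := (integrable_const M).indicator hS
  have i3 : Integrable (fun U => A + c * Φf U) κ := (integrable_const A).add (i2.const_mul c)
  have h1 : ∫ U, Φ U ∂κ ≤ ∫ U, (A + c * Φf U + S.indicator (fun _ => M) U) ∂κ := by
    refine integral_mono i1 (i3.add iS) fun U => ?_
    by_cases hU : U ∈ S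
    · have := mul_nonneg hc (h0 U)
      have := hb U
      simp only [Set.indicator_of_mem hU]
      linarith
    · simpa [hU] using hg U hU
  rw [integral_add i3 iS, integral_add (integrable_const A) (i2.const_mul c),
    integral_indicator_const _ hS, integral_const_mul] at h1
  simpa using h1

lemma int_crude {Ω : Type} [MeasurableSpace Ω] {κ : Measure Ω} [IsProbabilityMeasure κ] {Φ : Ω → ℝ}
    (i1 : Integrable Φ κ) {η X Xb C : ℝ} (hη : 0 < η) (hX : ∫ U, Φ U ∂κ = exp (η * X))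
    (hb : ∀ U, ∃ x, Φ U = exp (η * x) ∧ |x - Xb| ≤ C) : |X - Xb| ≤ C := by
  have h1 : exp (η * (Xb - C)) ≤ exp (η * X) := by
    rw [← hX]
    refine le_trans (by simp) (integral_mono (integrable_const (exp (η * (Xb - C)))) i1 fun U => ?_)
    obtain ⟨x, hx, hx'⟩ := hb U
    rw [hx]
    exact exp_le_exp.2 (mul_le_mul_of_nonneg_left (by linarith [(abs_le.1 hx').1]) hη.le)
  have h2 : exp (η * X) ≤ exp (η * (Xb + C)) := by
    rw [← hX]
    refine le_trans (integral_mono i1 (integrable_const (exp (η * (Xb + C)))) fun U => ?_) (by simp)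
    obtain ⟨x, hx, hx'⟩ := hb U
    rw [hx]
    exact exp_le_exp.2 (mul_le_mul_of_nonneg_left (by linarith [(abs_le.1 hx').2]) hη.le)
  have h3 := le_of_mul_le_mul_left (exp_le_exp.1 h1) hη
  have h4 := le_of_mul_le_mul_left (exp_le_exp.1 h2) hη
  exact abs_le.2 ⟨by linarith, by linarith⟩

/-- The lower bound. -/
lemma lower {Ω : Type} [MeasurableSpace Ω] {κ : Measure Ω} [IsProbabilityMeasure κ] {Φ : Ω → ℝ}
    (i1 : Integrable Φ κ) {S : Set Ω} (hS : MeasurableSet S) {η X Z u d Cc : ℝ} (hη : 0 < η)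
    (hX : ∫ U, Φ U ∂κ = exp (η * X)) (h0 : ∀ U, 0 ≤ Φ U)
    (hg : ∀ U ∉ S, exp (η * Z) ≤ Φ U + d * exp (η * (Z + Cc)))
    (hd : d * exp (η * Cc) ≤ 1 - exp (-(η * u))) (hp : κ.real S ≤ 1 - exp (-(η * u))) :
    Z - 2 * u ≤ X := by
  have h1 := int_lower i1 hS (a := exp (η * Z) * exp (-(η * u))) (by positivity) h0 (fun U hU => by
    have h2 := hg U hU
    rw [mul_add, exp_add] at h2
    nlinarith [mul_le_mul_of_nonneg_left hd (exp_pos (η * Z)).le]) hp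
  rw [hX, sub_sub_cancel, ← exp_add, ← exp_add, exp_le_exp] at h1
  refine le_of_mul_le_mul_left ?_ hη
  linarith

/-- The upper bound. -/
lemma upper {Ω : Type} [MeasurableSpace Ω] {κ : Measure Ω} [IsProbabilityMeasure κ] {Φ Φf : Ω → ℝ}
    (i1 : Integrable Φ κ) (i2 : Integrable Φf κ) {S : Set Ω} (hS : MeasurableSet S)
    {η X Z u c F C : ℝ} (hη : 0 < η) (hc : 0 ≤ c)
    (hX : ∫ U, Φ U ∂κ = exp (η * X)) (hF : ∫ U, Φf U ∂κ = exp (η * X) * F) (h0 : ∀ U, 0 ≤ Φf U)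
    (hg : ∀ U ∉ S, Φ U ≤ exp (η * Z) + c * Φf U) (hb : ∀ U, Φ U ≤ exp (η * (Z + C)))
    (hd : c * F ≤ 1 - exp (-(η * u))) (hp : κ.real S * exp (η * C) ≤ 1 - exp (-(η * u))) :
    X ≤ Z + 2 * u := by
  have h1 := int_upper i1 i2 hS (exp_pos _).le hc h0 hg hb
  rw [hX, hF, mul_add, exp_add] at h1
  have h2 : 2 ≤ exp (η * u) + exp (-(η * u)) := by
    linarith [add_one_le_exp (η * u), add_one_le_exp (-(η * u))]
  have h3 : exp (η * X) * exp (-(η * u)) ≤ exp (η * Z) * exp (η * u) := by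
    nlinarith [mul_le_mul_of_nonneg_left hd (exp_pos (η * X)).le,
      mul_le_mul_of_nonneg_left hp (exp_pos (η * Z)).le,
      mul_le_mul_of_nonneg_left h2 (exp_pos (η * Z)).le]
  rw [← exp_add, ← exp_add, exp_le_exp] at h3
  refine le_of_mul_le_mul_left ?_ hη
  linarith

lemma ok_mono {n N k : ℕ} {c : Cav n N} {lam : Fin (n + 1) → ℝ} {B σ σ' : ℝ} (h : c.Ok k lam B σ)
    (hσ : σ ≤ σ') : c.Ok k lam B σ' :=
  { h with close := fun a => (h.close a).trans hσ, xsum := fun a => (h.xsum a).trans hσ }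

lemma abs_R_le {n : ℕ} {lam : Fin (n + 1) → ℝ} (hlam : Monotone lam) {η : ℝ} (hη : 0 < η) (B : ℝ) :
    ∃ C : ℝ, 0 ≤ C ∧ ∀ (N k : ℕ) (ex : Expo (k + 2)) (c : Cav n N) (s : ℕ → ℝ) (σ₀ : ℝ),
      ex.ζ 0 = η → ex.ζ 1 = η → IsSeq n k s → c.Ok k lam B σ₀ →
      |c.c₀ + cst lam ex k s c.a₀ + oX ex (c.b + c.y₀) (fun l => √(vv lam ex s l)) c.y| ≤ C := by
  obtain ⟨Cc, hCc⟩ := exists_cst_bound hlam hη
  refine ⟨|B + Cc + (B + 1 + |(lam (Fin.last n) - lam 0) / η|)|, abs_nonneg _,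
    fun N k ex c s σ₀ h0 h1 hs hc => le_trans ?_ (le_abs_self _)⟩
  have e1 := hCc k ex s c.a₀ h1 hs
  have e2 := le_oX ex (c.b + c.y₀) (fun l => √(vv lam ex s l)) c.y
  have e3 := oX_le ex (c.b + c.y₀) (fun l => √(vv lam ex s l)) c.y
  have e4 : ∑ l ∈ range (k + 1), √(vv lam ex s l) ^ 2 = ∑ l ∈ range (k + 1), vv lam ex s l :=
    sum_congr rfl fun l hl => sq_sqrt (vv_nonneg hlam ex hs (mem_range.1 hl).le)
  have e5 := sum_vv_le hlam ex hs
  have e6 : ∑ l ∈ range (k + 1), |c.y l| = ∑ l ∈ Icc 1 k, |c.y l| :=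
    ON.sum_range_succ_eq (fun l => |c.y l|) k (by simp [hc.y0])
  rw [h0] at e5
  rw [e4, e6] at e3
  have e7 := le_abs_self ((lam (Fin.last n) - lam 0) / η)
  have e8 := abs_nonneg ((lam (Fin.last n) - lam 0) / η)
  have e9 := abs_add_le c.b c.y₀
  have e10 := abs_nonneg (c.b + c.y₀)
  have e11 : log 2 ≤ 1 := by linarith [log_le_sub_one_of_pos (two_pos : (0 : ℝ) < 2)]
  have e12 := hc.hb
  have e13 := hc.hy
  have e14 := abs_nonneg c.b
  have e15 := abs_le.1 hc.hc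
  have e16 := abs_le.1 e1
  exact abs_le.2 ⟨by linarith, by linarith⟩

lemma bad_set {n N : ℕ} (c : Cav n N) (h' : Haar (N + 1)) {B ε : ℝ} (hε : 0 < ε) (hB : Bal c.sp B)
    (hN : 2 * (B + 2) / ε ≤ N) : ∃ S : Set (O (N + 1)), MeasurableSet S ∧
      h'.κ.real S ≤ 400 * (n + 1) / ε ^ 2 / (N + 1) ∧
      ∀ U ∉ S, ∀ a, |c.vbar U a ^ 2 - 1 / (n + 1)| ≤ ε := by
  refine ⟨⋃ a, {U | ε / 2 ≤ |∑ i ∈ blk c.sp' a, U.1 i 0 ^ 2 - (blk c.sp' a).card / (N + 1)|},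
    MeasurableSet.iUnion fun a => measurableSet_le measurable_const
      ((Finset.measurable_sum _ fun i _ => (measurable_O_entry i 0).pow_const 2).sub_const _).abs,
    ?_, fun U hU a => ?_⟩
  · refine (measureReal_iUnion_fintype_le _).trans ((sum_le_sum fun a _ =>
      haar_col_dev h' (blk c.sp' a) (half_pos hε)).trans_eq ?_)
    simp only [sum_const, card_univ, Fintype.card_fin, nsmul_eq_mul]
    push_cast
    field_simp
    ring
  · simp only [Set.mem_iUnion, not_exists, Set.mem_ofPred_eq, not_le] at hU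
    have h1 : c.vbar U a ^ 2 = ∑ i ∈ blk c.sp' a, U.1 i 0 ^ 2 :=
      Real.sq_sqrt (Finset.sum_nonneg fun _ _ => sq_nonneg _)
    have h2 := abs_lt.1 (hU a)
    have h3 := abs_le.1 (hB a)
    have h4 : ((blk c.sp' a).card : ℝ) = (blk c.sp a).card + if c.sp' 0 = a then 1 else 0 := by
      rw [card_blk_succ]
      push_cast
      rfl
    have hn : (0 : ℝ) < n + 1 := by positivity
    have hN' : (0 : ℝ) < N + 1 := by positivity
    have h5 : (1 : ℝ) / (n + 1) ≤ 1 := by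
      rw [div_le_one hn]; linarith [(Nat.cast_nonneg n : (0 : ℝ) ≤ n)]
    have h6 : (0 : ℝ) ≤ 1 / (n + 1) := by positivity
    have h7 : |((blk c.sp' a).card : ℝ) - (N + 1) / (n + 1)| ≤ B + 2 := by
      rw [h4, add_div]
      split_ifs <;> exact abs_le.2 ⟨by linarith, by linarith⟩
    have h8 : |((blk c.sp' a).card : ℝ) / (N + 1) - 1 / (n + 1)| ≤ ε / 2 := by
      have : ((blk c.sp' a).card : ℝ) / (N + 1) - 1 / (n + 1) =
          (((blk c.sp' a).card : ℝ) - (N + 1) / (n + 1)) / (N + 1) := by field_simp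
      rw [this, abs_div, abs_of_pos hN', div_le_iff₀ hN']
      rw [div_le_iff₀ hε] at hN
      nlinarith
    have h9 := abs_le.1 h8
    rw [h1]
    exact abs_le.2 ⟨by linarith, by linarith⟩

lemma E_fr_le {n N k : ℕ} (ex : Expo (k + 2)) (c : Cav n N) (h' : Haar (N + 1))
    {I : Finset (Fin (N + 1))} {B : ℝ} (hy : |c.y₀| + ∑ l ∈ Icc 1 k, |c.y l| ≤ 1) (h0 : 0 ∈ I)
    (hI : (N : ℝ) / (n + 1) - B ≤ I.card) (hN : 1 + 2 * B * (n + 1) ≤ N)
    (hw : ∀ r ∈ I, ∀ σ, c.w' (σ ∘ Equiv.swap 0 r) = c.w' σ) :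
    (eLev ex h').E0 c.Hx (fun ω => fr c.sp' 0 (cmap pE ω)) ≤ exp 2 * (2 * (n + 1)) := by
  refine (E0_He_le ex h' _ _ _ hy (f := fr c.sp' 0) (Lev.nice_of_bdd (measurable_fr _ _) _ fun ω => by
    rw [abs_of_nonneg (fr_bounds c.sp' 0 ω).1]; exact (fr_bounds c.sp' 0 ω).2)
    fun ω => (fr_bounds c.sp' 0 ω).1).trans (mul_le_mul_of_nonneg_left
      ((E0_fr_le ex h' _ _ _ c.sp' h0 hw).trans ?_) (exp_pos _).le)
  have hn : (0 : ℝ) < n + 1 := by positivity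
  have h1 : (0 : ℝ) < I.card := by exact_mod_cast card_pos.2 ⟨0, h0⟩
  rw [sub_le_iff_le_add, div_le_iff₀ hn] at hI
  rw [div_le_iff₀ h1]
  push_cast
  nlinarith

lemma pin_nonneg {K : ℕ} {Ω : Type} [MeasurableSpace Ω] (L : Lev K Ω) (k : ℕ) (H : Cfg K Ω → ℝ)
    {N n : ℕ} (sp : Fin N → Fin (n + 1)) (y : Fin N → Cfg K Ω → ℝ) (lam : Fin (n + 1) → ℝ)
    (s : ℕ → ℝ) : 0 ≤ Pin L k H sp y lam s :=
  sum_nonneg fun _ _ => add_nonneg (sqrt_nonneg _)
    (sum_nonneg fun e _ => mul_nonneg (L.toExpo.Δ_nonneg e) (sqrt_nonneg _))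

end CM

open CM in
theorem cavity {n : ℕ} (hn : 1 ≤ n) {lam : Fin (n + 1) → ℝ} (hlam : Monotone lam) {η : ℝ} (hη : 0 < η)
    (B : ℝ) {ε : ℝ} (hε : 0 < ε) : ∃ C σ₀ : ℝ, 0 ≤ C ∧ 0 < σ₀ ∧ σ₀ ≤ 1 ∧
    ∀ (N k : ℕ) (ex : Expo (k + 2)) (c : Cav n N) (h : Haar N) (h' : Haar (N + 1)) (s : ℕ → ℝ)
      (I : Finset (Fin (N + 1))) (t : (Fin N → Bool) → ℝ), ex.ζ 0 = η → ex.ζ 1 = η → IsSeq n k s →
      c.Ok k lam B σ₀ → C ≤ N → 0 ∈ I → (N : ℝ) / (n + 1) - B ≤ I.card →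
      (∀ r ∈ I, ∀ σ, c.w' (σ ∘ Equiv.swap 0 r) = c.w' σ) → (∀ e σ, |c.kT e σ| ≤ t σ) →
      |(eLev ex h').X0 c.Hx - (mLev ex h (unif _)).X0 c.Hb - (c.c₀ + cst lam ex k s c.a₀ +
          oX ex (c.b + c.y₀) (fun l => √(vv lam ex s l)) c.y)| ≤
        ε + C * (Pin (mLev ex h (unif _)) k c.Hb c.sp Y lam s + 1 / √N +
          (mLev ex h (unif _)).E0 c.Hb fun ω => t (spn ω)) := by
  -- constants
  obtain ⟨u, hu, hu1, hu2⟩ : ∃ u : ℝ, 0 < u ∧ 4 * u ≤ ε ∧ 4 * u ≤ 1 :=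
    ⟨min ε 1 / 4, by positivity, by linarith [min_le_left ε 1], by linarith [min_le_right ε 1]⟩
  obtain ⟨θ, hθ⟩ : ∃ θ : ℝ, θ = 1 - exp (-(η * u)) := ⟨_, rfl⟩
  have hθ0 : 0 < θ := by
    rw [hθ, sub_pos, exp_lt_one_iff]
    exact neg_neg_of_pos (mul_pos hη hu)
  obtain ⟨Cc, hCc⟩ := exists_cst_bound hlam hη
  obtain ⟨CR, hCR0, hCR⟩ := abs_R_le hlam hη B
  obtain ⟨C0, hC0⟩ := crude_HS lam B
  obtain ⟨L₀, δ₀, hδ₀, htr⟩ := rsb_trunc hlam hη hu
  obtain ⟨L, hL0, hL, hL1⟩ : ∃ L : ℝ, L₀ ≤ L ∧ 0 < L ∧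
      2 * (n + 1) / L ^ 2 * (exp 2 * (2 * (n + 1))) ≤ θ := by
    refine ⟨max L₀ (max 1 (2 * (n + 1) * (exp 2 * (2 * (n + 1))) / θ)), le_max_left _ _,
      lt_max_of_lt_right (lt_max_of_lt_left one_pos), ?_⟩
    have h1 : (1 : ℝ) ≤ max L₀ (max 1 (2 * (n + 1) * (exp 2 * (2 * (n + 1))) / θ)) :=
      le_max_of_le_right (le_max_left _ _)
    have h2 : 2 * (n + 1) * (exp 2 * (2 * (n + 1))) / θ ≤
        max L₀ (max 1 (2 * (n + 1) * (exp 2 * (2 * (n + 1))) / θ)) :=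
      le_max_of_le_right (le_max_right _ _)
    generalize max L₀ (max 1 (2 * (n + 1) * (exp 2 * (2 * (n + 1))) / θ)) = L at h1 h2
    rw [div_le_iff₀ hθ0] at h2
    rw [div_mul_eq_mul_div, div_le_iff₀ (by positivity)]
    nlinarith [mul_le_mul_of_nonneg_left h1 (mul_nonneg hθ0.le (zero_le_one.trans h1))]
  obtain ⟨δ, hδ, hδ0, hδ1⟩ : ∃ δ : ℝ, 0 < δ ∧ δ ≤ δ₀ ∧ δ ^ η * exp (η * (Cc + 1)) ≤ θ := by
    refine ⟨min δ₀ (exp (log θ / η - (Cc + 1))), lt_min hδ₀ (exp_pos _), min_le_left _ _, ?_⟩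
    refine (mul_le_mul_of_nonneg_right (rpow_le_rpow (lt_min hδ₀ (exp_pos _)).le (min_le_right _ _)
      hη.le) (exp_pos _).le).trans_eq ?_
    rw [← exp_mul, ← exp_add]
    conv_rhs => rw [← exp_log hθ0]
    congr 1
    field_simp
    ring
  obtain ⟨χ, hχ⟩ := exists_cut n hL
  obtain ⟨Cs, -, hCs⟩ := smooth_Psi lam hδ hχ
  obtain ⟨C1, σ₀, ε₂, hσ₀, hε₂, hC1, hch⟩ := chain hn lam B hδ hL hχ hu
  obtain ⟨C2, hC2, hdir⟩ := cav_dir n B Cs
  obtain ⟨C3, hC3, hint⟩ := cav_interp Cs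
  obtain ⟨Q, hQ⟩ : ∃ Q : ℝ, Q = 400 * (n + 1) / ε₂ ^ 2 * exp (η * (CR + |C0|)) / θ := ⟨_, rfl⟩
  have hQ0 : 0 ≤ Q := by rw [hQ]; positivity
  obtain ⟨C4, hC4⟩ : ∃ C4 : ℝ, C4 = C1 + C2 + C3 := ⟨_, rfl⟩
  have hC40 : 0 ≤ C4 := by rw [hC4]; positivity
  have p1 : 0 ≤ 2 * (|C0| + CR) * C4 := by positivity
  have p2 : 0 ≤ 2 * (|B| + 2) / ε₂ := by positivity
  have p3 : 0 ≤ 1 + 2 * |B| * (n + 1) := by positivity
  have p4 := abs_nonneg C0
  refine ⟨C4 + 2 * (|C0| + CR) * C4 + |C0| + 2 * (|B| + 2) / ε₂ + (1 + 2 * |B| * (n + 1)) + Q,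
    min σ₀ 1, by positivity, lt_min hσ₀ one_pos, min_le_right _ _,
    fun N k ex c h h' s I t h0 h1 hs hc hN hI0 hI hw ht => ?_⟩
  have hB : |B| = B := abs_of_nonneg ((abs_nonneg _).trans hc.hb)
  have hc1 := ok_mono hc (min_le_left _ _)
  have hc2 := ok_mono hc (min_le_right _ _)
  -- the ingredients
  have kR := hCR N k ex c s _ h0 h1 hs hc
  have kc := abs_le.1 (hCc k ex s c.a₀ h1 hs)
  have kcr := hC0 N k ex c h hc2 (by linarith [le_abs_self C0])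
  have kd := abs_le.1 (hdir N k ex c h _ (hCs c.a₀) hc.bal (by linarith))
  have ki := abs_le.1 (hint n N k lam ex c h _ s hlam (hCs c.a₀) (h0.trans h1.symm) hs)
  have kt := abs_le.1 (htr L δ hL0 hL hδ hδ0 χ hχ k ex s c.a₀ (c.b + c.y₀) c.y h0 h1 hs hc.y0)
  have ka := c.X0_H0_add ex h (f := fun ω => Psi lam c.a₀ δ χ (rS ω) (zR (sdv lam ex s c.a₀) ω))
    (Lev.lin_of_bdd ((hCs c.a₀).measurable measurable_rS (measurable_zR _)) Cs fun ω => by
      obtain ⟨_, _, -, -, -, hb, -⟩ := hCs c.a₀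
      exact hb _ _)
  have kH := c.X0_H0 ex h hc.y0
  have kA := oX_amp ex (c.b + c.y₀) (x := fun l => √(vv lam ex s l)) (fun _ => sqrt_nonneg _) c.y
  have kch := fun (U : O (N + 1)) (hU : ∀ a, |c.vbar U a ^ 2 - 1 / (n + 1)| ≤ ε₂) =>
    hch N k ex c h hc1 (by linarith) t ht (c.vbar U) (c.sum_vbar_sq U)
      (fun a => ⟨sqrt_nonneg _, hU a⟩) _ _ rfl rfl
  have kF := E_fr_le ex c h' hc.hy hI0 hI (by rw [hB] at hN p2 p3; linarith) hw
  obtain ⟨S, hS, hp, hg⟩ := bad_set c h' hε₂ hc.bal (by rw [hB] at hN p2 p3; linarith)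
  obtain ⟨Φ, Φf, i1, i2, e1, e2, e3⟩ := c.transfer ex h h'
  have hPin := pin_nonneg (mLev ex h (unif _)) k c.Hb c.sp Y lam s
  have hEt : 0 ≤ (mLev ex h (unif _)).E0 c.Hb fun ω => t (spn ω) :=
    Lev.E_nonneg (fun ω => (abs_nonneg _).trans (ht true _)) _ _
  have hsq : 0 ≤ 1 / √N := by positivity
  have hp1 : h'.κ.real S * exp (η * (CR + |C0|)) ≤ θ := by
    refine (mul_le_mul_of_nonneg_right hp (exp_pos _).le).trans ?_
    have h2 : Q ≤ N + 1 := by linarith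
    rw [hQ, div_le_iff₀ hθ0] at h2
    rw [div_mul_eq_mul_div, div_le_iff₀ (by positivity)]
    linarith
  have hp2 : h'.κ.real S ≤ θ :=
    (le_mul_of_one_le_right measureReal_nonneg (one_le_exp (by positivity))).trans hp1
  rw [h0] at kch e1 e2 e3
  rw [div_eq_mul_one_div C2] at kd
  generalize (eLev ex h').X0 c.Hx = X at *
  generalize (mLev ex h (unif _)).X0 c.Hb = Xb at *
  generalize Pin (mLev ex h (unif _)) k c.Hb c.sp Y lam s = P1 at *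
  generalize 1 / √N = P2 at *
  generalize (mLev ex h (unif _)).E0 c.Hb (fun ω => t (spn ω)) = P3 at *
  generalize oX ex (c.b + c.y₀) (fun l => √(vv lam ex s l)) c.y = T at *
  generalize cst lam ex k s c.a₀ = T' at *
  generalize (cLev ex h n).X0 (fun ω => c.H0 ω + Psi lam c.a₀ δ χ (rS (cmap pR ω)) (c.zc ω)) = Xt at *
  have hP : 0 ≤ P1 + P2 + P3 := by positivity
  have hcr : |X - Xb| ≤ C0 := int_crude i1 hη e1 fun U => ⟨_, (e3 U).1, kcr _⟩
  have herr : C1 * P3 + C2 * P2 + C3 * P1 ≤ C4 * (P1 + P2 + P3) := by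
    rw [hC4]
    nlinarith [mul_nonneg hC1 hPin, mul_nonneg hC1 hsq, mul_nonneg hC2 hPin, mul_nonneg hC2 hEt,
      mul_nonneg hC3 hsq, mul_nonneg hC3 hEt]
  have hrest : 0 ≤ (|C0| + 2 * (|B| + 2) / ε₂ + (1 + 2 * |B| * (n + 1)) + Q) * (P1 + P2 + P3) := by
    positivity
  have hrest' := mul_nonneg p1 hP
  have hCP := mul_nonneg hC40 hP
  have kR' := abs_le.1 kR
  rcases le_total (C4 * (P1 + P2 + P3)) (1 / 2) with hsm | hsm
  · have l1 : Xb + (c.c₀ + T' + T) - (2 * u + C4 * (P1 + P2 + P3)) - 2 * u ≤ X := by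
      refine lower i1 hS hη e1 (fun U => by rw [(e3 U).1]; exact (exp_pos _).le) (d := δ ^ η)
        (Cc := Cc + 1) (fun U hU => ?_) (hθ ▸ hδ1) (hθ ▸ hp2)
      rw [(e3 U).1]
      refine le_trans (exp_le_exp.2 (mul_le_mul_of_nonneg_left (by linarith) hη.le))
        ((kch U (hg U hU)).1.trans (add_le_add_right (mul_le_mul_of_nonneg_left
          (exp_le_exp.2 (mul_le_mul_of_nonneg_left (by linarith) hη.le)) (rpow_nonneg hδ.le _)) _))
    have l2 : X ≤ Xb + (c.c₀ + T' + T) + (2 * u + C4 * (P1 + P2 + P3)) + 2 * u := by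
      refine upper i1 i2 hS hη (c := 2 * (n + 1) / L ^ 2) (C := CR + |C0|) (by positivity) e1 e2
        (fun U => by
          rw [(e3 U).2]
          exact mul_nonneg (exp_pos _).le (Lev.E_nonneg (fun ω => (fr_bounds _ _ _).1) _ _))
        (fun U hU => ?_) (fun U => ?_)
        (hθ ▸ (mul_le_mul_of_nonneg_left kF (by positivity)).trans hL1) (hθ ▸ hp1)
      · have h2 := (kch U (hg U hU)).2.trans
          (exp_le_exp.2 (mul_le_mul_of_nonneg_left (b := Xt + c.c₀ + (u + C1 * P3))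
            (c := Xb + (c.c₀ + T' + T) + (2 * u + C4 * (P1 + P2 + P3))) (by linarith) hη.le))
        rw [(e3 U).1, (e3 U).2]
        linarith
      · rw [(e3 U).1]
        exact exp_le_exp.2 (mul_le_mul_of_nonneg_left
          (by linarith [(abs_le.1 (kcr (c.vbar U))).2, le_abs_self C0]) hη.le)
    exact abs_le.2 ⟨by linarith, by linarith⟩
  · have h2 := abs_le.1 hcr
    have h3 := mul_le_mul_of_nonneg_left hsm (add_nonneg p4 hCR0)
    have h4 := le_abs_self C0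
    exact abs_le.2 ⟨by linarith, by linarith⟩

end Crest.Agent.R164
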