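import Crest.Agent.R164.CavBasic

/-! # Row 164: conditioning the big system on the block norms of the first column -/

set_option autoImplicit false

namespace Crest.Agent.R164

open MeasureTheory ProbabilityTheory Real Finset Crest.ProbabilityR.InvariantGlass

namespace CT

variable {n N k : ℕ}

/-- Rotation of the matrix at level `0` (the other variables of that level are forgotten) and of
the Gaussian fields at the other levels. -/
noncomputable def psi (D : O N) : ℕ → Oe N → Oe N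
  | 0, z => (((D * z.1.1.1, fun _ => true), true), 0)
  | _ + 1, z => (z.1, D.1.mulVec z.2)

/-- A configuration with prescribed matrix. -/
def cfg (k : ℕ) (U : O N) : Cfg (k + 2) (Oe N) := fun _ => (((U, fun _ => true), true), 0)

lemma measurable_cfg : Measurable (cfg k : O N → Cfg (k + 2) (Oe N)) :=
  measurable_pi_iff.2 fun _ =>
    ((measurable_id.prodMk measurable_const).prodMk measurable_const).prodMk measurable_const

lemma mp_psi (ex : Expo (k + 2)) (h : Haar N) (D : O N) (e : ℕ) (he : 1 ≤ e) :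
    MeasurePreserving (psi D e) ((eLev ex h).μ e) ((eLev ex h).μ e) := by
  obtain ⟨e, rfl⟩ : ∃ e', e = e' + 1 := ⟨e - 1, by omega⟩
  exact (MeasurePreserving.id _).prod (gam_mulVec D.2)

lemma Y_psi (D : O N) (ω : Cfg (k + 2) (Oe N)) (i : Fin N) :
    Y i (cmap pE (cmap (psi D) ω)) = D.1.mulVec (fun j => Y j (cmap pE ω)) i :=
  congrFun (yv_mul D (ω 0).1.1.1 (spn (cmap pE ω))) i

lemma gl_psi (D : O N) (ω : Cfg (k + 2) (Oe N)) {l : ℕ} (hl : l ∈ Icc 1 k) (i : Fin N) :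
    gl l i (cmap pE (cmap (psi D) ω)) = D.1.mulVec (fun j => gl l j (cmap pE ω)) i := by
  rw [mem_Icc] at hl
  obtain ⟨l, rfl⟩ : ∃ l', l = l' + 1 := ⟨l - 1, by omega⟩
  have h : l + 1 < k + 2 := by omega
  simp only [gl, atl, dif_pos h]
  rfl

lemma atl_psi (D : O N) (ω : Cfg (k + 2) (Oe N)) {l : ℕ} (hl : l ∈ Icc 1 k) :
    (atl (cmap (psi D) ω) l fun z => sg z.1.2) = atl ω l fun z => sg z.1.2 := by
  rw [mem_Icc] at hl
  obtain ⟨l, rfl⟩ : ∃ l', l = l' + 1 := ⟨l - 1, by omega⟩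
  have h : l + 1 < k + 2 := by omega
  simp only [atl, dif_pos h]
  rfl

lemma Hx_psi (c : Cav n N) {D : O (N + 1)} (hD : IsBlk c.sp' D) (ω : Cfg (k + 2) (Oe (N + 1))) :
    c.Hx (cmap (psi D) ω) = c.Hx ω := by
  have h1 : ∑ i, c.lam' (c.sp' i) * Y i (cmap pE (cmap (psi D) ω)) ^ 2 / 2 =
      ∑ i, c.lam' (c.sp' i) * Y i (cmap pE ω) ^ 2 / 2 := by
    have := hD.sum_mul' (fun a => c.lam' a / 2) (fun j => Y j (cmap pE ω)) fun j => Y j (cmap pE ω)
    simp only [Y_psi]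
    convert this using 2 <;> ring
  have h2 : ∑ l ∈ Icc 1 k, ∑ i, c.x l (c.sp' i) * gl l i (cmap pE (cmap (psi D) ω)) *
      Y i (cmap pE (cmap (psi D) ω)) =
      ∑ l ∈ Icc 1 k, ∑ i, c.x l (c.sp' i) * gl l i (cmap pE ω) * Y i (cmap pE ω) :=
    sum_congr rfl fun l hl => by
      simp only [Y_psi, gl_psi D ω hl]
      exact hD.sum_mul' (c.x l) _ _
  have h3 : ∑ l ∈ Icc 1 k, c.y l * (atl (cmap (psi D) ω) l fun z => sg z.1.2) =
      ∑ l ∈ Icc 1 k, c.y l * atl ω l fun z => sg z.1.2 :=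
    sum_congr rfl fun l hl => by rw [atl_psi D ω hl]
  unfold Cav.Hx He Hm
  rw [h1, h2, h3]
  rfl

lemma fr_psi {A : Type} [Fintype A] [DecidableEq A] {sp : Fin N → A} {D : O N} (hD : IsBlk sp D)
    (r : Fin N) (ω : Cfg (k + 2) (Oe N)) :
    fr sp r (cmap pE (cmap (psi D) ω)) = fr sp r (cmap pE ω) := by
  unfold fr
  refine sum_congr rfl fun a _ => congrArg (· ^ 2) ?_
  simp only [Y_psi]
  exact hD.sum_mul a (fun i => (ω 0).1.1.1.1 i r) _

lemma agree (D : O N) (ω : Cfg (k + 2) (Oe N)) (i : Fin (k + 2)) (hi : i.val < 1) :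
    cmap (psi D) ω i = cfg k (D * (ω 0).1.1.1) i := by
  obtain rfl : i = 0 := Fin.ext (by simpa using hi)
  rfl

lemma isBlk_one {A : Type} (sp : Fin N → A) : IsBlk sp (1 : O N) := fun _ _ h =>
  Matrix.one_apply_ne fun e => h (congrArg sp e)

lemma mp_top {Z G : Type} [MeasurableSpace Z] [MeasurableSpace G] (h : Haar N)
    (ν : Measure (Fin N → Bool)) [IsProbabilityMeasure ν] (α : Measure Z) [IsProbabilityMeasure α]
    (γ : Measure G) [IsProbabilityMeasure γ] :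
    MeasurePreserving (fun z : (Zm N × Z) × G => z.1.1.1) ((((h.lev 0).prod ν).prod α).prod γ)
      h.κ := by
  have : h.lev 0 = h.κ := if_pos rfl
  rw [this]
  exact (measurePreserving_fst.comp measurePreserving_fst).comp measurePreserving_fst

lemma exists_blk (c : Cav n N) (U : O (N + 1)) :
    ∃ (D : O (N + 1)) (W : O N), IsBlk c.sp' D ∧ D * U = c.AO (c.vbar U) * extO W := by
  obtain ⟨D, hD, e⟩ := exists_blk_rot c.sp' c.idx' c.sp'_idx' fun i => U.1 i 0
  have h1 : ∀ (g : Fin (n + 1) → ℝ) i, (∑ a, if i = c.idx' a then g a else 0) =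
      if i = c.idx' (c.sp' i) then g (c.sp' i) else 0 := fun g i =>
    sum_eq_single _ (fun a _ ha => if_neg fun e => ha (by rw [e, c.sp'_idx'])) (by simp)
  have h2 : ∑ i, (Pi.single 0 1 : Fin (N + 1) → ℝ) i ^ 2 =
      ∑ i, (fun i => ∑ a, if i = c.idx' a then c.vbar U a else 0) i ^ 2 := by
    have h3 : ∀ i, (∑ a, if i = c.idx' a then c.vbar U a else 0) ^ 2 =
        ∑ a, if i = c.idx' a then c.vbar U a ^ 2 else 0 := fun i => by
      rw [h1, h1 fun a => c.vbar U a ^ 2]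
      split_ifs <;> simp
    simp only [h3]
    rw [sum_comm]
    simp [Pi.single_apply, c.sum_vbar_sq U]
  obtain ⟨W, hW⟩ := exists_extO (c.AO (c.vbar U)) (D * U) fun i => by
    have h3 := congrFun (hh_swap h2) i
    rw [Matrix.mulVec_single_one] at h3
    exact (h3.trans (h1 _ i)).trans (e i).symm
  exact ⟨D, W, hD, hW⟩

lemma avg (c : Cav n N) (h : Haar N) (h' : Haar (N + 1)) {G : O (N + 1) → ℝ} (hG : Measurable G)
    {C : ℝ} (hC : ∀ U, |G U| ≤ C) (hinv : ∀ D, IsBlk c.sp' D → ∀ U, G (D * U) = G U) :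
    ∃ Φ : O (N + 1) → ℝ, Integrable Φ h'.κ ∧ ∫ U, Φ U ∂h'.κ = ∫ U, G U ∂h'.κ ∧
      ∀ U, Φ U = ∫ W, G (c.AO (c.vbar U) * extO W) ∂h.κ := by
  obtain ⟨h1, h2⟩ := integral_haar_succ h' h hG hC
  refine ⟨_, Integrable.of_bound h1.aestronglyMeasurable C (ae_of_all _ fun U => ?_), h2.symm,
    fun U => ?_⟩
  · simpa using norm_integral_le_of_norm_le_const (μ := h.κ) (f := fun W => G (U * extO W))
      (C := C) (ae_of_all _ fun W => hC _)
  · obtain ⟨D, W₀, hD, e⟩ := exists_blk c U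
    rw [← NI.integral_mp (h.left W₀) (g := fun W => G (c.AO (c.vbar U) * extO W))
      (hG.comp ((measurable_O_mul_left _).comp measurable_extO))]
    refine integral_congr_ae (ae_of_all _ fun W => ?_)
    simp only [extO_mul, ← mul_assoc, ← e]
    rw [mul_assoc, hinv D hD]

end CT

open CT in
theorem Cav.transfer {n N k : ℕ} (ex : Expo (k + 2)) (c : Cav n N) (h : Haar N) (h' : Haar (N + 1)) :
    ∃ Φ Φf : O (N + 1) → ℝ, Integrable Φ h'.κ ∧ Integrable Φf h'.κ ∧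
      ∫ U, Φ U ∂h'.κ = exp (ex.ζ 0 * (eLev ex h').X0 c.Hx) ∧
      ∫ U, Φf U ∂h'.κ = exp (ex.ζ 0 * (eLev ex h').X0 c.Hx) *
        (eLev ex h').E0 c.Hx (fun ω => fr c.sp' 0 (cmap pE ω)) ∧
      ∀ U, Φ U = exp (ex.ζ 0 * (cLev ex h n).X0 (c.HS (c.vbar U))) ∧
        Φf U = exp (ex.ζ 0 * (cLev ex h n).X0 (c.HS (c.vbar U))) *
          (cLev ex h n).E0 (c.HS (c.vbar U)) (c.fS (c.vbar U)) := by
  have hH := c.lin_Hx ex h'
  have hf : Measurable fun ω : Cfg (k + 2) (Oe (N + 1)) => fr c.sp' 0 (cmap pE ω) :=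
    (measurable_fr c.sp' 0).comp (measurable_cmap fun e => (mp_pE ex h' e).measurable)
  obtain ⟨A, hA⟩ : ∃ A : O (N + 1) → ℝ, A = fun U => (eLev ex h').X 1 c.Hx (cfg k U) := ⟨_, rfl⟩
  obtain ⟨B, hB⟩ : ∃ B : O (N + 1) → ℝ, B = fun U =>
      (eLev ex h').E 1 c.Hx (fun ω => fr c.sp' 0 (cmap pE ω)) (cfg k U) := ⟨_, rfl⟩
  have kA : ∀ D, IsBlk c.sp' D → ∀ ω, (eLev ex h').X 1 c.Hx ω = A (D * (ω 0).1.1.1) :=
    fun D hD ω => by
      have h1 := Lev.X_cmap (L := eLev ex h') (L' := eLev ex h') rfl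
        (fun e he _ => mp_psi ex h' D e he) hH.1 ω
      simp only [Hx_psi c hD] at h1
      rw [hA]
      exact h1.trans (Lev.dep_X 1 _ _ _ (agree D ω))
  have kB : ∀ D, IsBlk c.sp' D → ∀ ω, (eLev ex h').E 1 c.Hx (fun ω => fr c.sp' 0 (cmap pE ω)) ω =
      B (D * (ω 0).1.1.1) := fun D hD ω => by
    have h1 := Lev.E_cmap (L := eLev ex h') (L' := eLev ex h') rfl
      (fun e he _ => mp_psi ex h' D e he) hH.1 hf ω
    simp only [Hx_psi c hD, fr_psi hD] at h1
    rw [hB]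
    exact h1.trans (Lev.dep_E 1 _ _ _ _ (agree D ω))
  have kA1 : ∀ ω, (eLev ex h').X 1 c.Hx ω = A (ω 0).1.1.1 := fun ω => by
    rw [kA 1 (isBlk_one _), one_mul]
  have kB1 : ∀ ω, (eLev ex h').E 1 c.Hx (fun ω => fr c.sp' 0 (cmap pE ω)) ω = B (ω 0).1.1.1 :=
    fun ω => by rw [kB 1 (isBlk_one _), one_mul]
  have iA : ∀ D, IsBlk c.sp' D → ∀ U, A (D * U) = A U := fun D hD U =>
    (kA D hD (cfg k U)).symm.trans (kA1 (cfg k U))
  have iB : ∀ D, IsBlk c.sp' D → ∀ U, B (D * U) = B U := fun D hD U =>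
    (kB D hD (cfg k U)).symm.trans (kB1 (cfg k U))
  have mA : Measurable fun U => exp (ex.ζ 0 * A U) := by
    rw [hA]
    exact measurable_exp.comp (((Lev.measurable_X hH.1 1).comp measurable_cfg).const_mul _)
  have mB : Measurable B := by
    rw [hB]
    exact (Lev.measurable_E hH.1 hf 1).comp measurable_cfg
  have mAB : Measurable fun U => exp (ex.ζ 0 * A U) * B U := mA.mul mB
  obtain ⟨C, hC⟩ := (hH.X 1).2
  have bA : ∀ U, |exp (ex.ζ 0 * A U)| ≤ exp (ex.ζ 0 * C) := fun U => by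
    have h1 := hC (cfg k U)
    have h2 : (eLev ex h').size (cfg k U) = 0 :=
      sum_eq_zero fun i _ => by
        change ∑ _j : Fin (N + 1), |(0 : ℝ)| = 0
        simp
    rw [h2, add_zero, mul_one] at h1
    rw [abs_of_pos (exp_pos _), hA]
    exact exp_le_exp.2 (mul_le_mul_of_nonneg_left ((le_abs_self _).trans h1) (ex.pos 0).le)
  have bB : ∀ U, |B U| ≤ ((N + 1 : ℕ) : ℝ) := fun U => by
    rw [hB]
    exact Lev.abs_E_le_const hH hf (fun ω => by
      rw [abs_of_nonneg (fr_bounds c.sp' 0 _).1]; exact (fr_bounds c.sp' 0 _).2) 1 _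
  obtain ⟨Φ, i1, e1, p1⟩ := avg c h h' mA bA fun D hD U => by rw [iA D hD]
  obtain ⟨Φf, i2, e2, p2⟩ := avg c h h' mAB (C := exp (ex.ζ 0 * C) * ((N + 1 : ℕ) : ℝ))
    (fun U => by
      rw [abs_mul]
      exact mul_le_mul (bA U) (bB U) (abs_nonneg _) (exp_pos _).le)
    fun D hD U => by rw [iA D hD, iB D hD]
  have cA : ∀ (D : O (N + 1)) ω, (cLev ex h n).X 1 (fun ω => c.Hx (cmap (pS D) ω)) ω =
      A (D * extO (ω 0).1.1.1) := fun D ω =>
    (Lev.X_cmap (L := cLev ex h n) (L' := eLev ex h') rfl (fun e he _ => mp_pS ex h h' D he) hH.1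
      ω).trans (kA1 _)
  have cB : ∀ (D : O (N + 1)) ω, (cLev ex h n).E 1 (fun ω => c.Hx (cmap (pS D) ω))
      (fun ω => fr c.sp' 0 (cmap pE (cmap (pS D) ω))) ω = B (D * extO (ω 0).1.1.1) := fun D ω =>
    (Lev.E_cmap (L := cLev ex h n) (L' := eLev ex h') rfl (fun e he _ => mp_pS ex h h' D he) hH.1
      hf ω).trans (kB1 _)
  have mE : ∀ D : O (N + 1), Measurable fun W : O N => D * extO W := fun D =>
    (measurable_O_mul_left _).comp measurable_extO
  refine ⟨Φ, Φf, i1, i2, e1.trans ?_, e2.trans ?_, fun U => ⟨(p1 U).trans ?_, (p2 U).trans ?_⟩⟩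
  · refine ((Lev.exp_X0 (by omega) hH.int (eLev ex h').pt).trans ?_).symm
    simp only [kA1]
    exact NI.integral_mp (mp_top h' _ _ _) mA
  · refine ((Lev.exp_X0_mul_E0 (L := eLev ex h') (by omega) _ _ (eLev ex h').pt).trans ?_).symm
    simp only [kA1, kB1]
    exact NI.integral_mp (mp_top h' _ _ _) mAB
  · refine ((Lev.exp_X0 (by omega) (c.lin_HS ex h _).int (cLev ex h n).pt).trans ?_).symm
    refine Eq.trans (integral_congr_ae (ae_of_all _ fun z => ?_))
      (NI.integral_mp (mp_top h _ _ _) (mA.comp (mE _)))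
    exact congrArg (fun t => exp (ex.ζ 0 * t)) (cA _ _)
  · refine ((Lev.exp_X0_mul_E0 (L := cLev ex h n) (by omega) _ _ (cLev ex h n).pt).trans ?_).symm
    refine Eq.trans (integral_congr_ae (ae_of_all _ fun z => ?_))
      (NI.integral_mp (mp_top h _ _ _) (mAB.comp (mE _)))
    exact congrArg₂ (fun t s => exp (ex.ζ 0 * t) * s) (cA _ _) (cB _ _)

end Crest.Agent.R164
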