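import Crest.Agent.R164.ConcA

/-! # Row 164: the smallest singular value of a rectangular Gaussian matrix -/

set_option autoImplicit false

namespace Crest.Agent.R164

open MeasureTheory ProbabilityTheory Real Finset

namespace Sm

section net
variable {E F : Type} [NormedAddCommGroup E] [NormedSpace ℝ E] [FiniteDimensional ℝ E]
  [NormedAddCommGroup F] [NormedSpace ℝ F]

lemma card_le_of_sep {δ : ℝ} (hδ : 0 < δ) (s : Finset E) (hs : ∀ c ∈ s, ‖c‖ = 1)
    (h : ∀ c ∈ s, ∀ d ∈ s, c ≠ d → δ ≤ ‖c - d‖) :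
    (s.card : ℝ) ≤ (1 + 2 / δ) ^ Module.finrank ℝ E := by
  borelize E
  let μ : Measure E := Measure.addHaar
  have h2 : 0 < δ / 2 := by positivity
  have h3 : 0 < 1 + δ / 2 := by positivity
  have D : Set.Pairwise (s : Set E) (Function.onFun Disjoint fun c => Metric.ball c (δ / 2)) := by
    rintro c hc d hd hcd
    apply Metric.ball_disjoint_ball
    rw [dist_eq_norm, add_halves]
    exact h c hc d hd hcd
  have hsub : (⋃ c ∈ s, Metric.ball c (δ / 2)) ⊆ Metric.ball (0 : E) (1 + δ / 2) := by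
    refine Set.iUnion₂_subset fun x hx => Metric.ball_subset_ball' ?_
    rw [dist_zero_right, hs x hx, add_comm]
  have I := measure_mono (μ := μ) hsub
  rw [measure_biUnion_finset D fun c _ => measurableSet_ball] at I
  simp only [μ.addHaar_ball_of_pos _ h2, μ.addHaar_ball_of_pos _ h3, Finset.sum_const,
    nsmul_eq_mul, ← mul_assoc] at I
  have J := (ENNReal.mul_le_mul_iff_left (Metric.measure_ball_pos μ _ zero_lt_one).ne'
    measure_ball_lt_top.ne).1 I
  have K := ENNReal.toReal_le_of_le_ofReal (pow_nonneg h3.le _) J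
  rw [ENNReal.toReal_mul, ENNReal.toReal_natCast, ENNReal.toReal_ofReal (pow_nonneg h2.le _),
    ← le_div_iff₀ (pow_pos h2 _), ← div_pow] at K
  refine K.trans_eq ?_
  congr 1
  field_simp
  ring

lemma exists_net (E : Type) [NormedAddCommGroup E] [NormedSpace ℝ E] [FiniteDimensional ℝ E]
    {δ : ℝ} (hδ : 0 < δ) : ∃ s : Finset E, (s.card : ℝ) ≤ (1 + 2 / δ) ^ Module.finrank ℝ E ∧
      (∀ c ∈ s, ‖c‖ = 1) ∧ ∀ x, ‖x‖ = 1 → ∃ c ∈ s, ‖x - c‖ ≤ δ := by
  classical
  let S : Set ℕ := {k | ∃ s : Finset E, s.card = k ∧ (∀ c ∈ s, ‖c‖ = 1) ∧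
    ∀ c ∈ s, ∀ d ∈ s, c ≠ d → δ ≤ ‖c - d‖}
  have hne : S.Nonempty := ⟨0, ∅, by simp⟩
  have hbd : BddAbove S := ⟨⌊(1 + 2 / δ) ^ Module.finrank ℝ E⌋₊, by
    rintro _ ⟨s, rfl, h1, h2⟩
    exact Nat.le_floor (card_le_of_sep hδ s h1 h2)⟩
  obtain ⟨s, hs, h1, h2⟩ := Nat.sSup_mem hne hbd
  refine ⟨s, card_le_of_sep hδ s h1 h2, h1, fun x hx => ?_⟩
  by_contra hc
  push Not at hc
  have hxs : x ∉ s := fun h => by have := hc x h; simp at this; linarith
  have : (insert x s).card ∈ S := by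
    refine ⟨_, rfl, ?_, ?_⟩
    · intro c hc'
      rcases Finset.mem_insert.1 hc' with rfl | h
      exacts [hx, h1 c h]
    · intro c hc' d hd hcd
      rcases Finset.mem_insert.1 hc' with rfl | h <;> rcases Finset.mem_insert.1 hd with rfl | h'
      · exact absurd rfl hcd
      · exact (hc d h').le
      · rw [norm_sub_rev]; exact (hc c h).le
      · exact h2 c h d h' hcd
  have := le_csSup hbd this
  rw [Finset.card_insert_of_notMem hxs, hs] at this
  omega

lemma lower_of_nets (T : E →ₗ[ℝ] F) {s₁ s₂ : Finset E} {δ a M : ℝ} (hM : 0 ≤ M)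
    (h1 : ∀ x, ‖x‖ = 1 → ∃ c ∈ s₁, ‖x - c‖ ≤ δ) (h2 : ∀ x, ‖x‖ = 1 → ∃ c ∈ s₂, ‖x - c‖ ≤ 1 / 2)
    (lo : ∀ c ∈ s₁, a ≤ ‖T c‖) (hi : ∀ c ∈ s₂, ‖T c‖ ≤ M) (x : E) :
    (a - 2 * M * δ) * ‖x‖ ≤ ‖T x‖ := by
  let A := LinearMap.toContinuousLinearMap T
  have hA : ∀ x, ‖T x‖ ≤ ‖A‖ * ‖x‖ := A.le_opNorm
  have h3 : ‖A‖ ≤ M + ‖A‖ / 2 := A.opNorm_le_of_unit_norm (by positivity) fun y hy => by
    obtain ⟨c, hc, hyc⟩ := h2 y hy
    have e : A y = T c + T (y - c) := by rw [map_sub, add_sub_cancel]; rfl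
    rw [e]
    refine (norm_add_le _ _).trans (add_le_add (hi c hc) ((hA _).trans ?_))
    nlinarith [norm_nonneg A]
  have h4 : ∀ y, ‖y‖ = 1 → a - 2 * M * δ ≤ ‖T y‖ := fun y hy => by
    obtain ⟨c, hc, hyc⟩ := h1 y hy
    have e : T c = T y - T (y - c) := by rw [map_sub, sub_sub_cancel]
    have h5 := lo c hc
    rw [e] at h5
    have h6 : ‖A‖ * ‖y - c‖ ≤ 2 * M * δ :=
      mul_le_mul (by linarith) hyc (norm_nonneg _) (by positivity)
    linarith [norm_sub_le (T y) (T (y - c)), hA (y - c)]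
  rcases eq_or_ne x 0 with rfl | hx
  · simp
  · have h0 : 0 < ‖x‖ := norm_pos_iff.2 hx
    have h5 := h4 (‖x‖⁻¹ • x) (by rw [norm_smul, norm_inv, norm_norm, inv_mul_cancel₀ h0.ne'])
    rwa [map_smul, norm_smul, norm_inv, norm_norm, inv_mul_eq_div, le_div_iff₀ h0] at h5

end net

lemma exp_sq_pdf (t x : ℝ) : exp (t * x ^ 2) * gaussianPDFReal 0 1 x =
    (√(2 * π))⁻¹ * exp (-(1 / 2 - t) * x ^ 2) := by
  simp only [gaussianPDFReal, NNReal.coe_one, mul_one, sub_zero]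
  rw [mul_left_comm, ← exp_add]
  congr 2
  ring

lemma integrable_exp_sq {t : ℝ} (ht : t < 1 / 2) :
    Integrable (fun x : ℝ => exp (t * x ^ 2)) (gaussianReal 0 1) := by
  rw [GA.integrable_gauss_iff]
  simp only [exp_sq_pdf]
  exact (integrable_exp_neg_mul_sq (by linarith)).const_mul _

lemma integral_exp_sq_le {t b : ℝ} (ht : t < 1 / 2) (hb : 0 ≤ b) (h : 1 ≤ b ^ 2 * (1 - 2 * t)) :
    ∫ x, exp (t * x ^ 2) ∂gaussianReal 0 1 ≤ b := by
  rw [integral_gaussianReal_eq_integral_smul one_ne_zero]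
  simp only [smul_eq_mul, mul_comm (gaussianPDFReal _ _ _), exp_sq_pdf]
  rw [integral_const_mul, integral_gaussian, inv_mul_le_iff₀ (by positivity),
    ← Real.sqrt_sq hb, ← Real.sqrt_mul (by positivity)]
  refine Real.sqrt_le_sqrt ?_
  rw [div_le_iff₀ (by linarith)]
  nlinarith [pi_pos]

lemma chi_mgf {ι : Type} [Fintype ι] {t b : ℝ} (ht : t < 1 / 2) (hb : 0 ≤ b)
    (h : 1 ≤ b ^ 2 * (1 - 2 * t)) :
    Integrable (fun g : ι → ℝ => exp (t * ∑ i, g i ^ 2)) (gam ι) ∧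
      mgf (fun g : ι → ℝ => ∑ i, g i ^ 2) (gam ι) t ≤ b ^ Fintype.card ι := by
  simp only [mgf, Finset.mul_sum, exp_sum, gam]
  refine ⟨Integrable.fintype_prod (f := fun _ x => exp (t * x ^ 2)) fun _ => integrable_exp_sq ht,
    ?_⟩
  rw [integral_fintype_prod_eq_pow fun x : ℝ => exp (t * x ^ 2)]
  exact pow_le_pow_left₀ (integral_nonneg fun _ => (exp_pos _).le) (integral_exp_sq_le ht hb h) _

lemma chi_hi (N : ℕ) : (gam (Fin N)).real {g | 400 * (N : ℝ) ≤ ∑ i, g i ^ 2} ≤ (1 / 20) ^ N := by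
  obtain ⟨h1, h2⟩ := chi_mgf (ι := Fin N) (t := 1 / 4) (b := 2) (by norm_num) (by norm_num)
    (by norm_num)
  refine (measure_ge_le_exp_mul_mgf _ (by norm_num) h1).trans
    ((mul_le_mul_of_nonneg_left h2 (exp_pos _).le).trans ?_)
  rw [Fintype.card_fin, show -(1 / 4 : ℝ) * (400 * N) = N * (-100) by ring, exp_nat_mul, ← mul_pow]
  refine pow_le_pow_left₀ (by positivity) ?_ _
  rw [exp_neg, inv_mul_le_iff₀ (exp_pos _)]
  linarith [add_one_le_exp (100 : ℝ)]

lemma chi_lo (N : ℕ) {s : ℝ} (hs : 0 < s) :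
    (gam (Fin N)).real {g | ∑ i, g i ^ 2 ≤ s ^ 2 * N} ≤ exp N * s ^ N := by
  have ht : -(s ^ 2)⁻¹ < 0 := neg_neg_of_pos (by positivity)
  obtain ⟨h1, h2⟩ := chi_mgf (ι := Fin N) (t := -(s ^ 2)⁻¹) (b := s) (by linarith) hs.le
    (by field_simp; nlinarith [sq_nonneg s])
  refine (measure_le_le_exp_mul_mgf _ ht.le h1).trans
    ((mul_le_mul_of_nonneg_left h2 (exp_pos _).le).trans_eq ?_)
  rw [Fintype.card_fin]
  congr 2
  field_simp

/-- the linear map given by the rows in `I` -/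
noncomputable def rows {N : ℕ} (I : Finset (Fin N)) (G : Fin N × Fin N → ℝ) :
    EuclideanSpace ℝ I →ₗ[ℝ] EuclideanSpace ℝ (Fin N) where
  toFun α := WithLp.toLp 2 fun r => ∑ i : I, α i * G (i, r)
  map_add' α β := by ext r; simp [add_mul, Finset.sum_add_distrib]
  map_smul' c α := by ext r; simp [Finset.mul_sum, mul_assoc]

lemma rows_sq {N : ℕ} (I : Finset (Fin N)) (G : Fin N × Fin N → ℝ) (α : EuclideanSpace ℝ I) :
    ‖rows I G α‖ ^ 2 = ∑ r, (∑ i : I, α i * G (i, r)) ^ 2 := EuclideanSpace.real_norm_sq_eq _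

lemma rows_mp {N : ℕ} (I : Finset (Fin N)) {α : EuclideanSpace ℝ I} (hα : ‖α‖ = 1) :
    MeasurePreserving (fun (G : Fin N × Fin N → ℝ) r => ∑ i : I, α i * G (i, r))
      (gam (Fin N × Fin N)) (gam (Fin N)) := by
  have h0 : ∑ i, α i * α i = 1 := by
    have := EuclideanSpace.real_norm_sq_eq α
    rw [hα, one_pow] at this
    simp only [← _root_.sq, this]
  have h1 := GA.mp_of_gram (fun (r : Fin N) (p : I × Fin N) => if p.2 = r then α p.1 else 0)
    fun a b => by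
      simp only [Fintype.sum_prod_type, ite_mul, zero_mul, Finset.sum_ite_eq', Finset.mem_univ,
        if_true]
      split_ifs
      · exact h0
      · simp
  have h2 := GA.gam_comp (j := Prod.map ((↑) : I → Fin N) (id : Fin N → Fin N))
    (Subtype.val_injective.prodMap Function.injective_id)
  convert h1.comp h2 using 1
  funext G r
  simp [Fintype.sum_prod_type]

lemma union_bound {N : ℕ} (I : Finset (Fin N)) (s : Finset (EuclideanSpace ℝ I))
    (hs : ∀ c ∈ s, ‖c‖ = 1) {A : Set (Fin N → ℝ)} (hA : MeasurableSet A) :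
    MeasurableSet (⋃ c ∈ s, (fun (G : Fin N × Fin N → ℝ) r => ∑ i : I, c i * G (i, r)) ⁻¹' A) ∧
    (gam (Fin N × Fin N)).real
      (⋃ c ∈ s, (fun (G : Fin N × Fin N → ℝ) r => ∑ i : I, c i * G (i, r)) ⁻¹' A) ≤
        s.card * (gam (Fin N)).real A := by
  refine ⟨s.measurableSet_biUnion fun c hc => (rows_mp I (hs c hc)).measurable hA,
    (measureReal_biUnion_finset_le _ _).trans_eq ?_⟩
  rw [Finset.sum_congr rfl fun c hc =>
    (rows_mp I (hs c hc)).measureReal_preimage hA.nullMeasurableSet, Finset.sum_const, nsmul_eq_mul]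

end Sm

/-- A Gaussian matrix with at most `(1 - ρ) N` rows (those in `I`) is well invertible. -/
theorem smin_prob {ρ : ℝ} (hρ : 0 < ρ) : ∃ c : ℝ, 0 < c ∧ ∀ᶠ N : ℕ in Filter.atTop,
    ∀ I : Finset (Fin N), (I.card : ℝ) ≤ (1 - ρ) * N →
      1 / 2 ≤ (gam (Fin N × Fin N)).real {G | Smin c I G} := by
  set u : ℝ := 165 / ρ with hu
  have hu0 : 0 < u := by positivity
  set s : ℝ := exp (-u) with hs
  have hs0 : 0 < s := exp_pos _
  refine ⟨s ^ 2 / 4, by positivity, ?_⟩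
  filter_upwards [Filter.eventually_ge_atTop 1] with N hN I hI
  have hN' : (1 : ℝ) ≤ N := by exact_mod_cast hN
  have hm : I.card ≤ N := (Finset.card_le_univ I).trans_eq (Fintype.card_fin N)
  have hm' : (I.card : ℝ) ≤ N := by exact_mod_cast hm
  obtain ⟨s₁, c1, n1, d1⟩ := Sm.exists_net (EuclideanSpace ℝ I) (δ := s / 80) (by positivity)
  obtain ⟨s₂, c2, n2, d2⟩ := Sm.exists_net (EuclideanSpace ℝ I) (δ := 1 / 2) (by positivity)
  rw [finrank_euclideanSpace, Fintype.card_coe] at c1 c2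
  obtain ⟨m1, b1⟩ := Sm.union_bound I s₁ n1 (A := {g | ∑ i, g i ^ 2 ≤ s ^ 2 * N})
    (measurableSet_le (by fun_prop) measurable_const)
  obtain ⟨m2, b2⟩ := Sm.union_bound I s₂ n2 (A := {g | 400 * (N : ℝ) ≤ ∑ i, g i ^ 2})
    (measurableSet_le measurable_const (by fun_prop))
  have e1 : (s₁.card : ℝ) * (gam (Fin N)).real {g | ∑ i, g i ^ 2 ≤ s ^ 2 * N} ≤ 1 / 4 := by
    have h1 : 1 + 2 / (s / 80) ≤ exp (161 + u) := by
      have h2 : 2 / (s / 80) = 160 * exp u := by rw [hs, exp_neg]; field_simp; norm_num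
      rw [h2, exp_add]
      nlinarith [add_one_le_exp (161 : ℝ), one_le_exp hu0.le]
    refine (mul_le_mul (c1.trans (pow_le_pow_left₀ (by positivity) h1 _)) (Sm.chi_lo N hs0)
      measureReal_nonneg (by positivity)).trans ?_
    rw [hs, ← exp_nat_mul, ← exp_nat_mul, ← exp_add, ← exp_add]
    have h3 : u * ρ = 165 := by rw [hu]; field_simp
    have h4 : (I.card : ℝ) * (161 + u) + (N + N * -u) ≤ -3 := by
      have h5 : u * I.card ≤ u * ((1 - ρ) * N) := mul_le_mul_of_nonneg_left hI hu0.le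
      have h6 : u * ((1 - ρ) * N) = u * N - 165 * N := by rw [← h3]; ring
      linarith
    refine (exp_le_exp.2 h4).trans ?_
    rw [exp_neg, inv_le_comm₀ (exp_pos _) (by norm_num)]
    linarith [add_one_le_exp (3 : ℝ)]
  have e2 : (s₂.card : ℝ) * (gam (Fin N)).real {g | 400 * (N : ℝ) ≤ ∑ i, g i ^ 2} ≤ 1 / 4 := by
    have h1 : (s₂.card : ℝ) ≤ 5 ^ N := c2.trans (by
      rw [show (1 + 2 / (1 / 2) : ℝ) = 5 by norm_num]
      exact pow_le_pow_right₀ (by norm_num) hm)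
    refine (mul_le_mul h1 (Sm.chi_hi N) measureReal_nonneg (by positivity)).trans ?_
    rw [← mul_pow, show (5 * (1 / 20) : ℝ) = 1 / 4 by norm_num]
    exact pow_le_of_le_one (by norm_num) (by norm_num) (by omega)
  have e3 := probReal_compl_eq_one_sub (μ := gam (Fin N × Fin N)) (m1.union m2)
  have e4 := (measureReal_union_le (μ := gam (Fin N × Fin N)) _ _).trans
    (add_le_add (b1.trans e1) (b2.trans e2))
  refine le_trans (le_trans (by linarith) e3.ge) (measureReal_mono fun G hG α => ?_)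
  simp only [Set.mem_compl_iff, Set.mem_union, Set.mem_iUnion, Set.mem_preimage, Set.mem_ofPred_eq,
    not_or, not_exists, not_le] at hG
  have hr : 0 ≤ √(N : ℝ) := Real.sqrt_nonneg _
  have hr2 : √(N : ℝ) ^ 2 = N := Real.sq_sqrt (by positivity)
  have h1 := Sm.lower_of_nets (Sm.rows I G) (a := s * √N) (M := 20 * √N) (by positivity) d1 d2
    (fun c hc => by
      refine abs_le_of_sq_le_sq' ?_ (norm_nonneg _) |>.2
      rw [Sm.rows_sq, mul_pow, hr2]
      exact (hG.1 c hc).le)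
    (fun c hc => by
      refine abs_le_of_sq_le_sq' ?_ (by positivity) |>.2
      rw [Sm.rows_sq, mul_pow, hr2]
      linarith [hG.2 c hc])
    (WithLp.toLp 2 fun i : I => α i)
  rw [show s * √N - 2 * (20 * √N) * (s / 80) = s / 2 * √N by ring] at h1
  have h2 := pow_le_pow_left₀ (by positivity) h1 2
  rw [Sm.rows_sq, mul_pow, mul_pow, hr2, EuclideanSpace.real_norm_sq_eq] at h2
  simp only [Finset.sum_coe_sort I fun i => α i ^ 2,
    fun r => Finset.sum_coe_sort I fun i => α i * G (i, r)] at h2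
  refine le_trans (le_of_eq ?_) h2
  ring

end Crest.Agent.R164
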