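import Crest.Agent.R164.ConcB
import Crest.Agent.R164.Smin

/-! # Row 164: from small moments to the lower tail of the pressure -/

set_option autoImplicit false

namespace Crest.Agent.R164

open MeasureTheory ProbabilityTheory Real Finset Crest.ProbabilityR.InvariantGlass

lemma measurable_pressure {N : ℕ} (eig c : Fin N → ℝ) :
    Measurable fun U : O N => pressureFieldN eig U.1 c := by
  unfold pressureFieldN
  refine Measurable.const_mul (Measurable.log (Measurable.const_mul
    (Finset.measurable_sum _ fun σ _ => Measurable.exp (Measurable.add_const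
      (Measurable.const_mul (Finset.measurable_sum _ fun i _ => Measurable.const_mul
        (Measurable.pow_const ?_ 2) _) _) _)) _)) _
  exact (measurable_yv i).comp (measurable_id.prodMk measurable_const)

lemma abs_pressure_le {N : ℕ} {eig c : Fin N → ℝ} {A B : ℝ} (hA0 : 0 ≤ A) (hB0 : 0 ≤ B)
    (hA : ∀ i, |eig i| ≤ A) (hB : (∑ r, |c r|) ≤ B * N) (U : O N) :
    |pressureFieldN eig U.1 c| ≤ A / 2 + B := by
  unfold pressureFieldN
  rcases Nat.eq_zero_or_pos N with rfl | hN
  · simp only [Nat.cast_zero, div_zero, zero_mul, abs_zero]; positivity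
  have hN' : (0 : ℝ) < N := by exact_mod_cast hN
  set M : ℝ := (A / 2 + B) * N with hM
  have hE : ∀ σ : Fin N → Bool, |(1 / 2) * (∑ i : Fin N, eig i * (U.1.mulVec (spinVec σ) i) ^ 2) +
      ∑ r : Fin N, c r * spinVec σ r| ≤ M := by
    intro σ
    have h1 : |∑ i : Fin N, eig i * (U.1.mulVec (spinVec σ) i) ^ 2| ≤ A * N := by
      rw [← sum_yv_sq U σ, Finset.mul_sum]
      refine (Finset.abs_sum_le_sum_abs _ _).trans (Finset.sum_le_sum fun i _ => ?_)
      rw [abs_mul, abs_sq]
      exact mul_le_mul_of_nonneg_right (hA i) (sq_nonneg _)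
    have h2 : |∑ r : Fin N, c r * spinVec σ r| ≤ B * N := by
      refine (Finset.abs_sum_le_sum_abs _ _).trans (le_trans (Finset.sum_le_sum fun r _ => ?_) hB)
      rw [abs_mul]
      have : |spinVec σ r| = 1 := by unfold spinVec; split_ifs <;> simp
      rw [this, mul_one]
    refine (abs_add_le _ _).trans ?_
    rw [abs_mul, abs_of_pos (by norm_num : (0 : ℝ) < 1 / 2)]
    linarith
  have hc : ∀ x : ℝ, (1 / 2 : ℝ) ^ N * ∑ _σ : Fin N → Bool, x = x := by
    intro x
    simp only [Finset.sum_const, Finset.card_univ, Fintype.card_fun, Fintype.card_bool,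
      Fintype.card_fin, nsmul_eq_mul, Nat.cast_pow, Nat.cast_ofNat]
    rw [← mul_assoc, ← mul_pow]; norm_num
  set Z : ℝ := (1 / 2) ^ N * ∑ σ : Fin N → Bool,
    Real.exp ((1 / 2) * (∑ i : Fin N, eig i * (U.1.mulVec (spinVec σ) i) ^ 2) +
      ∑ r : Fin N, c r * spinVec σ r) with hZ
  have h1 : exp (-M) ≤ Z := by
    rw [← hc (exp (-M))]
    exact mul_le_mul_of_nonneg_left (Finset.sum_le_sum fun σ _ =>
      exp_le_exp.2 (abs_le.1 (hE σ)).1) (by positivity)
  have h2 : Z ≤ exp M := by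
    rw [← hc (exp M)]
    exact mul_le_mul_of_nonneg_left (Finset.sum_le_sum fun σ _ =>
      exp_le_exp.2 (abs_le.1 (hE σ)).2) (by positivity)
  have hZ0 : 0 < Z := (exp_pos _).trans_le h1
  have h3 : |log Z| ≤ M :=
    abs_le.2 ⟨(le_log_iff_exp_le hZ0).2 h1, (log_le_iff_le_exp hZ0).2 h2⟩
  rw [abs_mul, abs_of_pos (by positivity), one_div, inv_mul_le_iff₀ hN']
  linarith

/-- Fubini on Gaussian matrices times Haar rotations. -/
lemma gam_haar_le {N : ℕ} (h : Haar N) {A T : Set (Fin N × Fin N → ℝ)} {E : Set (O N)}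
    (hA : MeasurableSet A) (hT : MeasurableSet T) (hE : MeasurableSet E)
    (hTE : ∀ G ∈ T, ∃ Q : O N, ∀ U, Q * U ∈ E → rmul G U ∈ A) :
    (gam (Fin N × Fin N)).real T * h.κ.real E ≤ (gam (Fin N × Fin N)).real A := by
  have hS := measurable_rmul hA
  have h1 := Measure.prod_apply (μ := gam (Fin N × Fin N)) (ν := h.κ) hS
  have h2 := Measure.prod_apply_symm (μ := gam (Fin N × Fin N)) (ν := h.κ) hS
  have e1 : ∀ U : O N, gam (Fin N × Fin N) ((fun G => (G, U)) ⁻¹'
      ((fun p : (Fin N × Fin N → ℝ) × O N => rmul p.1 p.2) ⁻¹' A)) = gam (Fin N × Fin N) A :=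
    fun U => (gam_rows_mul U).measure_preimage hA.nullMeasurableSet
  simp only [e1, lintegral_const, measure_univ, mul_one] at h2
  have e2 : ∀ G, T.indicator (fun _ => h.κ E) G ≤ h.κ (Prod.mk G ⁻¹'
      ((fun p : (Fin N × Fin N → ℝ) × O N => rmul p.1 p.2) ⁻¹' A)) := by
    intro G
    by_cases hG : G ∈ T
    · obtain ⟨Q, hQ⟩ := hTE G hG
      rw [Set.indicator_of_mem hG, ← (h.left Q).measure_preimage hE.nullMeasurableSet]
      exact measure_mono fun U hU => hQ U hU
    · rw [Set.indicator_of_notMem hG]; exact zero_le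
  have h3 : h.κ E * gam (Fin N × Fin N) T ≤ gam (Fin N × Fin N) A := by
    rw [← h2, h1, ← lintegral_indicator_const hT]
    exact lintegral_mono e2
  have h4 := ENNReal.toReal_mono (measure_ne_top _ _) h3
  rw [ENNReal.toReal_mul] at h4
  rw [mul_comm]
  exact h4

lemma moment_split {Ω : Type} [MeasurableSpace Ω] (κ : Measure Ω) [IsProbabilityMeasure κ]
    {P : Ω → ℝ} (hP : Measurable P) {C t x : ℝ} (hC : ∀ U, |P U| ≤ C) (ht : 0 ≤ t) :
    ∫ U, exp (t * P U) ∂κ ≤ exp (t * x) + κ.real {U | x ≤ P U} * exp (t * C) := by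
  have hE : MeasurableSet {U | x ≤ P U} := measurableSet_le measurable_const hP
  have h1 : ∫ U, (exp (t * x) + {U | x ≤ P U}.indicator (fun _ => exp (t * C)) U) ∂κ =
      exp (t * x) + κ.real {U | x ≤ P U} * exp (t * C) := by
    rw [integral_add (integrable_const _) ((integrable_const _).indicator hE),
      integral_indicator_const _ hE]
    simp
  rw [← h1]
  refine integral_mono_of_nonneg (Filter.Eventually.of_forall fun U => (exp_pos _).le)
    ((integrable_const _).add ((integrable_const _).indicator hE))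
    (Filter.Eventually.of_forall fun U => ?_)
  by_cases hU : U ∈ {U | x ≤ P U}
  · simp only [Set.indicator_of_mem hU]
    have : exp (t * P U) ≤ exp (t * C) :=
      exp_le_exp.2 (mul_le_mul_of_nonneg_left (abs_le.1 (hC U)).2 ht)
    have := exp_pos (t * x)
    linarith
  · simp only [Set.indicator_of_notMem hU, add_zero]
    exact exp_le_exp.2 (mul_le_mul_of_nonneg_left (not_le.1 hU).le ht)

lemma eventually_le_exp {b : ℝ} (hb : 0 < b) (K : ℝ) :
    ∀ᶠ N : ℕ in Filter.atTop, K ≤ exp (b * N) := by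
  have : Filter.Tendsto (fun N : ℕ => exp (b * N)) Filter.atTop Filter.atTop :=
    tendsto_exp_atTop.comp (tendsto_natCast_atTop_atTop.const_mul_atTop hb)
  exact this.eventually_ge_atTop K

theorem lower_tail {n : ℕ} {lam : Fin (n + 1) → ℝ} (hlam : Monotone lam) (h : ∀ N, Haar N)
    (sp : (N : ℕ) → Fin N → Fin (n + 1)) (hsp : ∀ N, Bal (sp N) 1) (c : (N : ℕ) → Fin N → ℝ) {B : ℝ}
    (hc : ∀ N r, |c N r| ≤ B) {F : ℝ}
    (hmom : ∀ η : ℝ, 0 < η → η < 1 → ∀ ε : ℝ, 0 < ε → ∀ᶠ N : ℕ in Filter.atTop,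
      exp (η * N * (F - ε)) ≤
        ∫ U, exp (η * N * pressureFieldN (fun i => lam (sp N i)) U.1 (c N)) ∂(h N).κ)
    {ε : ℝ} (hε : 0 < ε) : ∃ a : ℝ, 0 < a ∧ ∀ᶠ N : ℕ in Filter.atTop,
      (h N).κ.real {U | pressureFieldN (fun i => lam (sp N i)) U.1 (c N) ≤ F - ε} ≤ exp (-a * N) := by
  have hB0 : 0 ≤ B := (abs_nonneg _).trans (hc 1 0)
  set A : ℝ := ∑ a, |lam a| with hA
  have hA0 : 0 ≤ A := Finset.sum_nonneg fun _ _ => abs_nonneg _
  set C0 : ℝ := A / 2 + B with hC0
  have hC00 : 0 ≤ C0 := by positivity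
  have hP : ∀ (N : ℕ) (U : O N), |pressureFieldN (fun i => lam (sp N i)) U.1 (c N)| ≤ C0 := by
    intro N U
    refine abs_pressure_le hA0 hB0 (fun i => ?_) ?_ U
    · exact Finset.single_le_sum (f := fun a => |lam a|) (fun _ _ => abs_nonneg _)
        (Finset.mem_univ _)
    · refine (Finset.sum_le_sum fun r _ => hc N r).trans (le_of_eq ?_)
      simp [mul_comm]
  have hn1 : (0 : ℝ) < n + 1 := by positivity
  obtain ⟨a0, ha0, hsmin⟩ := smin_prob (ρ := 1 / (2 * (n + 1))) (by positivity)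
  set L : ℝ := lam (Fin.last n) - lam 0 with hL
  have hL0 : 0 ≤ L := sub_nonneg.2 (hlam (Fin.zero_le _))
  set e0 : ℝ := ε * a0 / (4 * (L + 1)) with he0
  have he00 : 0 < e0 := by positivity
  have hLe : L * (e0 / a0) ≤ ε / 4 := by
    have : L * (e0 / a0) = ε / 4 * (L / (L + 1)) := by rw [he0]; field_simp
    rw [this]
    exact mul_le_of_le_one_right (by positivity) (div_le_one_of_le₀ (by linarith) (by positivity))
  obtain ⟨r, hr0, hr⟩ : ∃ r : ℝ, 0 < r ∧ L * (6 * r / √e0 + r ^ 2 / e0) < ε / 4 := by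
    have hcont : Continuous fun r : ℝ => L * (6 * r / √e0 + r ^ 2 / e0) := by fun_prop
    have h1 : ∀ᶠ r in nhds (0 : ℝ), L * (6 * r / √e0 + r ^ 2 / e0) < ε / 4 :=
      hcont.continuousAt.eventually_lt continuousAt_const (by simp; positivity)
    obtain ⟨r, hr1, hr2⟩ := ((h1.filter_mono nhdsWithin_le_nhds).and
      (self_mem_nhdsWithin (s := Set.Ioi (0 : ℝ)))).exists
    exact ⟨r, hr2, hr1⟩
  set K : ℝ := C0 + |F| + ε with hK
  have hK0 : 0 < K := by positivity
  set η : ℝ := min (1 / 2) (r ^ 2 / 16 / K) with hη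
  have hη0 : 0 < η := lt_min (by norm_num) (by positivity)
  have hη1 : η < 1 := (min_le_left _ _).trans_lt (by norm_num)
  have hηK : η * K ≤ r ^ 2 / 16 := (le_div_iff₀ hK0).1 (min_le_right _ _)
  refine ⟨r ^ 2 / 8, by positivity, ?_⟩
  filter_upwards [hsmin, hmom η hη0 hη1 (ε / 8) (by positivity),
    eventually_le_exp (b := η * (ε / 8)) (by positivity) 2,
    eventually_le_exp (b := r ^ 2 / 16) (by positivity) 4,
    Filter.eventually_ge_atTop (2 * (n + 1))] with N hsm hm h2 h4 hN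
  have hN0 : 0 < N := by omega
  have hN' : 2 * ((n : ℝ) + 1) ≤ N := by exact_mod_cast hN
  have hNr : (0 : ℝ) < N := by exact_mod_cast hN0
  obtain ⟨Ψ, hΨm, hΨ1, hΨ2, hΨ3⟩ := exists_proxy hlam hN0 (sp N) (c N) he00
  set P : O N → ℝ := fun U => pressureFieldN (fun i => lam (sp N i)) U.1 (c N) with hPdef
  have hPm : Measurable P := measurable_pressure _ _
  -- the card of the rows
  have hI : ((univ.filter fun i => sp N i ≠ 0).card : ℝ) ≤ (1 - 1 / (2 * (n + 1))) * N := by
    have h1 := Finset.card_filter_add_card_filter_not (s := (univ : Finset (Fin N)))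
      (fun i => sp N i = 0)
    have h1' : ((blk (sp N) 0).card : ℝ) + (univ.filter fun i => sp N i ≠ 0).card = N := by
      rw [Finset.card_univ, Fintype.card_fin] at h1
      exact_mod_cast h1
    have h3 := (abs_le.1 (hsp N 0)).1
    have h5 : (1 : ℝ) ≤ N / (2 * (n + 1)) := by rw [le_div_iff₀ (by positivity)]; linarith
    have h6 : (N : ℝ) / (n + 1) = 2 * (N / (2 * (n + 1))) := by field_simp
    have h7 : (1 - 1 / (2 * (n + 1))) * (N : ℝ) = N - N / (2 * (n + 1)) := by ring
    linarith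
  have hA' : MeasurableSet {G | Ψ G ≤ F - ε} := measurableSet_le hΨm measurable_const
  have hB' : MeasurableSet {G | F - ε / 2 ≤ Ψ G} := measurableSet_le measurable_const hΨm
  have k1 : (h N).κ.real {U | P U ≤ F - ε} ≤ (gam (Fin N × Fin N)).real {G | Ψ G ≤ F - ε} := by
    have := gam_haar_le (h N) hA' MeasurableSet.univ
      (measurableSet_le hPm (measurable_const (a := F - ε))) (fun G _ => by
        obtain ⟨Q, hQ⟩ := exists_flag_O (sp N) G
        exact ⟨Q, fun U hU => (hΨ1 _ _ (hQ.rmul U)).trans hU⟩)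
    simpa using this
  have k2 : 1 / 2 * (h N).κ.real {U | F - ε / 4 ≤ P U} ≤
      (gam (Fin N × Fin N)).real {G | F - ε / 2 ≤ Ψ G} := by
    have := gam_haar_le (h N) hB' (measurableSet_smin a0 (univ.filter fun i => sp N i ≠ 0))
      (measurableSet_le (measurable_const (a := F - ε / 4)) hPm) (fun G hG => by
        obtain ⟨Q, hQ⟩ := exists_flag_O (sp N) G
        refine ⟨Q, fun U hU => ?_⟩
        have h1 := hΨ2 _ _ a0 ha0 (hQ.rmul U) (Smin.rmul hG U)
        have h2 : F - ε / 4 ≤ pressureFieldN (fun i => lam (sp N i)) (Q * U).1 (c N) := hU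
        change F - ε / 2 ≤ Ψ (rmul G U)
        linarith)
    exact (mul_le_mul_of_nonneg_right (hsm _ hI) measureReal_nonneg).trans this
  have k3 : (gam (Fin N × Fin N)).real {G | Ψ G ≤ F - ε} *
      (gam (Fin N × Fin N)).real {G | F - ε / 2 ≤ Ψ G} ≤ exp (-(r * √N) ^ 2 / 4) := by
    refine gam_two_sets hA' hB' (by positivity) fun a ha b hb => ?_
    by_contra hcon
    have h1 : ∑ p, (b p - a p) ^ 2 ≤ r ^ 2 * N := by
      rw [mul_pow, sq_sqrt hNr.le, not_le] at hcon
      refine le_trans (le_of_eq (Finset.sum_congr rfl fun p _ => by ring)) hcon.le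
    have h3 := hΨ3 b a r hr0.le h1
    have ha' : Ψ a ≤ F - ε := ha
    have hb' : F - ε / 2 ≤ Ψ b := hb
    linarith
  rw [mul_pow, sq_sqrt hNr.le] at k3
  have k4 := hm.trans (moment_split (h N).κ hPm (x := F - ε / 4) (hP N)
    (t := η * N) (by positivity))
  set p := (h N).κ.real {U | F - ε / 4 ≤ P U} with hp
  have hp0 : 0 ≤ p := measureReal_nonneg
  have k5 : exp (-(r ^ 2 / 16 * N)) ≤ 2 * p := by
    have e1 : exp (η * N * (F - ε / 8)) = exp (η * N * (F - ε / 4)) * exp (η * (ε / 8) * N) := by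
      rw [← exp_add]; congr 1; ring
    have e2 : exp (η * N * (F - ε / 8)) ≤ 2 * p * exp (η * N * C0) := by
      have := mul_le_mul_of_nonneg_left h2 (exp_pos (η * N * (F - ε / 4))).le
      linarith
    have e3 : exp (-(r ^ 2 / 16 * N)) * exp (η * N * C0) ≤ exp (η * N * (F - ε / 8)) := by
      rw [← exp_add, exp_le_exp]
      have h1 : η * K * N ≤ r ^ 2 / 16 * N := mul_le_mul_of_nonneg_right hηK hNr.le
      have h3 : η * N * (C0 - (F - ε / 8)) ≤ η * N * K :=
        mul_le_mul_of_nonneg_left (by have := neg_abs_le F; linarith) (by positivity)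
      nlinarith
    exact le_of_mul_le_mul_right (e3.trans e2) (exp_pos _)
  set q := (gam (Fin N × Fin N)).real {G | Ψ G ≤ F - ε} with hq
  have hq0 : 0 ≤ q := measureReal_nonneg
  have k6 : q * exp (-(r ^ 2 / 16 * N)) ≤ 4 * exp (-(r ^ 2 * N) / 4) := by
    have h1 := mul_le_mul_of_nonneg_left k2 hq0
    have h3 := mul_le_mul_of_nonneg_left k5 hq0
    linarith
  have k7 : 4 * exp (-(r ^ 2 * N) / 4) ≤ exp (-(r ^ 2 / 8) * N) * exp (-(r ^ 2 / 16 * N)) := by
    have e1 : exp (-(r ^ 2 / 8) * N) * exp (-(r ^ 2 / 16 * N)) =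
        exp (r ^ 2 / 16 * N) * exp (-(r ^ 2 * N) / 4) := by
      rw [← exp_add, ← exp_add]; congr 1; ring
    rw [e1]
    exact mul_le_mul_of_nonneg_right h4 (exp_pos _).le
  exact k1.trans (le_of_mul_le_mul_right (k6.trans k7) (exp_pos _))

end Crest.Agent.R164
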