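import Crest.Agent.R164.Haar
import Crest.Agent.Lib.PrekopaLeindler.Basic

/-! # Row 164: Gaussian concentration, flags -/

set_option autoImplicit false

namespace Crest.Agent.R164

open MeasureTheory ProbabilityTheory Real Finset

/-- The rows of `G` in `I` are well invertible. -/
def Smin {N : ℕ} (c : ℝ) (I : Finset (Fin N)) (G : Fin N × Fin N → ℝ) : Prop :=
  ∀ α : Fin N → ℝ, c * N * ∑ i ∈ I, α i ^ 2 ≤ ∑ r, (∑ i ∈ I, α i * G (i, r)) ^ 2

/-- The rows of `Q` are adapted to the flag spanned by the rows of `G`. -/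
def Flag {N n : ℕ} (sp : Fin N → Fin (n + 1)) (G : Fin N × Fin N → ℝ) (Q : O N) : Prop :=
  ∀ i, ∃ β : Fin N → ℝ, (∀ j, sp j < sp i → β j = 0) ∧ ∀ r, G (i, r) = ∑ j, β j * Q.1 j r

/-- Right multiplication by an orthogonal matrix. -/
def rmul {N : ℕ} (G : Fin N × Fin N → ℝ) (U : O N) : Fin N × Fin N → ℝ :=
  fun p => ∑ r, G (p.1, r) * U.1 r p.2

lemma gam_two_sets_fin {n : ℕ} {A B : Set (Fin n → ℝ)} (hA : MeasurableSet A)
    (hB : MeasurableSet B) {r : ℝ} (h : ∀ a ∈ A, ∀ b ∈ B, r ^ 2 ≤ ∑ i, (a i - b i) ^ 2) :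
    gam (Fin n) A * gam (Fin n) B ≤ ENNReal.ofReal (exp (-r ^ 2 / 4)) := by
  set ρ : (Fin n → ℝ) → ENNReal := fun x => ENNReal.ofReal (∏ i, gaussianPDFReal 0 1 (x i)) with hρ
  have hm : Measurable ρ := (Finset.measurable_prod _ fun i _ =>
    (measurable_gaussianPDFReal 0 1).comp (measurable_pi_apply i)).ennreal_ofReal
  have hg : gam (Fin n) = volume.withDensity ρ := R215.gam_eq _
  have h1 : ∫⁻ x, ρ x = 1 := by
    rw [← setLIntegral_univ, ← withDensity_apply _ MeasurableSet.univ, ← hg, measure_univ]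
  have key := Lib.PrekopaLeindler.plProp_pi n (A.indicator ρ) (B.indicator ρ)
    (fun x => ENNReal.ofReal (exp (-r ^ 2 / 8)) * ρ x) (hm.indicator hA) (hm.indicator hB)
    (hm.const_mul _) (fun x y => by
      by_cases hx : x ∈ A
      swap
      · simp [Set.indicator_of_notMem hx]
      by_cases hy : y ∈ B
      swap
      · simp [Set.indicator_of_notMem hy]
      rw [Set.indicator_of_mem hx, Set.indicator_of_mem hy, hρ]
      simp only [R215.prod_pdf]
      rw [← ENNReal.ofReal_mul (by positivity), ← ENNReal.ofReal_mul (by positivity),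
        ← ENNReal.ofReal_pow (by positivity)]
      refine ENNReal.ofReal_le_ofReal ?_
      have e : ∑ i, ((x i + y i) / 2) ^ 2 =
          (∑ i, x i ^ 2 + ∑ i, y i ^ 2) / 2 - (∑ i, (x i - y i) ^ 2) / 4 := by
        rw [← sum_add_distrib, sum_div, sum_div, ← sum_sub_distrib]
        exact sum_congr rfl fun i _ => by ring
      generalize (√(2 * π))⁻¹ ^ Fintype.card (Fin n) = c
      calc _ = c ^ 2 * exp (-(∑ i, x i ^ 2) / 2 + -(∑ i, y i ^ 2) / 2) := by
            rw [exp_add]; ring
        _ ≤ c ^ 2 * exp (2 * (-r ^ 2 / 8 + -(∑ i, ((x i + y i) / 2) ^ 2) / 2)) := by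
            gcongr
            linarith [h x hx y hy]
        _ = _ := by rw [two_mul, exp_add, exp_add]; ring)
  rw [lintegral_indicator hA, lintegral_indicator hB, ← withDensity_apply _ hA,
    ← withDensity_apply _ hB, ← hg, lintegral_const_mul _ hm, h1, mul_one,
    ← ENNReal.ofReal_pow (by positivity), ← exp_nat_mul] at key
  convert key using 3
  push_cast
  ring

/-- Two sets at distance `r` cannot both be large. -/
theorem gam_two_sets {ι : Type} [Fintype ι] {A B : Set (ι → ℝ)} (hA : MeasurableSet A)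
    (hB : MeasurableSet B) {r : ℝ} (hr : 0 ≤ r)
    (h : ∀ a ∈ A, ∀ b ∈ B, r ^ 2 ≤ ∑ i, (a i - b i) ^ 2) :
    (gam ι).real A * (gam ι).real B ≤ exp (-r ^ 2 / 4) := by
  have _ := hr
  have hp := gam_comp (Fintype.equivFin ι).injective
  have key := gam_two_sets_fin (hp.measurable hA) (hp.measurable hB) (r := r) fun a ha b hb =>
    (h _ ha _ hb).trans_eq ((Fintype.equivFin ι).sum_comp fun k => (a k - b k) ^ 2)
  rw [hp.measure_preimage hA.nullMeasurableSet, hp.measure_preimage hB.nullMeasurableSet] at key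
  rw [Measure.real, Measure.real, ← ENNReal.toReal_mul]
  exact ENNReal.toReal_le_of_le_ofReal (exp_pos _).le key

lemma O_col_dot {N : ℕ} (U : O N) (a b : Fin N) :
    ∑ r, U.1 r a * U.1 r b = if a = b then 1 else 0 := by
  have := congrFun (congrFun ((Matrix.mem_orthogonalGroup_iff' _ ℝ).1 U.2) a) b
  simpa [Matrix.mul_apply, Matrix.one_apply] using this

/-- Rotating all rows of a Gaussian matrix. -/
lemma gam_rows_mul {N : ℕ} (U : O N) :
    MeasurePreserving (fun G => rmul G U) (gam (Fin N × Fin N)) (gam (Fin N × Fin N)) := by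
  have h := GA.mp_of_gram (fun (a i : Fin N × Fin N) => if a.1 = i.1 then U.1 i.2 a.2 else 0)
    fun a b => by
      rw [Fintype.sum_prod_type, sum_eq_single a.1 (fun i _ hi => by simp [hi.symm]) (by simp)]
      by_cases h : b.1 = a.1
      · simp [h, O_col_dot, Prod.ext_iff]
      · simp [h, Prod.ext_iff, Ne.symm h]
  convert h using 3 with G p
  symm
  rw [Fintype.sum_prod_type, sum_eq_single p.1 (fun i _ hi => by simp [hi.symm]) (by simp)]
  simp [rmul, mul_comm]

lemma measurable_rmul {N : ℕ} : Measurable fun p : (Fin N × Fin N → ℝ) × O N => rmul p.1 p.2 :=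
  measurable_pi_iff.2 fun q => Finset.measurable_sum _ fun r _ =>
    ((measurable_pi_apply (q.1, r)).comp measurable_fst).mul
      ((measurable_O_entry r q.2).comp measurable_snd)

lemma measurableSet_smin {N : ℕ} (c : ℝ) (I : Finset (Fin N)) : MeasurableSet {G | Smin c I G} := by
  simp only [Smin, Set.ofPred_forall]
  exact (isClosed_iInter fun α => isClosed_le continuous_const (by fun_prop)).measurableSet

lemma Smin.rmul {N : ℕ} {c : ℝ} {I : Finset (Fin N)} {G : Fin N × Fin N → ℝ} (h : Smin c I G) (U : O N) :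
    Smin c I (rmul G U) := fun α => by
  refine (h α).trans_eq ?_
  rw [← sum_sq_mulVec U⁻¹ fun r => ∑ i ∈ I, α i * G (i, r)]
  refine sum_congr rfl fun s _ => ?_
  congr 1
  simp only [Matrix.mulVec, dotProduct, O_inv_apply, R164.rmul, mul_sum]
  rw [sum_comm]
  exact sum_congr rfl fun i _ => sum_congr rfl fun r _ => by ring

lemma Flag.rmul {N n : ℕ} {sp : Fin N → Fin (n + 1)} {G : Fin N × Fin N → ℝ} {Q : O N}
    (h : Flag sp G Q) (U : O N) : Flag sp (rmul G U) (Q * U) := fun i => by
  obtain ⟨β, h1, h2⟩ := h i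
  refine ⟨β, h1, fun s => ?_⟩
  simp only [R164.rmul, h2, Submonoid.coe_mul, Matrix.mul_apply, sum_mul, mul_sum, mul_assoc]
  exact sum_comm

/-- An orthonormal basis adapted to the flag spanned by the rows. -/
lemma exists_flag_O {N n : ℕ} (sp : Fin N → Fin (n + 1)) (G : Fin N × Fin N → ℝ) :
    ∃ Q : O N, Flag sp G Q := by
  let σ := Tuple.sort fun i => (sp i).rev
  let f : Fin N → EuclideanSpace ℝ (Fin N) := fun k => WithLp.toLp 2 fun r => G (σ k, r)
  have hc : Module.finrank ℝ (EuclideanSpace ℝ (Fin N)) = Fintype.card (Fin N) := by simp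
  let b := InnerProductSpace.gramSchmidtOrthonormalBasis hc f
  refine ⟨⟨Matrix.of fun j r => b (σ.symm j) r, ?_⟩, fun i =>
    ⟨fun j => b.repr (f (σ.symm i)) (σ.symm j), fun j hj => ?_, fun r => ?_⟩⟩
  · rw [Matrix.mem_orthogonalGroup_iff]
    ext j k
    have := orthonormal_iff_ite.1 b.orthonormal (σ.symm k) (σ.symm j)
    simp only [PiLp.inner_apply, RCLike.inner_apply, conj_trivial, EmbeddingLike.apply_eq_iff_eq]
      at this
    simp only [Matrix.mul_apply, Matrix.transpose_apply, Matrix.of_apply, Matrix.one_apply, this,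
      eq_comm]
  · refine InnerProductSpace.gramSchmidtOrthonormalBasis_inv_triangular' hc f ?_
    by_contra hle
    have := Tuple.monotone_sort (fun i => (sp i).rev) (not_lt.1 hle)
    simp only [Function.comp_apply, σ, Equiv.apply_symm_apply, Fin.rev_le_rev] at this
    exact absurd hj (not_lt.2 this)
  · have := congrArg (fun x : EuclideanSpace ℝ (Fin N) => x r) (b.sum_repr (f (σ.symm i)))
    rw [← σ.symm.sum_comp] at this
    simpa [f, Finset.sum_apply] using this.symm

end Crest.Agent.R164
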