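import Crest.Agent.R164.ConcA

/-! # Row 164: a Lipschitz proxy of the pressure on Gaussian matrices -/

set_option autoImplicit false

namespace Crest.Agent.R164

open MeasureTheory ProbabilityTheory Real Finset Crest.ProbabilityR.InvariantGlass

namespace Proxy

variable {N : ℕ}

/-- Combination of the rows in `I`. -/
def vr (I : Finset (Fin N)) (G : Fin N × Fin N → ℝ) (α : Fin N → ℝ) (r : Fin N) : ℝ :=
  ∑ i ∈ I, α i * G (i, r)

/-- The penalised projection functional. -/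
def val (ε : ℝ) (I : Finset (Fin N)) (s α : Fin N → ℝ) (G : Fin N × Fin N → ℝ) : ℝ :=
  N - ∑ r, (s r - vr I G α r) ^ 2 - ε * N * ∑ i ∈ I, α i ^ 2

/-- Proxy of the squared norm of the projection. -/
noncomputable def Qe (ε : ℝ) (I : Finset (Fin N)) (s : Fin N → ℝ) (G : Fin N × Fin N → ℝ) : ℝ :=
  ⨆ α : Fin N → ℝ, val ε I s α G

variable {ε : ℝ} {I : Finset (Fin N)} {s : Fin N → ℝ} {G G' : Fin N × Fin N → ℝ}

lemma val_le (hε : 0 ≤ ε) (α : Fin N → ℝ) : val ε I s α G ≤ N := by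
  have h1 : 0 ≤ ∑ r, (s r - vr I G α r) ^ 2 := sum_nonneg fun _ _ => sq_nonneg _
  have h2 : 0 ≤ ε * N * ∑ i ∈ I, α i ^ 2 :=
    mul_nonneg (mul_nonneg hε (Nat.cast_nonneg _)) (sum_nonneg fun _ _ => sq_nonneg _)
  unfold val
  linarith

lemma bdd (hε : 0 ≤ ε) : BddAbove (Set.range fun α => val ε I s α G) :=
  ⟨N, by rintro _ ⟨α, rfl⟩; exact val_le hε α⟩

lemma val_le_Qe (hε : 0 ≤ ε) (α : Fin N → ℝ) : val ε I s α G ≤ Qe ε I s G := le_ciSup (bdd hε) α

lemma Qe_nonneg (hε : 0 ≤ ε) (hs : ∑ r, s r ^ 2 = N) : 0 ≤ Qe ε I s G := by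
  refine le_trans ?_ (val_le_Qe hε 0)
  simp [val, vr, hs]

lemma measurable_Qe (hε : 0 ≤ ε) : Measurable (Qe ε I s) := by
  refine LowerSemicontinuous.measurable (lowerSemicontinuous_ciSup (fun G => bdd hε) fun α => ?_)
  refine Continuous.lowerSemicontinuous ?_
  unfold val vr
  fun_prop

lemma Qe_lip (hε : 0 < ε) (hs : ∑ r, s r ^ 2 = N) (hN : 0 < N) {r : ℝ} (hr : 0 ≤ r)
    (h : ∑ p, (G p - G' p) ^ 2 ≤ r ^ 2 * N) :
    Qe ε I s G ≤ Qe ε I s G' + N * (2 * r / √ε + r ^ 2 / ε) := by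
  have hN' : (0 : ℝ) < N := Nat.cast_pos.2 hN
  have hsq : 0 < √ε := Real.sqrt_pos.2 hε
  refine ciSup_le fun α => ?_
  rcases lt_or_ge (val ε I s α G) 0 with h0 | h0
  · have := Qe_nonneg (I := I) (G := G') hε.le hs
    have : 0 ≤ N * (2 * r / √ε + r ^ 2 / ε) := by positivity
    linarith
  refine le_trans ?_ (add_le_add_left (val_le_Qe hε.le α) _)
  set u : Fin N → ℝ := fun r => s r - vr I G α r with hu
  set e : Fin N → ℝ := fun r => ∑ i ∈ I, α i * (G (i, r) - G' (i, r)) with he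
  have hA : 0 ≤ ∑ i ∈ I, α i ^ 2 := sum_nonneg fun _ _ => sq_nonneg _
  have hU : 0 ≤ ∑ r, u r ^ 2 := sum_nonneg fun _ _ => sq_nonneg _
  have h0' : ∑ r, u r ^ 2 + ε * N * ∑ i ∈ I, α i ^ 2 ≤ N := by
    unfold val at h0
    linarith
  have hA' : 0 ≤ ε * N * ∑ i ∈ I, α i ^ 2 := by positivity
  have hU1 : ∑ r, u r ^ 2 ≤ N := by linarith
  have hA1 : ∑ i ∈ I, α i ^ 2 ≤ 1 / ε := by
    rw [le_div_iff₀ hε]
    have : ε * N * ∑ i ∈ I, α i ^ 2 ≤ N := by linarith
    nlinarith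
  have hE : ∑ r, e r ^ 2 ≤ r ^ 2 * N / ε := by
    calc ∑ r, e r ^ 2 ≤ ∑ r, (1 / ε) * ∑ i, (G (i, r) - G' (i, r)) ^ 2 := by
          refine sum_le_sum fun r _ => (sum_mul_sq_le_sq_mul_sq I _ _).trans ?_
          refine mul_le_mul hA1 (sum_le_sum_of_subset_of_nonneg (subset_univ _)
            fun _ _ _ => sq_nonneg _) (sum_nonneg fun _ _ => sq_nonneg _) (by positivity)
      _ = (1 / ε) * ∑ p, (G p - G' p) ^ 2 := by
          rw [← mul_sum, Fintype.sum_prod_type_right]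
      _ ≤ (1 / ε) * (r ^ 2 * N) := by gcongr
      _ = _ := by ring
  have hUE : |∑ r, u r * e r| ≤ N * r / √ε := by
    refine abs_le_of_sq_le_sq ((sum_mul_sq_le_sq_mul_sq _ _ _).trans ?_) (by positivity)
    calc _ ≤ (N : ℝ) * (r ^ 2 * N / ε) :=
          mul_le_mul hU1 hE (sum_nonneg fun _ _ => sq_nonneg _) hN'.le
      _ = _ := by rw [div_pow, Real.sq_sqrt hε.le]; ring
  have key : ∑ r, (s r - vr I G' α r) ^ 2 =
      ∑ r, u r ^ 2 + 2 * ∑ r, u r * e r + ∑ r, e r ^ 2 := by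
    rw [mul_sum, ← sum_add_distrib, ← sum_add_distrib]
    refine sum_congr rfl fun r _ => ?_
    have : s r - vr I G' α r = u r + e r := by
      simp only [hu, he, vr, mul_sub, sum_sub_distrib]
      ring
    rw [this]
    ring
  have h2 := (abs_le.1 hUE).2
  have e1 : (N : ℝ) * (2 * r / √ε + r ^ 2 / ε) = 2 * (N * r / √ε) + r ^ 2 * N / ε := by ring
  unfold val
  rw [key, e1]
  linarith

lemma mulVec_rows (Q : O N) (γ : Fin N → ℝ) : Q.1.mulVec (fun r => ∑ j, γ j * Q.1 j r) = γ := by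
  have h := (Matrix.mem_orthogonalGroup_iff (Fin N) ℝ).1 Q.2
  have : (fun r => ∑ j, γ j * Q.1 j r) = Q.1.transpose.mulVec γ := by
    funext r
    simp [Matrix.mulVec, dotProduct, mul_comm]
  rw [this, Matrix.mulVec_mulVec, h, Matrix.one_mulVec]

lemma vr_eq {Q : O N} {β : Fin N → Fin N → ℝ} (hβ : ∀ i r, G (i, r) = ∑ j, β i j * Q.1 j r)
    (α : Fin N → ℝ) : Q.1.mulVec (vr I G α) = fun j => ∑ i ∈ I, α i * β i j := by
  rw [← mulVec_rows Q fun j => ∑ i ∈ I, α i * β i j]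
  congr 1
  funext r
  simp only [vr, hβ, mul_sum, sum_mul, mul_assoc]
  exact sum_comm

lemma dist_eq {Q : O N} {β : Fin N → Fin N → ℝ} (hβ : ∀ i r, G (i, r) = ∑ j, β i j * Q.1 j r)
    (α : Fin N → ℝ) : ∑ r, (s r - vr I G α r) ^ 2 =
      ∑ j, (Q.1.mulVec s j - ∑ i ∈ I, α i * β i j) ^ 2 := by
  have h := sum_sq_mulVec Q (s - vr I G α)
  rw [Matrix.mulVec_sub, vr_eq hβ] at h
  exact h.symm

lemma Qe_le (hε : 0 ≤ ε) (hs : ∑ r, s r ^ 2 = N) {Q : O N} {β : Fin N → Fin N → ℝ}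
    (hβ : ∀ i r, G (i, r) = ∑ j, β i j * Q.1 j r) (h0 : ∀ i ∈ I, ∀ j, j ∉ I → β i j = 0) :
    Qe ε I s G ≤ ∑ j ∈ I, Q.1.mulVec s j ^ 2 := by
  refine ciSup_le fun α => ?_
  have h2 : 0 ≤ ε * N * ∑ i ∈ I, α i ^ 2 :=
    mul_nonneg (mul_nonneg hε (Nat.cast_nonneg _)) (sum_nonneg fun _ _ => sq_nonneg _)
  have h3 : ∑ j ∈ Iᶜ, Q.1.mulVec s j ^ 2 ≤ ∑ j, (Q.1.mulVec s j - ∑ i ∈ I, α i * β i j) ^ 2 := by
    refine le_trans (le_of_eq ?_)
      (sum_le_sum_of_subset_of_nonneg (subset_univ Iᶜ) fun _ _ _ => sq_nonneg _)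
    refine sum_congr rfl fun j hj => ?_
    rw [sum_eq_zero fun i hi => by rw [h0 i hi j (mem_compl.1 hj), mul_zero], sub_zero]
  have h4 := sum_add_sum_compl I fun j => Q.1.mulVec s j ^ 2
  rw [sum_sq_mulVec, hs] at h4
  unfold val
  rw [dist_eq hβ]
  linarith

lemma Smin_mono {a : ℝ} {J : Finset (Fin N)} (hIJ : I ⊆ J) (h : Smin a J G) (α : Fin N → ℝ) :
    a * N * ∑ i ∈ I, α i ^ 2 ≤ ∑ r, vr I G α r ^ 2 := by
  have := h fun i => if i ∈ I then α i else 0
  have e1 : ∑ i ∈ J, (if i ∈ I then α i else 0) ^ 2 = ∑ i ∈ I, α i ^ 2 := by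
    rw [← sum_subset hIJ fun i _ hi => by simp [hi]]
    exact sum_congr rfl fun i hi => by simp [hi]
  have e2 : ∀ r, ∑ i ∈ J, (if i ∈ I then α i else 0) * G (i, r) = vr I G α r := fun r => by
    rw [← sum_subset hIJ fun i _ hi => by simp [hi]]
    exact sum_congr rfl fun i hi => by simp [hi]
  simpa only [e1, e2] using this

lemma le_Qe (hε : 0 ≤ ε) (hs : ∑ r, s r ^ 2 = N) (hN : 0 < N) {Q : O N} {β : Fin N → Fin N → ℝ}
    (hβ : ∀ i r, G (i, r) = ∑ j, β i j * Q.1 j r) (h0 : ∀ i ∈ I, ∀ j, j ∉ I → β i j = 0)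
    {a : ℝ} (ha : 0 < a) {J : Finset (Fin N)} (hIJ : I ⊆ J) (h : Smin a J G) :
    ∑ j ∈ I, Q.1.mulVec s j ^ 2 ≤ Qe ε I s G + N * (ε / a) := by
  have hN' : (0 : ℝ) < N := Nat.cast_pos.2 hN
  have hv : ∀ α : Fin N → ℝ, ∑ r, vr I G α r ^ 2 = ∑ j ∈ I, (∑ i ∈ I, α i * β i j) ^ 2 := by
    intro α
    rw [← sum_sq_mulVec Q, vr_eq hβ]
    refine (sum_subset (subset_univ I) fun j _ hj => ?_).symm
    beta_reduce
    rw [sum_eq_zero fun i hi => by rw [h0 i hi j hj, mul_zero]]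
    simp
  let T : (Fin N → ℝ) →ₗ[ℝ] (Fin N → ℝ) :=
    { toFun := fun α j => if j ∈ I then ∑ i ∈ I, α i * β i j else α j
      map_add' := fun α α' => by
        funext j
        by_cases hj : j ∈ I <;> simp [hj, add_mul, sum_add_distrib]
      map_smul' := fun c α => by
        funext j
        by_cases hj : j ∈ I <;> simp [hj, mul_sum, mul_assoc] }
  have hT : ∀ α j, T α j = if j ∈ I then ∑ i ∈ I, α i * β i j else α j := fun _ _ => rfl
  have hinj : Function.Injective T := by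
    rw [injective_iff_map_eq_zero]
    intro α hα
    have h1 := Smin_mono hIJ h α
    rw [hv, sum_eq_zero (s := I) (f := fun j => (∑ i ∈ I, α i * β i j) ^ 2) fun j hj => by
      have := congrFun hα j
      rw [hT, if_pos hj] at this
      rw [this]; simp] at h1
    have h2 : ∑ i ∈ I, α i ^ 2 = 0 := by
      refine le_antisymm ?_ (sum_nonneg fun _ _ => sq_nonneg _)
      by_contra hc
      exact absurd h1 (not_le.2 (mul_pos (mul_pos ha hN') (not_le.1 hc)))
    funext j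
    by_cases hj : j ∈ I
    · exact pow_eq_zero_iff two_ne_zero |>.1
        ((sum_eq_zero_iff_of_nonneg fun _ _ => sq_nonneg _).1 h2 j hj)
    · have := congrFun hα j
      rwa [hT, if_neg hj] at this
  obtain ⟨α, hα⟩ := LinearMap.injective_iff_surjective.1 hinj (Q.1.mulVec s)
  have hγ : ∀ j ∈ I, ∑ i ∈ I, α i * β i j = Q.1.mulVec s j := fun j hj => by
    have := congrFun hα j
    rwa [hT, if_pos hj] at this
  have h4 := sum_add_sum_compl I fun j => Q.1.mulVec s j ^ 2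
  rw [sum_sq_mulVec, hs] at h4
  have h5 : ∑ j, (Q.1.mulVec s j - ∑ i ∈ I, α i * β i j) ^ 2 = ∑ j ∈ Iᶜ, Q.1.mulVec s j ^ 2 := by
    rw [← sum_add_sum_compl I, sum_eq_zero fun j hj => by rw [hγ j hj]; simp, zero_add]
    refine sum_congr rfl fun j hj => ?_
    rw [sum_eq_zero fun i hi => by rw [h0 i hi j (mem_compl.1 hj), mul_zero], sub_zero]
  have h6 := Smin_mono hIJ h α
  rw [hv, show ∑ j ∈ I, (∑ i ∈ I, α i * β i j) ^ 2 = ∑ j ∈ I, Q.1.mulVec s j ^ 2 from
    sum_congr rfl fun j hj => by rw [hγ j hj]] at h6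
  have h7 : 0 ≤ ∑ j ∈ Iᶜ, Q.1.mulVec s j ^ 2 := sum_nonneg fun _ _ => sq_nonneg _
  have h8 : ε * N * ∑ i ∈ I, α i ^ 2 ≤ N * (ε / a) := by
    have : ε * N * ∑ i ∈ I, α i ^ 2 = (ε / a) * (a * N * ∑ i ∈ I, α i ^ 2) := by field_simp
    rw [this, mul_comm (N : ℝ) (ε / a)]
    exact mul_le_mul_of_nonneg_left (by linarith) (by positivity)
  have h9 := val_le_Qe (I := I) (s := s) (G := G) hε α
  unfold val at h9
  rw [dist_eq hβ, h5] at h9
  linarith

/-- Free energy of a Hamiltonian. -/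
noncomputable def FE (H : (Fin N → Bool) → ℝ) : ℝ :=
  (1 / (N : ℝ)) * Real.log ((1 / 2) ^ N * ∑ σ : Fin N → Bool, Real.exp (H σ))

lemma FE_le (hN : 0 < N) {H H' : (Fin N → Bool) → ℝ} {t : ℝ} (h : ∀ σ, H σ ≤ H' σ + N * t) :
    FE H ≤ FE H' + t := by
  have hN' : (0 : ℝ) < N := Nat.cast_pos.2 hN
  have pos : ∀ H : (Fin N → Bool) → ℝ, 0 < (1 / 2 : ℝ) ^ N * ∑ σ : Fin N → Bool, Real.exp (H σ) :=
    fun H => mul_pos (by positivity) (sum_pos (fun _ _ => exp_pos _) univ_nonempty)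
  have h1 : Real.log ((1 / 2) ^ N * ∑ σ : Fin N → Bool, Real.exp (H σ)) ≤
      Real.log ((1 / 2) ^ N * ∑ σ : Fin N → Bool, Real.exp (H' σ)) + N * t := by
    rw [← Real.log_exp (N * t), ← Real.log_mul (pos H').ne' (exp_pos _).ne']
    refine Real.log_le_log (pos H) ?_
    rw [mul_assoc, sum_mul]
    refine mul_le_mul_of_nonneg_left (sum_le_sum fun σ _ => ?_) (by positivity)
    rw [← exp_add]
    exact exp_le_exp.2 (h σ)
  unfold FE
  calc _ ≤ (1 / (N : ℝ)) * (Real.log ((1 / 2) ^ N * ∑ σ : Fin N → Bool, Real.exp (H' σ)) + N * t) :=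
        mul_le_mul_of_nonneg_left h1 (by positivity)
    _ = _ := by field_simp

lemma abel_pt {n : ℕ} (lam : Fin (n + 1) → ℝ) (a : Fin (n + 1)) :
    lam a = lam 0 + ∑ b : Fin n, if b.succ ≤ a then lam b.succ - lam b.castSucc else 0 := by
  induction a using Fin.induction with
  | zero => simp
  | succ k ih =>
    have : ∀ b : Fin n, (if b.succ ≤ k.succ then lam b.succ - lam b.castSucc else 0) =
        (if b.succ ≤ k.castSucc then lam b.succ - lam b.castSucc else 0) +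
          if b = k then lam b.succ - lam b.castSucc else 0 := by
      intro b
      by_cases h1 : b = k
      · subst h1
        have : ¬ b.succ ≤ b.castSucc := not_le.2 b.castSucc_lt_succ
        simp [this]
      · have h2 : b.val ≠ k.val := fun h => h1 (Fin.ext h)
        have : b.succ ≤ k.succ ↔ b.succ ≤ k.castSucc := by
          simp only [Fin.le_def, Fin.val_succ, Fin.val_castSucc]
          omega
        simp only [this, h1, if_false, add_zero]
    simp only [this, sum_add_distrib, sum_ite_eq', mem_univ, if_true]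
    linarith

lemma sum_incr {n : ℕ} (lam : Fin (n + 1) → ℝ) :
    ∑ b : Fin n, (lam b.succ - lam b.castSucc) = lam (Fin.last n) - lam 0 := by
  rw [abel_pt lam (Fin.last n)]
  simp [Fin.le_last]

lemma abel_sum {n : ℕ} (lam : Fin (n + 1) → ℝ) (sp : Fin N → Fin (n + 1)) (y : Fin N → ℝ) :
    ∑ i, lam (sp i) * y i ^ 2 = lam 0 * ∑ i, y i ^ 2 + ∑ b : Fin n,
      (lam b.succ - lam b.castSucc) * ∑ i ∈ univ.filter fun i => b.succ ≤ sp i, y i ^ 2 := by
  have : ∀ i, lam (sp i) * y i ^ 2 = lam 0 * y i ^ 2 + ∑ b : Fin n,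
      (lam b.succ - lam b.castSucc) * if b.succ ≤ sp i then y i ^ 2 else 0 := by
    intro i
    rw [abel_pt lam (sp i), add_mul, sum_mul]
    congr 1
    exact sum_congr rfl fun b _ => by split_ifs <;> simp
  simp only [this, sum_add_distrib, sum_filter, mul_sum]
  rw [sum_comm]

lemma sum_spin_sq (σ : Fin N → Bool) : ∑ r, spinVec σ r ^ 2 = N := by
  have : ∀ i, spinVec σ i ^ 2 = 1 := fun i => by unfold spinVec; split_ifs <;> norm_num
  simp [this]

end Proxy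

open Proxy in
theorem exists_proxy {n N : ℕ} {lam : Fin (n + 1) → ℝ} (hlam : Monotone lam) (hN : 0 < N)
    (sp : Fin N → Fin (n + 1)) (c : Fin N → ℝ) {ε : ℝ} (hε : 0 < ε) :
    ∃ Ψ : (Fin N × Fin N → ℝ) → ℝ, Measurable Ψ ∧
      (∀ G Q, Flag sp G Q → Ψ G ≤ pressureFieldN (fun i => lam (sp i)) Q.1 c) ∧
      (∀ G Q (a : ℝ), 0 < a → Flag sp G Q → Smin a (univ.filter fun i => sp i ≠ 0) G →
        pressureFieldN (fun i => lam (sp i)) Q.1 c - (lam (Fin.last n) - lam 0) * (ε / a) ≤ Ψ G) ∧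
      ∀ (G G' : Fin N × Fin N → ℝ) (r : ℝ), 0 ≤ r → ∑ p, (G p - G' p) ^ 2 ≤ r ^ 2 * N →
        Ψ G - (lam (Fin.last n) - lam 0) * (6 * r / √ε + r ^ 2 / ε) ≤ Ψ G' := by
  have hN' : (0 : ℝ) < N := Nat.cast_pos.2 hN
  set I : Fin n → Finset (Fin N) := fun b => univ.filter fun i => b.succ ≤ sp i with hI
  set d : Fin n → ℝ := fun b => lam b.succ - lam b.castSucc with hd
  have hd0 : ∀ b, 0 ≤ d b := fun b => sub_nonneg.2 (hlam b.castSucc_lt_succ.le)
  have hds : ∑ b, d b = lam (Fin.last n) - lam 0 := sum_incr lam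
  have hΔ : 0 ≤ lam (Fin.last n) - lam 0 := sub_nonneg.2 (hlam (Fin.zero_le _))
  -- comparison of two Hamiltonians of the same shape
  have cmp : ∀ (X X' : (Fin N → Bool) → Fin n → ℝ) (t : ℝ), 0 ≤ t →
      (∀ σ b, X σ b ≤ X' σ b + N * t) →
      FE (fun σ => (1 / 2) * (lam 0 * N + ∑ b, d b * X σ b) + ∑ r, c r * spinVec σ r) ≤
        FE (fun σ => (1 / 2) * (lam 0 * N + ∑ b, d b * X' σ b) + ∑ r, c r * spinVec σ r) +
          (lam (Fin.last n) - lam 0) * t := by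
    intro X X' t ht h
    refine FE_le hN fun σ => ?_
    have h1 : ∑ b, d b * X σ b ≤ ∑ b, d b * X' σ b + N * ((lam (Fin.last n) - lam 0) * t) := by
      calc _ ≤ ∑ b, d b * (X' σ b + N * t) :=
            sum_le_sum fun b _ => mul_le_mul_of_nonneg_left (h σ b) (hd0 b)
        _ = _ := by simp only [mul_add, sum_add_distrib, ← sum_mul, hds]; ring
    have h2 : 0 ≤ N * ((lam (Fin.last n) - lam 0) * t) := by positivity
    linarith
  have hP : ∀ Q : O N, pressureFieldN (fun i => lam (sp i)) Q.1 c =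
      FE (fun σ => (1 / 2) * (lam 0 * N + ∑ b, d b * ∑ j ∈ I b, Q.1.mulVec (spinVec σ) j ^ 2) +
        ∑ r, c r * spinVec σ r) := by
    intro Q
    unfold pressureFieldN FE
    simp only [abel_sum lam sp, sum_sq_mulVec, sum_spin_sq]
    rfl
  have hβ0 : ∀ {β : Fin N → Fin N → ℝ}, (∀ i j, sp j < sp i → β i j = 0) →
      ∀ b, ∀ i ∈ I b, ∀ j, j ∉ I b → β i j = 0 := by
    intro β h b i hi j hj
    simp only [hI, mem_filter, mem_univ, true_and, not_le] at hi hj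
    exact h i j (hj.trans_le hi)
  refine ⟨fun G => FE fun σ => (1 / 2) * (lam 0 * N + ∑ b, d b * Qe ε (I b) (spinVec σ) G) +
    ∑ r, c r * spinVec σ r, ?_, ?_, ?_, ?_⟩
  · unfold FE
    refine Measurable.const_mul (Measurable.log (Measurable.const_mul ?_ _)) _
    refine Finset.measurable_sum _ fun σ _ => Measurable.exp ?_
    refine Measurable.add_const (Measurable.const_mul (Measurable.const_add ?_ _) _) _
    exact Finset.measurable_sum _ fun b _ => (measurable_Qe hε.le).const_mul _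
  · intro G Q hF
    choose β h0 hβ using hF
    rw [hP]
    simpa using cmp (fun σ b => Qe ε (I b) (spinVec σ) G)
      (fun σ b => ∑ j ∈ I b, Q.1.mulVec (spinVec σ) j ^ 2) 0 le_rfl fun σ b => by
        simpa using Qe_le hε.le (sum_spin_sq σ) hβ (hβ0 h0 b)
  · intro G Q a ha hF hS
    choose β h0 hβ using hF
    rw [hP, sub_le_iff_le_add]
    refine cmp _ _ _ (by positivity) fun σ b => ?_
    refine le_Qe hε.le (sum_spin_sq σ) hN hβ (hβ0 h0 b) ha (fun i hi => ?_) hS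
    simp only [hI, mem_filter, mem_univ, true_and] at hi ⊢
    exact (b.succ_pos.trans_le hi).ne'
  · intro G G' r hr h
    rw [sub_le_iff_le_add]
    refine cmp _ _ _ (by positivity) fun σ b => ?_
    refine (Qe_lip hε (sum_spin_sq σ) hN hr h).trans ?_
    gcongr
    norm_num

end Crest.Agent.R164
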