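import Crest.Agent.R164.Lower
import Crest.Agent.R164.FinUp

/-! # Row 164: lower tail of the pressure for a finite spectrum -/

set_option autoImplicit false

namespace Crest.Agent.R164

open MeasureTheory ProbabilityTheory Real Finset Crest.ProbabilityR.InvariantGlass

lemma exists_group_map {J : ℕ} {γ : Fin J → ℚ} (hγ : ∀ j, 0 < γ j) (hγ1 : ∑ j, γ j = 1) (n₀ : ℕ) :
    ∃ n, n₀ ≤ n ∧ ∃ τ : Fin (n + 1) → Fin J, ∀ j, ((blk τ j).card : ℚ) = γ j * (n + 1) := by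
  have hpos : 0 < ∏ j, (γ j).den := Finset.prod_pos fun j _ => (γ j).den_pos
  obtain ⟨n, hn⟩ : ∃ n, (n₀ + 1) * ∏ j, (γ j).den = n + 1 :=
    Nat.exists_eq_succ_of_ne_zero (by positivity)
  have hc : ∀ j, ∃ c : ℕ, (c : ℚ) = γ j * (n + 1) := fun j => by
    obtain ⟨t, ht⟩ : (γ j).den ∣ n + 1 := by
      rw [← hn]
      exact Dvd.dvd.mul_left (Finset.dvd_prod_of_mem _ (mem_univ j)) _
    refine ⟨(γ j).num.toNat * t, ?_⟩
    have h1 : ((n : ℚ) + 1) = (γ j).den * t := by exact_mod_cast ht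
    have h2 : (((γ j).num.toNat : ℕ) : ℚ) = (γ j).num := by
      have := Int.toNat_of_nonneg (Rat.num_nonneg.2 (hγ j).le)
      exact_mod_cast this
    rw [h1, ← mul_assoc, Rat.mul_den_eq_num, Nat.cast_mul, h2]
  choose c hc using hc
  have hsum : ∑ j, c j = n + 1 := by
    have : ((∑ j, c j : ℕ) : ℚ) = ((n + 1 : ℕ) : ℚ) := by
      push_cast
      simp only [hc, ← Finset.sum_mul, hγ1, one_mul]
    exact_mod_cast this
  let e : Fin (n + 1) ≃ Σ j, Fin (c j) := Fintype.equivOfCardEq (by simp [hsum])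
  refine ⟨n, by nlinarith, fun a => (e a).1, fun j => ?_⟩
  rw [← hc j, blk, Finset.card_filter,
    Equiv.sum_comp e (fun x : Σ j, Fin (c j) => if x.1 = j then 1 else 0), Fintype.sum_sigma,
    Finset.sum_eq_single j]
  · simp
  · intro j' _ hj'
    simp [hj']
  · simp

lemma sum_comp_blk {n J : ℕ} {γ : Fin J → ℚ} (τ : Fin (n + 1) → Fin J)
    (hτ : ∀ j, ((blk τ j).card : ℚ) = γ j * (n + 1)) (g : Fin J → ℝ) :
    ∑ a, 1 / ((n : ℝ) + 1) * g (τ a) = ∑ j, ((γ j : ℚ) : ℝ) * g j := by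
  rw [← sum_blk τ]
  refine Finset.sum_congr rfl fun j _ => ?_
  have h1 : ((blk τ j).card : ℝ) = ((γ j : ℚ) : ℝ) * (n + 1) := by exact_mod_cast hτ j
  rw [Finset.sum_congr rfl (g := fun _ => 1 / ((n : ℝ) + 1) * g j)
    fun a ha => by rw [(Finset.mem_filter.1 ha).2], Finset.sum_const, nsmul_eq_mul, h1]
  field_simp

lemma sLe_group {n J : ℕ} {γ : Fin J → ℚ} (hγ : ∀ j, 0 < γ j) (τ : Fin (n + 1) → Fin J)
    (hτ : ∀ j, ((blk τ j).card : ℚ) = γ j * (n + 1)) {m : Fin J → ℝ} {p : ℝ → ℝ} {s : ℝ}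
    (h : SLe (fun _ => 1 / ((n : ℝ) + 1)) (fun a => m (τ a)) p s) :
    SLe (fun j => ((γ j : ℚ) : ℝ)) m p s := by
  intro k w hv hw η hη
  obtain ⟨b, hb⟩ := h k w hv hw η hη
  have hne : ∀ j, (blk τ j).Nonempty := fun j => by
    rw [← Finset.card_pos]
    have : (0 : ℚ) < (blk τ j).card := by
      rw [hτ j]; have := hγ j; positivity
    exact_mod_cast this
  choose a ha hmin using fun j => Finset.exists_min_image (blk τ j)
    (fun a => fieldValueAt (b a) w hv - b a * m j) (hne j)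
  refine ⟨fun j => b (a j), le_trans (add_le_add_left ?_ _) hb⟩
  rw [← sum_comp_blk τ hτ fun j => fieldValueAt (b (a j)) w hv - b (a j) * m j]
  refine Finset.sum_le_sum fun i _ => mul_le_mul_of_nonneg_left ?_ (by positivity)
  exact hmin (τ i) i (Finset.mem_filter.2 ⟨mem_univ _, rfl⟩)

theorem fin_lower {n : ℕ} (hn : 1 ≤ n) {lam : Fin (n + 1) → ℝ} (hlam : Monotone lam) {J : ℕ}
    (cval : Fin J → ℝ) {γ : Fin J → ℚ} (hγ : ∀ j, 0 < γ j) (τ : Fin (n + 1) → Fin J)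
    (hτ : ∀ j, ((blk τ j).card : ℚ) = γ j * (n + 1)) (h : ∀ N, Haar N) {F : ℝ}
    (hF : (F : EReal) < magneticValue (muf lam) (lam (Fin.last n)) cval γ) :
    ∃ a : ℝ, 0 < a ∧ ∀ᶠ N : ℕ in Filter.atTop,
      (h N).κ.real {U | pressureFieldN (fun i => lam (pat n N i)) U.1 (fun r => cval (τ (pat n N r))) ≤ F}
        ≤ exp (-a * N) := by
  obtain ⟨m, hm⟩ := lt_iSup_iff.1 hF
  obtain ⟨hm1, hm⟩ := lt_iSup_iff.1 hm
  obtain ⟨F₁, hF₁, hF₂⟩ := EReal.lt_iff_exists_real_btwn.1 hm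
  have hFF : F < F₁ := EReal.coe_lt_coe_iff.1 hF₁
  set A : ℝ := ∑ j : Fin J, ((γ j : ℚ) : ℝ) * cval j * ((m j : ℚ) : ℝ) with hA
  have hs : ∀ p s', IsTrialPath p →
      SLe (fun _ => 1 / ((n : ℝ) + 1)) (fun a => ((m (τ a) : ℚ) : ℝ)) p s' →
      F₁ - A ≤ s' + spectralPart (muf lam) (lam (Fin.last n)) p := by
    intro p s' hp hS
    have h1 := (sLe_iff hγ hm1 s').2 (sLe_group hγ τ hτ (m := fun j => ((m j : ℚ) : ℝ)) hS)
    have h2 : (F₁ : EReal) ≤ ((A + (s' + spectralPart (muf lam) (lam (Fin.last n)) p) : ℝ) :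
        EReal) := by
      refine hF₂.le.trans ?_
      rw [EReal.coe_add, EReal.coe_add]
      exact add_le_add le_rfl ((iInf₂_le p hp).trans (add_le_add h1 le_rfl))
    have h3 := EReal.coe_le_coe_iff.1 h2
    linarith
  have hsum : (∑ a, cval (τ a) * ((m (τ a) : ℚ) : ℝ)) / (n + 1) + (F₁ - A) = F₁ := by
    have := sum_comp_blk τ hτ fun j => cval j * ((m j : ℚ) : ℝ)
    rw [← Finset.mul_sum] at this
    rw [hA]
    simp only [mul_assoc]
    rw [← this]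
    ring
  have hmabs : ∀ a, |((m (τ a) : ℚ) : ℝ)| < 1 := fun a => by
    rw [abs_lt]
    exact ⟨by exact_mod_cast (hm1 (τ a)).1, by exact_mod_cast (hm1 (τ a)).2⟩
  have := lower_tail hlam h (pat n) (bal_pat n) (fun N r => cval (τ (pat n N r)))
    (B := ∑ j, |cval j|) (fun N r => Finset.single_le_sum (f := fun j => |cval j|)
      (fun j _ => abs_nonneg _) (mem_univ _)) (F := F₁) (fun η hη0 hη1 ε hε => by
      have := lower_moment hn hlam (fun a => cval (τ a)) (fun a => ((m (τ a) : ℚ) : ℝ)) hmabs hs h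
        hη0 hη1 hε
      rwa [hsum] at this) (sub_pos.2 hFF)
  rwa [sub_sub_cancel] at this

end Crest.Agent.R164
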