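import Crest.Agent.R164.NestGauss
import Crest.Agent.R164.Overlap

/-! # Row 164: one-replica overlap observables used in the Ghirlanda-Guerra argument -/

set_option autoImplicit false

namespace Crest.Agent.R164

open MeasureTheory ProbabilityTheory Real Finset

namespace Lev.GG

variable {K : ℕ} {Ω ι : Type} [MeasurableSpace Ω] {L : Lev K Ω} {H : Cfg K Ω → ℝ} {I : Finset ι}
  {y : ι → Cfg K Ω → ℝ}

lemma S_const_mul (l : ℕ) (c : ℝ) (H f : Cfg K Ω → ℝ) (ω : Cfg K Ω) :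
    L.S l H (fun ω => c * f ω) ω = c * L.S l H f ω := by
  simp only [S, E_const_mul, mul_sum]
  exact sum_congr rfl fun e _ => by ring

lemma S_sum (hH : L.Lin H) (hy : ∀ i ∈ I, L.Nice (y i)) (l : ℕ) (ω : Cfg K Ω) :
    L.S l H (fun ω => ∑ i ∈ I, y i ω) ω = ∑ i ∈ I, L.S l H (y i) ω := by
  simp only [S, E_sum hH I hy, ← sum_sub_distrib, mul_sum]
  exact sum_comm

/-- `y · m_e / |I|`. -/
noncomputable def NN (L : Lev K Ω) (H : Cfg K Ω → ℝ) (I : Finset ι) (y : ι → Cfg K Ω → ℝ) (e : ℕ)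
    (ω : Cfg K Ω) : ℝ := (∑ i ∈ I, y i ω * L.E (e + 1) H (y i) ω) / I.card

/-- The response term. -/
noncomputable def BB (L : Lev K Ω) (H : Cfg K Ω → ℝ) (I : Finset ι) (y : ι → Cfg K Ω → ℝ) (e : ℕ)
    (ω : Cfg K Ω) : ℝ :=
  (∑ i ∈ I, ∑ j ∈ I, y i ω * y j ω *
    L.E (e + 1) H (fun ω' => y j ω' * L.S (e + 1) H (y i) ω') ω) / (I.card : ℝ) ^ 2

/-- Covariance. -/
noncomputable def Cov (L : Lev K Ω) (H f g : Cfg K Ω → ℝ) : ℝ :=
  L.E0 H (fun ω => f ω * g ω) - L.E0 H f * L.E0 H g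

lemma Cov_self (f : Cfg K Ω → ℝ) : Cov L H f f = L.Var H f := by
  simp only [Cov, Var, pow_two]

lemma abs_Cov_le (hH : L.Lin H) {f g : Cfg K Ω → ℝ} (hf : L.Nice f) (hg : L.Nice g) {a b : ℝ}
    (ha : 0 ≤ a) (hb : 0 ≤ b) (h1 : L.Var H f ≤ a ^ 2) (h2 : L.Var H g ≤ b ^ 2) :
    |Cov L H f g| ≤ a * b := by
  refine abs_le_of_sq_le_sq' ?_ (mul_nonneg ha hb) |> abs_le.2
  refine (cov_sq_le hH hf hg).trans ?_
  rw [mul_pow]
  exact mul_le_mul h1 h2 (Var_nonneg hH hg) (by positivity)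

lemma nice_NN (hH : L.Lin H) (hy : ∀ i ∈ I, L.Nice (y i)) (e : ℕ) : L.Nice (NN L H I y e) :=
  Nice.div_const _ (Nice.sum I fun i hi => (hy i hi).mul (Nice.E hH (hy i hi) _))

lemma nice_BB (hH : L.Lin H) (hy : ∀ i ∈ I, L.Nice (y i)) (e : ℕ) : L.Nice (BB L H I y e) :=
  Nice.div_const _ (Nice.sum I fun i hi => Nice.sum I fun j hj =>
    ((hy i hi).mul (hy j hj)).mul (Nice.E hH ((hy j hj).mul (Nice.S hH (hy i hi) _)) _))

lemma E0_NN (hH : L.Lin H) (hy : ∀ i ∈ I, L.Nice (y i)) (e : ℕ) :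
    L.E0 H (NN L H I y e) = L.qq H I y e := by
  unfold NN qq E0
  rw [E_div_const, E_sum hH I fun i hi => (hy i hi).mul (Nice.E hH (hy i hi) _),
    E_sum hH I fun i hi => (Nice.E hH (hy i hi) _).pow 2]
  congr 1
  refine sum_congr rfl fun i hi => ?_
  rw [E_mul_E hH (hy i hi) (hy i hi) (Nat.zero_le _)]
  simp only [pow_two]

omit [MeasurableSpace Ω] in
lemma rr_nonneg (ω : Cfg K Ω) : 0 ≤ rr I y ω :=
  div_nonneg (sum_nonneg fun _ _ => sq_nonneg _) (Nat.cast_nonneg _)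

omit [MeasurableSpace Ω] in
lemma sq_dot_le (hI : I.Nonempty) {κ : ℝ} {ω : Cfg K Ω} (hκ : rr I y ω ≤ κ) (v : ι → ℝ) :
    ((∑ i ∈ I, y i ω * v i) / I.card) ^ 2 ≤ κ * ((∑ i ∈ I, v i ^ 2) / I.card) := by
  have hn : (0 : ℝ) < I.card := by exact_mod_cast card_pos.2 hI
  have h1 := sum_mul_sq_le_sq_mul_sq I (fun i => y i ω) v
  have h2 : 0 ≤ (∑ i ∈ I, v i ^ 2) / I.card :=
    div_nonneg (sum_nonneg fun _ _ => sq_nonneg _) hn.le
  refine le_trans ?_ (mul_le_mul_of_nonneg_right hκ h2)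
  rw [rr, div_pow, div_mul_div_comm, ← pow_two]
  exact div_le_div_of_nonneg_right h1 (by positivity)

lemma NN_sq_le (hH : L.Lin H) (hI : I.Nonempty) (hy : ∀ i ∈ I, L.Nice (y i)) {κ : ℝ}
    (hκ : ∀ ω, rr I y ω ≤ κ) (e : ℕ) (ω : Cfg K Ω) : NN L H I y e ω ^ 2 ≤ κ ^ 2 := by
  have hκ0 : 0 ≤ κ := (rr_nonneg ω).trans (hκ ω)
  refine (sq_dot_le hI (hκ ω) _).trans ?_
  rw [pow_two κ]
  refine mul_le_mul_of_nonneg_left ?_ hκ0
  calc _ ≤ (∑ i ∈ I, L.E (e + 1) H (fun ω => y i ω ^ 2) ω) / I.card :=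
        div_le_div_of_nonneg_right (sum_le_sum fun i hi => sq_E_le hH (hy i hi) _ _)
          (Nat.cast_nonneg _)
    _ = L.E (e + 1) H (rr I y) ω := by
        unfold rr
        rw [E_div_const, E_sum hH I fun i hi => (hy i hi).pow 2]
    _ ≤ L.E (e + 1) H (fun _ => κ) ω := E_mono hH (nice_rr hy) (nice_const κ) hκ _ _
    _ = κ := E_const hH _ _ _

lemma Var_NN_le (hH : L.Lin H) (hI : I.Nonempty) (hy : ∀ i ∈ I, L.Nice (y i)) {κ : ℝ}
    (hκ : ∀ ω, rr I y ω ≤ κ) (e : ℕ) : L.Var H (NN L H I y e) ≤ κ ^ 2 := by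
  have h1 : L.E0 H (fun ω => NN L H I y e ω ^ 2) ≤ L.E0 H (fun _ => κ ^ 2) :=
    E_mono hH ((nice_NN hH hy e).pow 2) (nice_const _) (NN_sq_le hH hI hy hκ e) _ _
  rw [E0, E0, E_const hH] at h1
  unfold Var
  rw [E0]
  linarith [sq_nonneg (L.E0 H (NN L H I y e))]

/-- The overlap fluctuations are controlled by the response term and by those of `NN`. -/
lemma VV_le (hH : L.Lin H) (hy : ∀ i ∈ I, L.Nice (y i)) (e : ℕ) {η : ℝ} (hη : η ≤ L.ζ (e + 1)) :
    η * (L.VV H I y e (L.qq H I y e) - L.Var H (NN L H I y e)) ≤ L.E0 H (BB L H I y e) := by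
  let W : Cfg K Ω → ℝ := fun ω => ∑ i ∈ I, ∑ j ∈ I, y i ω * y j ω *
      L.E (e + 1) H (fun ω' => y i ω' * y j ω') ω
  have hW : L.Nice W := Nice.sum I fun i hi => Nice.sum I fun j hj =>
    ((hy i hi).mul (hy j hj)).mul (Nice.E hH ((hy i hi).mul (hy j hj)) _)
  have h1 : η * (L.VV H I y e (L.qq H I y e) - L.Var H (NN L H I y e)) =
      L.E0 H fun ω => η * (W ω / (I.card : ℝ) ^ 2 - NN L H I y e ω ^ 2) := by
    rw [E0, E_const_mul, E_sub hH (hW.div_const _) ((nice_NN hH hy e).pow 2), E_div_const, VV, Var,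
      E0_NN hH hy]
    simp only [E0, W]
    ring
  rw [h1]
  refine E_mono hH (((hW.div_const _).sub ((nice_NN hH hy e).pow 2)).const_mul _)
    (nice_BB hH hy e) (fun ω => ?_) _ _
  have hu : ∀ i ∈ I, L.Nice fun ω' => y i ω * y i ω' := fun i hi => (hy i hi).const_mul _
  have hk : L.Nice fun ω' => ∑ i ∈ I, y i ω * y i ω' := Nice.sum I hu
  have h2 := E_mul_S_ge hH hk (e + 1) ω
  have h3 := sq_E_le hH hk (e + 1) ω
  have e1 : L.E (e + 1) H (fun ω' => (∑ i ∈ I, y i ω * y i ω') ^ 2) ω = W ω := by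
    have : (fun ω' => (∑ i ∈ I, y i ω * y i ω') ^ 2) =
        fun ω' => ∑ i ∈ I, ∑ j ∈ I, y i ω * y j ω * (y i ω' * y j ω') := by
      funext ω'
      rw [pow_two, sum_mul_sum]
      exact sum_congr rfl fun i _ => sum_congr rfl fun j _ => by ring
    rw [this, E_sum hH I fun i hi => Nice.sum I fun j hj => ((hy i hi).mul (hy j hj)).const_mul _]
    refine sum_congr rfl fun i hi => ?_
    rw [E_sum hH I fun j hj => ((hy i hi).mul (hy j hj)).const_mul _]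
    simp only [E_const_mul]
  have e2 : L.E (e + 1) H (fun ω' => ∑ i ∈ I, y i ω * y i ω') ω =
      ∑ i ∈ I, y i ω * L.E (e + 1) H (y i) ω := by
    rw [E_sum hH I hu]
    simp only [E_const_mul]
  have e3 : L.E (e + 1) H (fun ω' => (∑ i ∈ I, y i ω * y i ω') *
      L.S (e + 1) H (fun ω' => ∑ i ∈ I, y i ω * y i ω') ω') ω =
      ∑ i ∈ I, ∑ j ∈ I, y i ω * y j ω *
        L.E (e + 1) H (fun ω' => y j ω' * L.S (e + 1) H (y i) ω') ω := by
    have : (fun ω' => (∑ i ∈ I, y i ω * y i ω') *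
        L.S (e + 1) H (fun ω' => ∑ i ∈ I, y i ω * y i ω') ω') =
        fun ω' => ∑ i ∈ I, ∑ j ∈ I, y i ω * y j ω * (y j ω' * L.S (e + 1) H (y i) ω') := by
      funext ω'
      rw [S_sum hH hu, mul_comm, sum_mul_sum]
      refine sum_congr rfl fun i _ => sum_congr rfl fun j _ => ?_
      rw [S_const_mul]; ring
    rw [this, E_sum hH I fun i hi => Nice.sum I fun j hj =>
      ((hy j hj).mul (Nice.S hH (hy i hi) _)).const_mul _]
    refine sum_congr rfl fun i hi => ?_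
    rw [E_sum hH I fun j hj => ((hy j hj).mul (Nice.S hH (hy i hi) _)).const_mul _]
    simp only [E_const_mul]
  rw [e1, e2] at h2 h3
  rw [e3] at h2
  rw [BB, NN, div_pow, ← sub_div, ← mul_div_assoc]
  refine div_le_div_of_nonneg_right (le_trans ?_ h2) (by positivity)
  exact mul_le_mul_of_nonneg_right hη (sub_nonneg.2 h3)

/-- Consecutive levels. -/
lemma Var_add_Var_le (hH : L.Lin H) (hI : I.Nonempty) (hy : ∀ i ∈ I, L.Nice (y i)) {κ : ℝ}
    (hκ : ∀ ω, rr I y ω ≤ κ) (e : ℕ) :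
    L.Var H (NN L H I y (e + 1)) + L.Var H (NN L H I y e) ≤
      κ * (L.qq H I y (e + 1) - L.qq H I y e) + 2 * Cov L H (NN L H I y (e + 1)) (NN L H I y e) := by
  have hN1 := nice_NN hH hy (e + 1)
  have hN0 := nice_NN hH hy e
  have hm : ∀ e, ∀ i ∈ I, L.Nice (L.E e H (y i)) := fun e i hi => Nice.E hH (hy i hi) _
  have hD : ∀ i ∈ I, L.Nice fun ω => (L.E (e + 1 + 1) H (y i) ω - L.E (e + 1) H (y i) ω) ^ 2 :=
    fun i hi => ((hm _ i hi).sub (hm _ i hi)).pow 2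
  have h1 : L.E0 H (fun ω => (NN L H I y (e + 1) ω - NN L H I y e ω) ^ 2) ≤
      L.E0 H fun ω => κ * ((∑ i ∈ I,
        (L.E (e + 1 + 1) H (y i) ω - L.E (e + 1) H (y i) ω) ^ 2) / I.card) := by
    refine E_mono hH ((hN1.sub hN0).pow 2) (((Nice.sum I hD).div_const _).const_mul _)
      (fun ω => ?_) _ _
    refine le_of_eq_of_le ?_ (sq_dot_le hI (hκ ω) _)
    simp only [NN, mul_sub, sum_sub_distrib, sub_div]
  have h2 : L.E0 H (fun ω => κ * ((∑ i ∈ I,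
      (L.E (e + 1 + 1) H (y i) ω - L.E (e + 1) H (y i) ω) ^ 2) / I.card)) =
      κ * (L.qq H I y (e + 1) - L.qq H I y e) := by
    unfold qq E0
    rw [E_const_mul, E_div_const, E_sum hH I hD, E_sum hH I fun i hi => (hm _ i hi).pow 2,
      E_sum hH I fun i hi => (hm _ i hi).pow 2, ← sub_div, ← sum_sub_distrib]
    congr 2
    refine sum_congr rfl fun i hi => ?_
    have h3 := E_mul_E hH (hm (e + 1 + 1) i hi) (hy i hi) (Nat.zero_le (e + 1)) L.pt
    have h4 : L.E (e + 1) H (L.E (e + 1 + 1) H (y i)) = L.E (e + 1) H (y i) :=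
      funext fun ω => E_E hH (hy i hi) (Nat.le_succ _) ω
    rw [h4] at h3
    have : (fun ω => (L.E (e + 1 + 1) H (y i) ω - L.E (e + 1) H (y i) ω) ^ 2) = fun ω =>
        L.E (e + 1 + 1) H (y i) ω ^ 2 - 2 * (L.E (e + 1 + 1) H (y i) ω * L.E (e + 1) H (y i) ω) +
          L.E (e + 1) H (y i) ω ^ 2 := by
      funext ω; ring
    rw [this, E_add hH (((hm _ i hi).pow 2).sub (((hm _ i hi).mul (hm _ i hi)).const_mul _))
      ((hm _ i hi).pow 2), E_sub hH ((hm _ i hi).pow 2) (((hm _ i hi).mul (hm _ i hi)).const_mul _),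
      E_const_mul, h3]
    simp only [pow_two]
    ring
  have h5 : L.E0 H (fun ω => (NN L H I y (e + 1) ω - NN L H I y e ω) ^ 2) =
      L.E0 H (fun ω => NN L H I y (e + 1) ω ^ 2) -
        2 * L.E0 H (fun ω => NN L H I y (e + 1) ω * NN L H I y e ω) +
        L.E0 H fun ω => NN L H I y e ω ^ 2 := by
    have : (fun ω => (NN L H I y (e + 1) ω - NN L H I y e ω) ^ 2) = fun ω =>
        NN L H I y (e + 1) ω ^ 2 - 2 * (NN L H I y (e + 1) ω * NN L H I y e ω) +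
          NN L H I y e ω ^ 2 := by
      funext ω; ring
    unfold E0
    rw [this, E_add hH ((hN1.pow 2).sub ((hN1.mul hN0).const_mul _)) (hN0.pow 2),
      E_sub hH (hN1.pow 2) ((hN1.mul hN0).const_mul _), E_const_mul]
  rw [h2, h5] at h1
  unfold Var Cov
  nlinarith [sq_nonneg (L.E0 H (NN L H I y (e + 1)) - L.E0 H (NN L H I y e))]

end Lev.GG

end Crest.Agent.R164
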