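import Crest.Agent.R164.NestGauss
import Crest.Agent.R164.Overlap
import Crest.Agent.R164.GGAux

/-! # Row 164: Ghirlanda-Guerra type identities pin the overlaps -/

set_option autoImplicit false

namespace Crest.Agent.R164

open MeasureTheory ProbabilityTheory Real Finset

variable {k : ℕ} {ex : Expo (k + 2)} {Z ι : Type} [MeasurableSpace Z] [Fintype ι] [DecidableEq ι]
  {α : ℕ → Measure Z} {hα : ∀ l, IsProbabilityMeasure (α l)}

local notation "𝓛" => gLev ex ι α hα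

/-- Mean of the field energy of level `l`. -/
lemma E0_field {H : Cfg (k + 2) (Z × (ι → ℝ)) → ℝ} {I : Finset ι}
    {y : ι → Cfg (k + 2) (Z × (ι → ℝ)) → ℝ} (hy : ∀ i ∈ I, (𝓛).Nice (y i)) {l : ℕ} (hl : l ≤ k + 1)
    {x : ℝ} (hH : ∀ i ∈ I, (𝓛).HasDL (shift l i) H (fun ω => x * y i ω))
    (hinv : ∀ i ∈ I, ∀ θ ω, y i (shift l i θ ω) = y i ω) :
    (𝓛).E0 H (fun ω => ∑ i ∈ I, gl l i ω * y i ω) =
      x * I.card * ((𝓛).dd H I y - tail ex k ((𝓛).qq H I y) l) := by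
  rcases I.eq_empty_or_nonempty with rfl | ⟨i₀, hi₀⟩
  · have := Lev.E_const_mul (L := 𝓛) 0 0 H H (𝓛).pt
    simpa [Lev.E0] using this
  have hL : (𝓛).Lin H := (hH i₀ hi₀).lin (shift_zero l i₀)
  have hn : (I.card : ℝ) ≠ 0 := by exact_mod_cast (card_pos.2 ⟨i₀, hi₀⟩).ne'
  have h1 : (𝓛).E0 H (fun ω => ∑ i ∈ I, gl l i ω * y i ω) =
      ∑ i ∈ I, (𝓛).E0 H (fun ω => gl l i ω * y i ω) :=
    Lev.E_sum hL I (fun i hi => (lin_gl l i).nice.mul (hy i hi)) _ _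
  have h2 : (𝓛).dd H I y = (∑ i ∈ I, (𝓛).E0 H fun ω => y i ω ^ 2) / I.card := by
    unfold Lev.dd Lev.rr Lev.E0
    rw [Lev.E_div_const, Lev.E_sum hL I fun i hi => (hy i hi).pow 2]
  have h3 : ∀ e, (𝓛).qq H I y e =
      (∑ i ∈ I, (𝓛).E0 H fun ω => (𝓛).E (e + 1) H (y i) ω ^ 2) / I.card := fun e => by
    unfold Lev.qq Lev.E0
    rw [Lev.E_sum hL I fun i hi => (Lev.Nice.E hL (hy i hi) _).pow 2]
  rw [h1, sum_congr rfl fun i hi => E0_gl_mul (by omega) i (hH i hi) (hy i hi) (hinv i hi),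
    ← mul_sum, sum_sub_distrib, sum_comm, h2, tail, mul_assoc, mul_sub (I.card : ℝ),
    mul_div_cancel₀ _ hn, mul_sum]
  congr 2
  refine sum_congr rfl fun e _ => ?_
  rw [h3, ← mul_sum]
  field_simp

open Lev.GG in
/-- Integration by parts against the one-replica overlap of level `e`. -/
lemma E0_field_NN {H : Cfg (k + 2) (Z × (ι → ℝ)) → ℝ} {I : Finset ι} (hI : I.Nonempty)
    {y : ι → Cfg (k + 2) (Z × (ι → ℝ)) → ℝ} (hy : ∀ i ∈ I, (𝓛).Nice (y i)) {l : ℕ} (hl : l ≤ k + 1)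
    {x : ℝ} (hH : ∀ i ∈ I, (𝓛).HasDL (shift l i) H (fun ω => x * y i ω))
    (hinv : ∀ i ∈ I, ∀ j ∈ I, ∀ θ ω, y j (shift l i θ ω) = y j ω) (e : ℕ) :
    (𝓛).E0 H (fun ω => (∑ i ∈ I, gl l i ω * y i ω) * NN (𝓛) H I y e ω) =
      x * I.card * ((if l ≤ e then (𝓛).E0 H (BB (𝓛) H I y e) else 0) +
        (𝓛).E0 H (fun ω => NN (𝓛) H I y e ω * Lev.rr I y ω) -
        ∑ e' ∈ Icc l k, ex.Δ e' * (𝓛).E0 H (fun ω => NN (𝓛) H I y e ω * NN (𝓛) H I y e' ω)) := by
  obtain ⟨i₀, hi₀⟩ := id hI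
  have hL : (𝓛).Lin H := (hH i₀ hi₀).lin (shift_zero l i₀)
  have hn : (I.card : ℝ) ≠ 0 := by exact_mod_cast (card_pos.2 hI).ne'
  have hN := nice_NN hL hy
  let c : ℝ := if l ≤ e then x else 0
  let B : ι → ι → Cfg (k + 2) (Z × (ι → ℝ)) → ℝ := fun i j =>
    (𝓛).E (e + 1) H (fun ω' => y j ω' * (𝓛).S (e + 1) H (y i) ω')
  have hm : ∀ i ∈ I, ∀ j ∈ I, (𝓛).HasD (shift l i) ((𝓛).E (e + 1) H (y j))
      (fun ω => c * B i j ω) := by
    intro i hi j hj
    by_cases hle : l ≤ e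
    · refine (hasD_E_of_lt (Nat.lt_succ_of_le hle) i (hH i hi)
        (Lev.hasD_of_invariant (hy j hj) (hinv i hi j hj))).congr' fun ω => ?_
      simp only [c, B, if_pos hle, ← Lev.E_const_mul, S_const_mul, zero_add, mul_left_comm]
    · refine (hasD_E_of_le (by omega) i hL (hy j hj)).congr' fun ω => ?_
      simp only [c, if_neg hle, zero_mul]
  have hND : ∀ i ∈ I, (𝓛).HasD (shift l i) (fun ω => y i ω * NN (𝓛) H I y e ω)
      (fun ω => c * ((∑ j ∈ I, y i ω * y j ω * B i j ω) / I.card)) := by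
    intro i hi
    have h1 := (Lev.HasD.sum I fun j hj => (Lev.hasD_of_invariant (hy j hj) (hinv i hi j hj)).mul
      (shift_zero l i) (hm i hi j hj)).const_mul (I.card : ℝ)⁻¹
    have h2 := (Lev.hasD_of_invariant (hy i hi) (hinv i hi i hi)).mul (shift_zero l i) h1
    simp only [inv_mul_eq_div] at h2
    refine h2.congr' fun ω => ?_
    rw [zero_mul, zero_add]
    simp only [zero_mul, zero_add, sum_div, mul_sum]
    exact sum_congr rfl fun j _ => by ring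
  have h1 : (𝓛).E0 H (fun ω => (∑ i ∈ I, gl l i ω * y i ω) * NN (𝓛) H I y e ω) =
      ∑ i ∈ I, (𝓛).E0 H (fun ω => gl l i ω * (y i ω * NN (𝓛) H I y e ω)) := by
    simp only [sum_mul, mul_assoc]
    exact Lev.E_sum hL I (fun i hi => (lin_gl l i).nice.mul ((hy i hi).mul (hN e))) _ _
  rw [h1, sum_congr rfl fun i hi => ibp (by omega) i (hH i hi) (hND i hi)]
  unfold Lev.E0
  rw [← Lev.E_sum hL I fun i hi => (hND i hi).nice'.add (((hy i hi).mul (hN e)).mul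
    (Lev.Nice.St hL ((hy i hi).const_mul x) l))]
  have h2 : (fun ω => ∑ i ∈ I, (c * ((∑ j ∈ I, y i ω * y j ω * B i j ω) / I.card) +
      y i ω * NN (𝓛) H I y e ω * (𝓛).St l H (fun ω => x * y i ω) ω)) =
      fun ω => I.card * (c * BB (𝓛) H I y e ω + x * (NN (𝓛) H I y e ω * Lev.rr I y ω -
        ∑ e' ∈ Icc l k, ex.Δ e' * (NN (𝓛) H I y e ω * NN (𝓛) H I y e' ω))) := by
    funext ω
    rw [sum_add_distrib, mul_add]
    congr 1
    · rw [← mul_sum, ← sum_div, BB]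
      field_simp
      rfl
    · have h3 : ∀ e', (I.card : ℝ) * NN (𝓛) H I y e' ω =
          ∑ i ∈ I, y i ω * (𝓛).E (e' + 1) H (y i) ω := fun e' => by
        rw [NN, mul_div_cancel₀ _ hn]
      have h4 : (I.card : ℝ) * Lev.rr I y ω = ∑ i ∈ I, y i ω ^ 2 := by
        rw [Lev.rr, mul_div_cancel₀ _ hn]
      have h5 : (I.card : ℝ) * (x * (NN (𝓛) H I y e ω * Lev.rr I y ω -
          ∑ e' ∈ Icc l k, ex.Δ e' * (NN (𝓛) H I y e ω * NN (𝓛) H I y e' ω))) =
          x * NN (𝓛) H I y e ω * (I.card * Lev.rr I y ω) - ∑ e' ∈ Icc l k,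
            x * NN (𝓛) H I y e ω * ex.Δ e' * (I.card * NN (𝓛) H I y e' ω) := by
        simp only [mul_sub, mul_sum]
        congr 1
        · ring
        · exact sum_congr rfl fun e' _ => by ring
      rw [h5, h4]
      simp only [h3, mul_sum]
      rw [sum_comm, ← sum_sub_distrib]
      refine sum_congr rfl fun i _ => ?_
      simp only [Lev.St, Lev.E_const_mul, mul_sub, mul_sum]
      congr 1
      · ring
      · exact sum_congr rfl fun e' _ => by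
          change _ * (ex.Δ e' * _) = _
          ring
  have hNN : ∀ e' ∈ Icc l k, (𝓛).Nice fun ω => ex.Δ e' * (NN (𝓛) H I y e ω * NN (𝓛) H I y e' ω) :=
    fun e' _ => ((hN e).mul (hN e')).const_mul _
  rw [h2, Lev.E_const_mul, Lev.E_add hL ((nice_BB hL hy e).const_mul _)
    ((((hN e).mul (Lev.nice_rr hy)).sub (Lev.Nice.sum _ hNN)).const_mul _), Lev.E_const_mul,
    Lev.E_const_mul, Lev.E_sub hL ((hN e).mul (Lev.nice_rr hy)) (Lev.Nice.sum _ hNN),
    Lev.E_sum hL _ hNN]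
  simp only [Lev.E_const_mul, c]
  split_ifs <;> ring

open Lev.GG in
theorem gg {η : ℝ} (hex : IsGrid ex η) (hk : 2 ≤ k) (hη : η < 1)
    {H : Cfg (k + 2) (Z × (ι → ℝ)) → ℝ} {I : Finset ι} (hI : I.Nonempty)
    {y : ι → Cfg (k + 2) (Z × (ι → ℝ)) → ℝ} (hy : ∀ i ∈ I, (𝓛).Nice (y i)) {κ ε : ℝ} (hε : 0 ≤ ε)
    (hκ : ∀ ω, Lev.rr I y ω ≤ κ) {x : ℕ → ℝ} (hx : ∀ l ∈ Icc 1 k, 0 < x l)
    (hH : ∀ l ∈ Icc 1 k, ∀ i ∈ I, (𝓛).HasDL (shift l i) H (fun ω => x l * y i ω))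
    (hinv : ∀ l ∈ Icc 1 k, ∀ i ∈ I, ∀ j ∈ I, ∀ θ ω, y j (shift l i θ ω) = y j ω)
    (hV : ∀ l ∈ Icc 1 k, (𝓛).Var H (fun ω => ∑ i ∈ I, gl l i ω * y i ω) ≤ (ε * x l * I.card) ^ 2)
    (hr : (𝓛).Var H (Lev.rr I y) ≤ ε ^ 2) :
    ∑ e ∈ Icc 1 k, ex.Δ e * (𝓛).VV H I y e ((𝓛).qq H I y e) ≤
      2 / η * (κ ^ 2 / k + 10 * k * κ * ε) := by
  obtain ⟨i₀, hi₀⟩ := id hI
  have h1k : 1 ∈ Icc 1 k := mem_Icc.2 ⟨le_rfl, by omega⟩
  have hL : (𝓛).Lin H := (hH 1 h1k i₀ hi₀).lin (shift_zero 1 i₀)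
  have hn : (0 : ℝ) < I.card := by exact_mod_cast card_pos.2 hI
  have hκ0 : 0 ≤ κ := (rr_nonneg _).trans (hκ (𝓛).pt)
  have hη0 : 0 < η := hex.1 ▸ ex.pos 0
  have hk0 : (2 : ℝ) ≤ k := by exact_mod_cast hk
  have hN := nice_NN hL hy
  set Δ : ℝ := (1 - η) / k with hΔ
  have hΔ0 : 0 < Δ := div_pos (by linarith) (by linarith)
  have hkΔ : k * Δ = 1 - η := by rw [hΔ]; field_simp
  have hΔe : ∀ l ∈ Icc 1 k, ex.Δ l = Δ := hex.2.2
  let C : ℕ → ℕ → ℝ := fun e e' => Cov (𝓛) H (NN (𝓛) H I y e) (NN (𝓛) H I y e')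
  let β : ℕ → ℝ := fun e => (𝓛).E0 H (BB (𝓛) H I y e)
  let V : ℕ → ℝ := fun e => (𝓛).Var H (NN (𝓛) H I y e)
  have hV0 : ∀ e, 0 ≤ V e := fun e => Lev.Var_nonneg hL (hN e)
  have hA : ∀ e, ∀ l ∈ Icc 1 (k + 1),
      |(if l ≤ e then β e else 0) - ∑ e' ∈ Icc l k, ex.Δ e' * C e e'| ≤
        2 * ε * κ ∨ (l = k + 1 ∧ k + 1 ≤ e) := by
    intro e l hl
    by_cases hlk : l ≤ k
    swap
    · have hl' : l = k + 1 := by have := (mem_Icc.1 hl).2; omega
      by_cases hle : l ≤ e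
      · exact .inr ⟨hl', hl' ▸ hle⟩
      · left
        rw [if_neg hle, Icc_eq_empty (by omega), sum_empty, sub_zero, abs_zero]
        positivity
    left
    have hl' : l ∈ Icc 1 k := mem_Icc.2 ⟨(mem_Icc.1 hl).1, hlk⟩
    have hxl := hx l hl'
    have hG : (𝓛).Nice fun ω => ∑ i ∈ I, gl l i ω * y i ω :=
      Lev.Nice.sum I fun i hi => (lin_gl l i).nice.mul (hy i hi)
    have h1 := abs_Cov_le hL hG (hN e) (by positivity) hκ0 (hV l hl') (Var_NN_le hL hI hy hκ e)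
    have h2 := abs_Cov_le hL (hN e) (Lev.nice_rr hy) hκ0 hε (Var_NN_le hL hI hy hκ e) hr
    have h3 : Cov (𝓛) H (fun ω => ∑ i ∈ I, gl l i ω * y i ω) (NN (𝓛) H I y e) =
        x l * I.card * ((if l ≤ e then β e else 0) - ∑ e' ∈ Icc l k, ex.Δ e' * C e e' +
          Cov (𝓛) H (NN (𝓛) H I y e) (Lev.rr I y)) := by
      simp only [Cov, C, β]
      rw [E0_field_NN hI hy (by omega) (hH l hl') (hinv l hl') e,
        E0_field hy (by omega) (hH l hl') fun i hi => hinv l hl' i hi i hi, tail, Lev.dd]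
      simp only [E0_NN hL hy, mul_sub, sum_sub_distrib]
      have : ∑ e' ∈ Icc l k, ex.Δ e' * ((𝓛).qq H I y e * (𝓛).qq H I y e') =
          (∑ e' ∈ Icc l k, ex.Δ e' * (𝓛).qq H I y e') * (𝓛).qq H I y e := by
        rw [sum_mul]; exact sum_congr rfl fun e' _ => by ring
      rw [this]
      ring
    have hxn : 0 < x l * I.card := mul_pos hxl hn
    rw [h3, abs_mul, abs_of_pos hxn, show ε * x l * I.card * κ = x l * I.card * (ε * κ) by ring]
      at h1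
    have h4 := abs_le.1 (le_of_mul_le_mul_left h1 hxn)
    have h5 := abs_le.1 h2
    rw [abs_le]
    constructor <;> linarith [h4.1, h4.2, h5.1, h5.2]
  have hB : ∀ e ∈ Icc 1 k, ∀ l ∈ Icc 1 k,
      |(if l = e then β e else 0) - Δ * C e l| ≤ 4 * ε * κ := by
    intro e he l hl
    have he' := mem_Icc.1 he
    have hl' := mem_Icc.1 hl
    have h1 := (hA e l (mem_Icc.2 ⟨hl'.1, by omega⟩)).resolve_right (by omega)
    have h2 := (hA e (l + 1) (mem_Icc.2 ⟨by omega, by omega⟩)).resolve_right (by omega)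
    rw [← insert_Icc_add_one_left_eq_Icc hl'.2, sum_insert (by simp), hΔe l hl] at h1
    have h3 : (if l = e then β e else 0) =
        (if l ≤ e then β e else 0) - if l + 1 ≤ e then β e else 0 := by
      rcases lt_trichotomy l e with h | h | h
      · rw [if_neg h.ne, if_pos h.le, if_pos (show l + 1 ≤ e from h), sub_self]
      · rw [if_pos h, if_pos h.le, if_neg (by omega), sub_zero]
      · rw [if_neg h.ne', if_neg (by omega), if_neg (by omega), sub_self]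
    rw [h3, abs_le]
    rw [abs_le] at h1 h2
    constructor <;> linarith [h1.1, h1.2, h2.1, h2.2]
  have hstep : ∀ j, 1 ≤ j → j + 1 ≤ k → Δ * (V (j + 1) + V j) ≤
      Δ * κ * ((𝓛).qq H I y (j + 1) - (𝓛).qq H I y j) + 8 * ε * κ := by
    intro j hj hjk
    have h1 := mul_le_mul_of_nonneg_left (Var_add_Var_le hL hI hy hκ j) hΔ0.le
    have h2 := hB (j + 1) (mem_Icc.2 ⟨by omega, hjk⟩) j (mem_Icc.2 ⟨hj, by omega⟩)
    rw [if_neg (by omega), zero_sub, abs_neg] at h2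
    have h3 := le_of_abs_le h2
    simp only [C] at h3
    simp only [V]
    linarith
  have hsum : ∀ j, 1 ≤ j → j + 1 ≤ k → Δ * ∑ e ∈ Icc 1 (j + 1), V e ≤
      Δ * κ * ((𝓛).qq H I y (j + 1) - (𝓛).qq H I y 1) + j * (8 * ε * κ) := by
    intro j hj
    induction j, hj using Nat.le_induction with
    | base =>
      intro h
      have := hstep 1 le_rfl h
      rw [sum_Icc_succ_top (by norm_num), Icc_self, sum_singleton]
      push_cast
      linarith
    | succ j hj ih =>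
      intro h
      have h1 := ih (by omega)
      have h2 := hstep (j + 1) (by omega) h
      have h3 := mul_nonneg hΔ0.le (hV0 (j + 1))
      rw [sum_Icc_succ_top (by omega)]
      push_cast
      linarith
  have hS : Δ * ∑ e ∈ Icc 1 k, V e ≤ κ ^ 2 / k + k * (8 * ε * κ) := by
    have h1 := hsum (k - 1) (by omega) (by omega)
    rw [Nat.sub_add_cancel (by omega), Nat.cast_sub (by omega)] at h1
    have h2 : (𝓛).qq H I y k - (𝓛).qq H I y 1 ≤ κ := by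
      linarith [Lev.qq_le_dd hL hy k, Lev.dd_le hL hy hκ,
        Lev.qq_nonneg (L := 𝓛) (H := H) (I := I) (y := y) 1]
    have h3 := mul_le_mul_of_nonneg_left h2 (mul_nonneg hΔ0.le hκ0)
    have h4 : Δ * κ * κ ≤ κ ^ 2 / k := by
      rw [le_div_iff₀ (by linarith)]
      nlinarith [sq_nonneg κ]
    have h5 : 0 ≤ 8 * ε * κ := by positivity
    push_cast at h1
    linarith
  have hterm : ∀ e ∈ Icc 1 k, η * (ex.Δ e * (𝓛).VV H I y e ((𝓛).qq H I y e)) ≤
      Δ * V e + Δ * (4 * ε * κ) := by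
    intro e he
    have h1 := VV_le hL hy e (η := η) (hex.1 ▸ ex.mono (Nat.zero_le _))
    have h2 := hB e he e he
    rw [if_pos rfl] at h2
    have h3 := le_of_abs_le h2
    simp only [C, Cov_self, β] at h3
    have h4 : Δ + η ≤ 1 := by nlinarith
    have h5 := mul_le_mul_of_nonneg_right h4 (hV0 e)
    have h6 : η * (𝓛).VV H I y e ((𝓛).qq H I y e) ≤ V e + 4 * ε * κ := by
      simp only [V] at h5 ⊢
      linarith
    rw [hΔe e he, mul_left_comm, ← mul_add]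
    exact mul_le_mul_of_nonneg_left h6 hΔ0.le
  have htot := sum_le_sum hterm
  rw [← mul_sum, sum_add_distrib, ← mul_sum, sum_const, Nat.card_Icc, Nat.add_sub_cancel,
    nsmul_eq_mul, ← mul_assoc, hkΔ] at htot
  rw [div_mul_eq_mul_div, le_div_iff₀ hη0]
  have h7 : 0 ≤ ε * κ := by positivity
  have h8 : 0 ≤ κ ^ 2 / k := by positivity
  nlinarith

end Crest.Agent.R164
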