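import Crest.Agent.R164.ModelDefs
import Crest.Agent.R164.NestGauss

/-! # Row 164: linear algebra on the orthogonal group and Haar measure -/

set_option autoImplicit false

namespace Crest.Agent.R164

open MeasureTheory Real Finset Crest.ProbabilityR.InvariantGlass

lemma measurable_O_mul {N : ℕ} : Measurable (fun p : O N × O N => p.1 * p.2) := by
  refine measurable_to_O fun i j => ?_
  have : (fun p : O N × O N => (p.1 * p.2).1 i j) = fun p => ∑ k, p.1.1 i k * p.2.1 k j := by
    funext p; simp [Matrix.mul_apply]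
  rw [this]
  exact Finset.measurable_sum _ fun k _ =>
    ((measurable_O_entry i k).comp measurable_fst).mul ((measurable_O_entry k j).comp measurable_snd)

lemma O_inv_apply {N : ℕ} (D : O N) (i j : Fin N) : (D⁻¹ : O N).1 i j = D.1 j i := by
  have : (D⁻¹ : O N).1 = star D.1 := rfl
  rw [this]; simp [Matrix.star_apply]

lemma measurable_O_inv {N : ℕ} : Measurable (fun U : O N => U⁻¹) := by
  refine measurable_to_O fun i j => ?_
  simp only [O_inv_apply]
  exact measurable_O_entry j i

lemma measurable_O_mul_left {N : ℕ} (D : O N) : Measurable (fun U : O N => D * U) :=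
  measurable_O_mul.comp (measurable_const.prodMk measurable_id)

lemma measurable_O_mul_right {N : ℕ} (D : O N) : Measurable (fun U : O N => U * D) :=
  measurable_O_mul.comp (measurable_id.prodMk measurable_const)

lemma O_measure_ext {N : ℕ} {μ ν : Measure (O N)}
    (h : μ.map (fun (V : O N) (i j : Fin N) => V.1 i j) = ν.map (fun (V : O N) (i j : Fin N) => V.1 i j)) :
    μ = ν := by
  ext s hs
  obtain ⟨t, ht, rfl⟩ := hs
  rw [← Measure.map_apply measurable_O_entries ht, ← Measure.map_apply measurable_O_entries ht, h]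

lemma left_of_right {N : ℕ} (κ : Measure (O N)) [IsProbabilityMeasure κ]
    (hr : ∀ D : O N, MeasurePreserving (fun U => U * D) κ κ) (D : O N) :
    MeasurePreserving (fun U => D * U) κ κ := by
  set κ' : Measure (O N) := κ.map (fun U : O N => U⁻¹) with hκ'
  have : IsProbabilityMeasure κ' := Measure.isProbabilityMeasure_map measurable_O_inv.aemeasurable
  have hl : ∀ D : O N, MeasurePreserving (fun U => D * U) κ' κ' := by
    intro D
    refine ⟨measurable_O_mul_left D, ?_⟩
    rw [hκ', Measure.map_map (measurable_O_mul_left D) measurable_O_inv]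
    have : ((fun U : O N => D * U) ∘ fun U : O N => U⁻¹) = (fun U : O N => U⁻¹) ∘ fun U => U * D⁻¹ := by
      funext U; simp
    rw [this, ← Measure.map_map measurable_O_inv (measurable_O_mul_right _), (hr _).map_eq]
  have he : κ = κ' := by
    ext s hs
    have hS : MeasurableSet ((fun p : O N × O N => p.1 * p.2) ⁻¹' s) := measurable_O_mul hs
    have h1 := Measure.prod_apply (μ := κ) (ν := κ') hS
    have h2 := Measure.prod_apply_symm (μ := κ) (ν := κ') hS
    have e1 : ∀ U : O N, κ' (Prod.mk U ⁻¹' ((fun p : O N × O N => p.1 * p.2) ⁻¹' s)) = κ' s :=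
      fun U => (hl U).measure_preimage hs.nullMeasurableSet
    have e2 : ∀ V : O N, κ ((fun U => (U, V)) ⁻¹' ((fun p : O N × O N => p.1 * p.2) ⁻¹' s)) = κ s :=
      fun V => (hr V).measure_preimage hs.nullMeasurableSet
    simp only [e1, e2, lintegral_const, measure_univ, mul_one] at h1 h2
    rw [← h1, ← h2]
  have := hl D
  rwa [← he] at this

/-- A right-invariant random orthogonal matrix gives a bi-invariant measure. -/
theorem exists_haar {N : ℕ} {Ω : Type} [MeasurableSpace Ω] (P : Measure Ω) [IsProbabilityMeasure P]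
    (U : Ω → Fin N → Fin N → ℝ) (hm : Measurable U)
    (ho : ∀ᵐ ω ∂P, Matrix.of (U ω) ∈ Matrix.orthogonalGroup (Fin N) ℝ)
    (hH : ∀ O : Matrix (Fin N) (Fin N) ℝ, O ∈ Matrix.orthogonalGroup (Fin N) ℝ →
      P.map (fun ω => fun i j => (Matrix.of (U ω) * O) i j) = P.map U) :
    ∃ h : Haar N, h.κ.map (fun (V : O N) (i j : Fin N) => V.1 i j) = P.map U := by
  classical
  let f : (Fin N → Fin N → ℝ) → O N := fun M =>
    if h : Matrix.of M ∈ Matrix.orthogonalGroup (Fin N) ℝ then ⟨Matrix.of M, h⟩ else 1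
  have hS : MeasurableSet {M : Fin N → Fin N → ℝ | Matrix.of M ∈ Matrix.orthogonalGroup (Fin N) ℝ} := by
    have : {M : Fin N → Fin N → ℝ | Matrix.of M ∈ Matrix.orthogonalGroup (Fin N) ℝ} =
        ⋂ i, ⋂ j, {M | ∑ k, M i k * M j k = (1 : Matrix (Fin N) (Fin N) ℝ) i j} := by
      ext M
      simp only [Set.mem_ofPred_eq, Matrix.mem_orthogonalGroup_iff, Set.mem_iInter, ← Matrix.ext_iff,
        Matrix.mul_apply, Matrix.transpose_apply, Matrix.of_apply]
    rw [this]
    refine MeasurableSet.iInter fun i => MeasurableSet.iInter fun j => measurableSet_eq_fun ?_ ?_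
    · exact Finset.measurable_sum _ fun k _ => by fun_prop
    · exact measurable_const
  have hf : Measurable f := by
    refine measurable_to_O fun i j => ?_
    have : (fun M => (f M).1 i j) = fun M =>
        if Matrix.of M ∈ Matrix.orthogonalGroup (Fin N) ℝ then M i j
          else (1 : Matrix (Fin N) (Fin N) ℝ) i j := by
      funext M
      by_cases h : Matrix.of M ∈ Matrix.orthogonalGroup (Fin N) ℝ <;> simp [f, h]
    rw [this]
    exact Measurable.ite hS (by fun_prop) measurable_const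
  set κ : Measure (O N) := P.map (f ∘ U) with hκ
  have : IsProbabilityMeasure κ := Measure.isProbabilityMeasure_map (hf.comp hm).aemeasurable
  have he : κ.map (fun (V : O N) (i j : Fin N) => V.1 i j) = P.map U := by
    rw [hκ, Measure.map_map measurable_O_entries (hf.comp hm)]
    refine Measure.map_congr ?_
    filter_upwards [ho] with ω hω
    funext i j
    simp [f, hω]
  have hr : ∀ D : O N, MeasurePreserving (fun V => V * D) κ κ := by
    intro D
    refine ⟨measurable_O_mul_right D, O_measure_ext ?_⟩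
    have hg : Measurable (fun (M : Fin N → Fin N → ℝ) (i j : Fin N) => (Matrix.of M * D.1) i j) := by
      refine measurable_pi_iff.2 fun i => measurable_pi_iff.2 fun j => ?_
      simp only [Matrix.mul_apply, Matrix.of_apply]
      exact Finset.measurable_sum _ fun k _ => by fun_prop
    have : ((fun (V : O N) (i j : Fin N) => V.1 i j) ∘ fun V => V * D) =
        (fun (M : Fin N → Fin N → ℝ) (i j : Fin N) => (Matrix.of M * D.1) i j) ∘
          (fun (V : O N) (i j : Fin N) => V.1 i j) := by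
      funext V i j
      simp [Matrix.mul_apply]
    rw [Measure.map_map measurable_O_entries (measurable_O_mul_right D), this,
      ← Measure.map_map hg measurable_O_entries, he, Measure.map_map hg hm]
    exact hH D.1 D.2
  exact ⟨⟨κ, inferInstance, left_of_right κ hr, hr⟩, he⟩

lemma measurable_yv {N : ℕ} (i : Fin N) : Measurable (fun p : O N × (Fin N → Bool) => yv p.1 p.2 i) := by
  have : (fun p : O N × (Fin N → Bool) => yv p.1 p.2 i) =
      fun p => ∑ j, p.1.1 i j * spinVec p.2 j := by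
    funext p; simp [yv, Matrix.mulVec, dotProduct]
  rw [this]
  refine Finset.measurable_sum _ fun j _ => ((measurable_O_entry i j).comp measurable_fst).mul ?_
  exact (Measurable.of_discrete (f := fun σ : Fin N → Bool => spinVec σ j)).comp measurable_snd

lemma dot_mulVec_of_mem {ι : Type} [Fintype ι] [DecidableEq ι] {M : Matrix ι ι ℝ}
    (hM : M ∈ Matrix.orthogonalGroup ι ℝ) (u v : ι → ℝ) :
    ∑ i, M.mulVec u i * M.mulVec v i = ∑ i, u i * v i := by
  have h := (Matrix.mem_orthogonalGroup_iff' ι ℝ).1 hM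
  change M.mulVec u ⬝ᵥ M.mulVec v = u ⬝ᵥ v
  rw [Matrix.dotProduct_mulVec, Matrix.vecMul_mulVec, h, Matrix.vecMul_one]

lemma mem_O_of_dot {ι : Type} [Fintype ι] [DecidableEq ι] {M : Matrix ι ι ℝ}
    (h : ∀ u v : ι → ℝ, ∑ i, M.mulVec u i * M.mulVec v i = ∑ i, u i * v i) :
    M ∈ Matrix.orthogonalGroup ι ℝ := by
  rw [Matrix.mem_orthogonalGroup_iff']
  ext a b
  have := h (Pi.single a 1) (Pi.single b 1)
  simp only [Matrix.mulVec_single_one, Matrix.col_apply] at this
  rw [Matrix.mul_apply]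
  simp only [Matrix.transpose_apply]
  rw [this, Matrix.one_apply]
  simp [Pi.single_apply, eq_comm]

lemma sum_sq_mulVec {N : ℕ} (U : O N) (v : Fin N → ℝ) : ∑ i, U.1.mulVec v i ^ 2 = ∑ i, v i ^ 2 := by
  simpa only [pow_two] using dot_mulVec_of_mem U.2 v v

lemma sum_yv_sq {N : ℕ} (U : O N) (σ : Fin N → Bool) : ∑ i, yv U σ i ^ 2 = N := by
  unfold yv
  rw [sum_sq_mulVec]
  have : ∀ i, spinVec σ i ^ 2 = 1 := fun i => by unfold spinVec; split_ifs <;> norm_num
  simp [this]

lemma yv_mul {N : ℕ} (D U : O N) (σ : Fin N → Bool) : yv (D * U) σ = D.1.mulVec (yv U σ) := by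
  simp [yv, Matrix.mulVec_mulVec]

/-- Permutation matrices. -/
lemma exists_perm_O {N : ℕ} (σ : Equiv.Perm (Fin N)) :
    ∃ P : O N, ∀ v : Fin N → ℝ, P.1.mulVec v = v ∘ σ := by
  have h : ∀ v : Fin N → ℝ,
      (Matrix.of fun i j => if σ i = j then (1 : ℝ) else 0).mulVec v = v ∘ σ := by
    intro v; funext i; simp [Matrix.mulVec, dotProduct]
  refine ⟨⟨_, mem_O_of_dot fun u v => ?_⟩, h⟩
  simp only [h, Function.comp]
  exact Equiv.sum_comp σ (fun i => u i * v i)

/-- Plane rotations. -/
lemma exists_rot_O {N : ℕ} {i j : Fin N} (hij : i ≠ j) : ∃ R : ℝ → O N, R 0 = 1 ∧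
    ∀ (θ : ℝ) (v : Fin N → ℝ), (R θ).1.mulVec v i = cos θ * v i + sin θ * v j ∧
      (R θ).1.mulVec v j = -sin θ * v i + cos θ * v j ∧
      ∀ m, m ≠ i → m ≠ j → (R θ).1.mulVec v m = v m := by
  let M : ℝ → Matrix (Fin N) (Fin N) ℝ := fun θ => 1 + Matrix.single i i (cos θ - 1) +
    Matrix.single j j (cos θ - 1) + Matrix.single i j (sin θ) + Matrix.single j i (-sin θ)
  have hM : ∀ (θ : ℝ) (v : Fin N → ℝ), (M θ).mulVec v i = cos θ * v i + sin θ * v j ∧
      (M θ).mulVec v j = -sin θ * v i + cos θ * v j ∧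
      ∀ m, m ≠ i → m ≠ j → (M θ).mulVec v m = v m := by
    intro θ v
    simp only [M, Matrix.add_mulVec, Matrix.one_mulVec, Matrix.single_mulVec, Pi.add_apply]
    refine ⟨?_, ?_, fun m hi hj => ?_⟩
    · simp [hij]; ring
    · simp [hij.symm]; ring
    · simp [hi, hj]
  have hO : ∀ θ, M θ ∈ Matrix.orthogonalGroup (Fin N) ℝ := by
    intro θ
    refine mem_O_of_dot fun u v => ?_
    rw [← sub_eq_zero, ← Finset.sum_sub_distrib,
      ← Finset.sum_subset (Finset.subset_univ {i, j}), Finset.sum_pair hij]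
    · rw [(hM θ u).1, (hM θ v).1, (hM θ u).2.1, (hM θ v).2.1]
      linear_combination (u i * v i + u j * v j) * (sin_sq_add_cos_sq θ)
    · intro m _ hm
      simp only [Finset.mem_insert, Finset.mem_singleton, not_or] at hm
      rw [(hM θ u).2.2 m hm.1 hm.2, (hM θ v).2.2 m hm.1 hm.2, sub_self]
  refine ⟨fun θ => ⟨M θ, hO θ⟩, ?_, hM⟩
  apply Subtype.ext
  simp [M]

/-- Householder reflection (the identity for `u = 0`). -/
noncomputable def hh {ι : Type} [Fintype ι] [DecidableEq ι] (u : ι → ℝ) : Matrix ι ι ℝ :=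
  1 - (2 / ∑ i, u i ^ 2) • Matrix.vecMulVec u u

lemma hh_mulVec {ι : Type} [Fintype ι] [DecidableEq ι] (u v : ι → ℝ) (i : ι) :
    (hh u).mulVec v i = v i - 2 / (∑ j, u j ^ 2) * (∑ j, u j * v j) * u i := by
  unfold hh
  rw [Matrix.sub_mulVec, Matrix.one_mulVec, Matrix.smul_mulVec, Matrix.vecMulVec_mulVec]
  simp only [Pi.sub_apply, Pi.smul_apply, smul_eq_mul, dotProduct, MulOpposite.smul_eq_mul_unop,
    MulOpposite.unop_op]
  ring

lemma hh_mem {ι : Type} [Fintype ι] [DecidableEq ι] (u : ι → ℝ) :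
    hh u ∈ Matrix.orthogonalGroup ι ℝ := by
  refine mem_O_of_dot fun v w => ?_
  simp only [hh_mulVec]
  set S := ∑ j, u j ^ 2 with hS
  set a := ∑ j, u j * v j with ha
  set b := ∑ j, u j * w j with hb
  have hc : (2 / S) ^ 2 * S = 2 * (2 / S) := by
    by_cases h : S = 0
    · simp [h]
    · field_simp
  have : ∀ i, (v i - 2 / S * a * u i) * (w i - 2 / S * b * u i) =
      v i * w i - 2 / S * b * (u i * v i) - 2 / S * a * (u i * w i) + (2 / S) ^ 2 * a * b * u i ^ 2 :=
    fun i => by ring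
  simp only [this, Finset.sum_add_distrib, Finset.sum_sub_distrib, ← Finset.mul_sum, ← hS, ← ha, ← hb]
  linear_combination a * b * hc

lemma hh_swap {ι : Type} [Fintype ι] [DecidableEq ι] {a b : ι → ℝ}
    (h : ∑ i, a i ^ 2 = ∑ i, b i ^ 2) : (hh (a - b)).mulVec a = b := by
  funext i
  rw [hh_mulVec]
  have h2 : ∑ j, (a - b) j ^ 2 = 2 * ∑ j, (a - b) j * a j := by
    have : ∀ j, (a - b) j ^ 2 = 2 * ((a - b) j * a j) + (b j ^ 2 - a j ^ 2) := fun j => by
      simp only [Pi.sub_apply]; ring
    simp only [this, Finset.sum_add_distrib, Finset.sum_sub_distrib, ← Finset.mul_sum, h]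
    ring
  by_cases h0 : ∑ j, (a - b) j ^ 2 = 0
  · have := (Finset.sum_eq_zero_iff_of_nonneg (fun j _ => sq_nonneg _)).1 h0 i (Finset.mem_univ _)
    have h3 : (a - b) i = 0 := pow_eq_zero_iff (two_ne_zero) |>.1 this
    rw [h3, mul_zero, sub_zero]
    simpa [sub_eq_zero] using h3
  · have h4 : 2 / (∑ j, (a - b) j ^ 2) * ∑ j, (a - b) j * a j = 1 := by
      rw [div_mul_eq_mul_div, ← h2, div_self h0]
    rw [h4]; simp

/-- Block-diagonal with respect to a labelling. -/
def IsBlk {N : ℕ} {A : Type} (sp : Fin N → A) (D : O N) : Prop := ∀ i i', sp i ≠ sp i' → D.1 i i' = 0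

/-- A block rotation moves each block of `v` to its designated coordinate. -/
lemma exists_blk_rot {N : ℕ} {A : Type} [DecidableEq A] (sp : Fin N → A) (idx : A → Fin N)
    (hidx : ∀ a, sp (idx a) = a) (v : Fin N → ℝ) : ∃ D : O N, IsBlk sp D ∧
      ∀ i, D.1.mulVec v i = if i = idx (sp i) then √(∑ j ∈ blk sp (sp i), v j ^ 2) else 0 := by
  let y : A → Fin N → ℝ := fun a j =>
    if sp j = a then (if j = idx a then √(∑ j ∈ blk sp a, v j ^ 2) else 0) else v j
  have hu : ∀ a j, sp j ≠ a → (v - y a) j = 0 := fun a j hj => by simp [y, hj]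
  have hy : ∀ a, ∑ j, v j ^ 2 = ∑ j, y a j ^ 2 := by
    intro a
    rw [← Finset.sum_filter_add_sum_filter_not univ (fun j => sp j = a),
      ← Finset.sum_filter_add_sum_filter_not univ (fun j => sp j = a) (fun j => y a j ^ 2)]
    congr 1
    · rw [Finset.sum_eq_single (idx a) (f := fun j => y a j ^ 2)]
      · simp only [y, hidx, if_true]
        rw [Real.sq_sqrt (Finset.sum_nonneg fun _ _ => sq_nonneg _)]; rfl
      · intro b hb hne
        simp only [Finset.mem_filter, Finset.mem_univ, true_and] at hb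
        simp [y, hb, hne]
      · intro h; exact absurd (by simp [hidx]) h
    · refine Finset.sum_congr rfl fun j hj => ?_
      simp only [Finset.mem_filter, Finset.mem_univ, true_and] at hj
      simp [y, hj]
  let M : Matrix (Fin N) (Fin N) ℝ := Matrix.of fun i j => hh (v - y (sp i)) i j
  have hM : ∀ w i, M.mulVec w i = (hh (v - y (sp i))).mulVec w i := fun w i => rfl
  have hO : M ∈ Matrix.orthogonalGroup (Fin N) ℝ := by
    refine mem_O_of_dot fun w w' => ?_
    rw [← Finset.sum_fiberwise_of_maps_to (s := univ) (t := univ.image sp) (g := sp)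
        (fun i hi => Finset.mem_image_of_mem _ hi),
      ← Finset.sum_fiberwise_of_maps_to (s := univ) (t := univ.image sp) (g := sp)
        (fun i hi => Finset.mem_image_of_mem _ hi) (fun i => w i * w' i)]
    refine Finset.sum_congr rfl fun a _ => ?_
    have h1 := dot_mulVec_of_mem (hh_mem (v - y a)) w w'
    rw [← Finset.sum_filter_add_sum_filter_not univ (fun j => sp j = a),
      ← Finset.sum_filter_add_sum_filter_not univ (fun j => sp j = a) (fun j => w j * w' j)] at h1
    have h2 : ∑ j ∈ univ.filter (fun j => ¬ sp j = a),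
        (hh (v - y a)).mulVec w j * (hh (v - y a)).mulVec w' j =
        ∑ j ∈ univ.filter (fun j => ¬ sp j = a), w j * w' j := by
      refine Finset.sum_congr rfl fun j hj => ?_
      simp only [Finset.mem_filter, Finset.mem_univ, true_and] at hj
      rw [hh_mulVec, hh_mulVec, hu a j hj]; ring
    rw [h2, add_left_inj] at h1
    rw [← h1]
    refine Finset.sum_congr rfl fun j hj => ?_
    simp only [Finset.mem_filter, Finset.mem_univ, true_and] at hj
    rw [hM, hM, hj]
  refine ⟨⟨M, hO⟩, fun i i' h => ?_, fun i => ?_⟩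
  · have hne : i ≠ i' := fun e => h (by rw [e])
    have := hu (sp i) i' (Ne.symm h)
    simp only [M, Matrix.of_apply, hh, Matrix.sub_apply, Matrix.one_apply_ne hne, Matrix.smul_apply,
      Matrix.vecMulVec_apply, this]
    simp
  · change M.mulVec v i = _
    rw [hM, hh_swap (hy _)]
    simp [y]

lemma IsBlk.inv {N : ℕ} {A : Type} {sp : Fin N → A} {D : O N} (h : IsBlk sp D) : IsBlk sp D⁻¹ := by
  intro i i' hi
  rw [O_inv_apply]
  exact h i' i (Ne.symm hi)

lemma IsBlk.sum_mul' {N : ℕ} {A : Type} {sp : Fin N → A} {D : O N} (h : IsBlk sp D)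
    (c : A → ℝ) (u v : Fin N → ℝ) :
    ∑ i, c (sp i) * D.1.mulVec u i * D.1.mulVec v i = ∑ i, c (sp i) * u i * v i := by
  have h1 : ∀ i, c (sp i) * D.1.mulVec u i = D.1.mulVec (fun j => c (sp j) * u j) i := by
    intro i
    simp only [Matrix.mulVec, dotProduct, Finset.mul_sum]
    refine Finset.sum_congr rfl fun j _ => ?_
    by_cases hj : sp i = sp j
    · rw [hj]; ring
    · rw [h i j hj]; ring
  simp only [h1]
  exact dot_mulVec_of_mem D.2 _ _

/-- Block rotations preserve the scalar products of the blocks. -/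
lemma IsBlk.sum_mul {N : ℕ} {A : Type} [DecidableEq A] {sp : Fin N → A} {D : O N} (h : IsBlk sp D)
    (a : A) (u v : Fin N → ℝ) :
    ∑ i ∈ blk sp a, D.1.mulVec u i * D.1.mulVec v i = ∑ i ∈ blk sp a, u i * v i := by
  have := h.sum_mul' (fun b => if b = a then 1 else 0) u v
  simpa only [blk, Finset.sum_filter, ite_mul, one_mul, zero_mul] using this

/-- The matrix `1 ⊕ W`. -/
def extM {N : ℕ} (W : Matrix (Fin N) (Fin N) ℝ) : Matrix (Fin (N + 1)) (Fin (N + 1)) ℝ :=
  Matrix.of fun i j => Fin.cases (Fin.cases 1 (fun _ => 0) j)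
    (fun i' => Fin.cases 0 (fun j' => W i' j') j) i

lemma extM_mulVec {N : ℕ} (W : Matrix (Fin N) (Fin N) ℝ) (v : Fin (N + 1) → ℝ) :
    (extM W).mulVec v = Fin.cons (v 0) (W.mulVec (Fin.tail v)) := by
  funext i
  refine Fin.cases ?_ (fun i' => ?_) i
  · simp [extM, Matrix.mulVec, dotProduct, Fin.sum_univ_succ]
  · simp [extM, Matrix.mulVec, dotProduct, Fin.sum_univ_succ, Fin.tail]

lemma extM_mem {N : ℕ} (W : O N) : extM W.1 ∈ Matrix.orthogonalGroup (Fin (N + 1)) ℝ := by
  refine mem_O_of_dot fun u v => ?_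
  simp only [extM_mulVec, Fin.sum_univ_succ, Fin.cons_zero, Fin.cons_succ]
  rw [dot_mulVec_of_mem W.2]
  rfl

/-- `1 ⊕ W` in the orthogonal group. -/
def extO {N : ℕ} (W : O N) : O (N + 1) := ⟨extM W.1, extM_mem W⟩

lemma extO_mul {N : ℕ} (W W' : O N) : extO (W * W') = extO W * extO W' := by
  apply Subtype.ext
  ext i j
  change extM (W.1 * W'.1) i j = (extM W.1 * extM W'.1) i j
  rw [Matrix.mul_apply, Fin.sum_univ_succ]
  refine Fin.cases ?_ (fun i' => ?_) i <;> refine Fin.cases ?_ (fun j' => ?_) j <;>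
    simp [extM, Matrix.mul_apply]

lemma measurable_extO {N : ℕ} : Measurable (extO : O N → O (N + 1)) := by
  refine measurable_to_O fun i j => ?_
  refine Fin.cases ?_ (fun i' => ?_) i <;> refine Fin.cases ?_ (fun j' => ?_) j
  · exact measurable_const
  · exact measurable_const
  · exact measurable_const
  · exact measurable_O_entry i' j'

lemma extO_mulVec {N : ℕ} (W : O N) (a : ℝ) (v : Fin N → ℝ) :
    (extO W).1.mulVec (Fin.cons a v) = Fin.cons a (W.1.mulVec v) := by
  change (extM W.1).mulVec _ = _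
  rw [extM_mulVec]
  simp

lemma exists_extO {N : ℕ} (A U : O (N + 1)) (h : ∀ i, A.1 i 0 = U.1 i 0) :
    ∃ W : O N, U = A * extO W := by
  set V : O (N + 1) := A⁻¹ * U with hV
  have hA := (Matrix.mem_orthogonalGroup_iff' _ ℝ).1 A.2
  have hVo := (Matrix.mem_orthogonalGroup_iff' _ ℝ).1 V.2
  have hc : ∀ i, V.1 i 0 = if i = 0 then 1 else 0 := by
    intro i
    have h1 : V.1 i 0 = ∑ k, A.1 k i * A.1 k 0 := by
      change ((A⁻¹ : O (N + 1)).1 * U.1) i 0 = _
      simp only [Matrix.mul_apply, O_inv_apply, h]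
    have h2 := congrFun (congrFun hA i) 0
    simp only [Matrix.mul_apply, Matrix.transpose_apply, Matrix.one_apply] at h2
    rw [h1, h2]
  have hr : ∀ j : Fin N, V.1 0 j.succ = 0 := by
    intro j
    have h2 := congrFun (congrFun hVo 0) j.succ
    simp only [Matrix.mul_apply, Matrix.transpose_apply, hc] at h2
    simpa [Matrix.one_apply, (Fin.succ_ne_zero j).symm] using h2
  have hW : (V.1.submatrix Fin.succ Fin.succ) ∈ Matrix.orthogonalGroup (Fin N) ℝ := by
    rw [Matrix.mem_orthogonalGroup_iff']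
    ext a b
    have h2 := congrFun (congrFun hVo a.succ) b.succ
    simp only [Matrix.mul_apply, Matrix.transpose_apply, Fin.sum_univ_succ, hr] at h2
    simpa [Matrix.mul_apply, Matrix.one_apply] using h2
  refine ⟨⟨_, hW⟩, ?_⟩
  have : V = extO ⟨_, hW⟩ := by
    apply Subtype.ext
    ext i j
    refine Fin.cases ?_ (fun i' => ?_) i <;> refine Fin.cases ?_ (fun j' => ?_) j
    · simp [extO, extM, hc]
    · simp [extO, extM, hr]
    · simp [extO, extM, hc]
    · simp [extO, extM]
  rw [← this, hV, mul_inv_cancel_left]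

/-- Averaging over the stabiliser of the first column. -/
lemma integral_haar_succ {N : ℕ} (h' : Haar (N + 1)) (h : Haar N) {Φ : O (N + 1) → ℝ}
    (hm : Measurable Φ) {C : ℝ} (hC : ∀ U, |Φ U| ≤ C) :
    Measurable (fun U => ∫ W, Φ (U * extO W) ∂h.κ) ∧
      ∫ U, Φ U ∂h'.κ = ∫ U, (∫ W, Φ (U * extO W) ∂h.κ) ∂h'.κ := by
  have hm2 : Measurable (fun p : O (N + 1) × O N => Φ (p.1 * extO p.2)) :=
    hm.comp (measurable_O_mul.comp (measurable_fst.prodMk (measurable_extO.comp measurable_snd)))
  refine ⟨(hm2.stronglyMeasurable.integral_prod_right' (ν := h.κ)).measurable, ?_⟩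
  have hi : Integrable (Function.uncurry fun (U : O (N + 1)) (W : O N) => Φ (U * extO W))
      (h'.κ.prod h.κ) :=
    Integrable.of_bound hm2.aestronglyMeasurable C (Filter.Eventually.of_forall fun p => hC _)
  rw [integral_integral_swap hi]
  have : ∀ W : O N, ∫ U, Φ (U * extO W) ∂h'.κ = ∫ U, Φ U ∂h'.κ := fun W => by
    have := integral_map (μ := h'.κ) (h'.right (extO W)).measurable.aemeasurable
      (f := Φ) hm.aestronglyMeasurable
    rw [(h'.right (extO W)).map_eq] at this
    exact this.symm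
  simp [this]

/-- The first column has almost deterministic block norms. -/
lemma haar_col_dev {N : ℕ} (h : Haar (N + 1)) (I : Finset (Fin (N + 1))) {ε : ℝ} (hε : 0 < ε) :
    h.κ.real {U | ε ≤ |∑ i ∈ I, U.1 i 0 ^ 2 - I.card / (N + 1)|} ≤ 100 / ((N + 1) * ε ^ 2) := by
  set n : ℝ := N + 1 with hn
  have hn0 : 0 < n := by positivity
  have hI : (I.card : ℝ) ≤ n := by
    have := Finset.card_le_univ I
    rw [Fintype.card_fin] at this
    rw [hn]; exact_mod_cast this
  have hI0 : (0 : ℝ) ≤ I.card := Nat.cast_nonneg _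
  have hcol : ∀ U : O (N + 1), ∑ i, U.1 i 0 ^ 2 = 1 := by
    intro U
    have h2 := congrFun (congrFun ((Matrix.mem_orthogonalGroup_iff' _ ℝ).1 U.2) 0) 0
    simpa [Matrix.mul_apply, pow_two] using h2
  set E : Set (O (N + 1)) := {U | ε ≤ |∑ i ∈ I, U.1 i 0 ^ 2 - I.card / n|} with hE
  by_cases hε1 : 1 < ε
  · have : E = ∅ := by
      ext U
      simp only [hE, Set.mem_ofPred_eq, Set.mem_empty_iff_false, iff_false, not_le]
      have h1 : ∑ i ∈ I, U.1 i 0 ^ 2 ≤ 1 := by
        rw [← hcol U]
        exact Finset.sum_le_sum_of_subset_of_nonneg (Finset.subset_univ _) fun _ _ _ => sq_nonneg _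
      have h2 : 0 ≤ ∑ i ∈ I, U.1 i 0 ^ 2 := Finset.sum_nonneg fun _ _ => sq_nonneg _
      have h3 : (I.card : ℝ) / n ≤ 1 := (div_le_one hn0).2 hI
      have h4 : 0 ≤ (I.card : ℝ) / n := by positivity
      rw [abs_lt]; constructor <;> linarith
    rw [this]; simp only [measureReal_empty]; positivity
  push Not at hε1
  have hEm : MeasurableSet E := by
    refine measurableSet_le measurable_const ?_
    refine Measurable.abs (Measurable.sub ?_ measurable_const)
    exact Finset.measurable_sum _ fun i _ => (measurable_O_entry i 0).pow_const 2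
  set δ : ℝ := n * ε / 4 with hδ
  have hδ0 : 0 < δ := by positivity
  set G₁ : Set (Fin (N + 1) → ℝ) := {g | δ ≤ |∑ i ∈ I, g i ^ 2 - I.card|} with hG₁
  set G₂ : Set (Fin (N + 1) → ℝ) :=
    {g | δ ≤ |∑ i ∈ univ, g i ^ 2 - (univ : Finset (Fin (N + 1))).card|} with hG₂
  have hGm : ∀ J : Finset (Fin (N + 1)),
      MeasurableSet {g : Fin (N + 1) → ℝ | δ ≤ |∑ i ∈ J, g i ^ 2 - J.card|} := fun J => by
    refine measurableSet_le measurable_const ?_
    refine Measurable.abs (Measurable.sub ?_ measurable_const)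
    exact Finset.measurable_sum _ fun i _ => (measurable_pi_apply i).pow_const 2
  have hG : MeasurableSet (G₁ ∪ G₂) := (hGm I).union (hGm univ)
  have hcard : ((univ : Finset (Fin (N + 1))).card : ℝ) = n := by simp [hn]
  have hmv : Measurable (fun p : O (N + 1) × (Fin (N + 1) → ℝ) => p.1.1.mulVec p.2) := by
    refine measurable_pi_iff.2 fun i => ?_
    simp only [Matrix.mulVec, dotProduct]
    exact Finset.measurable_sum _ fun j _ => ((measurable_O_entry i j).comp measurable_fst).mul
      ((measurable_pi_apply j).comp measurable_snd)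
  have hS := hmv hG
  have h1 := Measure.prod_apply (μ := h.κ) (ν := gam (Fin (N + 1))) hS
  have h2 := Measure.prod_apply_symm (μ := h.κ) (ν := gam (Fin (N + 1))) hS
  have e1 : ∀ U : O (N + 1), gam (Fin (N + 1)) (Prod.mk U ⁻¹'
      ((fun p : O (N + 1) × (Fin (N + 1) → ℝ) => p.1.1.mulVec p.2) ⁻¹' (G₁ ∪ G₂))) =
      gam (Fin (N + 1)) (G₁ ∪ G₂) := fun U => (gam_mulVec U.2).measure_preimage hG.nullMeasurableSet
  have e2 : ∀ g : Fin (N + 1) → ℝ, h.κ E ≤ h.κ ((fun U => (U, g)) ⁻¹'
      ((fun p : O (N + 1) × (Fin (N + 1) → ℝ) => p.1.1.mulVec p.2) ⁻¹' (G₁ ∪ G₂))) := by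
    intro g
    set r : ℝ := √(∑ i, g i ^ 2) with hr
    have hr2 : r ^ 2 = ∑ i, g i ^ 2 := Real.sq_sqrt (Finset.sum_nonneg fun _ _ => sq_nonneg _)
    have hsw : (hh (Pi.single 0 r - g)).mulVec (Pi.single 0 r) = g := by
      refine hh_swap ?_
      rw [← hr2, Fin.sum_univ_succ]; simp
    set D : O (N + 1) := ⟨hh (Pi.single 0 r - g), hh_mem _⟩ with hD
    rw [← (h.right D).measure_preimage hEm.nullMeasurableSet]
    refine measure_mono fun U hU => ?_
    have hx : ∀ i, U.1.mulVec g i = (U * D).1 i 0 * r := by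
      intro i
      have : U.1.mulVec g = (U.1 * D.1).mulVec (Pi.single 0 r) := by
        rw [← Matrix.mulVec_mulVec, hsw]
      rw [this, Matrix.mulVec_single]
      simp
    simp only [Set.mem_preimage, hE, Set.mem_ofPred_eq] at hU
    simp only [Set.mem_preimage, Set.mem_union, hG₁, hG₂, Set.mem_ofPred_eq, hx, mul_pow,
      ← Finset.sum_mul, hcol, hcard, one_mul]
    set a := ∑ i ∈ I, (U * D).1 i 0 ^ 2 with ha
    set s := r ^ 2 with hs
    by_contra hcon
    push Not at hcon
    obtain ⟨c1, c2⟩ := hcon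
    have ha1 : a ≤ 1 := by
      rw [ha, ← hcol (U * D)]
      exact Finset.sum_le_sum_of_subset_of_nonneg (Finset.subset_univ _) fun _ _ _ => sq_nonneg _
    have ha0 : 0 ≤ a := Finset.sum_nonneg fun _ _ => sq_nonneg _
    have h7 : a - I.card / n = ((a * s - I.card) - a * (s - n)) / n := by field_simp; ring
    have h8 : |(a * s - I.card) - a * (s - n)| < n * ε := by
      have h9 : |a * (s - n)| ≤ δ := by
        rw [abs_mul, abs_of_nonneg ha0]
        nlinarith [abs_nonneg (s - n)]
      have := abs_sub (a * s - I.card) (a * (s - n))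
      have : 0 < n * ε := by positivity
      linarith
    rw [h7, abs_div, abs_of_pos hn0, le_div_iff₀ hn0] at hU
    linarith
  have h3 : h.κ E ≤ gam (Fin (N + 1)) (G₁ ∪ G₂) := by
    simp only [e1, lintegral_const, measure_univ, mul_one] at h1
    rw [← h1, h2]
    calc h.κ E = ∫⁻ _, h.κ E ∂gam (Fin (N + 1)) := by simp
      _ ≤ _ := lintegral_mono e2
  have h4 : h.κ.real E ≤ (gam (Fin (N + 1))).real (G₁ ∪ G₂) :=
    ENNReal.toReal_mono (measure_ne_top _ _) h3
  have h5 := measureReal_union_le (μ := gam (Fin (N + 1))) G₁ G₂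
  have h6 := gam_chi_dev I hδ0
  have h7 := gam_chi_dev (univ : Finset (Fin (N + 1))) hδ0
  rw [← hG₁] at h6
  rw [← hG₂, hcard] at h7
  have h8 : 2 * (I.card : ℝ) / δ ^ 2 ≤ 2 * n / δ ^ 2 := by gcongr
  have h9 : 2 * n / δ ^ 2 = 32 / (n * ε ^ 2) := by rw [hδ]; field_simp; norm_num
  have h10 : 100 / (n * ε ^ 2) = 32 / (n * ε ^ 2) + 32 / (n * ε ^ 2) + 36 / (n * ε ^ 2) := by ring
  have h11 : 0 ≤ 36 / (n * ε ^ 2) := by positivity
  linarith

lemma pat_succ (n N : ℕ) (i : Fin N) : pat n (N + 1) i.succ = pat n N i := by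
  unfold pat
  congr 1
  simp only [Fin.val_succ]
  omega

lemma pat_zero (n N : ℕ) : pat n (N + 1) 0 = Fin.ofNat (n + 1) N := by
  simp [pat]

lemma sum_blk {N : ℕ} {A : Type} [Fintype A] [DecidableEq A] (sp : Fin N → A) (f : Fin N → ℝ) :
    ∑ a, ∑ i ∈ blk sp a, f i = ∑ i, f i :=
  Finset.sum_fiberwise univ sp f

lemma card_blk_succ {N : ℕ} {A : Type} [DecidableEq A] (sp : Fin (N + 1) → A) (a : A) :
    (blk sp a).card = (blk (fun i : Fin N => sp i.succ) a).card + if sp 0 = a then 1 else 0 := by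
  simp only [blk, Finset.card_filter, Fin.sum_univ_succ]
  ring

lemma card_blk_pat (n N : ℕ) (a : Fin (n + 1)) :
    (blk (pat n N) a).card = Nat.count (fun m => m ≡ a.val [MOD (n + 1)]) N := by
  induction N with
  | zero => simp [blk]
  | succ N ih =>
    rw [card_blk_succ, Nat.count_succ, pat_zero]
    simp only [pat_succ]
    rw [ih]
    congr 1
    have : Fin.ofNat (n + 1) N = a ↔ N ≡ a.val [MOD (n + 1)] := by
      rw [Fin.ext_iff, Nat.ModEq, Nat.mod_eq_of_lt a.2]; rfl
    simp only [this]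

lemma bal_pat (n N : ℕ) : Bal (pat n N) 1 := by
  intro a
  rw [card_blk_pat, Nat.count_modEq_card _ (Nat.succ_pos n)]
  have h1 : (N : ℝ) = (n + 1) * (N / (n + 1) : ℕ) + (N % (n + 1) : ℕ) := by
    exact_mod_cast (Nat.div_add_mod N (n + 1)).symm
  have h2 : ((N % (n + 1) : ℕ) : ℝ) < n + 1 := by exact_mod_cast Nat.mod_lt N (Nat.succ_pos n)
  have h3 : (0 : ℝ) ≤ (N % (n + 1) : ℕ) := Nat.cast_nonneg _
  have hp : (0 : ℝ) < n + 1 := by positivity
  have h4 : ((N / (n + 1) : ℕ) : ℝ) ≤ N / (n + 1) := by rw [le_div_iff₀ hp]; nlinarith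
  have h5 : (N : ℝ) / (n + 1) ≤ (N / (n + 1) : ℕ) + 1 := by rw [div_le_iff₀ hp]; nlinarith
  simp only [Nat.succ_eq_add_one]
  rw [abs_le]
  split_ifs <;> push_cast <;> constructor <;> linarith

lemma card_blk_perm {N : ℕ} {A : Type} [DecidableEq A] (sp : Fin N → A) (σ : Equiv.Perm (Fin N))
    (a : A) : (blk (sp ∘ σ) a).card = (blk sp a).card := by
  simp only [blk, Finset.card_filter, Function.comp]
  exact Equiv.sum_comp σ (fun i => if sp i = a then 1 else 0)

/-- Two labellings with close counts agree, after a permutation, at most sites. -/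
lemma exists_perm_mismatch {N : ℕ} {A : Type} [Fintype A] [DecidableEq A] (lab lab' : Fin N → A) :
    ∃ σ : Equiv.Perm (Fin N), ((univ.filter fun r => lab (σ r) ≠ lab' r).card : ℝ) ≤
      ∑ a, |((blk lab a).card : ℝ) - (blk lab' a).card| := by
  obtain ⟨σ, -, hσ⟩ := Finset.exists_min_image (univ : Finset (Equiv.Perm (Fin N)))
    (fun σ => (univ.filter fun r => lab (σ r) ≠ lab' r).card) ⟨1, Finset.mem_univ _⟩
  refine ⟨σ, ?_⟩
  set M := univ.filter fun r => lab (σ r) ≠ lab' r with hM
  have key : ∀ r ∈ M, ∀ r' ∈ M, lab (σ r) ≠ lab' r' := by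
    intro r hr r' hr' he
    have hne : r ≠ r' := by
      rintro rfl
      exact (Finset.mem_filter.1 hr).2 he
    have h1 := hσ (σ * Equiv.swap r r') (Finset.mem_univ _)
    have h2 : (univ.filter fun x => lab ((σ * Equiv.swap r r') x) ≠ lab' x) ⊆ M.erase r' := by
      intro x hx
      have hx' := (Finset.mem_filter.1 hx).2
      rw [Equiv.Perm.mul_apply] at hx'
      rw [Finset.mem_erase]
      by_cases hxr' : x = r'
      · subst hxr'
        rw [Equiv.swap_apply_right] at hx'
        exact absurd he hx'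
      · refine ⟨hxr', ?_⟩
        by_cases hxr : x = r
        · rw [hxr]; exact hr
        · rw [Equiv.swap_apply_of_ne_of_ne hxr hxr'] at hx'
          exact Finset.mem_filter.2 ⟨Finset.mem_univ _, hx'⟩
    have h3 := Finset.card_le_card h2
    have h4 := Finset.card_erase_lt_of_mem hr'
    omega
  rw [Finset.card_eq_sum_card_fiberwise (s := M) (t := univ) (f := lab') (fun _ _ => Finset.mem_univ _)]
  push_cast
  refine Finset.sum_le_sum fun a _ => ?_
  rcases (M.filter fun r => lab' r = a).eq_empty_or_nonempty with h0 | ⟨r', hr'⟩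
  · rw [h0]; simp
  · obtain ⟨hr'M, hr'a⟩ := Finset.mem_filter.1 hr'
    have hd : Disjoint (blk (lab ∘ σ) a) (M.filter fun r => lab' r = a) := by
      rw [Finset.disjoint_left]
      intro r hr hr2
      have := (Finset.mem_filter.1 hr).2
      exact key r (Finset.mem_filter.1 hr2).1 r' hr'M (this.trans hr'a.symm)
    have hs : blk (lab ∘ σ) a ∪ (M.filter fun r => lab' r = a) ⊆ blk lab' a := by
      intro r hr
      refine Finset.mem_filter.2 ⟨Finset.mem_univ _, ?_⟩
      rcases Finset.mem_union.1 hr with hr | hr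
      · have h1 : lab (σ r) = a := (Finset.mem_filter.1 hr).2
        by_contra hne
        have hrM : r ∈ M := Finset.mem_filter.2 ⟨Finset.mem_univ _, by rw [h1]; exact Ne.symm hne⟩
        exact key r hrM r' hr'M (h1.trans hr'a.symm)
      · exact (Finset.mem_filter.1 hr).2
    have h5 := Finset.card_le_card hs
    rw [Finset.card_union_of_disjoint hd, card_blk_perm] at h5
    have h6 : ((blk lab a).card : ℝ) + (M.filter fun r => lab' r = a).card ≤ (blk lab' a).card := by
      exact_mod_cast h5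
    rw [abs_sub_comm]
    exact le_trans (by linarith) (le_abs_self _)

end Crest.Agent.R164
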