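import Crest.Agent.R164.SDAux

/-! # Row 164: the pair identities and their averaged error terms -/

set_option autoImplicit false
set_option linter.unusedSectionVars false

namespace Crest.Agent.R164

open MeasureTheory ProbabilityTheory Real Finset

lemma sd_Ioc_split (f : ℕ → ℝ) {e k : ℕ} (h : e < k) :
    ∑ l ∈ Ioc e k, f l = f (e + 1) + ∑ l ∈ Ioc (e + 1) k, f l := by
  rw [← sum_Ioc_consecutive _ (Nat.le_succ e) h, Nat.Ioc_succ_singleton, sum_singleton]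

lemma sd_Icc_split (f : ℕ → ℝ) {e k : ℕ} (h : e ≤ k) :
    ∑ l ∈ Icc 1 k, f l = ∑ l ∈ Icc 1 e, f l + ∑ l ∈ Ioc e k, f l := by
  rw [← sum_union]
  · congr 1
    ext l; simp only [mem_Icc, mem_union, mem_Ioc]; omega
  · rw [Finset.disjoint_left]
    intro l; simp only [mem_Icc, mem_Ioc]; omega

lemma sd_Icc_top (f : ℕ → ℝ) {e : ℕ} (h : 1 ≤ e) :
    ∑ l ∈ Icc 1 e, f l = ∑ l ∈ Ico 1 e, f l + f e := by
  rw [← Finset.Ico_add_one_right_eq_Icc, Finset.sum_Ico_succ_top h]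


lemma Dev_mul_tail {k : ℕ} (ex : Expo (k + 2)) (d d' : ℝ) (q q' : ℕ → ℝ) {e : ℕ} (he : e ≤ k) :
    ∑ m ∈ Ioc e k, ex.Δ m * (q m * d' + d * q' m - ∑ l ∈ Ioc m k, ex.Δ l * (q m * q' l + q l * q' m) -
          (ex.ζ (m + 1) + ex.Δ m) * (q m * q' m) - ∑ l ∈ Ico 1 m, ex.Δ l * (q l * q' l)) =
      d' * ∑ l ∈ Ioc e k, ex.Δ l * q l + d * ∑ l ∈ Ioc e k, ex.Δ l * q' l -
        (∑ l ∈ Ioc e k, ex.Δ l * q l) * (∑ l ∈ Ioc e k, ex.Δ l * q' l) -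
        ∑ l ∈ Ioc e k, ex.Δ l * (q l * q' l) -
        (1 - ex.ζ (e + 1)) * ∑ l ∈ Icc 1 e, ex.Δ l * (q l * q' l) := by
  induction he using Nat.decreasingInduction with
  | self => simp [ex.top (k + 1) le_rfl]
  | of_succ e h ih =>
    have h1 : ∑ l ∈ Ioc (e + 1) k, ex.Δ l * (q (e + 1) * q' l + q l * q' (e + 1)) =
        q (e + 1) * ∑ l ∈ Ioc (e + 1) k, ex.Δ l * q' l +
          q' (e + 1) * ∑ l ∈ Ioc (e + 1) k, ex.Δ l * q l := by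
      rw [mul_sum, mul_sum, ← sum_add_distrib]
      exact sum_congr rfl fun l _ => by ring
    have h2 : ex.ζ (e + 1 + 1) = ex.ζ (e + 1) + ex.Δ (e + 1) := by unfold Expo.Δ; ring
    rw [sd_Ioc_split _ h, ih, sd_Ioc_split (fun l => ex.Δ l * q l) h,
      sd_Ioc_split (fun l => ex.Δ l * q' l) h, sd_Ioc_split (fun l => ex.Δ l * (q l * q' l)) h,
      sum_Icc_succ_top (Nat.le_add_left 1 e), h1, Finset.Ico_add_one_right_eq_Icc, h2]
    ring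

namespace Lev

variable {k : ℕ} {Ω ι : Type} [MeasurableSpace Ω] {L : Lev (k + 2) Ω}
  {H f f' g a u w p : Cfg (k + 2) Ω → ℝ} {φ : ℝ → ℕ → Ω → Ω} {μ : ℝ}

lemma sd_swap (hH : L.Lin H) (hf : L.Nice f) (hg : L.Nice g) (l : ℕ) :
    L.E0 H (fun ω => L.E l H f ω * L.E l H g ω) = L.E0 H (fun ω => f ω * L.E l H g ω) :=
  (E_mul_E hH hf hg (Nat.zero_le l) _).symm

lemma sd_swap_dep (hH : L.Lin H) {l : ℕ} (ha : L.Nice a) (hd : Dep l a) (hf : L.Nice f)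
    (hg : L.Nice g) :
    L.E0 H (fun ω => L.E l H (fun ω => a ω * f ω) ω * L.E l H g ω) =
      L.E0 H (fun ω => g ω * (a ω * L.E l H f ω)) := by
  rw [sd_congr (fun ω => mul_comm _ _), sd_swap hH hg (ha.mul hf)]
  exact sd_congr fun ω => by rw [E_dep_mul hd]

lemma sd_St0 (h01 : L.ζ 0 = L.ζ 1) (hH : L.Lin H) (hf : L.Nice f) (hg : L.Nice g) :
    L.E0 H (fun ω => f ω * L.St 0 H g ω) = L.E0 H (fun ω => f ω * g ω) -
      ∑ l ∈ Icc 1 k, L.Δ l * L.E0 H (fun ω => L.E (l + 1) H f ω * L.E (l + 1) H g ω) := by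
  rw [E0_mul_St hH hf hg, show k + 2 - 1 = k + 1 from rfl,
    Finset.sum_eq_sum_Ico_succ_bot (show 0 < k + 1 by omega), Finset.Ico_add_one_right_eq_Icc]
  have : L.Δ 0 = 0 := by unfold Expo.Δ; rw [h01]; simp
  rw [this, zero_mul, zero_add, zero_add]

lemma sd_flow (hH : L.Lin H) (hu : L.Nice u) (hw : L.Nice w) (hp : L.Nice p)
    (h0 : ∀ e x, φ 0 e x = x)
    (hφ : ∀ t, ∀ e < k + 2, MeasurePreserving (φ t e) (L.μ e) (L.μ e))
    (hk : L.HasDL (fun t => cmap (φ t)) H (fun ω => μ * (u ω * w ω) + p ω))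
    (hf : L.HasD (fun t => cmap (φ t)) f f') :
    L.E0 H f' + μ * L.E0 H (fun ω => f ω * L.St 0 H (fun ω => u ω * w ω) ω) +
      L.E0 H (fun ω => f ω * L.St 0 H p ω) = 0 := by
  have e0 : ∀ ω : Cfg (k + 2) Ω, cmap (φ 0) ω = ω := fun ω => funext fun i => h0 _ _
  obtain ⟨h1, h2⟩ := flow_identity h0 hφ hk hf
  have hfn := hf.nice e0
  have n1 := hfn.mul (Nice.St hH (hu.mul hw) 0)
  have n2 := hfn.mul (Nice.St hH hp 0)
  rw [← sd_cmul, ← sd_add hH hf.nice' (n1.const_mul μ), ← sd_add hH (hf.nice'.add (n1.const_mul μ)) n2,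
    ← h2]
  refine sd_congr fun ω => ?_
  rw [S_eq_St hH (by omega), E_zero, h1, sd_St_lin hH (hu.mul hw) hp]
  ring

/-- the identity for the diagonal entry -/
lemma sd_pair_d (h01 : L.ζ 0 = L.ζ 1) (hH : L.Lin H) (hu : L.Nice u) (hw : L.Nice w)
    (hp : L.Nice p) (h0 : ∀ e x, φ 0 e x = x)
    (hφ : ∀ t, ∀ e < k + 2, MeasurePreserving (φ t e) (L.μ e) (L.μ e))
    (hdu : L.HasD (fun t => cmap (φ t)) u w) (hdw : L.HasD (fun t => cmap (φ t)) w (fun ω => -u ω))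
    (hk : L.HasDL (fun t => cmap (φ t)) H (fun ω => μ * (u ω * w ω) + p ω)) :
    L.E0 H (fun ω => w ω ^ 2) - L.E0 H (fun ω => u ω ^ 2) +
      μ * (L.E0 H (fun ω => u ω ^ 2 * w ω ^ 2) - ∑ l ∈ Icc 1 k, L.Δ l *
        L.E0 H (fun ω => L.E (k + 1 + 1) H u ω * L.E (k + 1 + 1) H w ω *
          L.E (l + 1) H (fun ω' => u ω' * w ω') ω)) +
      L.E0 H (fun ω => u ω * w ω * L.St 0 H p ω) = 0 := by
  have e0 : ∀ ω : Cfg (k + 2) Ω, cmap (φ 0) ω = ω := fun ω => funext fun i => h0 _ _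
  have h1 := sd_flow hH hu hw hp h0 hφ hk (HasD.mul e0 hdu hdw)
  rw [sd_St0 h01 hH (hu.mul hw) (hu.mul hw)] at h1
  rw [← h1, ← sd_sub hH (hw.pow 2) (hu.pow 2), E_of_ge L le_rfl, E_of_ge L le_rfl]
  congr 2
  · exact sd_congr fun ω => by ring
  · congr 2
    · exact sd_congr fun ω => by ring
    · exact sum_congr rfl fun l _ => by rw [sd_swap hH (hu.mul hw) (hu.mul hw)]

/-- the identity for the entry of level `e` -/
lemma sd_pair_e (h01 : L.ζ 0 = L.ζ 1) (hH : L.Lin H) (hu : L.Nice u) (hw : L.Nice w)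
    (hp : L.Nice p) (h0 : ∀ e x, φ 0 e x = x)
    (hφ : ∀ t, ∀ e < k + 2, MeasurePreserving (φ t e) (L.μ e) (L.μ e))
    (hdu : L.HasD (fun t => cmap (φ t)) u w) (hdw : L.HasD (fun t => cmap (φ t)) w (fun ω => -u ω))
    (hk : L.HasDL (fun t => cmap (φ t)) H (fun ω => μ * (u ω * w ω) + p ω))
    {e : ℕ} (h1e : 1 ≤ e) (hek : e ≤ k) :
    L.E0 H (fun ω => L.E (e + 1) H w ω ^ 2) - L.E0 H (fun ω => L.E (e + 1) H u ω ^ 2) +
      μ * (L.E0 H (fun ω => (u ω * L.E (e + 1) H u ω) * w ω ^ 2) +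
        L.E0 H (fun ω => u ω ^ 2 * (w ω * L.E (e + 1) H w ω)) -
        ∑ l ∈ Ioc e k, L.Δ l *
          (L.E0 H (fun ω => (u ω * L.E (e + 1) H u ω) * (w ω * L.E (l + 1) H w ω)) +
          L.E0 H (fun ω => (u ω * L.E (l + 1) H u ω) * (w ω * L.E (e + 1) H w ω))) -
        (L.ζ (e + 1) + L.Δ e) *
          L.E0 H (fun ω => (u ω * L.E (e + 1) H u ω) * (w ω * L.E (e + 1) H w ω)) -
        ∑ l ∈ Ico 1 e, L.Δ l * L.E0 H (fun ω => L.E (e + 1) H u ω * L.E (e + 1) H w ω *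
          L.E (l + 1) H (fun ω' => u ω' * w ω') ω)) +
      (L.E0 H (fun ω => L.E (e + 1) H u ω * w ω * L.S (e + 1) H p ω) +
       L.E0 H (fun ω => u ω * L.E (e + 1) H w ω * L.St 0 H p ω)) = 0 := by
  have e0 : ∀ ω : Cfg (k + 2) Ω, cmap (φ 0) ω = ω := fun ω => funext fun i => h0 _ _
  have hE := HasD.E (l := e + 1) h0 (fun t e' _ h => hφ t e' h) hk hdw
  have h1 := sd_flow hH hu hw hp h0 hφ hk (HasD.mul e0 hdu hE)
  have mu : ∀ l, L.Nice (L.E l H u) := Nice.E hH hu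
  have mw : ∀ l, L.Nice (L.E l H w) := Nice.E hH hw
  have huw := hu.mul hw
  have nk : L.Nice (fun ω => μ * (u ω * w ω) + p ω) := (huw.const_mul μ).add hp
  have ng : L.Nice (fun ω => -u ω + w ω * L.S (e + 1) H (fun ω => μ * (u ω * w ω) + p ω) ω) :=
    hu.neg.add (hw.mul (Nice.S hH nk _))
  -- the derivative term
  have a1 : L.E0 H (fun ω => u ω * L.E (e + 1) H (fun ω => -u ω + w ω *
      L.S (e + 1) H (fun ω => μ * (u ω * w ω) + p ω) ω) ω) =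
      -L.E0 H (fun ω => L.E (e + 1) H u ω ^ 2) +
      μ * (L.E0 H (fun ω => L.E (e + 1) H u ω * w ω * L.St (e + 1) H (fun ω => u ω * w ω) ω) -
        L.ζ (e + 1) * L.E0 H (fun ω => L.E (e + 1) H u ω * w ω *
          L.E (e + 1) H (fun ω => u ω * w ω) ω)) +
      L.E0 H (fun ω => L.E (e + 1) H u ω * w ω * L.S (e + 1) H p ω) := by
    have n0 := hu.mul (mu (e + 1))
    have n1 := ((mu (e + 1)).mul hw).mul (Nice.St hH huw (e + 1))
    have n2 := (((mu (e + 1)).mul hw).mul (Nice.E hH huw (e + 1))).const_mul (L.ζ (e + 1))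
    have n3 := ((mu (e + 1)).mul hw).mul (Nice.S hH hp (e + 1))
    rw [← sd_swap hH hu ng, ← sd_tower hH (mu _) (dep_E _ _ _) ng, ← sd_E_ym' hH hu,
      neg_eq_neg_one_mul (L.E0 H _), ← sd_cmul, ← sd_cmul (L.ζ (e + 1)), ← sd_sub hH n1 n2, ← sd_cmul,
      ← sd_add hH (n0.const_mul _) ((n1.sub n2).const_mul _),
      ← sd_add hH ((n0.const_mul _).add ((n1.sub n2).const_mul _)) n3]
    refine sd_congr fun ω => ?_
    rw [sd_S_lin hH huw hp, S_eq_St hH (show e + 1 < k + 2 by omega) (fun ω => u ω * w ω)]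
    ring
  have a2 : L.E0 H (fun ω => L.E (e + 1) H u ω * w ω * L.St (e + 1) H (fun ω => u ω * w ω) ω) =
      L.E0 H (fun ω => (u ω * L.E (e + 1) H u ω) * w ω ^ 2) - ∑ l ∈ Ioc e k, L.Δ l *
        L.E0 H (fun ω => (u ω * L.E (e + 1) H u ω) * (w ω * L.E (l + 1) H w ω)) := by
    rw [E0_mul_St hH ((mu _).mul hw) huw, show k + 2 - 1 = k + 1 from rfl,
      Finset.Ico_add_one_add_one_eq_Ioc]
    congr 1
    · exact sd_congr fun ω => by ring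
    · refine sum_congr rfl fun l hl => ?_
      rw [sd_swap_dep hH (mu _) ((dep_E _ _ _).mono (by have := (mem_Ioc.1 hl).1; omega)) hw huw]
      congr 1
      exact sd_congr fun ω => by ring
  have a3 : L.E0 H (fun ω => L.E (e + 1) H u ω * w ω * L.E (e + 1) H (fun ω => u ω * w ω) ω) =
      L.E0 H (fun ω => (u ω * L.E (e + 1) H u ω) * (w ω * L.E (e + 1) H w ω)) := by
    rw [← sd_swap hH ((mu _).mul hw) huw, sd_swap_dep hH (mu _) (dep_E _ _ _) hw huw]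
    exact sd_congr fun ω => by ring
  have a4 : ∀ l, e ≤ l → L.E0 H (fun ω => L.E (l + 1) H (fun ω => u ω * L.E (e + 1) H w ω) ω *
      L.E (l + 1) H (fun ω => u ω * w ω) ω) =
      L.E0 H (fun ω => (u ω * L.E (l + 1) H u ω) * (w ω * L.E (e + 1) H w ω)) := by
    intro l hl
    have : (fun ω => u ω * L.E (e + 1) H w ω) = fun ω => L.E (e + 1) H w ω * u ω :=
      funext fun ω => mul_comm _ _
    rw [this, sd_swap_dep hH (mw _) ((dep_E _ _ _).mono (by omega)) hu huw]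
    exact sd_congr fun ω => by ring
  have a5 : ∀ l, l ≤ e → L.E0 H (fun ω => L.E (l + 1) H (fun ω => u ω * L.E (e + 1) H w ω) ω *
      L.E (l + 1) H (fun ω => u ω * w ω) ω) =
      L.E0 H (fun ω => L.E (e + 1) H u ω * L.E (e + 1) H w ω *
          L.E (l + 1) H (fun ω' => u ω' * w ω') ω) := by
    intro l hl
    have hd : Dep (e + 1) (fun ω => L.E (e + 1) H w ω * L.E (l + 1) H (fun ω => u ω * w ω) ω) :=
      sd_dep_mul (dep_E _ _ _) ((dep_E _ _ _).mono (by omega))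
    have := sd_tower hH ((mw _).mul (Nice.E hH huw _)) hd hu
    rw [sd_swap hH (hu.mul (mw _)) huw, sd_congr (g := fun ω => L.E (e + 1) H w ω *
      L.E (l + 1) H (fun ω => u ω * w ω) ω * u ω) (fun ω => by ring), this]
    exact sd_congr fun ω => by ring
  have a6 : ∑ l ∈ Icc 1 k, L.Δ l * L.E0 H (fun ω =>
      L.E (l + 1) H (fun ω => u ω * L.E (e + 1) H w ω) ω * L.E (l + 1) H (fun ω => u ω * w ω) ω) =
      ∑ l ∈ Ico 1 e, L.Δ l * L.E0 H (fun ω => L.E (e + 1) H u ω * L.E (e + 1) H w ω *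
          L.E (l + 1) H (fun ω' => u ω' * w ω') ω) +
      L.Δ e * L.E0 H (fun ω => (u ω * L.E (e + 1) H u ω) * (w ω * L.E (e + 1) H w ω)) +
      ∑ l ∈ Ioc e k, L.Δ l *
        L.E0 H (fun ω => (u ω * L.E (l + 1) H u ω) * (w ω * L.E (e + 1) H w ω)) := by
    rw [sd_Icc_split _ hek, sd_Icc_top _ h1e, a4 e le_rfl]
    congr 1
    · congr 1
      exact sum_congr rfl fun l hl => by rw [a5 l (mem_Ico.1 hl).2.le]
    · exact sum_congr rfl fun l hl => by rw [a4 l (mem_Ioc.1 hl).1.le]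
  have a7 : L.E0 H (fun ω => u ω * L.E (e + 1) H w ω * (u ω * w ω)) =
      L.E0 H (fun ω => u ω ^ 2 * (w ω * L.E (e + 1) H w ω)) := sd_congr fun ω => by ring
  rw [sd_St0 h01 hH (hu.mul (mw _)) huw, sd_add hH (hw.mul (mw _)) (hu.mul (Nice.E hH ng _)),
    sd_E_ym' hH hw, a1, a2, a3, a6, a7] at h1
  simp only [mul_add (L.Δ _), sum_add_distrib]
  linear_combination h1

/-! ### Averages over pairs -/

variable {I J : Finset ι} {y : ι → Cfg (k + 2) Ω → ℝ} {κ θ ε : ℝ}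

/-- average over `I × J` -/
noncomputable def sdAv (I J : Finset ι) (t : ι → ι → ℝ) : ℝ :=
  (∑ i ∈ I, ∑ j ∈ J, t i j) / (I.card * J.card)

lemma sdAv_add (s t : ι → ι → ℝ) :
    sdAv I J (fun i j => s i j + t i j) = sdAv I J s + sdAv I J t := by
  simp only [sdAv, sum_add_distrib, add_div]

lemma sdAv_sub (s t : ι → ι → ℝ) :
    sdAv I J (fun i j => s i j - t i j) = sdAv I J s - sdAv I J t := by
  simp only [sdAv, sum_sub_distrib, sub_div]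

lemma sdAv_cmul (c : ℝ) (t : ι → ι → ℝ) :
    sdAv I J (fun i j => c * t i j) = c * sdAv I J t := by
  simp only [sdAv, ← mul_sum, mul_div_assoc]

lemma sdAv_sum (s : Finset ℕ) (t : ℕ → ι → ι → ℝ) :
    sdAv I J (fun i j => ∑ l ∈ s, t l i j) = ∑ l ∈ s, sdAv I J (t l) := by
  simp only [sdAv, ← sum_div]
  congr 1
  rw [sum_comm (s := s)]
  exact sum_congr rfl fun i _ => sum_comm

lemma sdAv_left (hJ : J.Nonempty) (s : ι → ℝ) :
    sdAv I J (fun i _ => s i) = (∑ i ∈ I, s i) / I.card := by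
  have := sd_card_pos hJ
  simp only [sdAv, sum_const, nsmul_eq_mul, ← mul_sum]
  rw [mul_comm (I.card : ℝ), mul_div_mul_left _ _ this.ne']

lemma sdAv_right (hI : I.Nonempty) (s : ι → ℝ) :
    sdAv I J (fun _ j => s j) = (∑ j ∈ J, s j) / J.card := by
  have := sd_card_pos hI
  simp only [sdAv, sum_const, nsmul_eq_mul]
  rw [mul_div_mul_left _ _ this.ne']

lemma sdAv_zero {t : ι → ι → ℝ} (h : ∀ i ∈ I, ∀ j ∈ J, t i j = 0) : sdAv I J t = 0 := by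
  unfold sdAv
  rw [sum_eq_zero fun i hi => sum_eq_zero fun j hj => h i hi j hj, zero_div]

lemma sd_prod (hH : L.Lin H) (hI : I.Nonempty) (hJ : J.Nonempty) {F G : ι → Cfg (k + 2) Ω → ℝ}
    (hF : ∀ i ∈ I, L.Nice (F i)) (hG : ∀ j ∈ J, L.Nice (G j)) {a b : ℝ} (ha : 0 ≤ a) (hb : 0 ≤ b)
    (h1 : L.Var H (fun ω => (∑ i ∈ I, F i ω) / I.card) ≤ a ^ 2)
    (h2 : L.Var H (fun ω => (∑ j ∈ J, G j ω) / J.card) ≤ b ^ 2) :
    |sdAv I J (fun i j => L.E0 H (fun ω => F i ω * G j ω)) -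
      L.E0 H (fun ω => (∑ i ∈ I, F i ω) / I.card) * L.E0 H (fun ω => (∑ j ∈ J, G j ω) / J.card)|
      ≤ a * b := by
  have hn := sd_card_pos hI
  have hn' := sd_card_pos hJ
  unfold sdAv
  rw [sd_sum_prod hH hI hJ hF hG, mul_div_cancel_left₀ _ (by positivity)]
  exact sd_cov hH ((Nice.sum I hF).div_const _) ((Nice.sum J hG).div_const _) ha hb h1 h2

lemma sd_RR (hH : L.Lin H) (hI : I.Nonempty) (hJ : J.Nonempty) (hyI : ∀ i ∈ I, L.Nice (y i))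
    (hyJ : ∀ j ∈ J, L.Nice (y j)) {a b : ℝ} (ha : 0 ≤ a) (hb : 0 ≤ b)
    (h1 : L.Var H (rr I y) ≤ a ^ 2) (h2 : L.Var H (rr J y) ≤ b ^ 2) :
    |sdAv I J (fun i j => L.E0 H (fun ω => y i ω ^ 2 * y j ω ^ 2)) - L.dd H I y * L.dd H J y|
      ≤ a * b :=
  sd_prod hH hI hJ (fun i hi => (hyI i hi).pow 2) (fun j hj => (hyJ j hj).pow 2) ha hb h1 h2

lemma sd_NR (hH : L.Lin H) (hI : I.Nonempty) (hJ : J.Nonempty) (hyI : ∀ i ∈ I, L.Nice (y i))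
    (hyJ : ∀ j ∈ J, L.Nice (y j)) {a b : ℝ} (ha : 0 ≤ a) (hb : 0 ≤ b) (e : ℕ)
    (h1 : L.Var H (L.sdN H I y e) ≤ a ^ 2) (h2 : L.Var H (rr J y) ≤ b ^ 2) :
    |sdAv I J (fun i j => L.E0 H (fun ω => (y i ω * L.E (e + 1) H (y i) ω) * y j ω ^ 2)) -
      L.qq H I y e * L.dd H J y| ≤ a * b := by
  rw [← sd_E_N hH hyI]
  exact sd_prod hH hI hJ (fun i hi => (hyI i hi).mul (Nice.E hH (hyI i hi) _))
    (fun j hj => (hyJ j hj).pow 2) ha hb h1 h2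

lemma sd_RN (hH : L.Lin H) (hI : I.Nonempty) (hJ : J.Nonempty) (hyI : ∀ i ∈ I, L.Nice (y i))
    (hyJ : ∀ j ∈ J, L.Nice (y j)) {a b : ℝ} (ha : 0 ≤ a) (hb : 0 ≤ b) (e : ℕ)
    (h1 : L.Var H (rr I y) ≤ a ^ 2) (h2 : L.Var H (L.sdN H J y e) ≤ b ^ 2) :
    |sdAv I J (fun i j => L.E0 H (fun ω => y i ω ^ 2 * (y j ω * L.E (e + 1) H (y j) ω))) -
      L.dd H I y * L.qq H J y e| ≤ a * b := by
  rw [← sd_E_N hH hyJ]
  exact sd_prod hH hI hJ (fun i hi => (hyI i hi).pow 2)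
    (fun j hj => (hyJ j hj).mul (Nice.E hH (hyJ j hj) _)) ha hb h1 h2

lemma sd_NN (hH : L.Lin H) (hI : I.Nonempty) (hJ : J.Nonempty) (hyI : ∀ i ∈ I, L.Nice (y i))
    (hyJ : ∀ j ∈ J, L.Nice (y j)) {a b : ℝ} (ha : 0 ≤ a) (hb : 0 ≤ b) (e l : ℕ)
    (h1 : L.Var H (L.sdN H I y e) ≤ a ^ 2) (h2 : L.Var H (L.sdN H J y l) ≤ b ^ 2) :
    |sdAv I J (fun i j => L.E0 H (fun ω => (y i ω * L.E (e + 1) H (y i) ω) *
      (y j ω * L.E (l + 1) H (y j) ω))) - L.qq H I y e * L.qq H J y l| ≤ a * b := by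
  rw [← sd_E_N hH hyI, ← sd_E_N hH hyJ]
  exact sd_prod hH hI hJ (fun i hi => (hyI i hi).mul (Nice.E hH (hyI i hi) _))
    (fun j hj => (hyJ j hj).mul (Nice.E hH (hyJ j hj) _)) ha hb h1 h2

lemma sd_pert' (hH : L.Lin H) (hI : I.Nonempty) (hJ : J.Nonempty) {u w : ι → Cfg (k + 2) Ω → ℝ}
    {p s : ι → ι → Cfg (k + 2) Ω → ℝ} (hκ : 0 ≤ κ) (hε : 0 ≤ ε)
    (hu : ∀ i ∈ I, L.Nice (u i)) (hw : ∀ j ∈ J, L.Nice (w j))
    (hu2 : ∀ ω, ∑ i ∈ I, u i ω ^ 2 ≤ κ * I.card) (hw2 : ∀ ω, ∑ j ∈ J, w j ω ^ 2 ≤ κ * J.card)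
    (hp : ∀ i ∈ I, ∀ j ∈ J, L.Nice (p i j)) (hs : ∀ i ∈ I, ∀ j ∈ J, L.Nice (s i j))
    (hsp : ∀ i ∈ I, ∀ j ∈ J, L.E0 H (fun ω => s i j ω ^ 2) ≤ L.E0 H (fun ω => p i j ω ^ 2))
    (hpert : L.E0 H (fun ω => ∑ i ∈ I, ∑ j ∈ J, p i j ω ^ 2) ≤ ε ^ 2 * I.card * J.card) :
    |sdAv I J (fun i j => L.E0 H (fun ω => u i ω * w j ω * s i j ω))| ≤ κ * ε := by
  have hn := sd_card_pos hI
  have hn' := sd_card_pos hJ
  unfold sdAv
  rw [abs_div, abs_of_pos (mul_pos hn hn'), div_le_iff₀ (mul_pos hn hn')]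
  exact sd_pert hH hI hJ hκ hε hu hw hu2 hw2 hp hs hsp hpert

lemma sd_sum_err (ex : Expo (k + 2)) {s : Finset ℕ} (hs : s ⊆ Icc 1 k) {x x' b : ℕ → ℝ}
    (h : ∀ l ∈ s, |x l - x' l| ≤ b l) (hb : ∀ l, 0 ≤ b l) :
    |∑ l ∈ s, ex.Δ l * x l - ∑ l ∈ s, ex.Δ l * x' l| ≤ ∑ l ∈ Icc 1 k, ex.Δ l * b l := by
  rw [← sum_sub_distrib]
  refine (abs_sum_le_sum_abs _ _).trans (le_trans (sum_le_sum fun l hl => ?_)
    (sum_le_sum_of_subset_of_nonneg hs fun l _ _ => mul_nonneg (ex.Δ_nonneg l) (hb l)))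
  rw [← mul_sub, abs_mul, abs_of_nonneg (ex.Δ_nonneg l)]
  exact mul_le_mul_of_nonneg_left (h l hl) (ex.Δ_nonneg l)

lemma sd_sqrt_sum (hH : L.Lin H) (hy : ∀ i ∈ I, L.Nice (y i)) (hθ : 0 ≤ θ)
    (hV : ∑ e ∈ Icc 1 k, L.Δ e * L.VV H I y e (L.qq H I y e) ≤ θ ^ 2) :
    ∑ e ∈ Icc 1 k, L.Δ e * √(L.VV H I y e (L.qq H I y e)) ≤ θ := by
  refine (sum_Δ_sqrt_le L.toExpo _ fun l _ => VV_nonneg hH hy l _).trans ?_
  exact Real.sqrt_le_iff.2 ⟨hθ, hV⟩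

variable {pert : ι → ι → Cfg (k + 2) Ω → ℝ}

lemma sd_err_d (h01 : L.ζ 0 = L.ζ 1) (hH : L.Lin H) (hI : I.Nonempty) (hJ : J.Nonempty)
    (hyI : ∀ i ∈ I, L.Nice (y i)) (hyJ : ∀ j ∈ J, L.Nice (y j)) (hθ : 0 ≤ θ) (hε : 0 ≤ ε)
    (hκI : ∀ ω, Lev.rr I y ω ≤ κ) (hκJ : ∀ ω, Lev.rr J y ω ≤ κ)
    (hp : ∀ i ∈ I, ∀ j ∈ J, L.Nice (pert i j))
    (hflow : ∀ i ∈ I, ∀ j ∈ J, ∃ φ : ℝ → ℕ → Ω → Ω, (∀ e x, φ 0 e x = x) ∧
      (∀ t, ∀ e < k + 2, MeasurePreserving (φ t e) (L.μ e) (L.μ e)) ∧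
      L.HasD (fun t => cmap (φ t)) (y i) (y j) ∧
      L.HasD (fun t => cmap (φ t)) (y j) (fun ω => -y i ω) ∧
      L.HasDL (fun t => cmap (φ t)) H (fun ω => μ * (y i ω * y j ω) + pert i j ω))
    (hpert : L.E0 H (fun ω => ∑ i ∈ I, ∑ j ∈ J, pert i j ω ^ 2) ≤ ε ^ 2 * I.card * J.card)
    (hVI : ∑ e ∈ Icc 1 k, L.Δ e * √(L.VV H I y e (L.qq H I y e)) ≤ θ)
    (hVJ : ∑ e ∈ Icc 1 k, L.Δ e * √(L.VV H J y e (L.qq H J y e)) ≤ θ)
    (hrI : L.Var H (Lev.rr I y) ≤ θ ^ 2) :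
    |L.dd H J y - L.dd H I y + μ * (L.dd H I y * L.dd H J y -
      ∑ l ∈ Icc 1 k, L.Δ l * (L.qq H I y l * L.qq H J y l))| ≤ |μ| * (5 * κ * θ) + κ * ε := by
  have hκ := sd_κ_nonneg L hκJ
  have h0 := sdAv_zero (I := I) (J := J) fun i hi j hj => by
    obtain ⟨φ, h0, hφ, hdu, hdw, hk⟩ := hflow i hi j hj
    exact sd_pair_d h01 hH (hyI i hi) (hyJ j hj) (hp i hi j hj) h0 hφ hdu hdw hk
  simp only [sdAv_add, sdAv_sub, sdAv_cmul, sdAv_sum, sdAv_left hJ, sdAv_right hI] at h0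
  rw [← sd_dd_eq hH hyI, ← sd_dd_eq hH hyJ] at h0
  have b1 := sd_RR hH hI hJ hyI hyJ hθ hκ hrI (sd_var_r_le hH hyJ hκJ)
  have b2 := sd_sum_err L.toExpo (subset_refl _)
    (fun l hl => sd_two hH hI hJ hyI hyJ hκI hκJ (e := k + 1)
      (show l ≤ k + 1 by have := (mem_Icc.1 hl).2; omega)) (fun l => by positivity)
  have b2' : ∑ l ∈ Icc 1 k, L.Δ l * (2 * κ * (√(L.VV H I y l (L.qq H I y l)) +
      √(L.VV H J y l (L.qq H J y l)))) ≤ 4 * κ * θ := by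
    have : ∑ l ∈ Icc 1 k, L.Δ l * (2 * κ * (√(L.VV H I y l (L.qq H I y l)) +
        √(L.VV H J y l (L.qq H J y l)))) = 2 * κ *
        (∑ e ∈ Icc 1 k, L.Δ e * √(L.VV H I y e (L.qq H I y e)) +
          ∑ e ∈ Icc 1 k, L.Δ e * √(L.VV H J y e (L.qq H J y e))) := by
      rw [← sum_add_distrib, mul_sum]
      exact sum_congr rfl fun l _ => by ring
    rw [this]
    nlinarith
  have b3 := sd_pert' hH hI hJ hκ hε hyI hyJ (sd_sum_sq_le hI hκI) (sd_sum_sq_le hJ hκJ) hp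
    (fun i hi j hj => Nice.St hH (hp i hi j hj) 0)
    (fun i hi j hj => E_St_sq_le hH (hp i hi j hj) le_rfl _) hpert
  have b4 := b2.trans b2'
  change |∑ l ∈ Icc 1 k, L.Δ l * sdAv I J (fun i j => L.E0 H (fun ω =>
    L.E (k + 1 + 1) H (y i) ω * L.E (k + 1 + 1) H (y j) ω *
      L.E (l + 1) H (fun ω' => y i ω' * y j ω') ω)) - _| ≤ _ at b4
  generalize sdAv I J (fun i j => L.E0 H (fun ω => y i ω ^ 2 * y j ω ^ 2)) = A at h0 b1
  generalize ∑ l ∈ Icc 1 k, L.Δ l * sdAv I J (fun i j => L.E0 H (fun ω =>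
    L.E (k + 1 + 1) H (y i) ω * L.E (k + 1 + 1) H (y j) ω *
      L.E (l + 1) H (fun ω' => y i ω' * y j ω') ω)) = B at h0 b4
  generalize sdAv I J (fun i j => L.E0 H (fun ω => y i ω * y j ω * L.St 0 H (pert i j) ω)) = C
    at h0 b3
  generalize ∑ l ∈ Icc 1 k, L.Δ l * (L.qq H I y l * L.qq H J y l) = B' at b4 ⊢
  have e : L.dd H J y - L.dd H I y + μ * (L.dd H I y * L.dd H J y - B') =
      μ * (-(A - L.dd H I y * L.dd H J y) + (B - B')) - C := by linear_combination h0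
  rw [e]
  refine (abs_sub _ _).trans (add_le_add ?_ b3)
  rw [abs_mul]
  refine mul_le_mul_of_nonneg_left ((abs_add_le _ _).trans ?_) (abs_nonneg μ)
  rw [abs_neg]
  linarith

lemma sd_err_e (h01 : L.ζ 0 = L.ζ 1) (hH : L.Lin H) (hI : I.Nonempty) (hJ : J.Nonempty)
    (hyI : ∀ i ∈ I, L.Nice (y i)) (hyJ : ∀ j ∈ J, L.Nice (y j)) (hθ : 0 ≤ θ) (hε : 0 ≤ ε)
    (hκI : ∀ ω, Lev.rr I y ω ≤ κ) (hκJ : ∀ ω, Lev.rr J y ω ≤ κ)
    (hp : ∀ i ∈ I, ∀ j ∈ J, L.Nice (pert i j))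
    (hflow : ∀ i ∈ I, ∀ j ∈ J, ∃ φ : ℝ → ℕ → Ω → Ω, (∀ e x, φ 0 e x = x) ∧
      (∀ t, ∀ e < k + 2, MeasurePreserving (φ t e) (L.μ e) (L.μ e)) ∧
      L.HasD (fun t => cmap (φ t)) (y i) (y j) ∧
      L.HasD (fun t => cmap (φ t)) (y j) (fun ω => -y i ω) ∧
      L.HasDL (fun t => cmap (φ t)) H (fun ω => μ * (y i ω * y j ω) + pert i j ω))
    (hpert : L.E0 H (fun ω => ∑ i ∈ I, ∑ j ∈ J, pert i j ω ^ 2) ≤ ε ^ 2 * I.card * J.card)
    (hVI : ∑ e ∈ Icc 1 k, L.Δ e * √(L.VV H I y e (L.qq H I y e)) ≤ θ)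
    (hVJ : ∑ e ∈ Icc 1 k, L.Δ e * √(L.VV H J y e (L.qq H J y e)) ≤ θ)
    (hrI : L.Var H (Lev.rr I y) ≤ θ ^ 2) (hrJ : L.Var H (Lev.rr J y) ≤ θ ^ 2)
    {e : ℕ} (h1e : 1 ≤ e) (hek : e ≤ k) :
    |L.qq H J y e - L.qq H I y e + μ * (L.qq H I y e * L.dd H J y + L.dd H I y * L.qq H J y e -
      ∑ l ∈ Ioc e k, L.Δ l * (L.qq H I y e * L.qq H J y l + L.qq H I y l * L.qq H J y e) -
      (L.ζ (e + 1) + L.Δ e) * (L.qq H I y e * L.qq H J y e) -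
      ∑ l ∈ Ico 1 e, L.Δ l * (L.qq H I y l * L.qq H J y l))| ≤
      |μ| * (8 * κ * θ + 2 * κ * √(L.VV H J y e (L.qq H J y e))) + 2 * κ * ε := by
  have hκ := sd_κ_nonneg L hκJ
  have h0 := sdAv_zero (I := I) (J := J) fun i hi j hj => by
    obtain ⟨φ, h0, hφ, hdu, hdw, hk⟩ := hflow i hi j hj
    exact sd_pair_e h01 hH (hyI i hi) (hyJ j hj) (hp i hi j hj) h0 hφ hdu hdw hk h1e hek
  simp only [sdAv_add, sdAv_sub, sdAv_cmul, sdAv_sum, sdAv_left hJ, sdAv_right hI] at h0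
  rw [← sd_qq_eq hH hyI, ← sd_qq_eq hH hyJ] at h0
  have hsum : ∀ c : ℝ, 0 ≤ c → ∑ l ∈ Icc 1 k, L.Δ l * (c * (√(L.VV H I y l (L.qq H I y l)) +
      √(L.VV H J y l (L.qq H J y l)))) ≤ c * (2 * θ) := by
    intro c hc
    have : ∑ l ∈ Icc 1 k, L.Δ l * (c * (√(L.VV H I y l (L.qq H I y l)) +
        √(L.VV H J y l (L.qq H J y l)))) = c *
        (∑ e ∈ Icc 1 k, L.Δ e * √(L.VV H I y e (L.qq H I y e)) +
          ∑ e ∈ Icc 1 k, L.Δ e * √(L.VV H J y e (L.qq H J y e))) := by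
      rw [← sum_add_distrib, mul_sum]
      exact sum_congr rfl fun l _ => by ring
    rw [this]
    exact mul_le_mul_of_nonneg_left (by linarith) hc
  have b1 := sd_NR hH hI hJ hyI hyJ hκ hθ e (sd_var_N_le hH hI hyI hκI e) hrJ
  have b2 := sd_RN hH hI hJ hyI hyJ hθ hκ e hrI (sd_var_N_le hH hJ hyJ hκJ e)
  have b3 := (sd_sum_err L.toExpo (s := Ioc e k)
    (fun l hl => by simp only [mem_Ioc, mem_Icc] at hl ⊢; omega)
    (x := fun l => sdAv I J (fun i j => L.E0 H (fun ω => (y i ω * L.E (e + 1) H (y i) ω) *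
      (y j ω * L.E (l + 1) H (y j) ω))) + sdAv I J (fun i j => L.E0 H (fun ω =>
        (y i ω * L.E (l + 1) H (y i) ω) * (y j ω * L.E (e + 1) H (y j) ω))))
    (x' := fun l => L.qq H I y e * L.qq H J y l + L.qq H I y l * L.qq H J y e)
    (b := fun l => κ * (√(L.VV H I y l (L.qq H I y l)) + √(L.VV H J y l (L.qq H J y l))))
    (fun l _ => by
      have c1 := sd_NN hH hI hJ hyI hyJ hκ (Real.sqrt_nonneg _) e l
        (sd_var_N_le hH hI hyI hκI e) (sd_var_N_le_VV hH hyJ l (L.qq H J y l))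
      have c2 := sd_NN hH hI hJ hyI hyJ (Real.sqrt_nonneg _) hκ l e
        (sd_var_N_le_VV hH hyI l (L.qq H I y l)) (sd_var_N_le hH hJ hyJ hκJ e)
      rw [add_sub_add_comm]
      refine (abs_add_le _ _).trans ?_
      linarith)
    (fun l => by positivity)).trans (hsum κ hκ)
  have b4 := sd_NN hH hI hJ hyI hyJ hκ (Real.sqrt_nonneg _) e e
    (sd_var_N_le hH hI hyI hκI e) (sd_var_N_le_VV hH hyJ e (L.qq H J y e))
  have b5 := (sd_sum_err L.toExpo (s := Ico 1 e)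
    (fun l hl => by simp only [mem_Ico, mem_Icc] at hl ⊢; omega)
    (fun l hl => sd_two hH hI hJ hyI hyJ hκI hκJ (e := e) (mem_Ico.1 hl).2.le)
    (fun l => by positivity)).trans (hsum (2 * κ) (by positivity))
  change |∑ l ∈ Ico 1 e, L.Δ l * sdAv I J (fun i j => L.E0 H (fun ω =>
    L.E (e + 1) H (y i) ω * L.E (e + 1) H (y j) ω *
      L.E (l + 1) H (fun ω' => y i ω' * y j ω') ω)) - _| ≤ _ at b5
  have b6 := sd_pert' hH hI hJ hκ hε (fun i hi => Nice.E hH (hyI i hi) (e + 1)) hyJ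
    (sd_m_sq_le hH hI hyI hκI _) (sd_sum_sq_le hJ hκJ) hp
    (fun i hi j hj => Nice.S hH (hp i hi j hj) (e + 1))
    (fun i hi j hj => E_S_sq_le hH (hp i hi j hj) (Nat.zero_le _) _) hpert
  have b7 := sd_pert' hH hI hJ hκ hε hyI (fun j hj => Nice.E hH (hyJ j hj) (e + 1))
    (sd_sum_sq_le hI hκI) (sd_m_sq_le hH hJ hyJ hκJ _) hp
    (fun i hi j hj => Nice.St hH (hp i hi j hj) 0)
    (fun i hi j hj => E_St_sq_le hH (hp i hi j hj) le_rfl _) hpert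
  have hz0 : 0 ≤ L.ζ (e + 1) + L.Δ e := add_nonneg (L.pos _).le (L.Δ_nonneg e)
  have hz2 : L.ζ (e + 1) + L.Δ e ≤ 2 := by
    have := L.le_one (e + 1)
    have := L.pos e
    unfold Expo.Δ
    linarith
  generalize L.ζ (e + 1) + L.Δ e = z at *
  generalize sdAv I J (fun i j => L.E0 H (fun ω => (y i ω * L.E (e + 1) H (y i) ω) * y j ω ^ 2))
    = A1 at h0 b1
  generalize sdAv I J (fun i j => L.E0 H (fun ω => y i ω ^ 2 * (y j ω * L.E (e + 1) H (y j) ω)))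
    = A2 at h0 b2
  generalize ∑ l ∈ Ioc e k, L.Δ l * (sdAv I J (fun i j => L.E0 H (fun ω =>
    (y i ω * L.E (e + 1) H (y i) ω) * (y j ω * L.E (l + 1) H (y j) ω))) +
      sdAv I J (fun i j => L.E0 H (fun ω =>
        (y i ω * L.E (l + 1) H (y i) ω) * (y j ω * L.E (e + 1) H (y j) ω)))) = A3 at h0 b3
  generalize sdAv I J (fun i j => L.E0 H (fun ω => (y i ω * L.E (e + 1) H (y i) ω) *
      (y j ω * L.E (e + 1) H (y j) ω))) = A4 at h0 b4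
  generalize ∑ l ∈ Ico 1 e, L.Δ l * sdAv I J (fun i j => L.E0 H (fun ω =>
    L.E (e + 1) H (y i) ω * L.E (e + 1) H (y j) ω *
      L.E (l + 1) H (fun ω' => y i ω' * y j ω') ω)) = A5 at h0 b5
  generalize sdAv I J (fun i j => L.E0 H (fun ω =>
    L.E (e + 1) H (y i) ω * y j ω * L.S (e + 1) H (pert i j) ω)) = A6 at h0 b6
  generalize sdAv I J (fun i j => L.E0 H (fun ω =>
    y i ω * L.E (e + 1) H (y j) ω * L.St 0 H (pert i j) ω)) = A7 at h0 b7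
  generalize ∑ l ∈ Ioc e k, L.Δ l * (L.qq H I y e * L.qq H J y l + L.qq H I y l * L.qq H J y e)
    = B3 at b3 ⊢
  generalize ∑ l ∈ Ico 1 e, L.Δ l * (L.qq H I y l * L.qq H J y l) = B5 at b5 ⊢
  generalize √(L.VV H J y e (L.qq H J y e)) = V at b4 ⊢
  have e1 : L.qq H J y e - L.qq H I y e + μ * (L.qq H I y e * L.dd H J y +
      L.dd H I y * L.qq H J y e - B3 - z * (L.qq H I y e * L.qq H J y e) - B5) =
      μ * (-(A1 - L.qq H I y e * L.dd H J y) - (A2 - L.dd H I y * L.qq H J y e) + (A3 - B3) +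
        z * (A4 - L.qq H I y e * L.qq H J y e) + (A5 - B5)) - (A6 + A7) := by
    linear_combination h0
  rw [e1]
  have b8 : |z * (A4 - L.qq H I y e * L.qq H J y e)| ≤ 2 * (κ * V) := by
    rw [abs_mul, abs_of_nonneg hz0]
    exact mul_le_mul hz2 b4 (abs_nonneg _) zero_le_two
  refine (abs_sub _ _).trans (add_le_add ?_ ((abs_add_le _ _).trans (by linarith)))
  rw [abs_mul]
  refine mul_le_mul_of_nonneg_left ?_ (abs_nonneg μ)
  rw [abs_le] at b1 b2 b3 b5 b8 ⊢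
  constructor <;> linarith [b1.1, b1.2, b2.1, b2.2, b3.1, b3.2, b5.1, b5.2, b8.1, b8.2]

end Lev

lemma sd_Dev_lin {k : ℕ} (ex : Expo (k + 2)) (d d' D μ : ℝ) (q q' Q : ℕ → ℝ) (e : ℕ) :
    Dev ex k d' q' e - Dev ex k d q e + μ * Dev ex k D Q e =
      Dev ex k (d' - d + μ * D) (fun l => q' l - q l + μ * Q l) e := by
  unfold Dev
  have : ∑ l ∈ Ioc e k, ex.Δ l * (q' l - q l + μ * Q l) = ∑ l ∈ Ioc e k, ex.Δ l * q' l -
      ∑ l ∈ Ioc e k, ex.Δ l * q l + μ * ∑ l ∈ Ioc e k, ex.Δ l * Q l := by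
    rw [mul_sum, ← sum_sub_distrib, ← sum_add_distrib]
    exact sum_congr rfl fun l _ => by ring
  rw [this]
  split_ifs <;> ring

lemma sd_Dev_abs {k : ℕ} (ex : Expo (k + 2)) (d : ℝ) (q : ℕ → ℝ) :
    |Dev ex k d q 0| + ∑ e ∈ Icc 1 k, ex.Δ e * |Dev ex k d q e| ≤
      2 * |d| + 3 * ∑ e ∈ Icc 1 k, ex.Δ e * |q e| := by
  have hR : ∀ e, |∑ l ∈ Ioc e k, ex.Δ l * q l| ≤ ∑ l ∈ Icc 1 k, ex.Δ l * |q l| := by
    intro e
    have := Lev.sd_sum_err ex (s := Ioc e k)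
      (fun l hl => by simp only [mem_Ioc, mem_Icc] at hl ⊢; omega)
      (x := q) (x' := fun _ => 0) (b := fun l => |q l|) (fun l _ => by simp) (fun l => abs_nonneg _)
    simpa using this
  have hR0 : 0 ≤ ∑ l ∈ Icc 1 k, ex.Δ l * |q l| := (abs_nonneg _).trans (hR 0)
  have h0 : |Dev ex k d q 0| ≤ |d| + ∑ l ∈ Icc 1 k, ex.Δ l * |q l| := by
    simp only [Dev, if_true, sub_zero]
    exact (abs_sub _ _).trans (add_le_add le_rfl (hR 0))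
  have h1 : ∀ e, |Dev ex k d q e| ≤ (|d| + ∑ l ∈ Icc 1 k, ex.Δ l * |q l|) + |q e| := by
    intro e
    unfold Dev
    refine (abs_sub _ _).trans ((add_le_add (abs_sub _ _) (hR e)).trans ?_)
    have : |if e = 0 then 0 else ex.ζ (e + 1) * q e| ≤ |q e| := by
      split_ifs
      · simp
      · rw [abs_mul, abs_of_pos (ex.pos _)]
        exact mul_le_of_le_one_left (abs_nonneg _) (ex.le_one _)
    linarith
  have h2 : ∑ e ∈ Icc 1 k, ex.Δ e * |Dev ex k d q e| ≤ (∑ e ∈ Icc 1 k, ex.Δ e) *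
      (|d| + ∑ l ∈ Icc 1 k, ex.Δ l * |q l|) + ∑ l ∈ Icc 1 k, ex.Δ l * |q l| := by
    rw [sum_mul, ← sum_add_distrib]
    refine sum_le_sum fun e _ => ?_
    rw [← mul_add]
    exact mul_le_mul_of_nonneg_left (h1 e) (ex.Δ_nonneg e)
  have h3 := mul_le_of_le_one_left (add_nonneg (abs_nonneg d) hR0) (sum_Δ_Icc_le ex)
  linarith

end Crest.Agent.R164
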