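import Crest.Agent.R164.NestDer
import Crest.Agent.R164.Overlap
import Crest.Agent.R164.SDPair

/-! # Row 164: Schwinger-Dyson identities give approximate relations between eigenvalues -/

set_option autoImplicit false

namespace Crest.Agent.R164

open MeasureTheory ProbabilityTheory Real Finset

/-- The algebra of ultrametric matrices: `T e` is the entry of level `e` of the product. -/
lemma Dev_mul {k : ℕ} (ex : Expo (k + 2)) (d d' : ℝ) (q q' : ℕ → ℝ) {e : ℕ} (he : e ≤ k) :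
    Dev ex k d q e * Dev ex k d' q' e =
      Dev ex k (d * d' - ∑ l ∈ Icc 1 k, ex.Δ l * (q l * q' l))
        (fun e => q e * d' + d * q' e - ∑ l ∈ Ioc e k, ex.Δ l * (q e * q' l + q l * q' e) -
          (ex.ζ (e + 1) + ex.Δ e) * (q e * q' e) - ∑ l ∈ Ico 1 e, ex.Δ l * (q l * q' l)) e := by
  unfold Dev
  rw [Dev_mul_tail ex d d' q q' he, sd_Icc_split _ he]
  split_ifs with h
  · subst h
    simp only [show Icc 1 0 = (∅ : Finset ℕ) from rfl, sum_empty]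
    ring
  · have h1 : ∑ l ∈ Ioc e k, ex.Δ l * (q e * q' l + q l * q' e) =
        q e * ∑ l ∈ Ioc e k, ex.Δ l * q' l + q' e * ∑ l ∈ Ioc e k, ex.Δ l * q l := by
      rw [mul_sum, mul_sum, ← sum_add_distrib]
      exact sum_congr rfl fun l _ => by ring
    simp only [h1]
    rw [sd_Icc_top _ (show 1 ≤ e by omega)]
    ring

theorem sd {k : ℕ} {Ω ι : Type} [MeasurableSpace Ω] {L : Lev (k + 2) Ω} (h01 : L.ζ 0 = L.ζ 1)
    {H : Cfg (k + 2) Ω → ℝ} (hH : L.Lin H) {I J : Finset ι} (hI : I.Nonempty) (hJ : J.Nonempty)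
    {y : ι → Cfg (k + 2) Ω → ℝ} (hyI : ∀ i ∈ I, L.Nice (y i)) (hyJ : ∀ j ∈ J, L.Nice (y j))
    {κ θ ε μ : ℝ} (hθ : 0 ≤ θ) (hε : 0 ≤ ε)
    (hκI : ∀ ω, Lev.rr I y ω ≤ κ) (hκJ : ∀ ω, Lev.rr J y ω ≤ κ)
    {pert : ι → ι → Cfg (k + 2) Ω → ℝ} (hp : ∀ i ∈ I, ∀ j ∈ J, L.Nice (pert i j))
    (hflow : ∀ i ∈ I, ∀ j ∈ J, ∃ φ : ℝ → ℕ → Ω → Ω, (∀ e x, φ 0 e x = x) ∧
      (∀ t, ∀ e < k + 2, MeasurePreserving (φ t e) (L.μ e) (L.μ e)) ∧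
      L.HasD (fun t => cmap (φ t)) (y i) (y j) ∧
      L.HasD (fun t => cmap (φ t)) (y j) (fun ω => -y i ω) ∧
      L.HasDL (fun t => cmap (φ t)) H (fun ω => μ * (y i ω * y j ω) + pert i j ω))
    (hpert : L.E0 H (fun ω => ∑ i ∈ I, ∑ j ∈ J, pert i j ω ^ 2) ≤ ε ^ 2 * I.card * J.card)
    (hVI : ∑ e ∈ Icc 1 k, L.Δ e * L.VV H I y e (L.qq H I y e) ≤ θ ^ 2)
    (hVJ : ∑ e ∈ Icc 1 k, L.Δ e * L.VV H J y e (L.qq H J y e) ≤ θ ^ 2)
    (hrI : L.Var H (Lev.rr I y) ≤ θ ^ 2) (hrJ : L.Var H (Lev.rr J y) ≤ θ ^ 2)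
    (a : ℕ → ℝ) (ha : ∀ e, a e = Dev L.toExpo k (L.dd H J y) (L.qq H J y) e -
      Dev L.toExpo k (L.dd H I y) (L.qq H I y) e +
      μ * (Dev L.toExpo k (L.dd H I y) (L.qq H I y) e * Dev L.toExpo k (L.dd H J y) (L.qq H J y) e)) :
    |a 0| + ∑ e ∈ Icc 1 k, L.Δ e * |a e| ≤ 100 * κ * (|μ| * θ + ε) := by
  have hκ := Lev.sd_κ_nonneg L hκJ
  have hVI' := Lev.sd_sqrt_sum hH hyI hθ hVI
  have hVJ' := Lev.sd_sqrt_sum hH hyJ hθ hVJ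
  have hd := Lev.sd_err_d h01 hH hI hJ hyI hyJ hθ hε hκI hκJ hp hflow hpert hVI' hVJ' hrI
  have he := fun e (h : e ∈ Icc 1 k) => Lev.sd_err_e h01 hH hI hJ hyI hyJ hθ hε hκI hκJ hp hflow
    hpert hVI' hVJ' hrI hrJ (mem_Icc.1 h).1 (mem_Icc.1 h).2
  have ha' : ∀ e ≤ k, a e = _ := fun e hek => by
    rw [ha e, Dev_mul L.toExpo _ _ _ _ hek, sd_Dev_lin]
  have ha2 : ∑ e ∈ Icc 1 k, L.Δ e * |a e| = _ :=
    sum_congr rfl fun e h => by rw [ha' e (mem_Icc.1 h).2]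
  rw [ha2, ha' 0 (Nat.zero_le k)]
  refine (sd_Dev_abs L.toExpo _ _).trans ?_
  have h1 := sum_le_sum fun e (h : e ∈ Icc 1 k) =>
    mul_le_mul_of_nonneg_left (he e h) (L.Δ_nonneg e)
  have h2 : ∑ e ∈ Icc 1 k, L.Δ e *
      (|μ| * (8 * κ * θ + 2 * κ * √(L.VV H J y e (L.qq H J y e))) + 2 * κ * ε) =
      (∑ e ∈ Icc 1 k, L.Δ e) * (|μ| * (8 * κ * θ) + 2 * κ * ε) +
        |μ| * (2 * κ) * ∑ e ∈ Icc 1 k, L.Δ e * √(L.VV H J y e (L.qq H J y e)) := by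
    rw [sum_mul, mul_sum, ← sum_add_distrib]
    exact sum_congr rfl fun e _ => by ring
  have h3 := mul_le_of_le_one_left (show 0 ≤ |μ| * (8 * κ * θ) + 2 * κ * ε by positivity)
    (sum_Δ_Icc_le L.toExpo)
  have h4 := mul_le_mul_of_nonneg_left hVJ' (show 0 ≤ |μ| * (2 * κ) by positivity)
  have h5 : 0 ≤ |μ| * κ * θ := by positivity
  have h6 : 0 ≤ κ * ε := by positivity
  rw [h2] at h1
  linarith

end Crest.Agent.R164
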