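import Crest.Agent.R164.ModelBasic
import Crest.Agent.R164.SD
import Crest.Agent.R164.Spec

/-! # Row 164: concentration of the field energies pins all species overlaps -/

set_option autoImplicit false

namespace Crest.Agent.R164

open MeasureTheory ProbabilityTheory Real Finset Crest.ProbabilityR.InvariantGlass

namespace PinAux

lemma Var_div {K : ℕ} {Ω : Type} [MeasurableSpace Ω] (L : Lev K Ω) (H f : Cfg K Ω → ℝ) (c : ℝ) :
    L.Var H (fun ω => f ω / c) = L.Var H f / c ^ 2 := by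
  simp only [Lev.Var, Lev.E0, div_pow, Lev.E_div_const, sub_div]

lemma pert_sq_le {k : ℕ} {δ e a b : ℝ} {d g g' : ℕ → ℝ} (hδ : |δ| ≤ 2 * e)
    (hd : ∀ l ∈ Icc 1 k, |d l| ≤ e) :
    (δ * (a * b) + ∑ l ∈ Icc 1 k, d l * (g l * b + g' l * a)) ^ 2 ≤
      8 * e ^ 2 * (a ^ 2 * b ^ 2) +
        4 * k * e ^ 2 * ∑ l ∈ Icc 1 k, (g l ^ 2 * b ^ 2 + a ^ 2 * g' l ^ 2) := by
  have h1 : δ ^ 2 ≤ (2 * e) ^ 2 := sq_le_sq' (abs_le.1 hδ).1 (abs_le.1 hδ).2
  have h2 := sq_sum_le_card_mul_sum_sq (s := Icc 1 k) (f := fun l => d l * (g l * b + g' l * a))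
  rw [Nat.card_Icc, Nat.add_sub_cancel] at h2
  have h3 : ∑ l ∈ Icc 1 k, (d l * (g l * b + g' l * a)) ^ 2 ≤
      2 * e ^ 2 * ∑ l ∈ Icc 1 k, (g l ^ 2 * b ^ 2 + a ^ 2 * g' l ^ 2) := by
    rw [mul_sum]
    refine sum_le_sum fun l hl => ?_
    have h4 : d l ^ 2 ≤ e ^ 2 := sq_le_sq' (abs_le.1 (hd l hl)).1 (abs_le.1 (hd l hl)).2
    have h5 : (g l * b + g' l * a) ^ 2 ≤ 2 * (g l ^ 2 * b ^ 2 + a ^ 2 * g' l ^ 2) := by
      nlinarith [sq_nonneg (g l * b - g' l * a)]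
    rw [mul_pow]
    exact (mul_le_mul h4 h5 (sq_nonneg _) (sq_nonneg _)).trans_eq (by ring)
  have h6 := mul_le_mul_of_nonneg_left h3 (Nat.cast_nonneg (α := ℝ) k)
  have h7 := mul_le_mul_of_nonneg_right h1 (sq_nonneg (a * b))
  nlinarith [sq_nonneg (δ * (a * b) - ∑ l ∈ Icc 1 k, d l * (g l * b + g' l * a))]

variable {k N : ℕ} (ex : Expo (k + 2)) (h : Haar N) (ν : Measure (Fin N → Bool))
  [IsProbabilityMeasure ν] (lam : Fin N → ℝ) (x : ℕ → Fin N → ℝ) (w : (Fin N → Bool) → ℝ)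

lemma nice_gl (l : ℕ) (i : Fin N) : (mLev ex h ν).Nice (gl l i) := (lin_gl l i).nice

lemma gl_sq_le {I : Finset (Fin N)} {κ xm : ℝ}
    (hI : ∀ ω : Cfg (k + 2) (Om N), ∑ i ∈ I, Y i ω ^ 2 ≤ κ * I.card) {l : ℕ} (hl : l ∈ Icc 1 k)
    (hx : ∀ i, |x l i| ≤ xm) :
    (mLev ex h ν).E0 (Hm lam x w) (fun ω => ∑ i ∈ I, gl l i ω ^ 2) ≤ (2 + xm ^ 2 * κ) * I.card := by
  have h1 := E0_gl_sq_le (l := l) (by have := (mem_Icc.1 hl).2; omega) I
    fun i _ => hasDL_Hm ex h ν lam x w hl i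
  have h2 : (mLev ex h ν).E0 (Hm lam x w) (fun ω => ∑ i ∈ I, (x l i * Y i ω) ^ 2) ≤
      xm ^ 2 * (κ * I.card) := by
    refine (Lev.E_mono (lin_Hm ex h ν lam x w)
      (Lev.Nice.sum _ fun i _ => ((nice_Y ex h ν i).const_mul _).pow 2) (Lev.nice_const _)
      (fun ω => ?_) _ _).trans_eq (Lev.E_const (lin_Hm ex h ν lam x w) _ _ _)
    refine le_trans ?_ (mul_le_mul_of_nonneg_left (hI ω) (sq_nonneg xm))
    rw [mul_sum]
    refine sum_le_sum fun i _ => ?_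
    rw [mul_pow]
    exact mul_le_mul_of_nonneg_right (sq_le_sq' (abs_le.1 (hx i)).1 (abs_le.1 (hx i)).2)
      (sq_nonneg _)
  exact (h1.trans (add_le_add le_rfl h2)).trans_eq (by ring)

lemma nice_pert (δ : ℝ) (d : ℕ → ℝ) (i j : Fin N) : (mLev ex h ν).Nice fun ω =>
    δ * (Y i ω * Y j ω) + ∑ l ∈ Icc 1 k, d l * (gl l i ω * Y j ω + gl l j ω * Y i ω) :=
  (((nice_Y ex h ν i).mul (nice_Y ex h ν j)).const_mul δ).add (Lev.Nice.sum _ fun l _ =>
    (((nice_gl ex h ν l i).mul (nice_Y ex h ν j)).add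
      ((nice_gl ex h ν l j).mul (nice_Y ex h ν i))).const_mul _)

lemma pert_le {I J : Finset (Fin N)} {κ xm δ e : ℝ} {d : ℕ → ℝ} (hκ : 0 ≤ κ)
    (hI : ∀ ω : Cfg (k + 2) (Om N), ∑ i ∈ I, Y i ω ^ 2 ≤ κ * I.card)
    (hJ : ∀ ω : Cfg (k + 2) (Om N), ∑ i ∈ J, Y i ω ^ 2 ≤ κ * J.card)
    (hx : ∀ l ∈ Icc 1 k, ∀ i, |x l i| ≤ xm) (hδ : |δ| ≤ 2 * e) (hd : ∀ l ∈ Icc 1 k, |d l| ≤ e) :
    (mLev ex h ν).E0 (Hm lam x w) (fun ω => ∑ i ∈ I, ∑ j ∈ J, (δ * (Y i ω * Y j ω) +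
      ∑ l ∈ Icc 1 k, d l * (gl l i ω * Y j ω + gl l j ω * Y i ω)) ^ 2) ≤
      (8 * κ ^ 2 + 8 * k ^ 2 * κ * (2 + xm ^ 2 * κ)) * e ^ 2 * I.card * J.card := by
  have hL := lin_Hm ex h ν lam x w
  have ng : ∀ (l : ℕ) (S : Finset (Fin N)), (mLev ex h ν).Nice fun ω => ∑ i ∈ S, gl l i ω ^ 2 :=
    fun l S => Lev.Nice.sum _ fun i _ => (nice_gl ex h ν l i).pow 2
  have n1 : ∀ l : ℕ, (mLev ex h ν).Nice fun ω => κ * J.card * ∑ i ∈ I, gl l i ω ^ 2 +
      κ * I.card * ∑ i ∈ J, gl l i ω ^ 2 := fun l =>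
    ((ng l I).const_mul _).add ((ng l J).const_mul _)
  have n2 := (Lev.Nice.sum (Icc 1 k) fun l _ => n1 l).const_mul (4 * k * e ^ 2)
  refine (Lev.E_mono hL (Lev.Nice.sum _ fun i _ => Lev.Nice.sum _ fun j _ =>
    (nice_pert ex h ν δ d i j).pow 2)
    ((Lev.nice_const (8 * e ^ 2 * (κ * I.card * (κ * J.card)))).add n2) (fun ω => ?_) _ _).trans ?_
  · refine (sum_le_sum fun i _ => sum_le_sum fun j _ => pert_sq_le hδ hd).trans ?_
    have a1 : 0 ≤ ∑ i ∈ J, Y i ω ^ 2 := sum_nonneg fun _ _ => sq_nonneg _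
    have e1 : ∑ i ∈ I, ∑ j ∈ J, ∑ l ∈ Icc 1 k, (gl l i ω ^ 2 * Y j ω ^ 2 + Y i ω ^ 2 * gl l j ω ^ 2) =
        ∑ l ∈ Icc 1 k, ((∑ j ∈ J, Y j ω ^ 2) * ∑ i ∈ I, gl l i ω ^ 2 +
          (∑ i ∈ I, Y i ω ^ 2) * ∑ j ∈ J, gl l j ω ^ 2) := by
      rw [sum_congr rfl fun i _ => sum_comm, sum_comm]
      refine sum_congr rfl fun l _ => ?_
      rw [mul_comm, sum_mul_sum, sum_mul_sum, ← sum_add_distrib]
      exact sum_congr rfl fun i _ => sum_add_distrib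
    simp only [sum_add_distrib (f := fun j => 8 * e ^ 2 * (Y _ ω ^ 2 * Y j ω ^ 2)), ← mul_sum]
    rw [sum_add_distrib, ← mul_sum, ← mul_sum, ← sum_mul, e1]
    refine add_le_add (mul_le_mul_of_nonneg_left (mul_le_mul (hI ω) (hJ ω) a1 (by positivity))
      (by positivity)) (mul_le_mul_of_nonneg_left (sum_le_sum fun l _ => add_le_add ?_ ?_)
      (by positivity))
    · exact mul_le_mul_of_nonneg_right (hJ ω) (sum_nonneg fun _ _ => sq_nonneg _)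
    · exact mul_le_mul_of_nonneg_right (hI ω) (sum_nonneg fun _ _ => sq_nonneg _)
  · rw [Lev.E_add hL (Lev.nice_const _) n2, Lev.E_const hL, Lev.E_const_mul,
      Lev.E_sum hL _ fun l _ => n1 l]
    have h1 : ∀ l ∈ Icc 1 k, (mLev ex h ν).E 0 (Hm lam x w) (fun ω =>
        κ * J.card * ∑ i ∈ I, gl l i ω ^ 2 + κ * I.card * ∑ i ∈ J, gl l i ω ^ 2) (mLev ex h ν).pt ≤
        2 * κ * (2 + xm ^ 2 * κ) * I.card * J.card := by
      intro l hl
      rw [Lev.E_add hL ((ng l I).const_mul _) ((ng l J).const_mul _), Lev.E_const_mul,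
        Lev.E_const_mul]
      have b1 := mul_le_mul_of_nonneg_left (gl_sq_le ex h ν lam x w hI hl (hx l hl))
        (show 0 ≤ κ * J.card by positivity)
      have b2 := mul_le_mul_of_nonneg_left (gl_sq_le ex h ν lam x w hJ hl (hx l hl))
        (show 0 ≤ κ * I.card by positivity)
      unfold Lev.E0 at b1 b2
      linarith
    have h2 := sum_le_card_nsmul _ _ _ h1
    rw [Nat.card_Icc, Nat.add_sub_cancel, nsmul_eq_mul] at h2
    have h3 := mul_le_mul_of_nonneg_left h2 (show 0 ≤ 4 * k * e ^ 2 by positivity)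
    linarith

lemma card_ge {n : ℕ} {c ε₁ : ℝ} (hN : 0 < N) (hc : |c / N - 1 / (n + 1)| ≤ ε₁)
    (hε : ε₁ ≤ 1 / (2 * (n + 1))) : N ≤ 2 * (n + 1) * c := by
  have hN' : (0 : ℝ) < N := by exact_mod_cast hN
  have h1 := (abs_le.1 hc).1
  have h2 : (1 : ℝ) / (2 * (n + 1)) ≤ c / N := by
    have : (1 : ℝ) / (n + 1) = 2 * (1 / (2 * (n + 1))) := by field_simp
    linarith
  rw [div_le_div_iff₀ (by positivity) hN'] at h2
  linarith

end PinAux

open PinAux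

theorem pin_model {n : ℕ} {lam : Fin (n + 1) → ℝ} (hlam : Monotone lam) {η : ℝ} (hη0 : 0 < η)
    (hη1 : η < 1) {ε : ℝ} (hε : 0 < ε) : ∃ k₀ : ℕ, ∀ k, k₀ ≤ k → ∀ xmax : ℝ, ∃ ε₂ : ℝ, 0 < ε₂ ∧
    ∀ xmin : ℝ, 0 < xmin → ∃ ε₁ : ℝ, 0 < ε₁ ∧ ∀ (N : ℕ) (h : Haar N) (ν : Measure (Fin N → Bool))
      [IsProbabilityMeasure ν] (ex : Expo (k + 2)) (sp : Fin N → Fin (n + 1)) (t : ℝ)
      (lam' : Fin (n + 1) → ℝ) (x : ℕ → Fin (n + 1) → ℝ) (w : (Fin N → Bool) → ℝ)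
      (H : Cfg (k + 2) (Om N) → ℝ), H = Hm (fun i => lam' (sp i)) (fun l i => x l (sp i)) w →
      IsGrid ex η → 0 < N → (∀ a, |((blk sp a).card : ℝ) / N - 1 / (n + 1)| ≤ ε₁) → 0 ≤ t → t ≤ 1 →
      (∀ a, |lam' a - t * lam a| ≤ ε₂) →
      (∀ l ∈ Icc 1 k, ∀ a, xmin ≤ x l a ∧ x l a ≤ xmax ∧ ∀ b, |x l a - x l b| ≤ ε₂) →
      (∀ l ∈ Icc 1 k, ∀ a, (mLev ex h ν).Var H (fun ω => ∑ i ∈ blk sp a, gl l i ω * Y i ω) ≤
        (ε₁ * N) ^ 2) →
      (∀ a, (mLev ex h ν).Var H (fun ω => ∑ i ∈ blk sp a, Y i ω ^ 2) ≤ (ε₁ * N) ^ 2) →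
      ∀ a, ∑ e ∈ Icc 1 k, ex.Δ e * (mLev ex h ν).VV H (blk sp a) Y e
              ((mLev ex h ν).qq H (blk sp a) Y e) ≤ ε ^ 2 ∧
        (mLev ex h ν).Var H (Lev.rr (blk sp a) Y) ≤ ε ^ 2 ∧
        ∀ err : ℕ → ℝ, (∀ e, err e =
            t * Dev ex k ((mLev ex h ν).dd H (blk sp a) Y) ((mLev ex h ν).qq H (blk sp a) Y) e -
              phi lam a (sOf lam (t * Dev ex k 1 ((mLev ex h ν).qq H univ Y) e))) →
          |err 0| + ∑ e ∈ Icc 1 k, ex.Δ e * |err e| ≤ ε := by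
  set κ : ℝ := 2 * (n + 1) with hκ
  have hκ1 : 1 ≤ κ := by have : (0 : ℝ) ≤ n := Nat.cast_nonneg n; linarith
  set A : ℝ := (n + 2) * ((n + 1) * (100 * κ)) with hA
  have hA0 : 0 < A := by positivity
  set D := dl lam 0 with hD
  have hD0 : 0 ≤ D := dl_nonneg hlam 0
  set θ := ε / (3 * A * D + 1) with hθ
  have hθ0 : 0 < θ := by positivity
  have hθ1 : θ * (3 * A * D + 1) = ε := div_mul_cancel₀ _ (by positivity)
  have hθε : θ ≤ ε := by nlinarith [mul_nonneg hθ0.le (mul_nonneg hA0.le hD0)]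
  obtain ⟨k₁, hk₁⟩ := exists_nat_ge (4 * κ ^ 2 / (η * θ ^ 2))
  refine ⟨max k₁ 2, fun k hk xmax => ?_⟩
  have hk2 : 2 ≤ k := (le_max_right _ _).trans hk
  have hk0 : (0 : ℝ) < k := by exact_mod_cast (by omega : 0 < k)
  have hkk : 2 / η * (κ ^ 2 / k) ≤ θ ^ 2 / 2 := by
    have h1 : (k₁ : ℝ) ≤ k := by exact_mod_cast (le_max_left _ _).trans hk
    have h2 := hk₁.trans h1
    rw [div_le_iff₀ (by positivity)] at h2
    rw [div_mul_div_comm, div_le_div_iff₀ (by positivity) (by norm_num)]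
    linarith
  set C : ℝ := 8 * κ ^ 2 + 8 * k ^ 2 * κ * (2 + xmax ^ 2 * κ) with hC
  have hC1 : 1 ≤ C := by
    have : 0 ≤ 8 * k ^ 2 * κ * (2 + xmax ^ 2 * κ) := by positivity
    nlinarith
  refine ⟨ε / (3 * A * C), by positivity, fun xmin hxmin => ?_⟩
  set ε₂ := ε / (3 * A * C) with hε₂
  have hε₂0 : 0 < ε₂ := by positivity
  have hε₂1 : ε₂ * (3 * A * C) = ε := div_mul_cancel₀ _ (by positivity)
  set εg := min θ (θ ^ 2 * η / (40 * k * κ)) with hεg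
  have hεg0 : 0 < εg := lt_min hθ0 (by positivity)
  have hεg1 : εg ≤ θ := min_le_left _ _
  have hεg2 : 2 / η * (10 * k * κ * εg) ≤ θ ^ 2 / 2 := by
    have h1 : εg ≤ θ ^ 2 * η / (40 * k * κ) := min_le_right _ _
    rw [le_div_iff₀ (by positivity)] at h1
    rw [div_mul_eq_mul_div, div_le_div_iff₀ hη0 (by norm_num)]
    linarith
  set m := min xmin 1 with hm
  have hm0 : 0 < m := lt_min hxmin one_pos
  refine ⟨min (min (1 / κ) (ε / (6 * ((n + 1) ^ 2 * κ)))) (εg * m / κ), by positivity, ?_⟩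
  generalize hε₁ : min (min (1 / κ) (ε / (6 * ((n + 1) ^ 2 * κ)))) (εg * m / κ) = ε₁
  have hε₁0 : 0 < ε₁ := by rw [← hε₁]; positivity
  have hε₁1 : ε₁ ≤ 1 / κ := hε₁ ▸ (min_le_left _ _).trans (min_le_left _ _)
  have hε₁2 : ε₁ * (6 * ((n + 1) ^ 2 * κ)) ≤ ε :=
    (le_div_iff₀ (by positivity)).1 (hε₁ ▸ (min_le_left _ _).trans (min_le_right _ _))
  have hε₁3 : ε₁ * κ ≤ εg * m := (le_div_iff₀ (by positivity)).1 (hε₁ ▸ min_le_right _ _)
  intro N h ν _ ex sp t lam' x w H hH hex hN hbal ht0 ht1 hlam' hx hVg hVY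
  set L := mLev ex h ν with hLdef
  have hL : L.Lin H := hH ▸ lin_Hm ex h ν _ _ w
  have hY : ∀ (I : Finset (Fin N)), ∀ i ∈ I, L.Nice (Y i) := fun _ i _ => nice_Y ex h ν i
  have hN' : (0 : ℝ) < N := by exact_mod_cast hN
  have hcard : ∀ a, (N : ℝ) ≤ κ * (blk sp a).card := fun a => card_ge hN (hbal a) hε₁1
  have hc0 : ∀ a, (0 : ℝ) < (blk sp a).card := fun a =>
    pos_of_mul_pos_left ((hN'.trans_le (hcard a)).trans_eq (mul_comm _ _)) (by positivity)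
  have hne : ∀ a, (blk sp a).Nonempty := fun a => card_pos.1 (by exact_mod_cast hc0 a)
  have hrr : ∀ a (ω : Cfg (k + 2) (Om N)), Lev.rr (blk sp a) Y ω ≤ κ := fun a ω =>
    (rr_Y_le _ ω).trans ((div_le_iff₀ (hc0 a)).2 (hcard a))
  have hsum : ∀ a (ω : Cfg (k + 2) (Om N)), ∑ i ∈ blk sp a, Y i ω ^ 2 ≤ κ * (blk sp a).card :=
    fun a ω => (div_le_iff₀ (hc0 a)).1 (hrr a ω)
  have hsp : ∀ a, ∀ i ∈ blk sp a, sp i = a := fun a i hi => (mem_filter.1 hi).2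
  have hεN : ∀ a, ε₁ * N ≤ εg * m * (blk sp a).card := fun a =>
    (mul_le_mul_of_nonneg_left (hcard a) hε₁0.le).trans (by
      rw [← mul_assoc]; exact mul_le_mul_of_nonneg_right hε₁3 (hc0 a).le)
  have hr : ∀ a, L.Var H (Lev.rr (blk sp a) Y) ≤ εg ^ 2 := fun a => by
    refine (Var_div L H _ _).trans_le ?_
    rw [div_le_iff₀ (by have := hc0 a; positivity), ← mul_pow]
    refine (hVY a).trans (pow_le_pow_left₀ (by positivity) ((hεN a).trans ?_) 2)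
    exact mul_le_mul_of_nonneg_right (mul_le_of_le_one_right hεg0.le (min_le_right _ _)) (hc0 a).le
  have hrθ : ∀ a, L.Var H (Lev.rr (blk sp a) Y) ≤ θ ^ 2 := fun a =>
    (hr a).trans (pow_le_pow_left₀ hεg0.le hεg1 2)
  have hV : ∀ a, ∑ e ∈ Icc 1 k, ex.Δ e * L.VV H (blk sp a) Y e (L.qq H (blk sp a) Y e) ≤ θ ^ 2 := by
    intro a
    refine (gg hex hk2 hη1 (hne a) (hY _) hεg0.le (hrr a) (x := fun l => x l a)
      (fun l hl => hxmin.trans_le (hx l hl a).1) (fun l hl i hi => ?_)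
      (fun l _ i _ j _ θ ω => Y_shift l i j θ ω) (fun l hl => ?_) (hr a)).trans ?_
    · have := hasDL_Hm ex h ν (fun i => lam' (sp i)) (fun l i => x l (sp i)) w hl i
      rwa [← hH, hsp a i hi] at this
    · refine (hVg l hl a).trans (pow_le_pow_left₀ (by positivity) ((hεN a).trans ?_) 2)
      exact mul_le_mul_of_nonneg_right (mul_le_mul_of_nonneg_left
        ((min_le_left _ _).trans (hx l hl a).1) hεg0.le) (hc0 a).le
    · rw [mul_add]
      linarith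
  set Dv : Fin (n + 1) → ℕ → ℝ := fun a e =>
    Dev ex k (L.dd H (blk sp a) Y) (L.qq H (blk sp a) Y) e with hDv
  set r : Fin (n + 1) → ℕ → ℝ := fun a e =>
    Dv a e - Dv (Fin.last n) e + t * dl lam a * (Dv (Fin.last n) e * Dv a e) with hr'
  have hsd : ∀ a, |r a 0| + ∑ e ∈ Icc 1 k, ex.Δ e * |r a e| ≤ 100 * κ * (D * θ + C * ε₂) := by
    intro a
    by_cases ha : a = Fin.last n
    · simp only [hr', ha, spec_dl_last, sub_self, mul_zero, zero_mul, add_zero, abs_zero,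
        sum_const_zero]
      positivity
    have hμ : |t * dl lam a| ≤ D := by
      rw [abs_of_nonneg (mul_nonneg ht0 (dl_nonneg hlam a))]
      exact (mul_le_of_le_one_left (dl_nonneg hlam a) ht1).trans
        (sub_le_sub_left (hlam (Fin.zero_le a)) _)
    refine (sd (L := L) (hex.1.trans hex.2.1.symm) hL (hne (Fin.last n)) (hne a) (hY _) (hY _) hθ0.le
      (ε := C * ε₂) (μ := t * dl lam a) (by positivity) (hrr _) (hrr _)
      (pert := fun i j ω => (lam' (Fin.last n) - lam' a - t * dl lam a) * (Y i ω * Y j ω) +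
        ∑ l ∈ Icc 1 k, (x l (Fin.last n) - x l a) * (gl l i ω * Y j ω + gl l j ω * Y i ω))
      (fun i _ j _ => nice_pert ex h ν _ _ i j) (fun i hi j hj => ?_) ?_ (hV _) (hV _) (hrθ _)
      (hrθ _) (r a) fun e => rfl).trans ?_
    · obtain ⟨φ, h1, h2, h3, h4, h5⟩ := rot_flow ex h ν (fun i => lam' (sp i))
        (fun l i => x l (sp i)) w (i := i) (j := j) fun e => ha (by rw [← hsp _ i hi, e, hsp _ j hj])
      refine ⟨φ, h1, h2, h3, h4, ?_⟩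
      rw [← hH, hsp _ i hi, hsp _ j hj] at h5
      convert h5 using 2
      ring
    · have h1 := pert_le ex h ν (fun i => lam' (sp i)) (fun l i => x l (sp i)) w (xm := xmax)
        (δ := lam' (Fin.last n) - lam' a - t * dl lam a) (e := ε₂)
        (d := fun l => x l (Fin.last n) - x l a) (by positivity) (hsum (Fin.last n)) (hsum a)
        (fun l hl i => by
          rw [abs_of_pos (hxmin.trans_le (hx l hl _).1)]
          exact (hx l hl _).2.1)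
        (by
          have b1 := abs_le.1 (hlam' a)
          have b2 := abs_le.1 (hlam' (Fin.last n))
          rw [dl, abs_le]
          constructor <;> linarith [b1.1, b1.2, b2.1, b2.2])
        fun l hl => (hx l hl _).2.2 a
      rw [← hH] at h1
      refine h1.trans (mul_le_mul_of_nonneg_right (mul_le_mul_of_nonneg_right ?_ (hc0 _).le)
        (hc0 _).le)
      rw [mul_pow C]
      exact mul_le_mul_of_nonneg_right (le_self_pow₀ hC1 two_ne_zero) (sq_nonneg _)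
    · gcongr
  intro a
  refine ⟨(hV a).trans (pow_le_pow_left₀ hθ0.le hθε 2), (hrθ a).trans (pow_le_pow_left₀ hθ0.le hθε 2),
    fun err herr => ?_⟩
  have hDv0 : ∀ b, ∀ e ≤ k, 0 ≤ Dv b e ∧ Dv b e ≤ κ := fun b e he =>
    ⟨Dev_nonneg ex _ _ (fun l _ => Lev.qq_le_dd hL (hY _) l) Lev.dd_nonneg he,
      (Dev_le ex _ _ (fun l _ => Lev.qq_nonneg l) he).trans (Lev.dd_le hL (hY _) (hrr b))⟩
  have huniv : ∀ e, ∑ b, (blk sp b).card / (N : ℝ) * (t * Dv b e) =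
      t * Dev ex k 1 (L.qq H univ Y) e := by
    intro e
    have h1 := sum_dd_blk ex h ν (fun i => lam' (sp i)) (fun l i => x l (sp i)) w sp hN
    have h2 := funext (qq_univ_blk ex h ν (fun i => lam' (sp i)) (fun l i => x l (sp i)) w sp)
    rw [← hH] at h1 h2
    rw [show L.qq H univ Y = _ from h2, ← h1, Dev_sum, mul_sum]
    exact sum_congr rfl fun b _ => by ring
  have he : ∀ e ≤ k, |err e| ≤ (n + 2) * ∑ b, |r b e| + (n + 1) ^ 2 * κ * ε₁ := by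
    intro e he
    rw [herr, ← huniv]
    refine solve_sd hlam (D := fun b => t * Dv b e) (fun b => ⟨mul_nonneg ht0 (hDv0 b e he).1,
      (mul_le_of_le_one_left (hDv0 b e he).1 ht1).trans (hDv0 b e he).2⟩) hbal
      (fun b => by positivity) (fun b => ?_) a
    have e1 : t * Dv b e - t * Dv (Fin.last n) e + dl lam b * (t * Dv (Fin.last n) e * (t * Dv b e)) =
        t * r b e := by simp only [hr']; ring
    rw [e1, abs_mul, abs_of_nonneg ht0]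
    exact (mul_le_of_le_one_left (abs_nonneg _) ht1).trans
      (single_le_sum (f := fun b => |r b e|) (fun _ _ => abs_nonneg _) (mem_univ b))
  have h1 := sum_le_sum fun e (h : e ∈ Icc 1 k) =>
    mul_le_mul_of_nonneg_left (he e (mem_Icc.1 h).2) (ex.Δ_nonneg e)
  have h2 : ∑ e ∈ Icc 1 k, ex.Δ e * ((n + 2) * ∑ b, |r b e| + (n + 1) ^ 2 * κ * ε₁) =
      (n + 2) * ∑ b, ∑ e ∈ Icc 1 k, ex.Δ e * |r b e| +
        (∑ e ∈ Icc 1 k, ex.Δ e) * ((n + 1) ^ 2 * κ * ε₁) := by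
    rw [sum_comm, mul_sum, sum_mul, ← sum_add_distrib]
    exact sum_congr rfl fun e _ => by rw [← mul_sum]; ring
  have h3 := mul_le_of_le_one_left (show 0 ≤ (n + 1 : ℝ) ^ 2 * κ * ε₁ by positivity)
    (sum_Δ_Icc_le ex)
  have h4 := sum_le_sum fun b (_ : b ∈ univ) => hsd b
  rw [sum_add_distrib, spec_sum_const] at h4
  have h5 := mul_le_mul_of_nonneg_left h4 (show (0 : ℝ) ≤ n + 2 by positivity)
  have h6 := he 0 (Nat.zero_le k)
  have h7 : (n + 2 : ℝ) * ((n + 1) * (100 * κ * (D * θ + C * ε₂))) = A * D * θ + A * C * ε₂ := by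
    rw [hA]; ring
  rw [h2] at h1
  rw [h7] at h5
  linarith

/-- From eigenvalues to overlaps (time `1`). -/
theorem ref_close {n k : ℕ} (lam : Fin (n + 1) → ℝ) (ex : Expo (k + 2)) {η : ℝ} (hη : ex.ζ 1 = η)
    (a : Fin (n + 1)) (q qa : ℕ → ℝ) (d : ℝ) {ε : ℝ} (err : ℕ → ℝ)
    (herr : ∀ e, err e = Dev ex k d qa e - phi lam a (sOf lam (Dev ex k 1 q e)))
    (h : |err 0| + ∑ e ∈ Icc 1 k, ex.Δ e * |err e| ≤ ε) :
    |d - qh lam ex (sq lam ex k q) a (k + 1)| ≤ ε / η ^ 2 ∧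
      ∑ e ∈ Icc 1 k, ex.Δ e * |qa e - qh lam ex (sq lam ex k q) a e| ≤ 2 * ε / η ^ 2 := by
  have h0 : 0 < η := hη ▸ ex.pos 1
  have hs : ∀ l ≤ k, phi lam a (sq lam ex k q l) = Dev ex k d qa l - err l := fun l hl => by
    rw [herr, sq, if_pos hl, sub_sub_cancel]
  have hq : ∀ e ≤ k, qh lam ex (sq lam ex k q) a e =
      ∑ l ∈ Icc 1 e, (Dev ex k d qa (l - 1) - Dev ex k d qa l) / ex.ζ l -
        ∑ l ∈ Icc 1 e, (err (l - 1) - err l) / ex.ζ l := fun e he => by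
    rw [qh, ← sum_sub_distrib]
    refine sum_congr rfl fun l hl => ?_
    have := (mem_Icc.1 hl).2
    rw [sg2, hs _ (by omega), hs _ (by omega)]
    ring
  have hS : 0 ≤ ∑ e ∈ Icc 1 k, ex.Δ e * |err e| :=
    sum_nonneg fun e _ => mul_nonneg (ex.Δ_nonneg e) (abs_nonneg _)
  constructor
  · have e1 : d - qh lam ex (sq lam ex k q) a (k + 1) =
        err k + ∑ l ∈ Icc 1 k, (err (l - 1) - err l) / ex.ζ l := by
      have h1 := d_eq_sum ex d qa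
      have h2 := hq k le_rfl
      rw [qh] at h2
      rw [qh, sum_Icc_succ_top (by omega), h2, sg2, Nat.add_sub_cancel, hs k le_rfl,
        ex.top (k + 1) le_rfl, sq, if_neg (by omega), spec_phi_zero]
      linarith
    rw [e1]
    exact (abs_abel_le' ex hη err).trans (by gcongr)
  · have h1 : ∀ e ∈ Icc 1 k, ex.Δ e * |qa e - qh lam ex (sq lam ex k q) a e| ≤
        ex.Δ e * (ε / η ^ 2) + ex.Δ e * |err e| / η ^ 2 := fun e he => by
      obtain ⟨b1, b2⟩ := mem_Icc.1 he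
      rw [hq e b2, ← q_eq_sum ex d qa b1 b2, sub_sub_cancel, mul_div_assoc, ← mul_add, ← add_div]
      exact mul_le_mul_of_nonneg_left ((abs_abel_le ex hη err b2).trans (by gcongr))
        (ex.Δ_nonneg e)
    refine (sum_le_sum h1).trans ?_
    have hε : 0 ≤ ε := le_trans (by positivity) h
    rw [sum_add_distrib, ← sum_mul, ← sum_div, two_mul, add_div]
    refine add_le_add (mul_le_of_le_one_left (by positivity) (sum_Δ_Icc_le ex)) ?_
    gcongr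
    linarith [abs_nonneg (err 0)]

/-- From eigenvalues to the energy. -/
theorem energy_close {n k : ℕ} {lam : Fin (n + 1) → ℝ} (hlam : Monotone lam) (ex : Expo (k + 2))
    {η : ℝ} (hη : ex.ζ 1 = η) {q : ℕ → ℝ} (hq : IsOv k q) (qa : Fin (n + 1) → ℕ → ℝ)
    (d c : Fin (n + 1) → ℝ) {t ε ε₁ κ Λ : ℝ} (ht : 0 ≤ t) (ht1 : t ≤ 1) (hΛ : ∀ a, |lam a| ≤ Λ)
    (hd : ∀ a, |d a| ≤ κ) (hc : ∀ a, |c a - 1 / (n + 1)| ≤ ε₁) (err : Fin (n + 1) → ℕ → ℝ)
    (herr : ∀ a e, err a e = t * Dev ex k (d a) (qa a) e - phi lam a (sOf lam (t * Dev ex k 1 q e)))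
    (h : ∀ a, |err a 0| + ∑ e ∈ Icc 1 k, ex.Δ e * |err a e| ≤ ε) :
    t * ∑ a, c a * (lam a * d a) ≤ rho lam (t * Dev ex k 1 q k) + ∑ e ∈ Icc 1 k,
      (rho lam (t * Dev ex k 1 q (e - 1)) - rho lam (t * Dev ex k 1 q e)) / ex.ζ e +
      (Λ * ε / η ^ 2 + (n + 1) * ε₁ * Λ * κ) := by
  have h0 : 0 < η := hη ▸ ex.pos 1
  have hn : (0 : ℝ) < n + 1 := by positivity
  set P : Fin (n + 1) → ℕ → ℝ := fun a e => phi lam a (sOf lam (t * Dev ex k 1 q e)) with hP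
  have hρ : ∀ e ≤ k, rho lam (t * Dev ex k 1 q e) = (∑ a, lam a * P a e) / (n + 1) := fun e he =>
    rho_eq hlam (mul_nonneg ht (Dev_nonneg ex _ _ (fun l hl => (hq.1 l hl).2) zero_le_one he))
  have h1 : ∀ a, t * d a = (P a k + ∑ l ∈ Icc 1 k, (P a (l - 1) - P a l) / ex.ζ l) +
      (err a k + ∑ l ∈ Icc 1 k, (err a (l - 1) - err a l) / ex.ζ l) := fun a => by
    rw [d_eq_sum ex (d a) (qa a), mul_add, mul_sum, add_add_add_comm, ← sum_add_distrib]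
    simp only [herr, hP]
    congr 1
    · ring
    · exact sum_congr rfl fun l _ => by ring
  have h2 : rho lam (t * Dev ex k 1 q k) + ∑ e ∈ Icc 1 k,
      (rho lam (t * Dev ex k 1 q (e - 1)) - rho lam (t * Dev ex k 1 q e)) / ex.ζ e =
      ∑ a, 1 / (n + 1) * (lam a * (P a k + ∑ l ∈ Icc 1 k, (P a (l - 1) - P a l) / ex.ζ l)) := by
    simp only [mul_add, sum_add_distrib, mul_sum]
    rw [hρ k le_rfl, sum_comm, sum_div]
    congr 1
    · exact sum_congr rfl fun a _ => by ring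
    · refine sum_congr rfl fun l hl => ?_
      have := (mem_Icc.1 hl).2
      rw [hρ _ (by omega), hρ _ this, ← sub_div, ← sum_sub_distrib, sum_div, sum_div]
      exact sum_congr rfl fun a _ => by ring
  have h3 : ∀ a, t * (c a * (lam a * d a)) ≤
      1 / (n + 1) * (lam a * (P a k + ∑ l ∈ Icc 1 k, (P a (l - 1) - P a l) / ex.ζ l)) +
        (1 / (n + 1) * (Λ * ε / η ^ 2) + ε₁ * Λ * κ) := fun a => by
    have hΛ0 : 0 ≤ Λ := (abs_nonneg _).trans (hΛ a)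
    have b1 : |lam a * (err a k + ∑ l ∈ Icc 1 k, (err a (l - 1) - err a l) / ex.ζ l)| ≤
        Λ * ε / η ^ 2 := by
      rw [abs_mul, mul_div_assoc]
      exact mul_le_mul (hΛ a) ((abs_abel_le' ex hη (err a)).trans (by gcongr; exact h a))
        (abs_nonneg _) hΛ0
    have b2 : |t * ((c a - 1 / (n + 1)) * lam a * d a)| ≤ ε₁ * Λ * κ := by
      have hε₁ : 0 ≤ ε₁ := (abs_nonneg _).trans (hc a)
      rw [abs_mul, abs_mul, abs_mul, abs_of_nonneg ht]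
      exact (mul_le_of_le_one_left (by positivity) ht1).trans (mul_le_mul (mul_le_mul (hc a) (hΛ a)
        (abs_nonneg _) hε₁) (hd a) (abs_nonneg _) (by positivity))
    have b3 := mul_le_mul_of_nonneg_left (le_of_abs_le b1) (one_div_pos.2 hn).le
    have b4 : t * (c a * (lam a * d a)) =
        1 / (n + 1) * (lam a * (t * d a)) + t * ((c a - 1 / (n + 1)) * lam a * d a) := by ring
    rw [b4, h1 a]
    linarith [le_of_abs_le b2]
  rw [h2, mul_sum]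
  refine (sum_le_sum fun a _ => h3 a).trans_eq ?_
  rw [sum_add_distrib, spec_sum_const]
  congr 1
  field_simp

/-- `Pin` in terms of variances and distances of the means. -/
theorem pin_le {k : ℕ} {Ω : Type} [MeasurableSpace Ω] {L : Lev (k + 2) Ω} {H : Cfg (k + 2) Ω → ℝ}
    (hH : L.Lin H) {N n : ℕ} (sp : Fin N → Fin (n + 1)) {y : Fin N → Cfg (k + 2) Ω → ℝ}
    (hy : ∀ i, L.Nice (y i)) (lam : Fin (n + 1) → ℝ) (s : ℕ → ℝ) {ε : ℝ} (hε : 0 ≤ ε)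
    (h₁ : ∀ a, ∑ e ∈ Icc 1 k, L.Δ e * L.VV H (blk sp a) y e (L.qq H (blk sp a) y e) ≤ ε ^ 2)
    (h₂ : ∀ a, L.Var H (Lev.rr (blk sp a) y) ≤ ε ^ 2)
    (h₃ : ∀ a, |L.dd H (blk sp a) y - qh lam L.toExpo s a (k + 1)| ≤ ε)
    (h₄ : ∀ a, ∑ e ∈ Icc 1 k, L.Δ e * |L.qq H (blk sp a) y e - qh lam L.toExpo s a e| ≤ ε) :
    Pin L k H sp y lam s ≤ 4 * (n + 1) * ε := by
  have hs : ∀ a b : ℝ, 0 ≤ a → √(a + b ^ 2) ≤ √a + |b| := fun a b ha => by
    refine Real.sqrt_le_iff.2 ⟨by positivity, ?_⟩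
    have := mul_nonneg (Real.sqrt_nonneg a) (abs_nonneg b)
    nlinarith [Real.sq_sqrt ha, sq_abs b]
  have h1 : ∀ a, √(L.E0 H fun ω => (Lev.rr (blk sp a) y ω - qh lam L.toExpo s a (k + 1)) ^ 2) +
      ∑ e ∈ Icc 1 k, L.Δ e * √(L.VV H (blk sp a) y e (qh lam L.toExpo s a e)) ≤ 4 * ε := by
    intro a
    have hn := Lev.nice_rr (L := L) (I := blk sp a) fun i _ => hy i
    have b1 : √(L.E0 H fun ω => (Lev.rr (blk sp a) y ω - qh lam L.toExpo s a (k + 1)) ^ 2) ≤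
        ε + ε := by
      rw [Lev.E0_sub_sq hH hn]
      exact (hs _ _ (Lev.Var_nonneg hH hn)).trans
        (add_le_add (Real.sqrt_le_iff.2 ⟨hε, h₂ a⟩) (h₃ a))
    have b2 : ∑ e ∈ Icc 1 k, L.Δ e * √(L.VV H (blk sp a) y e (qh lam L.toExpo s a e)) ≤ ε + ε := by
      refine le_trans (sum_le_sum fun e _ => ?_) (sum_add_distrib.trans_le (add_le_add
        ((sum_Δ_sqrt_le L.toExpo _ fun e _ => Lev.VV_nonneg hH (fun i _ => hy i) e _).trans
          (Real.sqrt_le_iff.2 ⟨hε, h₁ a⟩)) (h₄ a)))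
      rw [← mul_add, Lev.VV_eq]
      exact mul_le_mul_of_nonneg_left (hs _ _ (Lev.VV_nonneg hH (fun i _ => hy i) e _))
        (L.Δ_nonneg e)
    linarith
  refine (sum_le_sum fun a _ => h1 a).trans_eq ?_
  rw [spec_sum_const]
  ring

end Crest.Agent.R164
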