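import Crest.Agent.R164.LowDefs
import Crest.Agent.R164.PinThm

/-! # Row 164: lower bound, moving the perturbation parameters -/

set_option autoImplicit false

namespace Crest.Agent.R164

open MeasureTheory ProbabilityTheory Real Finset Crest.ProbabilityR.InvariantGlass

namespace LA

variable {n : ℕ}

/-- `θ + t e`. -/
def mv (θ e : LP n) (t : ℝ) : LP n :=
  ⟨fun l a => θ.u l a + t * e.u l a, fun a => θ.w a + t * e.w a, fun a => θ.β a + t * e.β a⟩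

/-- The scalar product. -/
noncomputable def ip (θ e : LP n) (k : ℕ) : ℝ :=
  ∑ l ∈ Icc 1 k, ∑ a, θ.u l a * e.u l a + ∑ a, θ.w a * e.w a + ∑ a, θ.β a * e.β a

/-- The derivative of the Hamiltonian in the direction `e`. -/
noncomputable def dH {k N : ℕ} (lab sp : Fin N → Fin (n + 1)) (e : LP n) :
    Cfg (k + 2) (Om N) → ℝ :=
  Hm (fun i => e.w (sp i)) (fun l i => e.u l (sp i)) fun σ => ∑ r, e.β (lab r) * sg (σ r)

structure IsU (e : LP n) (k : ℕ) : Prop where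
  pen : e.pen k = 1
  uw : ∀ a, |e.w a| + ∑ l ∈ Icc 1 k, |e.u l a| ≤ 1
  β : ∀ a, |e.β a| ≤ 1

lemma pen_mv (θ e : LP n) (t : ℝ) (k : ℕ) :
    (mv θ e t).pen k = θ.pen k + 2 * t * ip θ e k + t ^ 2 * e.pen k := by
  have h : ∀ x y : ℝ, (x + t * y) ^ 2 = x ^ 2 + 2 * t * (x * y) + t ^ 2 * y ^ 2 := fun x y => by
    ring
  simp only [LP.pen, mv, ip, h, sum_add_distrib, ← mul_sum]
  ring

lemma H_mv (d : LD n) {k N : ℕ} (lab sp : Fin N → Fin (n + 1)) (θ e : LP n) (t : ℝ)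
    (ω : Cfg (k + 2) (Om N)) :
    d.H lab sp (mv θ e t) ω = d.H lab sp θ ω + t * dH lab sp e ω := by
  have h1 : ∀ x y z : ℝ, (x + t * y) * z ^ 2 / 2 = x * z ^ 2 / 2 + t * (y * z ^ 2 / 2) :=
    fun x y z => by ring
  have h2 : ∀ x y z u : ℝ, (x + t * y) * z * u = x * z * u + t * (y * z * u) :=
    fun x y z u => by ring
  have h3 : ∀ x y z : ℝ, (x + t * y) * z = x * z + t * (y * z) := fun x y z => by ring
  simp only [LD.H, dH, Hm, LD.lamP, LD.xP, LD.wt, mv, ← add_assoc]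
  simp only [h1, h2]
  simp only [h3, sum_add_distrib, ← mul_sum]
  ring

lemma box_mv {θ e : LP n} {k : ℕ} {r t : ℝ} (hθ : θ.box k r) (he : IsU e k) :
    (mv θ e t).box k (r + |t|) := by
  have h : ∀ x y : ℝ, |x| ≤ r → |y| ≤ 1 → |x + t * y| ≤ r + |t| := fun x y hx hy =>
    (abs_add_le _ _).trans (add_le_add hx (by
      rw [abs_mul]; exact mul_le_of_le_one_right (abs_nonneg _) hy))
  refine ⟨fun l hl a => h _ _ (hθ.1 l hl a) ?_, fun a => h _ _ (hθ.2.1 a) ?_,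
    fun a => h _ _ (hθ.2.2 a) (he.β a)⟩
  · have := single_le_sum (f := fun l => |e.u l a|) (fun _ _ => abs_nonneg _) hl
    linarith [he.uw a, abs_nonneg (e.w a)]
  · have : 0 ≤ ∑ l ∈ Icc 1 k, |e.u l a| := sum_nonneg fun _ _ => abs_nonneg _
    linarith [he.uw a]

lemma box_mono {θ : LP n} {k : ℕ} {r r' : ℝ} (hθ : θ.box k r) (h : r ≤ r') : θ.box k r' :=
  ⟨fun l hl a => (hθ.1 l hl a).trans h, fun a => (hθ.2.1 a).trans h, fun a => (hθ.2.2 a).trans h⟩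

def eU (l : ℕ) (a : Fin (n + 1)) : LP n :=
  ⟨fun l' a' => if l' = l then if a' = a then 1 else 0 else 0, 0, 0⟩

def eW (a : Fin (n + 1)) : LP n := ⟨0, fun a' => if a' = a then 1 else 0, 0⟩

def eB (a : Fin (n + 1)) : LP n := ⟨0, 0, fun a' => if a' = a then 1 else 0⟩

lemma ip_eU (θ : LP n) {k l : ℕ} (hl : l ∈ Icc 1 k) (a : Fin (n + 1)) :
    ip θ (eU l a) k = θ.u l a := by
  simp only [ip, eU, Pi.zero_apply, mul_zero, sum_const_zero, add_zero]
  rw [sum_eq_single_of_mem l hl fun l' _ h => by simp [h]]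
  simp

lemma ip_eW (θ : LP n) (k : ℕ) (a : Fin (n + 1)) : ip θ (eW a) k = θ.w a := by
  simp [ip, eW]

lemma ip_eB (θ : LP n) (k : ℕ) (a : Fin (n + 1)) : ip θ (eB a) k = θ.β a := by
  simp [ip, eB]

lemma pen_eq_ip (θ : LP n) (k : ℕ) : θ.pen k = ip θ θ k := by
  simp only [LP.pen, ip, pow_two]

lemma isU_eU {k l : ℕ} (hl : l ∈ Icc 1 k) (a : Fin (n + 1)) : IsU (eU l a) k := by
  refine ⟨by rw [pen_eq_ip, ip_eU _ hl]; simp [eU], fun a' => ?_, fun a' => by simp [eU]⟩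
  rw [sum_eq_single_of_mem l hl fun l' _ h => by simp [eU, h]]
  simp only [eU, Pi.zero_apply, abs_zero, zero_add, if_true]
  split_ifs <;> simp

lemma isU_eW (k : ℕ) (a : Fin (n + 1)) : IsU (eW a) k := by
  refine ⟨by rw [pen_eq_ip, ip_eW]; simp [eW], fun a' => ?_, fun a' => by simp [eW]⟩
  simp only [eW, Pi.zero_apply, abs_zero, sum_const_zero, add_zero]
  split_ifs <;> simp

lemma isU_eB (k : ℕ) (a : Fin (n + 1)) : IsU (eB a) k := by
  refine ⟨by rw [pen_eq_ip, ip_eB]; simp [eB], fun a' => by simp [eB], fun a' => ?_⟩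
  simp only [eB]
  split_ifs <;> simp

variable {k N : ℕ}

lemma dH_eU (lab sp : Fin N → Fin (n + 1)) {l : ℕ} (hl : l ∈ Icc 1 k) (a : Fin (n + 1)) :
    (dH lab sp (eU l a) : Cfg (k + 2) (Om N) → ℝ) =
      fun ω => ∑ i ∈ blk sp a, gl l i ω * Y i ω := by
  funext ω
  simp only [dH, Hm, eU, Pi.zero_apply, zero_mul, zero_div, sum_const_zero, zero_add, add_zero]
  rw [sum_eq_single_of_mem l hl fun l' _ h => by simp [h]]
  simp [blk, sum_filter]

lemma dH_eW (lab sp : Fin N → Fin (n + 1)) (a : Fin (n + 1)) (ω : Cfg (k + 2) (Om N)) :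
    ∑ i ∈ blk sp a, Y i ω ^ 2 = 2 * dH lab sp (eW a) ω + 0 := by
  simp only [dH, Hm, eW, Pi.zero_apply, zero_mul, sum_const_zero, add_zero, blk, sum_filter,
    mul_sum]
  refine sum_congr rfl fun i _ => ?_
  split_ifs <;> ring

lemma dH_eB (d : LD n) (lab sp : Fin N → Fin (n + 1)) (a : Fin (n + 1))
    (ω : Cfg (k + 2) (Om N)) :
    d.dev lab a (spn ω) = 1 * dH lab sp (eB a) ω + -((blk lab a).card * d.m a) := by
  simp [dH, Hm, eB, LD.dev, mag, blk, sum_filter, sub_eq_add_neg]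

lemma box_zero {θ e : LP n} {r : ℝ} (hθ : θ.box k r) (hr : 0 ≤ r) (t : ℝ)
    (hu : ∀ l a, e.u l a = 0 ∨ θ.u l a + t * e.u l a = 0)
    (hw : ∀ a, e.w a = 0 ∨ θ.w a + t * e.w a = 0)
    (hβ : ∀ a, e.β a = 0 ∨ θ.β a + t * e.β a = 0) : (mv θ e t).box k r := by
  have h : ∀ x y : ℝ, |x| ≤ r → (y = 0 ∨ x + t * y = 0) → |x + t * y| ≤ r := by
    rintro x y hx (rfl | h)
    · simpa using hx
    · rwa [h, abs_zero]
  exact ⟨fun l hl a => h _ _ (hθ.1 l hl a) (hu l a), fun a => h _ _ (hθ.2.1 a) (hw a),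
    fun a => h _ _ (hθ.2.2 a) (hβ a)⟩

lemma abs_sg (b : Bool) : |sg b| = 1 := by cases b <;> simp [sg]

lemma sum_sg_le (f : Fin N → ℝ) {a : ℝ} (hf : ∀ r, |f r| ≤ a) (σ : Fin N → Bool) :
    |∑ r, f r * sg (σ r)| ≤ N * a := by
  refine (abs_sum_le_sum_abs _ _).trans ((sum_le_card_nsmul _ _ a fun r _ => ?_).trans_eq ?_)
  · rw [abs_mul, abs_sg, mul_one]; exact hf r
  · simp

lemma idx_le (a : Fin (n + 1)) : ((a : ℕ) : ℝ) ≤ n := by exact_mod_cast Nat.lt_succ_iff.1 a.2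

lemma xP_mem (d : LD n) (hs : 0 < d.s) {θ : LP n} (hθ : θ.box k (d.s / 4)) {l : ℕ}
    (hl : l ∈ Icc 1 k) (a : Fin (n + 1)) :
    3 * d.s / 4 ≤ d.xP θ l a ∧ d.xP θ l a ≤ (n + 2) * d.s := by
  have h1 := abs_le.1 (hθ.1 l hl a)
  have h2 := idx_le a
  have h3 : (0 : ℝ) ≤ (a : ℕ) := Nat.cast_nonneg _
  unfold LD.xP
  constructor <;> nlinarith

lemma lamP_close (d : LD n) (hs : 0 < d.s) {θ : LP n} (hθ : θ.box k (d.s / 4)) (a : Fin (n + 1)) :
    |d.lamP θ a - d.lam a| ≤ (n + 2) * d.s := by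
  have h1 := abs_le.1 (hθ.2.1 a)
  have h2 := idx_le a
  have h3 : (0 : ℝ) ≤ (a : ℕ) := Nat.cast_nonneg _
  unfold LD.lamP
  rw [abs_le]
  constructor <;> nlinarith

lemma xP_close (d : LD n) (hs : 0 < d.s) {θ : LP n} (hθ : θ.box k (d.s / 4)) {l : ℕ}
    (hl : l ∈ Icc 1 k) (a b : Fin (n + 1)) : |d.xP θ l a - d.xP θ l b| ≤ (n + 2) * d.s := by
  have h1 := xP_mem d hs hθ hl a
  have h2 := xP_mem d hs hθ hl b
  rw [abs_le]
  constructor <;> linarith

variable (ex : Expo (k + 2)) (h : Haar N)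

lemma lin_H (d : LD n) (lab sp : Fin N → Fin (n + 1)) (θ : LP n) :
    (mLev ex h (unif _)).Lin (d.H lab sp θ) := lin_Hm ex h _ _ _ _

lemma lin_dH (lab sp : Fin N → Fin (n + 1)) (e : LP n) :
    (mLev ex h (unif _)).Lin (dH lab sp e) := lin_Hm ex h _ _ _ _

lemma X_sub_mv (d : LD n) (lab sp : Fin N → Fin (n + 1)) (hs : 0 < d.s) (hs1 : (n + 2) * d.s ≤ 1)
    {θ e : LP n} (hθ : θ.box k (d.s / 4)) (he : IsU e k) (t : ℝ) :
    d.X ex h lab sp θ - d.X ex h lab sp (mv θ e t) ≤ N * |t| + N * |t| := by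
  refine X0_Hm_sub_le' ex h _ _ _ _ _ _ _ (fun σ => ?_) fun i => ?_
  · have h1 := sum_sg_le (fun r => -(t * e.β (lab r))) (a := |t|) (fun r => by
      rw [abs_neg, abs_mul]; exact mul_le_of_le_one_right (abs_nonneg _) (he.β _)) σ
    refine le_of_eq_of_le ?_ ((le_abs_self _).trans h1)
    simp only [LD.wt, mv, sub_sub_sub_cancel_right, ← sum_sub_distrib]
    exact sum_congr rfl fun r _ => by ring
  · have h1 : |d.lamP θ (sp i) - d.lamP (mv θ e t) (sp i)| = |t| * |e.w (sp i)| := by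
      rw [← abs_mul, ← abs_neg]
      congr 1
      simp only [LD.lamP, mv]
      ring
    have h2 : ∑ l ∈ Icc 1 k, |d.xP θ l (sp i) - d.xP (mv θ e t) l (sp i)| * |d.xP θ l (sp i)| ≤
        |t| * ∑ l ∈ Icc 1 k, |e.u l (sp i)| := by
      rw [mul_sum]
      refine sum_le_sum fun l hl => ?_
      have h3 : |d.xP θ l (sp i) - d.xP (mv θ e t) l (sp i)| = |t| * |e.u l (sp i)| := by
        rw [← abs_mul, ← abs_neg]
        congr 1
        simp only [LD.xP, mv]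
        ring
      have h4 := xP_mem d hs hθ hl (sp i)
      rw [h3]
      exact mul_le_of_le_one_right (by positivity) (abs_le.2 ⟨by linarith, by linarith⟩)
    rw [h1]
    have h3 := mul_le_mul_of_nonneg_left (he.uw (sp i)) (abs_nonneg t)
    nlinarith [mul_nonneg (abs_nonneg t) (abs_nonneg (e.w (sp i)))]

lemma small (d : LD n) (lab sp : Fin N → Fin (n + 1)) {M K : ℝ} (hM : 1 ≤ M) (hNM : N ≤ M)
    (hK : 1 ≤ K) (hs : 0 < d.s) (hs1 : (n + 2) * d.s ≤ 1) {θ e : LP n}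
    (hθ : d.NearMax ex h lab sp (M * K) θ) (he : IsU e k) {u : ℝ} (hu : ip θ e k = u)
    (hu' : |u| ≤ d.s / 4) (hb : (mv θ e (-u)).box k (d.s / 4)) : |u| ≤ 2 / √K := by
  have h1 := hθ.2 _ hb
  have h2 := X_sub_mv ex h d lab sp hs hs1 hθ.1 he (-u)
  rw [pen_mv, hu, he.pen] at h1
  rw [abs_neg] at h2
  have h3 : d.s ≤ 1 := by nlinarith [Nat.cast_nonneg (α := ℝ) n]
  have h4 : (N : ℝ) * |u| ≤ M * (1 / 4) :=
    mul_le_mul hNM (by linarith) (abs_nonneg _) (by linarith)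
  have h5 : M * (K * u ^ 2) ≤ M * 4 := by nlinarith
  have h6 : K * u ^ 2 ≤ 4 := le_of_mul_le_mul_left h5 (by linarith)
  rw [le_div_iff₀ (sqrt_pos.2 (by linarith))]
  refine abs_le_of_sq_le_sq' ?_ (by norm_num) |>.2
  rw [mul_pow, sq_abs, sq_sqrt (by linarith)]
  linarith

lemma E0_affine {K : ℕ} {Ω : Type} [MeasurableSpace Ω] {L : Lev K Ω} {H f : Cfg K Ω → ℝ}
    (hH : L.Lin H) (hf : L.Nice f) (a b : ℝ) :
    L.E0 H (fun ω => a * f ω + b) = a * L.E0 H f + b := by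
  unfold Lev.E0
  rw [Lev.E_add hH (hf.const_mul a) (Lev.nice_const b), Lev.E_const_mul, Lev.E_const hH]

lemma Var_affine {K : ℕ} {Ω : Type} [MeasurableSpace Ω] {L : Lev K Ω} {H f : Cfg K Ω → ℝ}
    (hH : L.Lin H) (hf : L.Nice f) (a b : ℝ) :
    L.Var H (fun ω => a * f ω + b) = a ^ 2 * L.Var H f := by
  have h1 := Lev.E0_sub_sq hH ((hf.const_mul a).add (Lev.nice_const b)) b
  have h2 : L.E0 H (fun ω => (a * f ω + b - b) ^ 2) = a ^ 2 * L.E0 H fun ω => f ω ^ 2 := by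
    simp only [add_sub_cancel_right, mul_pow]
    exact Lev.E_const_mul _ _ _ _ _
  rw [h2, E0_affine hH hf] at h1
  unfold Lev.Var at h1 ⊢
  linarith

lemma touch_dir (d : LD n) {N' : ℕ} (h' : Haar N') (lab sp : Fin N → Fin (n + 1))
    (lab' sp' : Fin N' → Fin (n + 1)) {M K C : ℝ} (hM : 1 ≤ M) (hK : 0 ≤ K) (hC : 0 ≤ C)
    (hsM : 1 / √M ≤ d.s / 8) {θ : LP n} (hθ : d.NearMax ex h lab sp (M * K) θ)
    (hθ' : θ.box k (d.s / 8))
    (hnear : ∀ θ' : LP n, θ'.box k (d.s / 4) → |d.X ex h' lab' sp' θ' - d.X ex h lab sp θ'| ≤ C)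
    {e : LP n} (he : IsU e k) :
    |(mLev ex h' (unif _)).E0 (d.H lab' sp' θ) (dH lab' sp' e) - 2 * (M * K) * ip θ e k| ≤
        (K + 1 + 2 * C) * √M ∧
      (mLev ex h' (unif _)).Var (d.H lab' sp' θ) (dH lab' sp' e) ≤
        exp (2 * (K + 1 + 2 * C)) / ex.ζ 0 ^ 2 * M := by
  have hM0 : 0 < √M := sqrt_pos.2 (by linarith)
  have hδ : 0 < 1 / √M := by positivity
  have hδ2 : (1 / √M) ^ 2 * M = 1 := by
    rw [div_pow, sq_sqrt (by linarith)]
    field_simp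
  have key : ∀ t : ℝ, |t| = 1 / √M →
      (mLev ex h' (unif _)).X0 (fun ω => d.H lab' sp' θ ω + t * dH lab' sp' e ω) ≤
        (mLev ex h' (unif _)).X0 (d.H lab' sp' θ) + t * (2 * (M * K) * ip θ e k) +
          (K + 1 + 2 * C) := fun t ht => by
    have hb : (mv θ e t).box k (d.s / 4) := box_mono (box_mv hθ' he) (by linarith)
    have h1 := hθ.2 _ hb
    have h2 := (abs_le.1 (hnear _ hb)).2
    have h3 := (abs_le.1 (hnear _ hθ.1)).1
    have h4 : t ^ 2 * M = 1 := by rw [← sq_abs, ht, hδ2]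
    rw [pen_mv, he.pen] at h1
    have h5 : d.H lab' sp' (mv θ e t) = fun ω : Cfg (k + 2) (Om N') =>
        d.H lab' sp' θ ω + t * dH lab' sp' e ω := funext (H_mv d lab' sp' θ e t)
    unfold LD.X at h1 h2 h3
    rw [h5] at h2
    have h6 : M * K * (t ^ 2 * 1) = K := by linear_combination K * h4
    nlinarith
  have h1 := key _ (abs_of_pos hδ)
  have h2 := key (-(1 / √M)) (by rw [abs_neg, abs_of_pos hδ])
  simp only [neg_mul, ← sub_eq_add_neg] at h2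
  obtain ⟨h3, h4⟩ := Lev.touch (lin_H ex h' d lab' sp' θ) (lin_dH ex h' lab' sp' e) hδ h1 h2
  refine ⟨h3.trans_eq (by field_simp), h4.trans ?_⟩
  have hζ : (mLev ex h' (unif _)).ζ 0 = ex.ζ 0 := rfl
  have hζ0 := ex.pos 0
  rw [hζ, mul_pow, div_le_iff₀ (by positivity)]
  have h5 : exp (2 * ex.ζ 0 * (K + 1 + 2 * C)) ≤ exp (2 * (K + 1 + 2 * C)) :=
    exp_le_exp.2 (by nlinarith [ex.le_one 0])
  calc _ ≤ exp (2 * (K + 1 + 2 * C)) * ((1 / √M) ^ 2 * M) := by rw [hδ2]; linarith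
    _ = _ := by field_simp

lemma wt_perm (d : LD n) (θ : LP n) (lab : Fin N → Fin (n + 1)) (σ : Equiv.Perm (Fin N)) :
    d.wt θ (lab ∘ σ) = fun s => d.wt θ lab (s ∘ σ.symm) := by
  funext s
  have h1 : ∀ j, d.dev (lab ∘ σ) j s = d.dev lab j (s ∘ σ.symm) := fun j => by
    unfold LD.dev
    rw [card_blk_perm]
    congr 1
    simp only [mag, blk, sum_filter]
    exact Fintype.sum_equiv σ _ _ fun r => by simp
  unfold LD.wt
  simp only [h1]
  congr 1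
  exact Fintype.sum_equiv σ _ _ fun r => by simp

lemma X0_Hm_zero_ge (w : (Fin N → Bool) → ℝ) (σ₀ : Fin N → Bool) :
    w σ₀ - N ≤ (mLev ex h (unif _)).X0 (Hm 0 0 w) := by
  have h1 := exp_X0_Hm_zero ex h (unif _) 0 w
  simp only [Pi.zero_apply, zero_mul, zero_div, sum_const_zero, zero_add, integral_const,
    probReal_univ, one_smul] at h1
  have h2 : exp (w σ₀ - N) ≤ ∫ σ, exp (w σ) ∂unif (Fin N → Bool) := by
    rw [unif, integral_unifOn, card_univ, Fintype.card_fun, Fintype.card_bool, Fintype.card_fin,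
      exp_sub]
    refine div_le_div₀ (sum_nonneg fun _ _ => (exp_pos _).le)
      (single_le_sum (f := fun σ => exp (w σ)) (fun _ _ => (exp_pos _).le) (mem_univ σ₀))
      (by positivity) ?_
    rw [← mul_one (N : ℝ), exp_nat_mul]
    push_cast
    exact pow_le_pow_left₀ (by norm_num) (by linarith [add_one_le_exp (1 : ℝ)]) N
  have h3 := rpow_le_rpow (exp_pos _).le h2 (ex.pos 0).le
  rw [← h1, ← exp_mul, exp_le_exp, mul_comm] at h3
  exact le_of_mul_le_mul_left h3 (ex.pos 0)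

lemma exists_conf (d : LD n) (hm : ∀ j, |d.m j| ≤ 1) (lab : Fin N → Fin (n + 1)) :
    ∃ σ₀ : Fin N → Bool, ∀ j, |d.dev lab j σ₀| ≤ 2 := by
  have h1 : ∀ j, ∃ P ⊆ blk lab j, P.card = ⌊((blk lab j).card : ℝ) * (1 + d.m j) / 2⌋₊ := fun j =>
    exists_subset_card_eq (Nat.floor_le_of_le (by
      nlinarith [(abs_le.1 (hm j)).2, Nat.cast_nonneg (α := ℝ) (blk lab j).card]))
  choose P hP hc using h1
  refine ⟨fun r => decide (r ∈ P (lab r)), fun j => ?_⟩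
  have h2 : mag lab j (fun r => decide (r ∈ P (lab r))) = 2 * (P j).card - (blk lab j).card := by
    have h3 : ∀ r ∈ blk lab j, sg (decide (r ∈ P (lab r))) = 2 * (if r ∈ P j then 1 else 0) - 1 :=
      fun r hr => by
        rw [(mem_filter.1 hr).2]
        by_cases h : r ∈ P j
        · simp [sg, h]; norm_num
        · simp [sg, h]
    rw [mag, sum_congr rfl h3, sum_sub_distrib, ← mul_sum, sum_ite_mem, inter_eq_right.2 (hP j)]
    simp
  have h0 : 0 ≤ ((blk lab j).card : ℝ) * (1 + d.m j) / 2 := by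
    have := (abs_le.1 (hm j)).1
    have : 0 ≤ 1 + d.m j := by linarith
    positivity
  have h3 := Nat.floor_le h0
  have h4 := Nat.lt_floor_add_one (((blk lab j).card : ℝ) * (1 + d.m j) / 2)
  rw [LD.dev, h2, hc, abs_le]
  constructor <;> linarith

lemma ev_sqrt (a b : ℝ) {c : ℝ} (hc : 0 < c) : ∀ᶠ M in Filter.atTop, a * √M + b ≤ c * M := by
  filter_upwards [Filter.eventually_ge_atTop 1,
    Filter.eventually_ge_atTop (((|a| + |b|) / c) ^ 2)] with M h1 h2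
  have h3 : 1 ≤ √M := one_le_sqrt.2 h1
  have h4 : (|a| + |b|) / c ≤ √M := le_sqrt_of_sq_le h2
  rw [div_le_iff₀ hc] at h4
  have h5 := mul_self_sqrt (show 0 ≤ M by linarith)
  calc a * √M + b ≤ (|a| + |b|) * √M := by
        nlinarith [le_abs_self a, le_abs_self b, abs_nonneg b]
    _ ≤ √M * c * √M := mul_le_mul_of_nonneg_right h4 (by linarith)
    _ = c * M := by rw [mul_right_comm, h5, mul_comm]

lemma persist {c c' a a' R B κ γ ρ : ℝ} (h1 : |c * a - c' * a'| ≤ R) (h2 : |c - c'| ≤ B)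
    (h3 : |a| ≤ κ) (hγ : 0 < γ) (h4 : γ ≤ c') (hρ : 0 ≤ ρ) (h5 : R + B * κ ≤ ρ * γ) :
    |a - a'| ≤ ρ := by
  have h6 : c' * |a - a'| ≤ R + B * κ := by
    rw [← abs_of_pos (hγ.trans_le h4), ← abs_mul,
      show c' * (a - a') = (c * a - c' * a') - (c - c') * a by ring]
    refine (abs_sub _ _).trans (add_le_add h1 ?_)
    rw [abs_mul]
    exact mul_le_mul h2 h3 (abs_nonneg _) ((abs_nonneg _).trans h2)
  refine le_of_mul_le_mul_left (h6.trans (h5.trans ?_)) (hγ.trans_le h4)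
  rw [mul_comm c']
  exact mul_le_mul_of_nonneg_left h4 hρ

lemma tail_succ (q : ℕ → ℝ) {e : ℕ} (he : e ≤ k) :
    tail ex k q e = ex.Δ e * q e + tail ex k q (e + 1) := by
  unfold tail
  rw [← Finset.insert_Icc_add_one_left_eq_Icc he, sum_insert (by simp)]

lemma tail_last (q : ℕ → ℝ) : tail ex k q (k + 1) = 0 := by
  simp [tail]

lemma sum_Δ_sub_le (q q' : ℕ → ℝ) {ρ : ℝ} (hρ : 0 ≤ ρ)
    (hq : ∀ l ∈ Icc 1 k, |tail ex k q l - tail ex k q' l| ≤ ρ) :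
    ∑ e ∈ Icc 1 k, ex.Δ e * |q e - q' e| ≤ k * (2 * ρ) := by
  refine (sum_le_card_nsmul _ _ (2 * ρ) fun e he => ?_).trans_eq (by simp)
  have h1 := hq e he
  rw [mem_Icc] at he
  have h2 : |tail ex k q (e + 1) - tail ex k q' (e + 1)| ≤ ρ := by
    rcases he.2.eq_or_lt with rfl | h
    · simpa [tail_last] using hρ
    · exact hq _ (mem_Icc.2 ⟨by omega, by omega⟩)
  rw [tail_succ ex q he.2, tail_succ ex q' he.2] at h1
  rw [← abs_of_nonneg (ex.Δ_nonneg e), ← abs_mul]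
  rw [abs_le] at h1 h2 ⊢
  constructor <;> nlinarith [h1.1, h1.2, h2.1, h2.2]

lemma tail_mem (q : ℕ → ℝ) {d : ℝ} (hd : 0 ≤ d) (hq : ∀ e, 0 ≤ q e ∧ q e ≤ d) {l : ℕ}
    (hl : 1 ≤ l) : |d - tail ex k q l| ≤ d := by
  have h1 : 0 ≤ tail ex k q l := sum_nonneg fun e _ => mul_nonneg (ex.Δ_nonneg e) (hq e).1
  have h2 : tail ex k q l ≤ d := by
    calc tail ex k q l ≤ ∑ e ∈ Icc l k, ex.Δ e * d :=
          sum_le_sum fun e _ => mul_le_mul_of_nonneg_left (hq e).2 (ex.Δ_nonneg e)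
      _ ≤ ∑ e ∈ Icc 1 k, ex.Δ e * d := sum_le_sum_of_subset_of_nonneg (Icc_subset_Icc_left hl)
          fun e _ _ => mul_nonneg (ex.Δ_nonneg e) hd
      _ ≤ d := by
          rw [← sum_mul]
          exact mul_le_of_le_one_left hd (sum_Δ_Icc_le ex)
  rw [abs_le]
  constructor <;> linarith

end LA

end Crest.Agent.R164
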