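import Crest.Agent.R164.LowDefs
import Crest.Agent.R164.PinThm
import Crest.Agent.R164.LowAAux

/-! # Row 164: lower bound, almost maximisers -/

set_option autoImplicit false

namespace Crest.Agent.R164

open MeasureTheory ProbabilityTheory Real Finset Crest.ProbabilityR.InvariantGlass

open LA

namespace LD

variable {n : ℕ} (d : LD n) {k N : ℕ} (ex : Expo (k + 2))

theorem nearMax_small (h : Haar N) (lab sp : Fin N → Fin (n + 1)) {M K : ℝ} (hM : 1 ≤ M) (hNM : N ≤ M)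
    (hK : 1 ≤ K) (hs : 0 < d.s) (hs1 : (n + 2) * d.s ≤ 1) {θ : LP n}
    (hθ : d.NearMax ex h lab sp (M * K) θ) : θ.box k (2 / √K) := by
  refine ⟨fun l hl a => ?_, fun a => ?_, fun a => ?_⟩
  · refine small ex h d lab sp hM hNM hK hs hs1 hθ (isU_eU hl a) (ip_eU θ hl a) (hθ.1.1 l hl a)
      (box_zero hθ.1 (by linarith) _ (fun l' a' => ?_) (fun _ => Or.inl rfl) fun _ => Or.inl rfl)
    by_cases h1 : l' = l <;> by_cases h2 : a' = a <;> simp [eU, h1, h2]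
  · refine small ex h d lab sp hM hNM hK hs hs1 hθ (isU_eW k a) (ip_eW θ k a) (hθ.1.2.1 a)
      (box_zero hθ.1 (by linarith) _ (fun _ _ => Or.inl rfl) (fun a' => ?_) fun _ => Or.inl rfl)
    by_cases h2 : a' = a <;> simp [eW, h2]
  · refine small ex h d lab sp hM hNM hK hs hs1 hθ (isU_eB k a) (ip_eB θ k a) (hθ.1.2.2 a)
      (box_zero hθ.1 (by linarith) _ (fun _ _ => Or.inl rfl) (fun _ => Or.inl rfl) fun a' => ?_)
    by_cases h2 : a' = a <;> simp [eB, h2]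

theorem touch_of_near {N' : ℕ} (h : Haar N) (h' : Haar N') (lab sp : Fin N → Fin (n + 1))
    (lab' sp' : Fin N' → Fin (n + 1)) {M K C : ℝ} (hM : 1 ≤ M) (hK : 0 ≤ K) (hC : 0 ≤ C)
    (hsM : 1 / √M ≤ d.s / 8) {θ : LP n} (hθ : d.NearMax ex h lab sp (M * K) θ)
    (hθ' : θ.box k (d.s / 8))
    (hnear : ∀ θ' : LP n, θ'.box k (d.s / 4) → |d.X ex h' lab' sp' θ' - d.X ex h lab sp θ'| ≤ C) :
    d.Touch ex h' lab' sp' θ (M * K)
      (2 * (K + 1 + 2 * C) + 4 * exp (2 * (K + 1 + 2 * C)) / ex.ζ 0 ^ 2) M := by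
  have key := fun {e : LP n} (he : IsU e k) =>
    touch_dir ex h d h' lab sp lab' sp' hM hK hC hsM hθ hθ' hnear he
  have hH := lin_H ex h' d lab' sp' θ
  have hB : 0 ≤ K + 1 + 2 * C := by linarith
  have hE : 0 ≤ exp (2 * (K + 1 + 2 * C)) / ex.ζ 0 ^ 2 := by positivity
  have hs := sqrt_nonneg M
  have hM0 : 0 ≤ M := by linarith
  rw [mul_div_assoc]
  generalize exp (2 * (K + 1 + 2 * C)) / ex.ζ 0 ^ 2 = E at key hE ⊢
  generalize K + 1 + 2 * C = B at key hB ⊢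
  have h1 := mul_nonneg hB hs
  have h2 := mul_nonneg hE hs
  have h3 := mul_nonneg hB hM0
  have h4 := mul_nonneg hE hM0
  refine ⟨fun l hl a => ?_, fun a => ?_, fun j => ?_⟩
  · have := key (isU_eU hl a)
    rw [dH_eU lab' sp' hl, ip_eU θ hl] at this
    exact ⟨this.1.trans (by linarith), this.2.trans (by linarith)⟩
  · have := key (isU_eW k a)
    rw [ip_eW] at this
    simp only [dH_eW lab' sp' a]
    rw [E0_affine hH (lin_dH ex h' lab' sp' _).nice, Var_affine hH (lin_dH ex h' lab' sp' _).nice]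
    have h5 := abs_le.1 this.1
    exact ⟨abs_le.2 ⟨by linarith, by linarith⟩, by linarith [this.2]⟩
  · have := key (isU_eB k j)
    simp only [dH_eB d lab' sp' j]
    rw [Var_affine hH (lin_dH ex h' lab' sp' _).nice]
    linarith [this.2]

theorem X_perm (h : Haar N) (lab sp : Fin N → Fin (n + 1)) (σ : Equiv.Perm (Fin N)) (θ : LP n) :
    d.X ex h (lab ∘ σ) sp θ = d.X ex h lab sp θ := by
  unfold LD.X LD.H
  rw [wt_perm]
  exact X0_site_perm ex h _ _ _ σ.symm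

theorem site_perm_L (h : Haar N) (lab sp : Fin N → Fin (n + 1)) (σ : Equiv.Perm (Fin N)) (θ : LP n)
    (r : Fin N) :
    (mLev ex h (unif _)).E0 (d.H (lab ∘ σ) sp θ) (Sg r) =
        (mLev ex h (unif _)).E0 (d.H lab sp θ) (Sg (σ r)) ∧
      ∀ e, qs (mLev ex h (unif _)) (d.H (lab ∘ σ) sp θ) r e =
        qs (mLev ex h (unif _)) (d.H lab sp θ) (σ r) e := by
  have := site_perm ex h (fun i => d.lamP θ (sp i)) (fun l i => d.xP θ l (sp i)) (d.wt θ lab) σ.symm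
    (σ r)
  rw [Equiv.symm_apply_apply] at this
  unfold LD.H
  rw [wt_perm]
  exact this

end LD

/-- A priori bounds: value, removal of the perturbations, magnetisations. -/
theorem apriori {n : ℕ} (lam c m : Fin (n + 1) → ℝ) (hm : ∀ j, |m j| ≤ 1) : ∃ C : ℝ, 0 ≤ C ∧
    ∀ (s κ : ℝ) (d : LD n) (k N : ℕ) (ex : Expo (k + 2)) (h : Haar N) (lab sp : Fin N → Fin (n + 1))
      (θ : LP n), d = ⟨lam, c, m, s, κ⟩ → 0 < s → (k + 1) * (n + 2) * s ≤ 1 → 0 ≤ κ → θ.box k (s / 4) →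
      -(C * N + 4 * κ * (n + 1)) ≤ d.X ex h lab sp θ ∧ d.X ex h lab sp θ ≤ C * N ∧
      d.X ex h lab sp θ ≤ (mLev ex h (unif _)).X0
          (Hm (fun i => lam (sp i)) 0 fun σ => ∑ r, c (lab r) * sg (σ r)) +
        3 * ((k + 1) * (n + 2) * s) * N ∧
      ∀ r, κ * ((blk lab (lab r)).card *
          ((mLev ex h (unif _)).E0 (d.H lab sp θ) (Sg r) - m (lab r))) ^ 2 ≤
        C * N + 4 * κ * (n + 1) := by
  obtain ⟨Λ, hΛ0, hΛ⟩ : ∃ Λ : ℝ, 0 ≤ Λ ∧ ∀ a, |lam a| ≤ Λ := ⟨∑ a, |lam a|, by positivity,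
    fun a => single_le_sum (f := fun a => |lam a|) (fun _ _ => abs_nonneg _) (mem_univ a)⟩
  obtain ⟨Γ, hΓ0, hΓ⟩ : ∃ Γ : ℝ, 0 ≤ Γ ∧ ∀ a, |c a| ≤ Γ := ⟨∑ a, |c a|, by positivity,
    fun a => single_le_sum (f := fun a => |c a|) (fun _ _ => abs_nonneg _) (mem_univ a)⟩
  refine ⟨2 * (Λ + Γ + 3), by positivity, fun s κ d k N ex h lab sp θ hd hs hτ hκ hθ => ?_⟩
  subst hd
  have hN : (0 : ℝ) ≤ N := Nat.cast_nonneg N
  have hk : (0 : ℝ) ≤ k := Nat.cast_nonneg k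
  have hn : (0 : ℝ) ≤ n := Nat.cast_nonneg n
  have hs0 : 0 ≤ (n + 2) * s := by positivity
  have hs1 : (n + 2) * s ≤ (k + 1) * (n + 2) * s := by nlinarith
  have hs2 : s / 4 ≤ (n + 2) * s := by nlinarith
  have up1 : ∀ κ, 0 ≤ κ → (⟨lam, c, m, s, κ⟩ : LD n).X ex h lab sp θ ≤ (mLev ex h (unif _)).X0
      (Hm (fun i => lam (sp i)) 0 fun σ => ∑ r, c (lab r) * sg (σ r)) +
        3 * ((k + 1) * (n + 2) * s) * N := fun κ hκ => by
    have h1 := X0_Hm_sub_le' ex h (unif _) (fun i => lam (sp i)) 0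
      (fun σ => ∑ r, c (lab r) * sg (σ r)) (fun i => (⟨lam, c, m, s, κ⟩ : LD n).lamP θ (sp i))
      (fun l i => (⟨lam, c, m, s, κ⟩ : LD n).xP θ l (sp i)) ((⟨lam, c, m, s, κ⟩ : LD n).wt θ lab)
      (d := N * (s / 4)) (a := 2 * ((k + 1) * (n + 2) * s)) (fun σ => ?_) fun i => ?_
    · unfold LD.X LD.H
      nlinarith
    · have h2 := (le_abs_self _).trans (sum_sg_le (fun r => θ.β (lab r)) (fun r => hθ.2.2 _) σ)
      have h3 : 0 ≤ κ * ∑ j, (⟨lam, c, m, s, κ⟩ : LD n).dev lab j σ ^ 2 := by positivity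
      simp only [LD.wt, add_mul, sum_add_distrib]
      linarith
    · have h2 := lamP_close ⟨lam, c, m, s, κ⟩ hs hθ (sp i)
      have h3 : ∑ l ∈ Icc 1 k, |(⟨lam, c, m, s, κ⟩ : LD n).xP θ l (sp i) - (0 : ℕ → Fin N → ℝ) l i| *
          |(⟨lam, c, m, s, κ⟩ : LD n).xP θ l (sp i)| ≤ k * ((n + 2) * s) := by
        refine (sum_le_card_nsmul _ _ ((n + 2) * s) fun l hl => ?_).trans_eq (by simp)
        have h4 := xP_mem ⟨lam, c, m, s, κ⟩ hs hθ hl (sp i)
        simp only [Pi.zero_apply, sub_zero] at h4 ⊢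
        rw [abs_of_nonneg (by linarith)]
        nlinarith
      simp only at h2
      nlinarith
  have up2 : (mLev ex h (unif _)).X0 (Hm (fun i => lam (sp i)) 0
      fun σ => ∑ r, c (lab r) * sg (σ r)) ≤ (Λ + Γ) * N := by
    have h1 := X0_Hm_sub_le' ex h (unif _) 0 0 0 (fun i => lam (sp i)) 0
      (fun σ => ∑ r, c (lab r) * sg (σ r)) (d := N * Γ) (a := Λ) (fun σ => ?_) fun i => ?_
    · have h2 : (Hm 0 0 0 : Cfg (k + 2) (Om N) → ℝ) = fun _ => 0 := by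
        funext ω
        simp [Hm]
      rw [h2, Lev.X0_const] at h1
      linarith
    · simpa using (le_abs_self _).trans (sum_sg_le (fun r => c (lab r)) (fun r => hΓ _) σ)
    · simp only [Pi.zero_apply, sub_zero, abs_zero, mul_zero, sum_const_zero, add_zero]
      linarith [hΛ (sp i), abs_nonneg (lam (sp i))]
  have up : ∀ κ, 0 ≤ κ → (⟨lam, c, m, s, κ⟩ : LD n).X ex h lab sp θ ≤ (Λ + Γ + 3) * N :=
    fun κ hκ => by nlinarith [up1 κ hκ]
  have low : -((Λ + Γ + 3) * N + 4 * κ * (n + 1)) ≤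
      (⟨lam, c, m, s, κ⟩ : LD n).X ex h lab sp θ := by
    obtain ⟨σ₀, hσ₀⟩ := exists_conf ⟨lam, c, m, s, κ⟩ hm lab
    have h1 := X0_Hm_amp ex h (unif _) (fun i => (⟨lam, c, m, s, κ⟩ : LD n).lamP θ (sp i))
      (fun l i => (⟨lam, c, m, s, κ⟩ : LD n).xP θ l (sp i)) ((⟨lam, c, m, s, κ⟩ : LD n).wt θ lab)
      fun l hl i => le_trans (by positivity) (xP_mem ⟨lam, c, m, s, κ⟩ hs hθ hl (sp i)).1
    have h2 := X0_Hm_sub_le' ex h (unif _) (fun i => (⟨lam, c, m, s, κ⟩ : LD n).lamP θ (sp i)) 0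
      ((⟨lam, c, m, s, κ⟩ : LD n).wt θ lab) 0 0 ((⟨lam, c, m, s, κ⟩ : LD n).wt θ lab)
      (d := 0) (a := Λ + 1) (fun σ => by simp) fun i => by
        have h3 := abs_le.1 (lamP_close ⟨lam, c, m, s, κ⟩ hs hθ (sp i))
        have h4 := abs_le.1 (hΛ (sp i))
        have h5 : |(⟨lam, c, m, s, κ⟩ : LD n).lamP θ (sp i)| ≤ Λ + 1 := by
          simp only at h3
          exact abs_le.2 ⟨by linarith, by linarith⟩
        simp only [Pi.zero_apply, zero_sub, abs_neg, abs_zero, mul_zero, sum_const_zero, add_zero]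
        linarith
    have h3 := X0_Hm_zero_ge ex h ((⟨lam, c, m, s, κ⟩ : LD n).wt θ lab) σ₀
    have h4 := (abs_le.1 (sum_sg_le (fun r => c (lab r) + θ.β (lab r)) (a := Γ + 1)
      (fun r => (abs_add_le _ _).trans (add_le_add (hΓ _) ((hθ.2.2 _).trans (by linarith)))) σ₀)).1
    have h5 : ∑ j, (⟨lam, c, m, s, κ⟩ : LD n).dev lab j σ₀ ^ 2 ≤ (n + 1) * 4 := by
      refine (sum_le_card_nsmul _ _ 4 fun j _ => ?_).trans_eq (by simp)
      have := abs_le.1 (hσ₀ j)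
      nlinarith
    have h6 := mul_le_mul_of_nonneg_left h5 hκ
    unfold LD.X LD.H
    simp only [LD.wt] at h3
    linarith
  have hC : 0 ≤ (Λ + Γ + 3) * N := by positivity
  refine ⟨by linarith, by linarith [up κ hκ], up1 κ hκ, fun r => ?_⟩
  have hH := lin_H ex h ⟨lam, c, m, s, κ⟩ lab sp θ
  have hdev : ∀ j, (mLev ex h (unif _)).Nice fun ω =>
      (⟨lam, c, m, s, κ⟩ : LD n).dev lab j (spn ω) := fun j => (lin_spn ex h _ _).nice
  have h1 : (mLev ex h (unif _)).E0 ((⟨lam, c, m, s, κ⟩ : LD n).H lab sp θ)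
      (fun ω => (⟨lam, c, m, s, κ⟩ : LD n).dev lab (lab r) (spn ω)) = (blk lab (lab r)).card *
        ((mLev ex h (unif _)).E0 ((⟨lam, c, m, s, κ⟩ : LD n).H lab sp θ) (Sg r) - m (lab r)) := by
    have h2 : (fun ω : Cfg (k + 2) (Om N) => (⟨lam, c, m, s, κ⟩ : LD n).dev lab (lab r) (spn ω)) =
        fun ω => 1 * (∑ r' ∈ blk lab (lab r), Sg r' ω) + -((blk lab (lab r)).card * m (lab r)) := by
      funext ω
      simp only [LD.dev, mag, Sg, one_mul, sub_eq_add_neg]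
    have h3 : ∀ r' ∈ blk lab (lab r), (mLev ex h (unif _)).E 0
        ((⟨lam, c, m, s, κ⟩ : LD n).H lab sp θ) (Sg r') (mLev ex h (unif _)).pt =
        (mLev ex h (unif _)).E0 ((⟨lam, c, m, s, κ⟩ : LD n).H lab sp θ) (Sg r) := fun r' hr' => by
      have h4 := (LD.site_perm_L ⟨lam, c, m, s, κ⟩ ex h lab sp (Equiv.swap r r') θ r).1
      have h5 : lab ∘ Equiv.swap r r' = lab :=
        funext fun z => Equiv.apply_swap_eq_self (mem_filter.1 hr').2.symm z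
      rw [h5, Equiv.swap_apply_left] at h4
      exact h4.symm
    rw [h2, E0_affine hH (Lev.Nice.sum _ fun r' _ => nice_Sg ex h _ r'), Lev.E0,
      Lev.E_sum hH _ fun r' _ => nice_Sg ex h _ r', sum_congr rfl h3, sum_const, nsmul_eq_mul]
    ring
  have h2 := Lev.sq_E_le hH (hdev (lab r)) 0 (mLev ex h (unif _)).pt
  have h3 := Lev.E_mono hH ((hdev (lab r)).pow 2) (Lev.Nice.sum univ fun j _ => (hdev j).pow 2)
    (fun ω => single_le_sum (f := fun j => (⟨lam, c, m, s, κ⟩ : LD n).dev lab j (spn ω) ^ 2)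
      (fun _ _ => sq_nonneg _) (mem_univ _)) 0 (mLev ex h (unif _)).pt
  have h4 := Lev.X0_add_ge hH (lin_spn ex h (unif _) fun σ =>
    κ * ∑ j, (⟨lam, c, m, s, κ⟩ : LD n).dev lab j σ ^ 2)
  have h5 : (fun ω : Cfg (k + 2) (Om N) => (⟨lam, c, m, s, κ⟩ : LD n).H lab sp θ ω +
      κ * ∑ j, (⟨lam, c, m, s, κ⟩ : LD n).dev lab j (spn ω) ^ 2) =
      (⟨lam, c, m, s, 0⟩ : LD n).H lab sp θ := by
    funext ω
    simp only [LD.H, Hm, LD.wt, LD.lamP, LD.xP, LD.dev]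
    ring
  rw [h5, Lev.E0, Lev.E_const_mul] at h4
  have h6 := up 0 le_rfl
  have h7 := mul_le_mul_of_nonneg_left (h2.trans h3) hκ
  rw [← h1, Lev.E0]
  unfold LD.X at h6 low
  linarith

/-- The overlaps of a neighbouring system are close to the reference values of the centre. -/
theorem pin_near {n : ℕ} {lam : Fin (n + 1) → ℝ} (hlam : Monotone lam) {η : ℝ} (hη0 : 0 < η)
    (hη1 : η < 1) {ε : ℝ} (hε : 0 < ε) : ∃ k₀ : ℕ, ∀ k, k₀ ≤ k → ∃ s₀ : ℝ, 0 < s₀ ∧ ∀ s, 0 < s → s ≤ s₀ →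
      ∀ B D ε' : ℝ, 0 < ε' → ∃ M₀ : ℝ, ∀ (M A : ℝ) (d : LD n) (N N' : ℕ) (ex : Expo (k + 2))
        (h : Haar N) (h' : Haar N') (lab sp : Fin N → Fin (n + 1)) (lab' sp' : Fin N' → Fin (n + 1))
        (θ : LP n), M₀ ≤ M → d.lam = lam → d.s = s → IsGrid ex η → ε' * M ≤ N → ε' * M ≤ N' →
        |(N : ℝ) - N'| ≤ B → Bal sp B → Bal sp' B → θ.box k (s / 4) →
        d.Touch ex h lab sp θ A D M → d.Touch ex h' lab' sp' θ A D M →
        Pin (mLev ex h' (unif _)) k (d.H lab' sp' θ) sp' Y lam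
          (sq lam ex k ((mLev ex h (unif _)).qq (d.H lab sp θ) univ Y)) ≤ ε := by
  obtain ⟨ε₀, hε₀, hεe⟩ : ∃ ε₀ : ℝ, 0 < ε₀ ∧ 4 * (n + 1) * ε₀ = ε :=
    ⟨ε / (4 * (n + 1)), by positivity, by field_simp⟩
  have hp : 0 < ε₀ * η ^ 2 / 4 := by positivity
  have hp' : (ε₀ * η ^ 2 / 4) ^ 2 ≤ ε₀ ^ 2 := by
    refine pow_le_pow_left₀ hp.le ?_ 2
    have : η ^ 2 ≤ 1 := pow_le_one₀ hη0.le hη1.le
    nlinarith
  obtain ⟨k₀, hk₀⟩ := pin_model hlam hη0 hη1 hp
  refine ⟨k₀, fun k hk => ?_⟩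
  obtain ⟨ε₂, hε₂, h₂⟩ := hk₀ k hk 1
  refine ⟨min ε₂ 1 / (n + 2), by positivity, fun s hs hs₀ B D ε' hε' => ?_⟩
  rw [le_div_iff₀ (by positivity), le_min_iff, mul_comm] at hs₀
  obtain ⟨ε₁, hε₁, h₁⟩ := h₂ (3 * s / 4) (by positivity)
  obtain ⟨ρ, hρ, hρe⟩ : ∃ ρ : ℝ, 0 < ρ ∧ 8 * (k + 1) * ρ = ε₀ :=
    ⟨ε₀ / (8 * (k + 1)), by positivity, by field_simp⟩
  have hn : (0 : ℝ) < n + 1 := by positivity
  obtain ⟨M₀, hM₀⟩ := Filter.eventually_atTop.1 ((Filter.eventually_ge_atTop (1 : ℝ)).and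
    ((ev_sqrt 0 D (c := (ε₁ * ε') ^ 2) (by positivity)).and
    ((ev_sqrt 0 B (c := ε₁ * ε') (by positivity)).and
    ((ev_sqrt 0 B (c := ε' / (2 * (n + 1))) (by positivity)).and
    ((ev_sqrt (2 * D) (3 * B * (2 * (n + 1))) (c := ρ * (ε' / (2 * (n + 1)))) (by positivity)).and
    (ev_sqrt (2 * D / (3 * s / 4)) (3 * B * (2 * (n + 1))) (c := ρ * (ε' / (2 * (n + 1))))
      (by positivity)))))))
  refine ⟨M₀, fun M A d N N' ex h h' lab sp lab' sp' θ hM hdl hds hex hN hN' hNN hb hb' hθ hT hT' =>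
    ?_⟩
  obtain ⟨e1, e2, e3, e4, e5, e6⟩ := hM₀ M hM
  subst hdl hds
  simp only [zero_mul, zero_add] at e2 e3 e4
  have hB : 0 ≤ B := (abs_nonneg _).trans hNN
  have hγ : 0 < ε' / (2 * (n + 1)) * M := by positivity
  -- facts valid for both systems
  have both : ∀ (N : ℕ) (h : Haar N) (lab sp : Fin N → Fin (n + 1)), ε' * M ≤ N → Bal sp B →
      d.Touch ex h lab sp θ A D M → ∀ a,
      (ε' / (2 * (n + 1)) * M ≤ (blk sp a).card ∧
        (mLev ex h (unif _)).dd (d.H lab sp θ) (blk sp a) Y ≤ 2 * (n + 1)) ∧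
      ∑ e ∈ Icc 1 k, ex.Δ e * (mLev ex h (unif _)).VV (d.H lab sp θ) (blk sp a) Y e
          ((mLev ex h (unif _)).qq (d.H lab sp θ) (blk sp a) Y e) ≤ ε₀ ^ 2 ∧
      (mLev ex h (unif _)).Var (d.H lab sp θ) (Lev.rr (blk sp a) Y) ≤ ε₀ ^ 2 ∧
      |(mLev ex h (unif _)).dd (d.H lab sp θ) (blk sp a) Y - qh d.lam ex (sq d.lam ex k
          ((mLev ex h (unif _)).qq (d.H lab sp θ) univ Y)) a (k + 1)| ≤ ε₀ / 2 ∧
      ∑ e ∈ Icc 1 k, ex.Δ e * |(mLev ex h (unif _)).qq (d.H lab sp θ) (blk sp a) Y e -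
          qh d.lam ex (sq d.lam ex k ((mLev ex h (unif _)).qq (d.H lab sp θ) univ Y)) a e| ≤
        ε₀ / 2 := by
    intro N h lab sp hN hb hT a
    have hN0 : (0 : ℝ) < N := lt_of_lt_of_le (by positivity) hN
    have hV : D * M ≤ (ε₁ * N) ^ 2 := by
      calc D * M ≤ (ε₁ * ε') ^ 2 * M * M := mul_le_mul_of_nonneg_right e2 (by linarith)
        _ = (ε₁ * (ε' * M)) ^ 2 := by ring
        _ ≤ _ := by gcongr
    have hc : (N : ℝ) / (2 * (n + 1)) ≤ (blk sp a).card := by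
      have h3 := (abs_le.1 (hb a)).1
      have h4 : ε' / (2 * (n + 1)) * M ≤ N / (2 * (n + 1)) := by
        rw [div_mul_eq_mul_div]
        gcongr
      have h5 : (N : ℝ) / (n + 1) = 2 * (N / (2 * (n + 1))) := by field_simp
      linarith
    obtain ⟨p1, p2, p3⟩ := h₁ N h (unif _) ex sp 1 (d.lamP θ) (d.xP θ) (d.wt θ lab) (d.H lab sp θ)
      rfl hex (by exact_mod_cast hN0) (fun a => by
        have h3 : ((blk sp a).card : ℝ) / N - 1 / (n + 1) =
            ((blk sp a).card - N / (n + 1)) / N := by field_simp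
        rw [h3, abs_div, abs_of_pos hN0, div_le_iff₀ hN0]
        refine (hb a).trans (e3.trans ?_)
        rw [mul_assoc]
        gcongr) zero_le_one le_rfl
      (fun a => by rw [one_mul]; exact (lamP_close d hs hθ a).trans hs₀.1)
      (fun l hl a => ⟨(xP_mem d hs hθ hl a).1, (xP_mem d hs hθ hl a).2.trans hs₀.2,
        fun b => (xP_close d hs hθ hl a b).trans hs₀.1⟩)
      (fun l hl a => (hT.fld l hl a).2.trans hV) (fun a => (hT.eig a).2.trans hV) a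
    obtain ⟨p4, p5⟩ := ref_close d.lam ex hex.2.1 a _ _ _ _ (fun e => by rw [one_mul, one_mul])
      (p3 _ fun e => rfl)
    refine ⟨⟨le_trans ?_ hc, ?_⟩, p1.trans hp', p2.trans hp', p4.trans ?_, p5.trans_eq ?_⟩
    · rw [div_mul_eq_mul_div]
      gcongr
    · refine Lev.dd_le (lin_H ex h d lab sp θ) (fun i _ => nice_Y ex h _ i) fun ω =>
        (rr_Y_le _ ω).trans ?_
      rw [div_le_iff₀ (lt_of_lt_of_le (by positivity) hc), mul_comm, ← div_le_iff₀ (by positivity)]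
      exact hc
    · have : ε₀ * η ^ 2 / 4 / η ^ 2 = ε₀ / 4 := by field_simp
      linarith
    · field_simp
      norm_num
  have hcc : ∀ a, |((blk sp a).card : ℝ) - (blk sp' a).card| ≤ 3 * B := fun a => by
    have h3 := abs_le.1 (hb a)
    have h4 := abs_le.1 (hb' a)
    have h5 : |(N : ℝ) / (n + 1) - N' / (n + 1)| ≤ B := by
      rw [← sub_div, abs_div, abs_of_pos hn]
      exact (div_le_self (abs_nonneg _) (by linarith [Nat.cast_nonneg (α := ℝ) n])).trans hNN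
    have h6 := abs_le.1 h5
    exact abs_le.2 ⟨by linarith, by linarith⟩
  have hH := lin_H ex h d lab sp θ
  have hdd : ∀ a, |(mLev ex h (unif _)).dd (d.H lab sp θ) (blk sp a) Y -
      (mLev ex h' (unif _)).dd (d.H lab' sp' θ) (blk sp' a) Y| ≤ ρ := fun a => by
    have h3 := abs_le.1 (hT.eig a).1
    have h4 := abs_le.1 (hT'.eig a).1
    unfold LD.H at h3 h4
    rw [E0_Y_sq] at h3 h4
    refine persist (R := 2 * D * √M) (abs_le.2 ⟨?_, ?_⟩) (hcc a)
      ((abs_of_nonneg Lev.dd_nonneg).trans_le (both N h lab sp hN hb hT a).1.2) hγ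
      (both N' h' lab' sp' hN' hb' hT' a).1.1 hρ.le (by linarith) <;> unfold LD.H <;> linarith
  have htl : ∀ a, ∀ l ∈ Icc 1 k,
      |tail ex k ((mLev ex h (unif _)).qq (d.H lab sp θ) (blk sp a) Y) l -
        tail ex k ((mLev ex h' (unif _)).qq (d.H lab' sp' θ) (blk sp' a) Y) l| ≤ 2 * ρ :=
    fun a l hl => by
      have h3 := abs_le.1 (hT.fld l hl a).1
      have h4 := abs_le.1 (hT'.fld l hl a).1
      have hx := (xP_mem d hs hθ hl a).1
      unfold LD.H at h3 h4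
      rw [E0_field_Hm ex _ _ _ _ _ hl _ (a := d.xP θ l a)
        fun i hi => by rw [(mem_filter.1 hi).2]] at h3 h4
      have h5 := persist (R := 2 * D / (3 * d.s / 4) * √M)
        (a' := (mLev ex h' (unif _)).dd (d.H lab' sp' θ) (blk sp' a) Y -
          tail ex k ((mLev ex h' (unif _)).qq (d.H lab' sp' θ) (blk sp' a) Y) l) ?_ (hcc a)
        ((tail_mem ex _ Lev.dd_nonneg (fun e => ⟨Lev.qq_nonneg e, Lev.qq_le_dd hH
          (fun i _ => nice_Y ex h _ i) e⟩) (mem_Icc.1 hl).1).trans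
          (both N h lab sp hN hb hT a).1.2) hγ
        (both N' h' lab' sp' hN' hb' hT' a).1.1 hρ.le (by linarith)
      · have h6 := abs_le.1 (hdd a)
        have h7 := abs_le.1 h5
        exact abs_le.2 ⟨by linarith, by linarith⟩
      · rw [div_mul_eq_mul_div, le_div_iff₀ (by positivity)]
        refine (mul_le_mul_of_nonneg_left hx (abs_nonneg _)).trans ?_
        rw [← abs_of_nonneg (show 0 ≤ d.xP θ l a by linarith), ← abs_mul, abs_le]
        unfold LD.H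
        constructor <;> linarith
  rw [← hεe]
  refine pin_le (lin_H ex h' d lab' sp' θ) sp' (nice_Y ex h' _) _ _ hε₀.le
    (fun a => (both N' h' lab' sp' hN' hb' hT' a).2.1)
    (fun a => (both N' h' lab' sp' hN' hb' hT' a).2.2.1) (fun a => ?_) fun a => ?_
  · have h3 := abs_le.1 (both N h lab sp hN hb hT a).2.2.2.1
    have h4 := abs_le.1 (hdd a)
    have h5 : ρ ≤ ε₀ / 2 := by nlinarith [Nat.cast_nonneg (α := ℝ) k]
    change |_ - qh d.lam ex _ a (k + 1)| ≤ _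
    exact abs_le.2 ⟨by linarith, by linarith⟩
  · have h3 := (both N h lab sp hN hb hT a).2.2.2.2
    have h4 := sum_Δ_sub_le ex _ _ (by linarith) (htl a)
    refine le_trans (sum_le_sum fun e _ => ?_) ((sum_add_distrib.trans_le (add_le_add h3 h4)).trans
      (by nlinarith))
    rw [← mul_add]
    refine mul_le_mul_of_nonneg_left ?_ (ex.Δ_nonneg e)
    exact (abs_sub_le _ _ _).trans_eq ((add_comm _ _).trans (congrArg _ (abs_sub_comm _ _)))

end Crest.Agent.R164
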