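import Crest.Agent.R164.LowA
import Crest.Agent.R164.CavMain

/-! # Row 164: lower bound, the cavity theorem for the perturbed systems -/

set_option autoImplicit false

namespace Crest.Agent.R164

open MeasureTheory ProbabilityTheory Real Finset Crest.ProbabilityR.InvariantGlass

namespace LB

lemma abs_sg' (b : Bool) : |sg b| = 1 := by cases b <;> simp [sg]

lemma mag_eq {N : ℕ} {A : Type} [DecidableEq A] (lab : Fin N → A) (j : A) (σ : Fin N → Bool) :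
    mag lab j σ = ∑ r, if lab r = j then sg (σ r) else 0 := by
  simp only [mag, blk, Finset.sum_filter]

lemma card_le {N : ℕ} {A : Type} [DecidableEq A] (lab : Fin N → A) (j : A) :
    ((blk lab j).card : ℝ) ≤ N := by
  have : (blk lab j).card ≤ N := by simpa using Finset.card_le_univ (blk lab j)
  exact_mod_cast this

lemma abs_mag_le {N : ℕ} {A : Type} [DecidableEq A] (lab : Fin N → A) (j : A) (σ : Fin N → Bool) :
    |mag lab j σ| ≤ N := by
  refine (Finset.abs_sum_le_sum_abs _ _).trans ?_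
  simp only [abs_sg', Finset.sum_const, nsmul_eq_mul, mul_one]
  exact card_le lab j

variable {n : ℕ} (d : LD n)

lemma abs_dev_le (hm : ∀ j, |d.m j| ≤ 1) {N : ℕ} (lab : Fin N → Fin (n + 1)) (j : Fin (n + 1))
    (σ : Fin N → Bool) : |d.dev lab j σ| ≤ 2 * N := by
  have h1 := abs_mag_le lab j σ
  have h2 : |((blk lab j).card : ℝ) * d.m j| ≤ N := by
    rw [abs_mul, Nat.abs_cast]
    exact (mul_le_of_le_one_right (Nat.cast_nonneg _) (hm j)).trans (card_le lab j)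
  unfold LD.dev
  exact (abs_sub _ _).trans (by linarith)

lemma dev_cons {N : ℕ} (lab' : Fin (N + 1) → Fin (n + 1)) (j : Fin (n + 1)) (e : Bool)
    (σ : Fin N → Bool) : d.dev lab' j (Fin.cons e σ) =
      d.dev (fun r => lab' r.succ) j σ + if lab' 0 = j then sg e - d.m j else 0 := by
  unfold LD.dev
  rw [mag_eq, mag_eq, Fin.sum_univ_succ, card_blk_succ]
  simp only [Fin.cons_zero, Fin.cons_succ]
  split_ifs <;> push_cast <;> ring

lemma wt_cons (θ : LP n) {N : ℕ} (lab' : Fin (N + 1) → Fin (n + 1)) (e : Bool) (σ : Fin N → Bool) :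
    d.wt θ lab' (Fin.cons e σ) - d.wt θ (fun r => lab' r.succ) σ =
      (d.c (lab' 0) + θ.β (lab' 0)) * sg e -
        d.κ * (2 * d.dev (fun r => lab' r.succ) (lab' 0) σ * (sg e - d.m (lab' 0)) +
          (sg e - d.m (lab' 0)) ^ 2) := by
  have h : ∑ j, d.dev lab' j (Fin.cons e σ) ^ 2 = ∑ j, d.dev (fun r => lab' r.succ) j σ ^ 2 +
      (2 * d.dev (fun r => lab' r.succ) (lab' 0) σ * (sg e - d.m (lab' 0)) +
          (sg e - d.m (lab' 0)) ^ 2) := by
    have : ∀ j, d.dev lab' j (Fin.cons e σ) ^ 2 = d.dev (fun r => lab' r.succ) j σ ^ 2 +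
        if lab' 0 = j then 2 * d.dev (fun r => lab' r.succ) j σ * (sg e - d.m j) +
          (sg e - d.m j) ^ 2 else 0 := fun j => by
      rw [dev_cons]
      split_ifs <;> ring
    simp only [this, Finset.sum_add_distrib, Finset.sum_ite_eq, Finset.mem_univ, if_true]
  unfold LD.wt
  rw [h, Fin.sum_univ_succ]
  simp only [Fin.cons_zero, Fin.cons_succ]
  ring

lemma wt_perm (θ : LP n) {N : ℕ} (lab : Fin N → Fin (n + 1)) (p : Equiv.Perm (Fin N))
    (hp : ∀ r, lab (p r) = lab r) (σ : Fin N → Bool) : d.wt θ lab (σ ∘ p) = d.wt θ lab σ := by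
  have h1 : ∑ r, (d.c (lab r) + θ.β (lab r)) * sg ((σ ∘ p) r) =
      ∑ r, (d.c (lab r) + θ.β (lab r)) * sg (σ r) := by
    rw [← Equiv.sum_comp p fun r => (d.c (lab r) + θ.β (lab r)) * sg (σ r)]
    simp only [hp, Function.comp]
  have h2 : ∀ j, d.dev lab j (σ ∘ p) = d.dev lab j σ := fun j => by
    unfold LD.dev
    rw [mag_eq, mag_eq, ← Equiv.sum_comp p fun r => if lab r = j then sg (σ r) else 0]
    simp only [hp, Function.comp]
  unfold LD.wt
  simp only [h1, h2]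

lemma abs_sg_sub (hm : ∀ j, |d.m j| ≤ 1) (e : Bool) (j : Fin (n + 1)) : |sg e - d.m j| ≤ 2 :=
  (abs_sub _ _).trans (by linarith [abs_sg' e, hm j])

lemma exists_idx {N : ℕ} {sp : Fin N → Fin (n + 1)} {B : ℝ} (hB : Bal sp B)
    (hN : (n + 1) * (|B| + 1) ≤ N) (a : Fin (n + 1)) : ∃ i, sp i = a := by
  have h1 := (abs_le.1 (hB a)).1
  have h2 : |B| + 1 ≤ (N : ℝ) / (n + 1) := by
    rw [le_div_iff₀ (by positivity)]; linarith
  have h3 : (0 : ℝ) < (blk sp a).card := by linarith [le_abs_self B]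
  obtain ⟨i, hi⟩ := Finset.card_pos.1 (by exact_mod_cast h3 : 0 < (blk sp a).card)
  exact ⟨i, (Finset.mem_filter.1 hi).2⟩

/-- The cavity data of the perturbed system. -/
noncomputable def cav (θ : LP n) {N : ℕ} (lab' sp' : Fin (N + 1) → Fin (n + 1))
    (hi : ∀ a, ∃ i : Fin N, sp' i.succ = a) (b c₀ y₀ : ℝ) (y : ℕ → ℝ) : Cav n N where
  sp' := sp'
  idx a := (hi a).choose
  hidx a := (hi a).choose_spec
  lam' := d.lamP θ
  x := d.xP θ
  w' := d.wt θ lab'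
  w := d.wt θ fun r => lab' r.succ
  b := b
  c₀ := c₀
  y₀ := y₀
  y := y

lemma mono_aux {f g : Fin (n + 1) → ℝ} (hf : Monotone f) {s : ℝ} (hs : 0 < s)
    (hg : ∀ a, |g a| ≤ s / 4) : Monotone fun a : Fin (n + 1) => f a + s * (a : ℕ) + g a := by
  intro a a' h
  rcases h.eq_or_lt with rfl | h
  · exact le_rfl
  have h1 : ((a : ℕ) : ℝ) + 1 ≤ (a' : ℕ) := by exact_mod_cast Fin.lt_def.1 h
  have h2 := hf h.le
  have h3 := abs_le.1 (hg a)
  have h4 := abs_le.1 (hg a')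
  have h5 := mul_le_mul_of_nonneg_left h1 hs.le
  dsimp only
  linarith [h3.1, h3.2, h4.1, h4.2]

lemma cav_ok (θ : LP n) {k N : ℕ} (lab' sp' : Fin (N + 1) → Fin (n + 1))
    (hi : ∀ a, ∃ i : Fin N, sp' i.succ = a) {b c₀ y₀ : ℝ} {y : ℕ → ℝ} {B B' σ₀ : ℝ}
    (hlam : Monotone d.lam) (hs : 0 < d.s) (hσ : (k + 1) * (n + 2) * d.s ≤ σ₀)
    (hθ : θ.box k (d.s / 4)) (hB : Bal (fun i : Fin N => sp' i.succ) B) (hBB : B ≤ B')
    (hb : |b| ≤ B') (hc : |c₀| ≤ B') (hk : ∀ e σ, |(cav d θ lab' sp' hi b c₀ y₀ y).kT e σ| ≤ B')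
    (hy0 : y 0 = 0) (hy : |y₀| + ∑ l ∈ Icc 1 k, |y l| ≤ 1) :
    (cav d θ lab' sp' hi b c₀ y₀ y).Ok k d.lam B' σ₀ := by
  have hk0 : (0 : ℝ) ≤ k := Nat.cast_nonneg k
  have hn0 : (0 : ℝ) ≤ n := Nat.cast_nonneg n
  have han : ∀ a : Fin (n + 1), ((a : ℕ) : ℝ) ≤ n := fun a => by exact_mod_cast a.is_le
  have hks : 0 ≤ k * ((n + 2) * d.s) := by positivity
  refine ⟨mono_aux hlam hs hθ.2.1, fun a => ?_, fun l hl => ⟨?_, ?_⟩, fun a => ?_,
    fun a => (hB a).trans hBB, hb, hc, hk, hy0, hy⟩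
  · have h1 := abs_le.1 (hθ.2.1 a)
    have h2 := mul_le_mul_of_nonneg_left (han a) hs.le
    have h3 : 0 ≤ d.s * (a : ℕ) := by positivity
    have h4 : 0 ≤ d.s * n := by positivity
    simp only [cav, LD.lamP]
    rw [abs_le]
    constructor <;> nlinarith [h1.1, h1.2]
  · have h1 := abs_le.1 (hθ.1 l hl 0)
    simp only [cav, LD.xP, Fin.val_zero, Nat.cast_zero, add_zero, mul_one]
    linarith [h1.1]
  · have := mono_aux (f := fun _ : Fin (n + 1) => d.s) monotone_const hs (hθ.1 l hl)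
    intro a a' h
    have h1 := this h
    simp only [cav, LD.xP] at h1 ⊢
    linarith
  · have h1 : ∀ l ∈ Icc 1 k, d.xP θ l a ≤ (n + 2) * d.s := fun l hl => by
      have h2 := abs_le.1 (hθ.1 l hl a)
      have h3 := mul_le_mul_of_nonneg_left (han a) hs.le
      unfold LD.xP
      nlinarith [h2.2]
    have h2 := Finset.sum_le_card_nsmul _ _ _ h1
    simp only [Nat.card_Icc, add_tsub_cancel_right, nsmul_eq_mul] at h2
    refine h2.trans ?_
    have : 0 ≤ (n + 2) * d.s := by positivity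
    nlinarith

lemma abs_field_le (θ : LP n) {k : ℕ} (hs : 0 < d.s) (hσ : (k + 1) * (n + 2) * d.s ≤ 1)
    (hθ : θ.box k (d.s / 4)) (j : Fin (n + 1)) : |d.c j + θ.β j| ≤ ∑ a, |d.c a| + 1 := by
  have h1 : |d.c j| ≤ ∑ a, |d.c a| :=
    single_le_sum (f := fun a => |d.c a|) (fun _ _ => abs_nonneg _) (mem_univ j)
  have h2 := hθ.2.2 j
  have hk0 : (0 : ℝ) ≤ k := Nat.cast_nonneg k
  have hn0 : (0 : ℝ) ≤ n := Nat.cast_nonneg n
  have h3 : 0 ≤ k * ((n + 2) * d.s) := by positivity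
  have h4 : 0 ≤ n * d.s := by positivity
  exact (abs_add_le _ _).trans (by nlinarith)

lemma Pin_nonneg {K : ℕ} {Ω : Type} [MeasurableSpace Ω] (L : Lev K Ω) (k : ℕ) (H : Cfg K Ω → ℝ)
    {N : ℕ} (sp : Fin N → Fin (n + 1)) (y : Fin N → Cfg K Ω → ℝ) (lam : Fin (n + 1) → ℝ)
    (s : ℕ → ℝ) : 0 ≤ Pin L k H sp y lam s :=
  sum_nonneg fun _ _ => add_nonneg (sqrt_nonneg _)
    (sum_nonneg fun e _ => mul_nonneg (L.Δ_nonneg e) (sqrt_nonneg _))

lemma E0_abs_le {K : ℕ} {Ω : Type} [MeasurableSpace Ω] {L : Lev K Ω} {H f : Cfg K Ω → ℝ}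
    (hH : L.Lin H) (hf : L.Nice f) {V : ℝ} (hV : L.Var H f ≤ V) :
    L.E0 H (fun ω => |f ω - L.E0 H f|) ≤ √V := by
  have h1 := Lev.sq_E_le hH (hf.sub (Lev.nice_const (L.E0 H f))).abs 0 L.pt
  simp only [sq_abs] at h1
  have h2 := Lev.E0_sub_sq hH hf (L.E0 H f)
  rw [sub_self, zero_pow two_ne_zero, add_zero] at h2
  exact Real.le_sqrt_of_sq_le (h1.trans (h2.le.trans hV))

end LB

theorem near_L {n : ℕ} {lam : Fin (n + 1) → ℝ} (hlam : Monotone lam) (c m : Fin (n + 1) → ℝ)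
    (hm : ∀ j, |m j| ≤ 1) (κ₀ B : ℝ) : ∃ C : ℝ, 0 ≤ C ∧ ∀ (d : LD n) (k N : ℕ) (ex : Expo (k + 2))
      (h : Haar N) (h' : Haar (N + 1)) (lab' sp' : Fin (N + 1) → Fin (n + 1)) (θ : LP n),
      d.lam = lam → d.c = c → d.m = m → 0 < d.s → (k + 1) * (n + 2) * d.s ≤ 1 → 0 ≤ d.κ →
      d.κ * N ≤ κ₀ → C ≤ N → Bal (fun i : Fin N => sp' i.succ) B → θ.box k (d.s / 4) →
      |d.X ex h' lab' sp' θ - d.X ex h (fun r => lab' r.succ) (fun i => sp' i.succ) θ| ≤ C := by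
  obtain ⟨C, hC⟩ := crude lam (max B (∑ a, |c a| + 1 + 12 * |κ₀|))
  refine ⟨max (max C 1) ((n + 1) * (|B| + 1)), le_max_of_le_left (le_max_of_le_right zero_le_one),
    ?_⟩
  rintro d k N ex h h' lab' sp' θ rfl rfl rfl hs hσ hκ hκN hN hB hθ
  have hN1 : (1 : ℝ) ≤ N := (le_max_right _ _).trans ((le_max_left _ _).trans hN)
  have hi := LB.exists_idx hB ((le_max_right _ _).trans hN)
  have hc0 : 0 ≤ ∑ a, |d.c a| := sum_nonneg fun _ _ => abs_nonneg _
  have hB0 : |(0 : ℝ)| ≤ max B (∑ a, |d.c a| + 1 + 12 * |κ₀|) :=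
    le_max_of_le_right (by rw [abs_zero]; positivity)
  have hok := LB.cav_ok d θ lab' sp' hi (b := 0) (c₀ := 0) (y₀ := 0) (y := 0) hlam hs hσ hθ hB
    (le_max_left B (∑ a, |d.c a| + 1 + 12 * |κ₀|)) hB0 hB0 (fun e σ => ?_) rfl (by simp)
  · exact (hC N k ex _ h h' hok ((le_max_left _ _).trans ((le_max_left _ _).trans hN))).trans
      ((le_max_left _ _).trans (le_max_left _ _))
  refine le_max_of_le_right ?_
  simp only [Cav.kT, LB.cav, zero_mul, sub_zero]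
  rw [LB.wt_cons]
  have h1 := LB.abs_field_le d θ hs hσ hθ (lab' 0)
  have h2 := LB.abs_dev_le d hm (fun r => lab' r.succ) (lab' 0) σ
  have h3 := LB.abs_sg_sub d hm e (lab' 0)
  have h4 : |2 * d.dev (fun r => lab' r.succ) (lab' 0) σ * (sg e - d.m (lab' 0)) +
      (sg e - d.m (lab' 0)) ^ 2| ≤ 12 * (N : ℝ) := by
    refine (abs_add_le _ _).trans ?_
    rw [abs_mul, abs_mul, abs_pow, abs_two]
    have h5 := mul_le_mul h2 h3 (abs_nonneg _) (by positivity)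
    have h6 := pow_le_pow_left₀ (abs_nonneg _) h3 2
    nlinarith
  refine (abs_sub _ _).trans ?_
  rw [abs_mul, abs_mul, LB.abs_sg', abs_of_nonneg hκ]
  have h5 := mul_le_mul_of_nonneg_left h4 hκ
  nlinarith [le_abs_self κ₀]

theorem cavity_L {n : ℕ} (hn : 1 ≤ n) {lam : Fin (n + 1) → ℝ} (hlam : Monotone lam)
    (c m : Fin (n + 1) → ℝ) (hm : ∀ j, |m j| ≤ 1) {η : ℝ} (hη : 0 < η) (κ₀ B : ℝ) {ε : ℝ} (hε : 0 < ε) :
    ∃ C σ₀ : ℝ, 0 ≤ C ∧ 0 < σ₀ ∧ ∀ (d : LD n) (k N : ℕ) (ex : Expo (k + 2)) (h : Haar N)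
      (h' : Haar (N + 1)) (lab' sp' : Fin (N + 1) → Fin (n + 1)) (θ : LP n) (s : ℕ → ℝ) (V y₀ : ℝ)
      (y : ℕ → ℝ), d.lam = lam → d.c = c → d.m = m → 0 < d.s → (k + 1) * (n + 2) * d.s ≤ σ₀ →
      0 ≤ d.κ → d.κ * N ≤ κ₀ → C ≤ N → ex.ζ 0 = η → ex.ζ 1 = η → IsSeq n k s →
      Bal (fun i : Fin N => sp' i.succ) B → Bal lab' B → θ.box k (d.s / 4) →
      (mLev ex h (unif _)).Var (d.H (fun r => lab' r.succ) (fun i => sp' i.succ) θ)
        (fun ω => d.dev (fun r => lab' r.succ) (lab' 0) (spn ω)) ≤ V →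
      y 0 = 0 → |y₀| + ∑ l ∈ Icc 1 k, |y l| ≤ 1 →
      |(eLev ex h').X0 (He (fun i => d.lamP θ (sp' i)) (fun l i => d.xP θ l (sp' i)) (d.wt θ lab') y₀ y) -
          d.X ex h (fun r => lab' r.succ) (fun i => sp' i.succ) θ -
          (2 * d.κ * d.Tbar ex h lab' sp' θ * m (lab' 0) + cst lam ex k s (sp' 0) +
            oX ex (d.bL ex h lab' sp' θ + y₀) (fun l => √(vv lam ex s l)) y)| ≤
        ε + C * (Pin (mLev ex h (unif _)) k (d.H (fun r => lab' r.succ) (fun i => sp' i.succ) θ)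
          (fun i => sp' i.succ) Y lam s + 1 / √N + d.κ * (√V + 1)) := by
  obtain ⟨C, σ₀, hC0, hσ0, hσ1, hC⟩ :=
    cavity hn hlam hη (max B (∑ a, |c a| + 1 + 20 * |κ₀|)) hε
  refine ⟨max (max (4 * C) 1) ((n + 1) * (|B| + 1)), σ₀,
    le_max_of_le_left (le_max_of_le_right zero_le_one), hσ0, ?_⟩
  rintro d k N ex h h' lab' sp' θ s V y₀ y rfl rfl rfl hs hσ hκ hκN hN h0 h1 hseq hB hB' hθ hV hy0 hy
  have hN1 : (1 : ℝ) ≤ N := (le_max_right _ _).trans ((le_max_left _ _).trans hN)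
  have hCN : 4 * C ≤ max (max (4 * C) 1) ((n + 1) * (|B| + 1)) :=
    (le_max_left _ _).trans (le_max_left _ _)
  have hi := LB.exists_idx hB ((le_max_right _ _).trans hN)
  have hc0 : 0 ≤ ∑ a, |d.c a| := sum_nonneg fun _ _ => abs_nonneg _
  have hH : (mLev ex h (unif _)).Lin (d.H (fun r => lab' r.succ) (fun i => sp' i.succ) θ) :=
    lin_Hm ex h _ _ _ _
  have hdev := lin_spn ex h (unif _) (d.dev (fun r => lab' r.succ) (lab' 0))
  have hT : |d.Tbar ex h lab' sp' θ| ≤ 2 * N :=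
    Lev.abs_E_le_const hH hdev.1 (fun ω => LB.abs_dev_le d hm _ _ _) 0 _
  have hκT : |2 * d.κ * d.Tbar ex h lab' sp' θ| ≤ 4 * |κ₀| := by
    rw [abs_mul, abs_mul, abs_two, abs_of_nonneg hκ]
    have := mul_le_mul_of_nonneg_left hT hκ
    nlinarith [le_abs_self κ₀]
  have hkT : ∀ e σ, |(LB.cav d θ lab' sp' hi (d.bL ex h lab' sp' θ)
      (2 * d.κ * d.Tbar ex h lab' sp' θ * d.m (lab' 0)) y₀ y).kT e σ| ≤
      4 * d.κ * |d.dev (fun r => lab' r.succ) (lab' 0) σ - d.Tbar ex h lab' sp' θ| + 4 * d.κ := by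
    intro e σ
    have e1 : (LB.cav d θ lab' sp' hi (d.bL ex h lab' sp' θ)
        (2 * d.κ * d.Tbar ex h lab' sp' θ * d.m (lab' 0)) y₀ y).kT e σ =
        -(d.κ * (2 * (d.dev (fun r => lab' r.succ) (lab' 0) σ - d.Tbar ex h lab' sp' θ) *
          (sg e - d.m (lab' 0)) + (sg e - d.m (lab' 0)) ^ 2)) := by
      simp only [Cav.kT, LB.cav]
      rw [LB.wt_cons, LD.bL]
      ring
    have h3 := LB.abs_sg_sub d hm e (lab' 0)
    have h4 : |2 * (d.dev (fun r => lab' r.succ) (lab' 0) σ - d.Tbar ex h lab' sp' θ) *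
          (sg e - d.m (lab' 0)) + (sg e - d.m (lab' 0)) ^ 2| ≤
        4 * |d.dev (fun r => lab' r.succ) (lab' 0) σ - d.Tbar ex h lab' sp' θ| + 4 := by
      refine (abs_add_le _ _).trans ?_
      rw [abs_mul, abs_mul, abs_pow, abs_two]
      have h5 := mul_le_mul_of_nonneg_left h3
        (abs_nonneg (d.dev (fun r => lab' r.succ) (lab' 0) σ - d.Tbar ex h lab' sp' θ))
      have h6 := pow_le_pow_left₀ (abs_nonneg _) h3 2
      nlinarith
    rw [e1, abs_neg, abs_mul, abs_of_nonneg hκ]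
    have h5 := mul_le_mul_of_nonneg_left h4 hκ
    linarith
  have hok := LB.cav_ok d θ lab' sp' hi (b := d.bL ex h lab' sp' θ)
    (c₀ := 2 * d.κ * d.Tbar ex h lab' sp' θ * d.m (lab' 0)) (y₀ := y₀) (y := y) hlam hs hσ hθ hB
    (le_max_left B (∑ a, |d.c a| + 1 + 20 * |κ₀|)) (le_max_of_le_right ?_) (le_max_of_le_right ?_)
    (fun e σ => le_max_of_le_right ((hkT e σ).trans ?_)) hy0 hy
  rotate_left
  · have h2 := LB.abs_field_le d θ hs (hσ.trans hσ1) hθ (lab' 0)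
    exact (abs_sub _ _).trans (by linarith [abs_nonneg κ₀])
  · rw [abs_mul]
    exact (mul_le_of_le_one_right (abs_nonneg _) (hm _)).trans (by linarith [abs_nonneg κ₀])
  · have h2 := LB.abs_dev_le d hm (fun r => lab' r.succ) (lab' 0) σ
    have h3 : |d.dev (fun r => lab' r.succ) (lab' 0) σ - d.Tbar ex h lab' sp' θ| ≤ 4 * N :=
      (abs_sub _ _).trans (by linarith)
    have h4 := mul_le_mul_of_nonneg_left h3 hκ
    have h5 := mul_le_mul_of_nonneg_left hN1 hκ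
    nlinarith [le_abs_self κ₀]
  have hI : (N : ℝ) / (n + 1) - max B (∑ a, |d.c a| + 1 + 20 * |κ₀|) ≤ (blk lab' (lab' 0)).card := by
    have h2 := (abs_le.1 (hB' (lab' 0))).1
    have h3 : (N : ℝ) / (n + 1) ≤ ((N + 1 : ℕ) : ℝ) / (n + 1) :=
      div_le_div_of_nonneg_right (by push_cast; linarith) (by positivity)
    linarith [le_max_left B (∑ a, |d.c a| + 1 + 20 * |κ₀|)]
  have key := hC N k ex _ h h' s (blk lab' (lab' 0)) (fun σ =>
    4 * d.κ * |d.dev (fun r => lab' r.succ) (lab' 0) σ - d.Tbar ex h lab' sp' θ| + 4 * d.κ)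
    h0 h1 hseq hok (by linarith [hCN.trans hN]) (by simp [blk]) hI (fun r hr σ => ?_) hkT
  swap
  · refine LB.wt_perm d θ lab' (Equiv.swap 0 r) (fun r' => ?_) σ
    have hr' : lab' r = lab' 0 := (Finset.mem_filter.1 hr).2
    rw [Equiv.swap_apply_def]
    split_ifs with e1 e2
    · rw [e1, hr']
    · rw [e2, hr']
    · rfl
  refine key.trans (add_le_add_right ?_ ε)
  have hE : (mLev ex h (unif _)).E0 (d.H (fun r => lab' r.succ) (fun i => sp' i.succ) θ) (fun ω =>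
      4 * d.κ * |d.dev (fun r => lab' r.succ) (lab' 0) (spn ω) - d.Tbar ex h lab' sp' θ| + 4 * d.κ) ≤
      4 * (d.κ * (√V + 1)) := by
    have h2 := LB.E0_abs_le hH hdev.nice hV
    have h3 := mul_le_mul_of_nonneg_left h2 hκ
    unfold Lev.E0 at h3 ⊢
    rw [Lev.E_add hH (((hdev.nice.sub (Lev.nice_const _)).abs).const_mul _) (Lev.nice_const _),
      Lev.E_const_mul, Lev.E_const hH]
    unfold LD.Tbar Lev.E0
    linarith
  have hP := LB.Pin_nonneg (mLev ex h (unif _)) k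
    (d.H (fun r => lab' r.succ) (fun i => sp' i.succ) θ) (fun i => sp' i.succ) Y d.lam s
  have hs0 : 0 ≤ 1 / √(N : ℝ) := by positivity
  have hκV : 0 ≤ d.κ * (√V + 1) := by positivity
  calc _ ≤ C * (Pin (mLev ex h (unif _)) k (d.H (fun r => lab' r.succ) (fun i => sp' i.succ) θ)
          (fun i => sp' i.succ) Y d.lam s + 1 / √N + 4 * (d.κ * (√V + 1))) :=
        mul_le_mul_of_nonneg_left (add_le_add_right hE _) hC0
    _ ≤ 4 * C * (Pin (mLev ex h (unif _)) k (d.H (fun r => lab' r.succ) (fun i => sp' i.succ) θ)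
          (fun i => sp' i.succ) Y d.lam s + 1 / √N + d.κ * (√V + 1)) := by
        nlinarith [mul_nonneg hC0 hP, mul_nonneg hC0 hs0]
    _ ≤ _ := mul_le_mul_of_nonneg_right hCN (by positivity)

/-- Self-consistency from the two-sided cavity estimate with test fields. -/
theorem self_cons {k N : ℕ} (ex : Expo (k + 2)) (h : Haar (N + 1)) (lam : Fin (N + 1) → ℝ)
    (x : ℕ → Fin (N + 1) → ℝ) (w : (Fin (N + 1) → Bool) → ℝ) {A b e t : ℝ} (xo : ℕ → ℝ) (ht0 : 0 < t)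
    (ht1 : t ≤ 1)
    (hcav : ∀ (y₀ : ℝ) (y : ℕ → ℝ), y 0 = 0 → |y₀| + ∑ l ∈ Icc 1 k, |y l| ≤ 1 →
      |(eLev ex h).X0 (He lam x w y₀ y) - A - oX ex (b + y₀) xo y| ≤ e) :
    |(mLev ex h (unif _)).E0 (Hm lam x w) (Sg 0) - oM ex b xo| ≤ 2 * e / t + 200 * t ∧
      ∀ l ∈ Icc 1 k, |tail ex k (qs (mLev ex h (unif _)) (Hm lam x w) 0) l - oT ex b xo l| ≤
        4 * e / t ^ 2 + 400 * t := by
  have ht : |t| ≤ 1 := by rwa [abs_of_pos ht0]
  have h0 := hcav 0 0 rfl (by simp)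
  rw [X0_He_zero, add_zero] at h0
  have h0' := abs_le.1 h0
  refine ⟨?_, fun l hl => ?_⟩
  · have h1 := abs_le.1 (hcav t 0 rfl (by simpa using ht))
    have h2 := abs_le.1 (X0_He_lin_exp ex h lam x w ht)
    have h3 := abs_le.1 (oX_lin_exp ex b xo ht)
    have h4 : t * |(mLev ex h (unif _)).E0 (Hm lam x w) (Sg 0) - oM ex b xo| ≤
        2 * e + 200 * t ^ 2 := by
      rw [← abs_of_pos ht0, ← abs_mul, abs_of_pos ht0, abs_le]
      constructor <;> linarith [h0'.1, h0'.2, h1.1, h1.2, h2.1, h2.2, h3.1, h3.2]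
    have h5 : 2 * e / t + 200 * t = (2 * e + 200 * t ^ 2) / t := by field_simp
    rw [h5, le_div_iff₀ ht0]
    linarith
  · have hl' := mem_Icc.1 hl
    have hs : ∑ l' ∈ Icc 1 k, |(Pi.single l t : ℕ → ℝ) l'| = |t| := by
      rw [Finset.sum_eq_single l (fun l' _ hne => by simp [hne]) (fun hn => absurd hl hn)]
      simp
    have h1 := hcav 0 (Pi.single l t) (Pi.single_eq_of_ne (by omega) _) (by simpa [hs] using ht)
    rw [add_zero] at h1
    have h1' := abs_le.1 h1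
    have h2 := abs_le.1 (X0_He_coin_exp ex h lam x w hl ht)
    have h3 := abs_le.1 (oX_coin_exp ex b xo (show l < k + 1 by omega) ht)
    rw [abs_of_pos ht0] at h2 h3
    have ht2 : 0 < t ^ 2 := by positivity
    have h4 : t ^ 2 * |tail ex k (qs (mLev ex h (unif _)) (Hm lam x w) 0) l - oT ex b xo l| ≤
        4 * e + 400 * t ^ 3 := by
      rw [← abs_of_pos ht2, ← abs_mul, abs_le]
      constructor <;> linarith [h0'.1, h0'.2, h1'.1, h1'.2, h2.1, h2.2, h3.1, h3.2]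
    have h5 : 4 * e / t ^ 2 + 400 * t = (4 * e + 400 * t ^ 3) / t ^ 2 := by field_simp
    rw [h5, le_div_iff₀ ht2]
    linarith

end Crest.Agent.R164
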