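import Crest.Agent.R164.Spec

/-! # Row 164: integrals along piecewise linear deficits -/

set_option autoImplicit false

namespace Crest.Agent.R164

open MeasureTheory Real Finset Crest.ProbabilityR.InvariantGlass

variable {n : ℕ} {lam : Fin (n + 1) → ℝ}

namespace SpecIntAux

lemma integrableOn_of_mem {g : ℝ → ℝ} (hg : Measurable g) {a b : ℝ}
    (h : ∀ r ∈ Set.Ioo (0 : ℝ) 1, a ≤ g r ∧ g r ≤ b) : IntegrableOn g (Set.Ioo 0 1) :=
  Measure.integrableOn_of_bounded (M := |a| + |b|) measure_Ioo_lt_top.ne hg.aestronglyMeasurable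
    ((ae_restrict_iff' measurableSet_Ioo).2 (Filter.Eventually.of_forall fun r hr => by
      have h0 := h r hr
      have h1 := neg_abs_le a
      have h2 := le_abs_self b
      have h3 := abs_nonneg a
      have h4 := abs_nonneg b
      rw [Real.norm_eq_abs, abs_le]
      constructor <;> linarith [h0.1, h0.2]))

lemma integrableOn_comp {f g : ℝ → ℝ} (hf : Monotone f) (hg : Measurable g) {a b : ℝ}
    (h : ∀ r ∈ Set.Ioo (0 : ℝ) 1, a ≤ g r ∧ g r ≤ b) :
    IntegrableOn (fun r => f (g r)) (Set.Ioo 0 1) :=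
  integrableOn_of_mem (hf.measurable.comp hg) fun r hr => ⟨hf (h r hr).1, hf (h r hr).2⟩

lemma int_const (c : ℝ) : ∫ _ in Set.Ioo (0 : ℝ) 1, c = c := by simp

lemma int_le_add {f g : ℝ → ℝ} (hf : IntegrableOn f (Set.Ioo 0 1))
    (hg : IntegrableOn g (Set.Ioo 0 1)) {c : ℝ} (h : ∀ r ∈ Set.Ioo (0 : ℝ) 1, f r ≤ g r + c) :
    ∫ r in Set.Ioo (0 : ℝ) 1, f r ≤ (∫ r in Set.Ioo (0 : ℝ) 1, g r) + c := by
  have hc : IntegrableOn (fun _ : ℝ => c) (Set.Ioo (0 : ℝ) 1) :=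
    integrableOn_const measure_Ioo_lt_top.ne
  have h1 := setIntegral_mono_on hf (hg.add hc) measurableSet_Ioo h
  exact h1.trans_eq ((integral_add hg hc).trans (by rw [int_const]))

lemma Ioo_eq {f : ℝ → ℝ} {a b : ℝ} (h : a ≤ b) : ∫ r in Set.Ioo a b, f r = ∫ r in a..b, f r := by
  rw [intervalIntegral.integral_of_le h, integral_Ioc_eq_integral_Ioo]

lemma ii_of {f : ℝ → ℝ} (hf : IntegrableOn f (Set.Ioo 0 1)) {a b : ℝ} (h0 : 0 ≤ a) (h : a ≤ b)
    (h1 : b ≤ 1) : IntervalIntegrable f volume a b :=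
  (intervalIntegrable_iff_integrableOn_Ioo_of_le h).2 (hf.mono_set (Set.Ioo_subset_Ioo h0 h1))

variable {p p' : ℝ → ℝ}

lemma int_path (hp : IsTrialPath p) : IntegrableOn p (Set.Ioo 0 1) :=
  integrableOn_of_mem hp.1 hp.2.2

lemma int_pos (hp : IsTrialPath p) (r : ℝ) :
    IntegrableOn (fun s => max (p s - r) 0) (Set.Ioo 0 1) :=
  integrableOn_comp (f := fun x => max (x - r) 0)
    (fun _ _ h => max_le_max (sub_le_sub_right h r) le_rfl) hp.1 hp.2.2

lemma pos_le_add (hp : IsTrialPath p) (hp' : IsTrialPath p') {r r' ε : ℝ}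
    (h : ∀ s ∈ Set.Ioo (0 : ℝ) 1, |p s - r - (p' s - r')| ≤ ε) :
    |(∫ s in Set.Ioo (0 : ℝ) 1, max (p s - r) 0) - ∫ s in Set.Ioo (0 : ℝ) 1, max (p' s - r') 0| ≤
      ε := by
  have k := fun s hs => abs_le.1 ((abs_max_sub_max_le_abs _ _ 0).trans (h s hs))
  have h1 := int_le_add (int_pos hp r) (int_pos hp' r') (c := ε) fun s hs => by linarith [k s hs]
  have h2 := int_le_add (int_pos hp' r') (int_pos hp r) (c := ε) fun s hs => by linarith [k s hs]
  rw [abs_le]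
  constructor <;> linarith

lemma int_sub (hp : IsTrialPath p) (r : ℝ) {z : ℝ} (h0 : 0 ≤ z) (h1 : z ≤ 1) :
    ∫ s in z..1, (p s - r) = (∫ s in Set.Ioo z 1, p s) - (1 - z) * r := by
  rw [intervalIntegral.integral_sub (ii_of (int_path hp) h0 h1 le_rfl) intervalIntegrable_const,
    intervalIntegral.integral_const, Ioo_eq h1, smul_eq_mul]

lemma le_pos (hp : IsTrialPath p) (r : ℝ) {z : ℝ} (h0 : 0 ≤ z) (h1 : z ≤ 1) :
    (∫ s in Set.Ioo z 1, p s) - (1 - z) * r ≤ ∫ s in Set.Ioo (0 : ℝ) 1, max (p s - r) 0 := by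
  have i1 := ii_of (int_pos hp r) le_rfl h0 h1
  have i2 := ii_of (int_pos hp r) h0 h1 le_rfl
  rw [← int_sub hp r h0 h1, Ioo_eq zero_le_one,
    ← intervalIntegral.integral_add_adjacent_intervals i1 i2]
  exact le_add_of_nonneg_of_le (intervalIntegral.integral_nonneg h0 fun _ _ => le_max_right _ _)
    (intervalIntegral.integral_mono_on h1
      ((ii_of (int_path hp) h0 h1 le_rfl).sub intervalIntegrable_const) i2 fun _ _ => le_max_left _ _)

lemma pos_le (hp : IsTrialPath p) {r t z : ℝ} (hr : 0 ≤ r) (h0 : 0 ≤ t) (htz : t ≤ z) (h1 : z ≤ 1)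
    (ht : ∀ s ∈ Set.Ioo 0 t, p s ≤ r) (hz : ∀ s ∈ Set.Ioo z 1, r ≤ p s) :
    ∫ s in Set.Ioo (0 : ℝ) 1, max (p s - r) 0 ≤
      (∫ s in Set.Ioo z 1, p s) - (1 - z) * r + (z - t) := by
  have i1 := ii_of (int_pos hp r) le_rfl h0 (htz.trans h1)
  have i2 := ii_of (int_pos hp r) h0 htz h1
  have i3 := ii_of (int_pos hp r) (h0.trans htz) h1 le_rfl
  have a1 := intervalIntegral.integral_mono_on_of_le_Ioo h0 i1 (intervalIntegrable_const (c := 0))
    fun s hs => max_le (sub_nonpos.2 (ht s hs)) le_rfl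
  have a2 := intervalIntegral.integral_mono_on_of_le_Ioo htz i2 (intervalIntegrable_const (c := 1))
    fun s hs => max_le (by linarith [(hp.2.2 s ⟨h0.trans_lt hs.1, hs.2.trans_le h1⟩).2]) zero_le_one
  have a3 := intervalIntegral.integral_mono_on_of_le_Ioo h1 i3
    ((ii_of (int_path hp) (h0.trans htz) h1 le_rfl).sub (intervalIntegrable_const (c := r)))
    fun s hs => max_le le_rfl (sub_nonneg.2 (hz s hs))
  rw [intervalIntegral.integral_const, smul_eq_mul] at a1 a2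
  rw [← int_sub hp r (h0.trans htz) h1, Ioo_eq zero_le_one,
    ← intervalIntegral.integral_add_adjacent_intervals (i1.trans i2) i3,
    ← intervalIntegral.integral_add_adjacent_intervals i1 i2]
  linarith

lemma sum_Icc_eq (g : ℕ → ℝ) (k : ℕ) : ∑ e ∈ Icc 1 k, g e = ∑ e ∈ range k, g (e + 1) := by
  rw [range_eq_Ico, sum_Ico_add' g 0 k 1, zero_add, Finset.Ico_add_one_right_eq_Icc]

lemma int_lin {f F : ℝ → ℝ} (hf : Monotone f) (hF : ∀ x, 0 < x → HasDerivAt F (f x) x)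
    (hc : ContinuousOn F (Set.Ici 0)) {a c u v : ℝ} (hc0 : 0 < c) (huv : u ≤ v)
    (hv : 0 ≤ a - c * v) : IntervalIntegrable (fun r => f (a - c * r)) volume u v ∧
      ∫ r in u..v, f (a - c * r) = (F (a - c * u) - F (a - c * v)) / c := by
  have hi : IntervalIntegrable (fun r => f (a - c * r)) volume u v :=
    Antitone.intervalIntegrable fun x y h => hf (by nlinarith)
  refine ⟨hi, ?_⟩
  rw [intervalIntegral.integral_eq_sub_of_hasDerivAt_of_le (f := fun r => -F (a - c * r) / c) huv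
    ?_ (fun r hr => ?_) hi]
  · ring
  · refine (ContinuousOn.neg (hc.comp (f := fun r => a - c * r) (by fun_prop)
      fun r hr => ?_)).div_const c
    show 0 ≤ a - c * r
    nlinarith [hr.2]
  · have h1 : HasDerivAt (fun r => a - c * r) (-(c * 1)) r :=
      ((hasDerivAt_id' r).const_mul c).const_sub a
    have h2 := ((hF _ (show 0 < a - c * r by nlinarith [hr.2])).comp r h1).neg.div_const c
    refine h2.congr_deriv ?_
    field_simp

variable {k : ℕ} (ex : Expo (k + 2)) {q : ℕ → ℝ}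

lemma zeta_top : ex.ζ (k + 1) = 1 := ex.top _ le_rfl

lemma sum_Δ {e : ℕ} (he : e ≤ k + 1) : ∑ l ∈ Icc e k, ex.Δ l = 1 - ex.ζ e := by
  rw [← Finset.Ico_add_one_right_eq_Icc, ← zeta_top ex]
  exact sum_Ico_sub ex.ζ he

lemma tail_top : tail ex k q (k + 1) = 0 := by
  show ∑ e ∈ Icc (k + 1) k, _ = _
  rw [Icc_eq_empty (by omega), sum_empty]

lemma sum_lin {e : ℕ} (he : e ≤ k + 1) (r : ℝ) :
    1 - r - ∑ l ∈ Icc e k, ex.Δ l * (q l - r) = 1 - tail ex k q e - ex.ζ e * r := by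
  rw [sum_congr rfl fun l _ => mul_sub _ _ _, sum_sub_distrib, ← sum_mul, sum_Δ ex he]
  show _ = 1 - ∑ l ∈ Icc e k, ex.Δ l * q l - _
  ring

lemma DF_le {e : ℕ} (h1 : 1 ≤ e) (he : e ≤ k + 1) (r : ℝ) :
    DF ex k q r ≤ 1 - tail ex k q e - ex.ζ e * r := by
  rw [← sum_lin ex he]
  refine sub_le_sub_left ((sum_le_sum fun l _ => mul_le_mul_of_nonneg_left (le_max_left _ 0)
    (ex.Δ_nonneg l)).trans (sum_le_sum_of_subset_of_nonneg (Icc_subset_Icc_left h1)
      fun l _ _ => mul_nonneg (ex.Δ_nonneg l) (le_max_right _ _))) _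

lemma DF_eq {e : ℕ} (h1 : 1 ≤ e) (he : e ≤ k + 1) {r : ℝ} (hl : ∀ l, 1 ≤ l → l < e → q l ≤ r)
    (hu : ∀ l, e ≤ l → l ≤ k → r ≤ q l) : DF ex k q r = 1 - tail ex k q e - ex.ζ e * r := by
  rw [← sum_lin ex he]
  refine congrArg (1 - r - ·) ?_
  rw [← sum_subset (Icc_subset_Icc_left h1) fun l hl1 hl2 => ?_]
  · exact sum_congr rfl fun l h => by
      rw [max_eq_left (sub_nonneg.2 (hu l (mem_Icc.1 h).1 (mem_Icc.1 h).2))]
  · rw [mem_Icc] at hl1 hl2
    rw [max_eq_right (sub_nonpos.2 (hl l hl1.1 (by omega))), mul_zero]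

lemma DF_continuous : Continuous (DF ex k q) :=
  (continuous_const.sub continuous_id).sub (continuous_finsetSum _ fun _ _ =>
    continuous_const.mul ((continuous_const.sub continuous_id).max continuous_const))

lemma q_mono (hq : IsOv k q) {e l : ℕ} (h1 : 1 ≤ e) (hel : e ≤ l) (hl : l ≤ k) : q e ≤ q l := by
  induction l, hel using Nat.le_induction with
  | base => exact le_rfl
  | succ l hel ih => exact (ih (by omega)).trans (hq.2 l (by omega) (by omega))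

lemma exists_piece (hq : IsOv k q) (r : ℝ) :
    ∃ e, 1 ≤ e ∧ e ≤ k + 1 ∧ DF ex k q r = 1 - tail ex k q e - ex.ζ e * r := by
  classical
  have h0 : 1 ≤ k + 1 ∧ ∀ l, k + 1 ≤ l → l ≤ k → r ≤ q l := ⟨by omega, fun l _ _ => by omega⟩
  have hex : ∃ e, 1 ≤ e ∧ ∀ l, e ≤ l → l ≤ k → r ≤ q l := ⟨_, h0⟩
  have h1 := Nat.find_spec hex
  have h2 := Nat.find_min' hex h0
  refine ⟨_, h1.1, h2, DF_eq ex h1.1 h2 (fun l hl hl' => ?_) h1.2⟩
  by_contra hc
  exact Nat.find_min hex hl' ⟨hl, fun l' h3 h4 => (not_le.1 hc).le.trans (q_mono hq hl h3 h4)⟩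

/-- the break points -/
def QQ (k : ℕ) (q : ℕ → ℝ) (e : ℕ) : ℝ := if e = 0 then 0 else if e ≤ k then q e else 1

lemma QQ_zero : QQ k q 0 = 0 := rfl

lemma QQ_mid {e : ℕ} (h1 : 1 ≤ e) (he : e ≤ k) : QQ k q e = q e := by
  unfold QQ; rw [if_neg (by omega), if_pos he]

lemma QQ_top : QQ k q (k + 1) = 1 := by
  unfold QQ; rw [if_neg (by omega), if_neg (by omega)]

lemma QQ_ite {e : ℕ} (he : e ≤ k) : (if e + 1 = 1 then 0 else q e) = QQ k q e := by
  rcases Nat.eq_zero_or_pos e with rfl | h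
  · rfl
  · rw [if_neg (by omega), QQ_mid h he]

lemma QQ_step (hq : IsOv k q) {e : ℕ} (he : e ≤ k) : QQ k q e ≤ QQ k q (e + 1) := by
  rcases Nat.eq_zero_or_pos e with rfl | h
  · rcases he.eq_or_lt with rfl | h
    · rw [QQ_top, QQ_zero]; exact zero_le_one
    · rw [QQ_zero, QQ_mid le_rfl h]; exact (hq.1 _ (mem_Icc.2 ⟨le_rfl, h⟩)).1
  · rw [QQ_mid h he]
    rcases he.eq_or_lt with rfl | h'
    · rw [QQ_top]; exact (hq.1 _ (mem_Icc.2 ⟨h, le_rfl⟩)).2
    · rw [QQ_mid (by omega) h']; exact hq.2 e h h'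

lemma Dev_left {e : ℕ} (he : e ≤ k) :
    Dev ex k 1 q e = 1 - tail ex k q (e + 1) - ex.ζ (e + 1) * QQ k q e := by
  have h := Dev_eq_tail ex 1 q (e := e + 1) (by omega) (by omega)
  rw [Nat.add_sub_cancel] at h
  rw [h, ← QQ_ite he]
  split_ifs <;> ring

lemma Dev_diff {e : ℕ} (he : e < k) :
    Dev ex k 1 q e - Dev ex k 1 q (e + 1) = ex.ζ (e + 1) * (QQ k q (e + 1) - QQ k q e) := by
  have h := Dev_step ex 1 q (e := e + 1) (by omega) (by omega)
  rw [Nat.add_sub_cancel] at h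
  rw [h, QQ_ite he.le, QQ_mid (by omega) he]

lemma Dev_top : Dev ex k 1 q k = 1 - QQ k q k := by
  rw [Dev_left ex le_rfl, tail_top, zeta_top]; ring

lemma deriv_le {F f : ℝ → ℝ} (hm : Monotone f) (hd : ∀ x, 0 < x → HasDerivAt F (f x) x) {x y : ℝ}
    (hx : 0 < x) (hxy : x < y) : f x * (y - x) ≤ F y - F x := by
  obtain ⟨c, hc, h⟩ := exists_hasDerivAt_eq_slope F f hxy
    (fun z hz => (hd z (hx.trans_le hz.1)).continuousAt.continuousWithinAt)
    fun z hz => hd z (hx.trans hz.1)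
  rw [← le_div_iff₀ (sub_pos.2 hxy), ← h]
  exact hm hc.1.le

lemma riemann_pt (h : Monotone lam) {rho' : ℝ → ℝ} (hm : Monotone rho')
    (hd : ∀ x, 0 < x → HasDerivAt (rho lam) (rho' x) x) {C : ℝ} (hC0 : 0 ≤ C)
    (hC : ∀ D D', 0 ≤ D → D ≤ D' → Rf lam D' - Rf lam D ≤ C * (D' - D)) {M : ℕ} (hM : 0 < M)
    {D : ℝ} (h0 : 0 ≤ D) (h1 : D ≤ 1) :
    (∑ i ∈ Icc 1 M, rho' ((i : ℝ) / M * (D + 1 / M))) / M ≤
      Rf lam D + (3 * C + (lam (Fin.last n) - lam 0)) / M := by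
  have hM1 : (1 : ℝ) ≤ M := Nat.one_le_cast.2 hM
  have hM0 : (0 : ℝ) < M := by linarith
  obtain ⟨δ, hδ⟩ : ∃ δ : ℝ, δ = (D + 1 / M) / M := ⟨_, rfl⟩
  have hδ0 : 0 < δ := by rw [hδ]; positivity
  have e : ∀ i : ℕ, (i : ℝ) / M * (D + 1 / M) = i * δ := fun i => by rw [hδ]; ring
  have a1 : (∑ i ∈ Icc 1 M, rho' (i * δ)) * δ ≤
      rho lam (((M + 1 : ℕ) : ℝ) * δ) - rho lam (((1 : ℕ) : ℝ) * δ) := by
    rw [← sum_Ico_sub (fun i : ℕ => rho lam (i * δ)) (Nat.le_add_left 1 M),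
      Finset.Ico_add_one_right_eq_Icc, sum_mul]
    refine sum_le_sum fun i hi => ?_
    have hi0 : (0 : ℝ) < i := Nat.cast_pos.2 (mem_Icc.1 hi).1
    refine le_trans (le_of_eq ?_) (deriv_le hm hd (mul_pos hi0 hδ0)
      (mul_lt_mul_of_pos_right (Nat.cast_lt.2 (Nat.lt_succ_self i)) hδ0))
    rw [Nat.cast_succ]; ring
  rw [Nat.cast_succ, Nat.cast_one, one_mul] at a1
  have a2 : (∑ i ∈ Icc 1 M, rho' (i * δ)) * δ ≤
      ((M + 1) * Rf lam ((M + 1) * δ) - Rf lam δ) * δ :=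
    a1.trans_eq (by
      show (M + 1) * δ * Rf lam ((M + 1) * δ) - δ * Rf lam δ = _
      ring)
  have a3 := le_of_mul_le_mul_right a2 hδ0
  have b1 : lam 0 ≤ Rf lam δ := (Rs_bounds h (sOf_nonneg δ)).1
  have b2 : Rf lam ((M + 1) * δ) ≤ lam (Fin.last n) := (Rs_bounds h (sOf_nonneg _)).2
  have c0 : M * δ = D + 1 / M := by rw [hδ]; field_simp
  have c1 : M * (1 / M : ℝ) = 1 := by field_simp
  have c2 : (1 / M : ℝ) ≤ 1 := by rw [div_le_one hM0]; exact hM1
  have c3 : (0 : ℝ) < 1 / M := by positivity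
  have b3 := mul_le_mul_of_nonneg_left (hC D ((M + 1) * δ) h0 (by linarith)) hM0.le
  have b4 : C * (M * ((M + 1) * δ - D)) ≤ C * 3 :=
    mul_le_mul_of_nonneg_left (by nlinarith) hC0
  rw [sum_congr rfl fun i _ => congrArg rho' (e i), div_le_iff₀ hM0, add_mul,
    div_mul_cancel₀ _ hM0.ne']
  linarith

end SpecIntAux

open SpecIntAux

lemma deficit_mem {p : ℝ → ℝ} (hp : IsTrialPath p) {r : ℝ} (hr : r ∈ Set.Icc (0 : ℝ) 1) :
    0 ≤ deficit p r ∧ deficit p r ≤ 1 := by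
  have h1 := setIntegral_mono_on (int_pos hp r)
    (integrableOn_const (C := 1 - r) measure_Ioo_lt_top.ne) measurableSet_Ioo
    fun s hs => max_le (sub_le_sub_right (hp.2.2 s hs).2 r) (sub_nonneg.2 hr.2)
  have h2 : 0 ≤ ∫ s in Set.Ioo (0 : ℝ) 1, max (p s - r) 0 :=
    integral_nonneg fun _ => le_max_right _ _
  rw [int_const] at h1
  exact ⟨sub_nonneg.2 h1, (sub_le_self _ h2).trans (sub_le_self _ hr.1)⟩

lemma deficit_continuous {p : ℝ → ℝ} (hp : IsTrialPath p) : Continuous (deficit p) :=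
  (continuous_const.sub continuous_id).sub
    (LipschitzWith.of_dist_le_mul (K := 1) (f := fun r => ∫ s in Set.Ioo (0 : ℝ) 1, max (p s - r) 0)
      fun r r' => pos_le_add hp hp fun s _ => by
        rw [NNReal.coe_one, one_mul, dist_comm, Real.dist_eq, sub_sub_sub_cancel_left]).continuous

lemma abs_deficit_sub_le {p p' : ℝ → ℝ} (hp : IsTrialPath p) (hp' : IsTrialPath p') {ε : ℝ}
    (h : ∀ s ∈ Set.Ioo (0 : ℝ) 1, |p s - p' s| ≤ ε) (r : ℝ) : |deficit p r - deficit p' r| ≤ ε := by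
  have k := pos_le_add hp hp' (r := r) (r' := r) (ε := ε) fun s hs => by
    rw [sub_sub_sub_cancel_right]; exact h s hs
  show |(1 - r - _) - (1 - r - _)| ≤ ε
  rwa [sub_sub_sub_cancel_left, abs_sub_comm]

lemma DF_mem {k : ℕ} (ex : Expo (k + 2)) {q : ℕ → ℝ} (hq : IsOv k q) {r : ℝ}
    (hr : r ∈ Set.Icc (0 : ℝ) 1) : 0 ≤ DF ex k q r ∧ DF ex k q r ≤ 1 := by
  constructor
  · refine sub_nonneg.2 ((sum_le_sum fun e he => mul_le_mul_of_nonneg_left
      (max_le (sub_le_sub_right (hq.1 e he).2 r) (sub_nonneg.2 hr.2)) (ex.Δ_nonneg e)).trans ?_)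
    rw [← sum_mul, sum_Δ ex (by omega)]
    exact mul_le_of_le_one_left (sub_nonneg.2 hr.2) (sub_le_self _ (ex.pos 1).le)
  · exact (sub_le_self _ (sum_nonneg fun e _ =>
      mul_nonneg (ex.Δ_nonneg e) (le_max_right _ _))).trans (sub_le_self _ hr.1)

/-- Change of variables on each linear piece of `DF`. -/
theorem integral_DF {k : ℕ} (ex : Expo (k + 2)) {q : ℕ → ℝ} (hq : IsOv k q) {f F : ℝ → ℝ}
    (hf : Monotone f) (hF : ∀ x, 0 < x → HasDerivAt F (f x) x) (hc : ContinuousOn F (Set.Ici 0)) :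
    ∫ r in Set.Ioo (0 : ℝ) 1, f (DF ex k q r) = F (Dev ex k 1 q k) - F 0 +
      ∑ e ∈ Icc 1 k, (F (Dev ex k 1 q (e - 1)) - F (Dev ex k 1 q e)) / ex.ζ e := by
  have hr : ∀ e < k, Dev ex k 1 q (e + 1) =
      1 - tail ex k q (e + 1) - ex.ζ (e + 1) * QQ k q (e + 1) := fun e he => by
    linarith [Dev_diff ex (q := q) he, Dev_left ex (q := q) he.le]
  have hr' : 0 = 1 - tail ex k q (k + 1) - ex.ζ (k + 1) * QQ k q (k + 1) := by
    rw [tail_top, zeta_top, QQ_top]; ring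
  have key : ∀ e ≤ k, IntervalIntegrable (fun r => f (DF ex k q r)) volume (QQ k q e)
      (QQ k q (e + 1)) ∧ ∫ r in QQ k q e..QQ k q (e + 1), f (DF ex k q r) =
      (F (1 - tail ex k q (e + 1) - ex.ζ (e + 1) * QQ k q e) -
        F (1 - tail ex k q (e + 1) - ex.ζ (e + 1) * QQ k q (e + 1))) / ex.ζ (e + 1) := by
    intro e he
    have h0 : 0 ≤ 1 - tail ex k q (e + 1) - ex.ζ (e + 1) * QQ k q (e + 1) := by
      rcases he.eq_or_lt with rfl | h
      · exact hr'.le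
      · rw [← hr e h]
        exact Dev_nonneg ex 1 q (fun l hl => (hq.1 l hl).2) zero_le_one h
    obtain ⟨i1, i2⟩ := int_lin hf hF hc (ex.pos (e + 1)) (QQ_step hq he) h0
    have e1 : Set.EqOn (fun r => f (1 - tail ex k q (e + 1) - ex.ζ (e + 1) * r))
        (fun r => f (DF ex k q r)) (Set.uIcc (QQ k q e) (QQ k q (e + 1))) := fun r hr => by
      rw [Set.uIcc_of_le (QQ_step hq he)] at hr
      refine congrArg f (DF_eq ex (by omega) (by omega) (fun l h1 h2 => le_trans ?_ hr.1)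
        fun l h1 h2 => hr.2.trans ?_).symm
      · rw [QQ_mid (by omega) he]; exact q_mono hq h1 (by omega) he
      · rw [QQ_mid (by omega) (by omega)]; exact q_mono hq (by omega) h1 h2
    exact ⟨i1.congr (e1.mono Set.uIoc_subset_uIcc), (intervalIntegral.integral_congr e1).symm.trans i2⟩
  have h := intervalIntegral.sum_integral_adjacent_intervals (a := QQ k q) (n := k + 1)
    fun e he => (key e (by omega)).1
  rw [QQ_zero, QQ_top, ← Ioo_eq zero_le_one] at h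
  rw [← h, sum_range_succ, (key k le_rfl).2, ← hr', ← Dev_left ex le_rfl, zeta_top, div_one,
    add_comm, sum_Icc_eq]
  refine congrArg _ (sum_congr rfl fun e he => ?_)
  have he' := mem_range.1 he
  rw [(key e he'.le).2, ← hr e he', ← Dev_left ex he'.le, Nat.add_sub_cancel]

/-- Larger tails give a smaller deficit (step path below). -/
lemma DF_le_deficit {k : ℕ} {ex : Expo (k + 2)} {η : ℝ} (hex : IsGrid ex η) (hk : 1 ≤ k) {q : ℕ → ℝ}
    {p : ℝ → ℝ} (hp : IsTrialPath p) {ε : ℝ} (hε : 0 ≤ ε)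
    (h : ∀ l ∈ Icc 1 k, (∫ s in Set.Ioo (ex.ζ l) 1, p s) - ε ≤ tail ex k q l) {r : ℝ}
    (hr : r ∈ Set.Icc (0 : ℝ) 1) : DF ex k q r ≤ deficit p r + (ε + η + 1 / k) := by
  classical
  have h0 : 1 ≤ k + 1 ∧ ∀ s ∈ Set.Ioo (ex.ζ (k + 1)) 1, r ≤ p s :=
    ⟨by omega, fun s hs => by rw [zeta_top] at hs; exact absurd hs.1 hs.2.not_gt⟩
  have hE : ∃ l, 1 ≤ l ∧ ∀ s ∈ Set.Ioo (ex.ζ l) 1, r ≤ p s := ⟨_, h0⟩
  have h1 := Nat.find_spec hE
  have h2 := Nat.find_min' hE h0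
  have h3 := fun m => Nat.find_min hE (m := m)
  generalize Nat.find hE = l at h1 h2 h3
  have hη : 0 < η := hex.1 ▸ ex.pos 0
  have hk0 : (0 : ℝ) < k := Nat.cast_pos.2 hk
  have a1 := DF_le ex (q := q) h1.1 h2 r
  have a2 : (∫ s in Set.Ioo (ex.ζ l) 1, p s) - ε ≤ tail ex k q l := by
    rcases h2.eq_or_lt with rfl | h4
    · rw [tail_top, zeta_top, Set.Ioo_self, setIntegral_empty]; linarith
    · exact h l (mem_Icc.2 ⟨h1.1, by omega⟩)
  obtain ⟨t, t0, t1, t2, t3⟩ : ∃ t, 0 ≤ t ∧ t ≤ ex.ζ l ∧ ex.ζ l - t ≤ η + 1 / k ∧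
      ∀ s ∈ Set.Ioo 0 t, p s ≤ r := by
    rcases h1.1.eq_or_lt with rfl | h4
    · refine ⟨0, le_rfl, (ex.pos _).le, ?_, fun s hs => absurd hs.1 hs.2.not_gt⟩
      rw [hex.2.1, sub_zero]
      exact le_add_of_nonneg_right (by positivity)
    · obtain ⟨m, rfl⟩ : ∃ m, l = m + 1 := ⟨l - 1, by omega⟩
      refine ⟨ex.ζ m, (ex.pos _).le, ex.mono (Nat.le_succ m), ?_, fun s hs => ?_⟩
      · have h5 : ex.ζ (m + 1) - ex.ζ m = (1 - η) / k := hex.2.2 m (mem_Icc.2 ⟨by omega, by omega⟩)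
        have h6 : (1 - η) / k ≤ 1 / k := div_le_div_of_nonneg_right (by linarith) hk0.le
        linarith
      · by_contra hc
        refine h3 m (Nat.lt_succ_self m) ⟨by omega, fun s' hs' => (not_le.1 hc).le.trans ?_⟩
        exact hp.2.1 ⟨hs.1, hs.2.trans_le (ex.le_one m)⟩ ⟨(ex.pos m).trans hs'.1, hs'.2⟩
          (hs.2.trans hs'.1).le
  have a3 := pos_le hp hr.1 t0 t1 (ex.le_one l) t3 h1.2
  show _ ≤ 1 - r - (∫ s in Set.Ioo (0 : ℝ) 1, max (p s - r) 0) + _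
  linarith

/-- Larger tails give a smaller deficit (step path above). -/
lemma deficit_le_DF {k : ℕ} (ex : Expo (k + 2)) {q : ℕ → ℝ} (hq : IsOv k q)
    {p : ℝ → ℝ} (hp : IsTrialPath p) {ε : ℝ} (hε : 0 ≤ ε)
    (h : ∀ l ∈ Icc 1 k, tail ex k q l - ε ≤ ∫ s in Set.Ioo (ex.ζ l) 1, p s) {r : ℝ}
    (hr : r ∈ Set.Icc (0 : ℝ) 1) : deficit p r ≤ DF ex k q r + ε := by
  obtain ⟨l, h1, h2, h3⟩ := exists_piece ex hq r
  have a2 : tail ex k q l - ε ≤ ∫ s in Set.Ioo (ex.ζ l) 1, p s := by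
    rcases h2.eq_or_lt with rfl | h4
    · rw [tail_top, zeta_top, Set.Ioo_self, setIntegral_empty]; linarith
    · exact h l (mem_Icc.2 ⟨h1, by omega⟩)
  have a3 := le_pos hp r (ex.pos l).le (ex.le_one l)
  show 1 - r - (∫ s in Set.Ioo (0 : ℝ) 1, max (p s - r) 0) ≤ _
  linarith

lemma spectralPart_muf (h : Monotone lam) {p : ℝ → ℝ} (hp : IsTrialPath p) :
    spectralPart (muf lam) (lam (Fin.last n)) p =
      1 / 2 * ∫ r in Set.Ioo (0 : ℝ) 1, Rf lam (deficit p r) :=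
  congrArg (1 / 2 * ·) (setIntegral_congr_fun measurableSet_Ioo fun _ hr =>
    rTransform_muf h (deficit_mem hp (Set.Ioo_subset_Icc_self hr)).1)

/-- The constants of the cavity computation add up to the Parisi-type functional. -/
theorem cst_identity (h : Monotone lam) {k : ℕ} (ex : Expo (k + 2)) {q : ℕ → ℝ} (hq : IsOv k q) :
    (∑ a, cst lam ex k (sq lam ex k q) a) / (n + 1) +
        (∑ l ∈ Icc 1 k, vv lam ex (sq lam ex k q) l) / 2 =
      (∑ l ∈ Icc 1 k, vv lam ex (sq lam ex k q) l * tail ex k q l) / 2 +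
        1 / 2 * ∫ r in Set.Ioo (0 : ℝ) 1, Rf lam (DF ex k q r) := by
  obtain ⟨A0, A1, A2⟩ := Af_deriv h
  obtain ⟨L, hL⟩ : ∃ L : ℕ → ℝ, ∀ e, L e = (∑ a, lgd lam a (sq lam ex k q e)) / (n + 1) :=
    ⟨_, fun _ => rfl⟩
  obtain ⟨R, hR⟩ : ∃ R : ℕ → ℝ, ∀ e, R e = Rs lam (sq lam ex k q e) := ⟨_, fun _ => rfl⟩
  have s1 : ∀ e ≤ k, sq lam ex k q e = sOf lam (Dev ex k 1 q e) := fun e he => if_pos he
  have s2 : sq lam ex k q (k + 1) = 0 := if_neg (by omega)
  have L0 : L (k + 1) = 0 := by rw [hL, s2, sum_eq_zero fun a _ => lgd_zero a, zero_div]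
  have hA : ∀ e ≤ k, Af lam (Dev ex k 1 q e) = Dev ex k 1 q e * R e - L e := fun e he => by
    rw [hL, hR, s1 e he]; rfl
  have hv : ∀ e, vv lam ex (sq lam ex k q) (e + 1) = (R e - R (e + 1)) / ex.ζ (e + 1) := fun e => by
    rw [hR, hR]; rfl
  have hn : (n + 1 : ℝ) ≠ 0 := by positivity
  have c1 : (∑ a, cst lam ex k (sq lam ex k q) a) / (n + 1) =
      R k / 2 - ∑ e ∈ range (k + 1), (L e - L (e + 1)) / (2 * ex.ζ (e + 1)) := by
    show (∑ a, (Rs lam (sq lam ex k q k) / 2 - ∑ l ∈ Icc 1 (k + 1), _)) / _ = _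
    rw [sum_sub_distrib, sum_comm, sum_Icc_eq, sub_div, sum_div (range _), sum_const, card_univ,
      Fintype.card_fin, nsmul_eq_mul, Nat.cast_succ, mul_div_cancel_left₀ _ hn, hR]
    refine congrArg _ (sum_congr rfl fun e _ => ?_)
    rw [← sum_div, sum_sub_distrib, hL, hL, Nat.add_sub_cancel]
    ring
  have c2 : ∀ e ∈ range k, (Af lam (Dev ex k 1 q (e + 1 - 1)) - Af lam (Dev ex k 1 q (e + 1))) /
      ex.ζ (e + 1) = vv lam ex (sq lam ex k q) (e + 1) -
        vv lam ex (sq lam ex k q) (e + 1) * tail ex k q (e + 1) -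
        2 * ((L e - L (e + 1)) / (2 * ex.ζ (e + 1))) -
        (R e * QQ k q e - R (e + 1) * QQ k q (e + 1)) := fun e he => by
    have he' := mem_range.1 he
    have d1 := Dev_left ex (q := q) he'.le
    have d2 : Dev ex k 1 q (e + 1) = 1 - tail ex k q (e + 1) - ex.ζ (e + 1) * QQ k q (e + 1) := by
      linarith [Dev_diff ex (q := q) he']
    have d3 := (ex.pos (e + 1)).ne'
    rw [Nat.add_sub_cancel, hA e he'.le, hA (e + 1) he', hv, d1, d2]
    generalize tail ex k q (e + 1) = T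
    generalize ex.ζ (e + 1) = z at d3 ⊢
    field_simp
    ring
  rw [integral_DF ex hq (Rf_mono h) A1 A2, c1, A0, sum_Icc_eq, sum_Icc_eq, sum_Icc_eq,
    sum_congr rfl c2, sum_sub_distrib, sum_sub_distrib, sum_sub_distrib, ← mul_sum,
    sum_range_sub' (fun e => R e * QQ k q e), sum_range_succ, L0, zeta_top, hA k le_rfl, Dev_top,
    QQ_zero]
  ring

/-- The energy at time `t` is an integral of `rho'`. -/
theorem energy_le (h : Monotone lam) {rho' : ℝ → ℝ} (hm : Monotone rho')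
    (hd : ∀ x, 0 < x → HasDerivAt (rho lam) (rho' x) x) (hc : ContinuousOn (rho lam) (Set.Ici 0))
    {k : ℕ} (ex : Expo (k + 2)) {q : ℕ → ℝ} (hq : IsOv k q) {t : ℝ} (ht : 0 < t) {p : ℝ → ℝ}
    (hp : IsTrialPath p) {ε : ℝ} (hle : ∀ r ∈ Set.Icc (0 : ℝ) 1, DF ex k q r ≤ deficit p r + ε) :
    (rho lam (t * Dev ex k 1 q k) + ∑ e ∈ Icc 1 k,
      (rho lam (t * Dev ex k 1 q (e - 1)) - rho lam (t * Dev ex k 1 q e)) / ex.ζ e) / t ≤
      ∫ r in Set.Ioo (0 : ℝ) 1, rho' (t * (deficit p r + ε)) := by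
  have hm' : Monotone fun x => rho' (t * x) := fun _ _ h => hm (mul_le_mul_of_nonneg_left h ht.le)
  have k1 := integral_DF ex hq (F := fun x => rho lam (t * x) / t) hm' (fun x hx => ?_) ?_
  · have k2 := setIntegral_mono_on
      (integrableOn_comp hm' (DF_continuous ex).measurable
        fun r hr => DF_mem ex hq (Set.Ioo_subset_Icc_self hr))
      (integrableOn_comp hm' ((deficit_continuous hp).measurable.add_const ε) (a := 0 + ε)
        (b := 1 + ε) fun r hr => (deficit_mem hp (Set.Ioo_subset_Icc_self hr)).imp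
          (add_le_add_left · ε) (add_le_add_left · ε))
      measurableSet_Ioo fun r hr => hm' (hle r (Set.Ioo_subset_Icc_self hr))
    refine le_trans (le_of_eq ?_) (k1.symm.trans_le k2)
    have k3 : rho lam (t * 0) = 0 := by rw [mul_zero]; exact zero_mul _
    rw [k3, zero_div, sub_zero, add_div, sum_div]
    exact congrArg _ (sum_congr rfl fun e _ => by ring)
  · have h1 := ((hd _ (mul_pos ht hx)).comp x ((hasDerivAt_id' x).const_mul t)).div_const t
    refine h1.congr_deriv ?_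
    rw [mul_one, mul_div_cancel_right₀ _ ht.ne']
  · exact (hc.comp (f := fun x => t * x) (by fun_prop) fun x hx => mul_nonneg ht.le hx).div_const t

/-- Riemann sums in time. -/
theorem riemann_rho (h : Monotone lam) {rho' : ℝ → ℝ} (hm : Monotone rho')
    (hd : ∀ x, 0 < x → HasDerivAt (rho lam) (rho' x) x) {ε : ℝ} (hε : 0 < ε) :
    ∃ (M : ℕ) (ε₁ : ℝ), 0 < M ∧ 0 < ε₁ ∧ ∀ p, IsTrialPath p →
      (∑ i ∈ Icc 1 M, ∫ r in Set.Ioo (0 : ℝ) 1, rho' ((i : ℝ) / M * (deficit p r + ε₁))) / M ≤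
        2 * spectralPart (muf lam) (lam (Fin.last n)) p + ε := by
  obtain ⟨C, hC0, hC⟩ := exists_Rf_lip h
  obtain ⟨N, hN⟩ := exists_nat_ge ((3 * C + (lam (Fin.last n) - lam 0)) / ε)
  have hM : (0 : ℝ) < ((N + 1 : ℕ) : ℝ) := Nat.cast_pos.2 (Nat.succ_pos N)
  have hε' : (3 * C + (lam (Fin.last n) - lam 0)) / ((N + 1 : ℕ) : ℝ) ≤ ε := by
    rw [div_le_iff₀ hε] at hN
    rw [div_le_iff₀ hM, Nat.cast_succ]
    linarith
  refine ⟨N + 1, 1 / ((N + 1 : ℕ) : ℝ), Nat.succ_pos N, one_div_pos.2 hM, fun p hp => ?_⟩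
  have hi : ∀ i ∈ Icc 1 (N + 1), IntegrableOn (fun r => rho' ((i : ℝ) / ((N + 1 : ℕ) : ℝ) *
      (deficit p r + 1 / ((N + 1 : ℕ) : ℝ)))) (Set.Ioo 0 1) := fun i _ =>
    integrableOn_comp (f := fun x => rho' ((i : ℝ) / ((N + 1 : ℕ) : ℝ) *
      (x + 1 / ((N + 1 : ℕ) : ℝ))))
      (fun _ _ h => hm (mul_le_mul_of_nonneg_left (add_le_add_left h _) (by positivity)))
      (deficit_continuous hp).measurable fun r hr => deficit_mem hp (Set.Ioo_subset_Icc_self hr)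
  rw [spectralPart_muf h hp, ← mul_assoc, mul_one_div_cancel two_ne_zero, one_mul,
    ← integral_finsetSum _ hi, ← integral_div]
  refine int_le_add ((integrable_finsetSum _ hi).div_const _)
    (integrableOn_comp (Rf_mono h) (deficit_continuous hp).measurable
      fun r hr => deficit_mem hp (Set.Ioo_subset_Icc_self hr)) fun r hr => ?_
  obtain ⟨d0, d1⟩ := deficit_mem hp (Set.Ioo_subset_Icc_self hr)
  exact (riemann_pt h hm hd hC0 hC (Nat.succ_pos N) d0 d1).trans (add_le_add_right hε' _)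

/-- Shrinking the trial path a little costs little. -/
lemma spectralPart_shrink (h : Monotone lam) {ε : ℝ} (hε : 0 < ε) : ∃ η : ℝ, 0 < η ∧ η < 1 ∧
    ∀ p, IsTrialPath p → IsTrialPath (fun s => (1 - η) * p s) ∧
      spectralPart (muf lam) (lam (Fin.last n)) (fun s => (1 - η) * p s) ≤
        spectralPart (muf lam) (lam (Fin.last n)) p + ε := by
  obtain ⟨C, hC0, hC⟩ := exists_Rf_lip h
  obtain ⟨η, h0, h1, h2⟩ : ∃ η : ℝ, 0 < η ∧ η < 1 ∧ C * η ≤ ε := by
    refine ⟨min (1 / 2) (ε / (C + 1)), lt_min (by norm_num) (by positivity),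
      (min_le_left _ _).trans_lt (by norm_num), ?_⟩
    refine (mul_le_mul_of_nonneg_left (min_le_right _ _) hC0).trans ?_
    rw [← mul_div_assoc, div_le_iff₀ (by linarith)]
    linarith
  refine ⟨η, h0, h1, fun p hp => ?_⟩
  have hp' : IsTrialPath fun s => (1 - η) * p s :=
    ⟨hp.1.const_mul _, fun _ ha _ hb hab => mul_le_mul_of_nonneg_left (hp.2.1 ha hb hab)
      (sub_pos.2 h1).le, fun s hs => ⟨mul_nonneg (sub_pos.2 h1).le (hp.2.2 s hs).1,
        mul_le_one₀ (sub_le_self _ h0.le) (hp.2.2 s hs).1 (hp.2.2 s hs).2⟩⟩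
  refine ⟨hp', ?_⟩
  have k := int_le_add (c := ε)
    (integrableOn_comp (Rf_mono h) (deficit_continuous hp').measurable
      fun r hr => deficit_mem hp' (Set.Ioo_subset_Icc_self hr))
    (integrableOn_comp (Rf_mono h) (deficit_continuous hp).measurable
      fun r hr => deficit_mem hp (Set.Ioo_subset_Icc_self hr)) fun r hr => by
      have a1 := abs_le.1 (abs_deficit_sub_le hp' hp (ε := η) (fun s hs => by
        obtain ⟨b1, b2⟩ := hp.2.2 s hs
        rw [abs_le]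
        constructor <;> nlinarith) r)
      have a2 := Rf_mono h (sub_le_iff_le_add'.1 a1.2)
      have a3 := hC (deficit p r) (deficit p r + η) (deficit_mem hp (Set.Ioo_subset_Icc_self hr)).1
        (by linarith)
      rw [add_sub_cancel_left] at a3
      linarith
  rw [spectralPart_muf h hp', spectralPart_muf h hp]
  linarith

end Crest.Agent.R164
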