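import Crest.Agent.R164.OneTan
import Crest.Agent.R164.SpecInt

/-! # Row 164: lower bound, the self-consistent value dominates the variational formula -/

set_option autoImplicit false

namespace Crest.Agent.R164

open MeasureTheory ProbabilityTheory Real Finset Crest.ProbabilityR.InvariantGlass

namespace LowCAux

lemma avg_path {n : ℕ} {P : Fin (n + 1) → ℝ → ℝ} (hm : ∀ j, Monotone (P j))
    (h1 : ∀ j s, 0 ≤ P j s ∧ P j s ≤ 1) :
    IsTrialPath fun s => (∑ j, P j s) / ((n : ℝ) + 1) := by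
  have hn : (0 : ℝ) < n + 1 := by positivity
  have hM : Monotone fun s => (∑ j, P j s) / ((n : ℝ) + 1) := fun s t hst =>
    div_le_div_of_nonneg_right (sum_le_sum fun j _ => hm j hst) hn.le
  refine ⟨hM.measurable, hM.monotoneOn _, fun s _ =>
    ⟨div_nonneg (sum_nonneg fun j _ => (h1 j s).1) hn.le, ?_⟩⟩
  rw [div_le_one hn]
  refine (sum_le_sum fun j _ => (h1 j s).2).trans ?_
  simp

lemma spectral_le {n : ℕ} {lam : Fin (n + 1) → ℝ} (hlam : Monotone lam) {C : ℝ}
    (hC : ∀ D D', 0 ≤ D → D ≤ D' → Rf lam D' - Rf lam D ≤ C * (D' - D))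
    {k : ℕ} (ex : Expo (k + 2)) {q : ℕ → ℝ} (hq : IsOv k q) {p : ℝ → ℝ} (hp : IsTrialPath p)
    {e : ℝ} (he : 0 ≤ e)
    (h : ∀ l ∈ Icc 1 k, tail ex k q l - e ≤ ∫ s in Set.Ioo (ex.ζ l) 1, p s) :
    spectralPart (muf lam) (lam (Fin.last n)) p ≤
      1 / 2 * (∫ r in Set.Ioo (0 : ℝ) 1, Rf lam (DF ex k q r)) + C / 2 * e := by
  rw [spectralPart_muf hlam hp]
  have i1 : IntegrableOn (fun r => Rf lam (deficit p r)) (Set.Ioo 0 1) :=
    SpecIntAux.integrableOn_comp (Rf_mono hlam) (deficit_continuous hp).measurable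
      fun r hr => deficit_mem hp (Set.Ioo_subset_Icc_self hr)
  have i2 : IntegrableOn (fun r => Rf lam (DF ex k q r)) (Set.Ioo 0 1) :=
    SpecIntAux.integrableOn_comp (Rf_mono hlam) (SpecIntAux.DF_continuous ex).measurable
      fun r hr => DF_mem ex hq (Set.Ioo_subset_Icc_self hr)
  have key := SpecIntAux.int_le_add i1 i2 (c := C * e) fun r hr => by
    have hr' := Set.Ioo_subset_Icc_self hr
    have a1 := Rf_mono hlam (deficit_le_DF ex hq hp he h hr')
    have a2 := hC (DF ex k q r) (DF ex k q r + e) (DF_mem ex hq hr').1 (by linarith)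
    rw [add_sub_cancel_left] at a2
    linarith
  linarith

lemma range_eq (f : ℕ → ℝ) (h0 : f 0 = 0) (k : ℕ) :
    ∑ l ∈ range (k + 1), f l = ∑ l ∈ Icc 1 k, f l := by
  rw [sum_range_succ', h0, add_zero, SpecIntAux.sum_Icc_eq]

end LowCAux

open LowCAux in
theorem final_ineq {n : ℕ} {lam : Fin (n + 1) → ℝ} (hlam : Monotone lam) {η : ℝ} (hη : 0 < η) :
    ∃ C : ℝ, 0 ≤ C ∧ ∀ (m : Fin (n + 1) → ℝ) (s₀ : ℝ),
      (∀ p s', IsTrialPath p → SLe (fun _ => 1 / ((n : ℝ) + 1)) m p s' →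
        s₀ ≤ s' + spectralPart (muf lam) (lam (Fin.last n)) p) →
      ∀ (k : ℕ) (ex : Expo (k + 2)) (q : ℕ → ℝ) (x : ℕ → ℝ) (bs b : Fin (n + 1) → ℝ) (e : ℝ),
        ex.ζ 0 = η → IsOv k q → (x = fun l => √(vv lam ex (sq lam ex k q) l)) → 0 ≤ e →
        (∀ j, oM ex (bs j) x = m j) →
        (∀ l ∈ Icc 1 k, |tail ex k q l - (∑ j, oT ex (bs j) x l) / (n + 1)| ≤ e) →
        s₀ ≤ (∑ j, (cst lam ex k (sq lam ex k q) j + oX ex (b j) x 0 - b j * m j)) / (n + 1) + C * e := by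
  obtain ⟨C, hC0, hC⟩ := exists_Rf_lip hlam
  have hL : 0 ≤ (lam (Fin.last n) - lam 0) / η :=
    div_nonneg (sub_nonneg.2 (hlam (Fin.zero_le _))) hη.le
  refine ⟨C / 2 + (lam (Fin.last n) - lam 0) / η / 2, by positivity, ?_⟩
  intro m s₀ hs₀ k ex q x bs b e hζ hq hx he hm hT
  have hn : (0 : ℝ) < n + 1 := by positivity
  have hx0 : ∀ l, 0 ≤ x l := fun l => by rw [hx]; exact sqrt_nonneg _
  have hseq := isSeq_sq hlam ex hq
  set v : ℕ → ℝ := vv lam ex (sq lam ex k q) with hv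
  have hv0 : ∀ l ≤ k + 1, 0 ≤ v l := fun l hl => vv_nonneg hlam ex hseq hl
  have hx2 : ∀ l ∈ range (k + 1), x l ^ 2 = v l := fun l hl => by
    rw [hx]; exact sq_sqrt (hv0 l (mem_range.1 hl).le)
  choose P hPm hP1 hPT hPS using fun j => exists_tangent_path (r := k + 1) ex hx0 (bs j)
  have hPt : ∀ j, IsTrialPath (P j) := fun j =>
    ⟨(hPm j).measurable, (hPm j).monotoneOn _, fun s _ => hP1 j s⟩
  have hp := avg_path hPm hP1
  set p : ℝ → ℝ := fun s => (∑ j, P j s) / ((n : ℝ) + 1) with hpdef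
  -- the tails of the averaged path
  have htail : ∀ l ∈ Icc 1 k,
      ∫ s in Set.Ioo (ex.ζ l) 1, p s = (∑ j, oT ex (bs j) x l) / (n + 1) := by
    intro l hl
    have hl' : l ≤ k + 1 := by have := (mem_Icc.1 hl).2; omega
    rw [hpdef]
    dsimp only
    rw [integral_div, integral_finsetSum]
    · exact congrArg (· / _) (sum_congr rfl fun j _ => hPT j l hl')
    · exact fun j _ => (SpecIntAux.int_path (hPt j)).mono_set
        (Set.Ioo_subset_Ioo (ex.pos l).le le_rfl)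
  -- the entropy bound
  set V : ℝ := ∑ l ∈ Icc 1 k, v l with hV
  have hV1 : ∑ l ∈ range (k + 1), x l ^ 2 = V := by
    rw [sum_congr rfl hx2, range_eq v (vv_zero ex _)]
  have hV2 : ∀ j, ∑ l ∈ range (k + 1), x l ^ 2 * oT ex (bs j) x l =
      ∑ l ∈ Icc 1 k, v l * oT ex (bs j) x l := fun j => by
    rw [sum_congr rfl fun l hl => by rw [hx2 l hl],
      range_eq (fun l => v l * oT ex (bs j) x l) (by rw [hv, vv_zero, zero_mul])]
  have hS : SLe (fun _ => 1 / ((n : ℝ) + 1)) m p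
      ((∑ j, (oX ex (bs j) x 0 - V / 2 - bs j * m j +
        (∑ l ∈ Icc 1 k, v l * oT ex (bs j) x l) / 2)) / (n + 1)) := by
    intro k' w hw hsf θ hθ
    choose b' hb' using fun j => hPS j k' w hw hsf θ hθ
    refine ⟨b', ?_⟩
    have e1 : ∫ s in Set.Ioo (0 : ℝ) 1, p s * stepFn w hw s =
        (∑ j, ∫ s in Set.Ioo (0 : ℝ) 1, P j s * stepFn w hw s) / (n + 1) := by
      rw [← integral_finsetSum _ fun j _ => integrableOn_mul_stepFn hsf (hPt j), ← integral_div]
      refine integral_congr_ae (Filter.Eventually.of_forall fun s => ?_)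
      simp only [hpdef]
      rw [← sum_mul]
      ring
    have e2 := sum_le_sum (s := univ) fun j _ => hb' j
    simp only [hm, hV1, hV2] at e2
    rw [sum_add_distrib, sum_add_distrib (g := fun _ => θ), ← mul_sum, spec_sum_const] at e2
    rw [e1, ← mul_sum]
    have e3 := div_le_div_of_nonneg_right e2 hn.le
    rw [add_div, add_div _ ((n + 1) * θ), mul_div_cancel_left₀ _ hn.ne'] at e3
    refine le_trans (le_of_eq ?_) e3
    ring
  have k1 := hs₀ p _ hp hS
  have k2 := spectral_le hlam hC ex hq hp he fun l hl => by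
    rw [htail l hl]
    linarith [(abs_le.1 (hT l hl)).2]
  have k3 := cst_identity hlam ex hq
  rw [← hv, ← hV] at k3
  have k4 : V ≤ (lam (Fin.last n) - lam 0) / η := by
    have := sum_vv_le hlam ex hseq
    rwa [← hv, range_eq v (vv_zero ex _), hζ] at this
  have k5 : (∑ j, ∑ l ∈ Icc 1 k, v l * oT ex (bs j) x l) / (n + 1) ≤
      ∑ l ∈ Icc 1 k, v l * tail ex k q l + V * e := by
    rw [sum_comm, sum_div, hV, sum_mul, ← sum_add_distrib]
    refine sum_le_sum fun l hl => ?_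
    have a1 := hv0 l (by have := (mem_Icc.1 hl).2; omega)
    have a2 := (abs_le.1 (hT l hl)).1
    rw [← mul_sum, mul_div_assoc, ← mul_add]
    exact mul_le_mul_of_nonneg_left (by linarith) a1
  have k6 : (∑ j, (oX ex (bs j) x 0 - bs j * m j)) / (n + 1) ≤
      (∑ j, (oX ex (b j) x 0 - b j * m j)) / (n + 1) := by
    refine div_le_div_of_nonneg_right (sum_le_sum fun j _ => ?_) hn.le
    have := oX_tangent ex (bs j) (b j) x
    rw [hm j] at this
    linarith
  have k7 : (∑ j, (oX ex (bs j) x 0 - V / 2 - bs j * m j +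
        (∑ l ∈ Icc 1 k, v l * oT ex (bs j) x l) / 2)) / ((n : ℝ) + 1) =
      (∑ j, (oX ex (bs j) x 0 - bs j * m j)) / (n + 1) - V / 2 +
        (∑ j, ∑ l ∈ Icc 1 k, v l * oT ex (bs j) x l) / (n + 1) / 2 := by
    simp only [sum_add_distrib, sum_sub_distrib, ← sum_div, spec_sum_const]
    field_simp
    ring
  have k8 : (∑ j, (cst lam ex k (sq lam ex k q) j + oX ex (b j) x 0 - b j * m j)) / ((n : ℝ) + 1) =
      (∑ j, cst lam ex k (sq lam ex k q) j) / (n + 1) +
        (∑ j, (oX ex (b j) x 0 - b j * m j)) / (n + 1) := by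
    rw [← add_div, ← sum_add_distrib]
    exact congrArg (· / _) (sum_congr rfl fun j _ => by ring)
  have k9 := mul_le_mul_of_nonneg_right k4 he
  rw [k8]
  rw [k7] at k1
  linarith

end Crest.Agent.R164
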