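import Crest.Agent.R164.LowB
import Crest.Agent.R164.LowC

/-! # Row 164: lower bound, one block of cavity steps -/

set_option autoImplicit false

namespace Crest.Agent.R164

open MeasureTheory ProbabilityTheory Real Finset Crest.ProbabilityR.InvariantGlass

namespace Blk

lemma bal_mono {N n : ℕ} {sp : Fin N → Fin (n + 1)} {B B' : ℝ} (h : Bal sp B) (hB : B ≤ B') :
    Bal sp B' := fun a => (h a).trans hB

lemma bal_perm {N n : ℕ} {sp : Fin N → Fin (n + 1)} {B : ℝ} (h : Bal sp B) (σ : Equiv.Perm (Fin N)) :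
    Bal (sp ∘ σ) B := fun a => by rw [card_blk_perm]; exact h a

lemma box_mono {n k : ℕ} {θ : LP n} {r r' : ℝ} (h : θ.box k r) (hr : r ≤ r') : θ.box k r' :=
  ⟨fun l hl a => (h.1 l hl a).trans hr, fun a => (h.2.1 a).trans hr, fun a => (h.2.2 a).trans hr⟩

lemma pat_succ' (n N : ℕ) : (fun i : Fin N => pat n (N + 1) i.succ) = pat n N :=
  funext (pat_succ n N)

lemma oT_lip {k : ℕ} (ex : Expo (k + 2)) (b b' : ℝ) (x : ℕ → ℝ) {l : ℕ} (hl : l ∈ Icc 1 k) :
    |oT ex b x l - oT ex b' x l| ≤ 10 * |b - b'| := by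
  unfold oT
  rw [← Finset.sum_sub_distrib]
  have h1 : ∑ e ∈ Ico l (k + 1), ex.Δ e ≤ 1 := by
    rw [Lev.sum_Δ ex (by have := (mem_Icc.1 hl).2; omega)]
    linarith [ex.le_one (k + 1), ex.pos l]
  calc _ ≤ ∑ e ∈ Ico l (k + 1), ex.Δ e * (10 * |b - b'|) := by
        refine (Finset.abs_sum_le_sum_abs _ _).trans (Finset.sum_le_sum fun e _ => ?_)
        rw [← mul_sub, abs_mul, abs_of_nonneg (ex.Δ_nonneg e)]
        exact mul_le_mul_of_nonneg_left (oQ_lip_b ex b b' x e) (ex.Δ_nonneg e)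
    _ ≤ 10 * |b - b'| := by
        rw [← Finset.sum_mul]
        exact mul_le_of_le_one_left (by positivity) h1

/-- Averaging over the sites. -/
lemma tail_avg {n k N : ℕ} (hN : 0 < N) (ex : Expo (k + 2)) (lab : Fin N → Fin (n + 1))
    (hlab : Bal lab 1) (q : ℕ → ℝ) (Q : Fin N → ℕ → ℝ) (hq : ∀ e, q e = (∑ r, Q r e) / N)
    (T : Fin (n + 1) → ℝ) (hT : ∀ j, |T j| ≤ 1) (l : ℕ) {e : ℝ}
    (h : ∀ r, |tail ex k (Q r) l - T (lab r)| ≤ e) :
    |tail ex k q l - (∑ j, T j) / (n + 1)| ≤ e + (n + 1) / N := by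
  have hN' : (0 : ℝ) < N := by exact_mod_cast hN
  have h1 : tail ex k q l = (∑ r, tail ex k (Q r) l) / N := by
    simp only [tail, hq]
    rw [Finset.sum_comm, Finset.sum_div]
    refine Finset.sum_congr rfl fun e _ => ?_
    rw [← Finset.mul_sum, mul_div_assoc]
  have h2 : ∑ r, T (lab r) = ∑ j, (blk lab j).card * T j := by
    rw [← sum_blk lab]
    refine Finset.sum_congr rfl fun j _ => ?_
    rw [Finset.sum_congr rfl (g := fun _ => T j) (fun r hr => by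
      rw [(Finset.mem_filter.1 hr).2])]
    simp
  have h3 : |(∑ r, tail ex k (Q r) l) / N - (∑ r, T (lab r)) / N| ≤ e := by
    rw [← sub_div, ← Finset.sum_sub_distrib, abs_div, abs_of_pos hN', div_le_iff₀ hN']
    refine (Finset.abs_sum_le_sum_abs _ _).trans ((Finset.sum_le_sum fun r _ => h r).trans ?_)
    simp [mul_comm]
  have h4 : |(∑ r, T (lab r)) / N - (∑ j, T j) / (n + 1)| ≤ (n + 1) / N := by
    have : (∑ r, T (lab r)) / N - (∑ j, T j) / (n + 1) =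
        (∑ j, (((blk lab j).card : ℝ) - N / (n + 1)) * T j) / N := by
      rw [h2]
      simp only [sub_mul, Finset.sum_sub_distrib, ← Finset.mul_sum]
      field_simp
    rw [this, abs_div, abs_of_pos hN']
    gcongr
    refine (Finset.abs_sum_le_sum_abs _ _).trans ((Finset.sum_le_sum (g := fun _ => (1 : ℝ))
      fun j _ => ?_).trans (by simp))
    rw [abs_mul]
    exact mul_le_one₀ (hlab j) (abs_nonneg _) (hT j)
  rw [h1]
  linarith [abs_sub_le ((∑ r, tail ex k (Q r) l) / N) ((∑ r, T (lab r)) / N) ((∑ j, T j) / (n + 1))]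

/-- The magnetisation is close to its target when the constraint is strong. -/
lemma mag_close {n N : ℕ} {M κ Ca ε' ε₁ a u : ℝ} (hM : 0 < M) (hε' : 0 < ε') (hε₁ : 0 < ε₁)
    (hCa : 0 ≤ Ca) (hκ : 16 * (n + 1) ^ 2 * (Ca + 1) / (ε' * ε₁ ^ 2) ≤ κ) (hN : ε' * M ≤ N)
    (hN2 : 2 * ((n : ℝ) + 1) ≤ N) (hMκ : 4 * κ * (n + 1) ≤ M) (ha : |a - N / (n + 1)| ≤ 1)
    (h : κ / M * (a * u) ^ 2 ≤ Ca * N + 4 * (κ / M) * (n + 1)) : |u| ≤ ε₁ / 2 := by
  have hn : (0 : ℝ) < n + 1 := by positivity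
  have hN0 : (0 : ℝ) < N := by linarith
  have hκ0 : 0 < κ := lt_of_lt_of_le (by positivity) hκ
  have ha1 : N / (2 * (n + 1)) ≤ a := by
    have h1 := (abs_le.1 ha).1
    have h2 : (1 : ℝ) ≤ N / (2 * (n + 1)) := by rw [le_div_iff₀ (by positivity)]; linarith
    have h3 : (N : ℝ) / (n + 1) = 2 * (N / (2 * (n + 1))) := by field_simp
    linarith
  have h4 : 4 * (κ / M) * (n + 1) ≤ N := by
    have : 4 * (κ / M) * (n + 1) ≤ 1 := by
      rw [show 4 * (κ / M) * (n + 1) = 4 * κ * (n + 1) / M by ring, div_le_one hM]; exact hMκ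
    linarith
  have h5 : κ / M * ((N / (2 * (n + 1))) ^ 2 * u ^ 2) ≤ (Ca + 1) * N := by
    refine le_trans ?_ (h.trans (by linarith))
    rw [mul_pow]
    gcongr
  have h6 : κ * ε' * u ^ 2 ≤ 4 * (n + 1) ^ 2 * (Ca + 1) := by
    have e1 : κ / M * ((N / (2 * (n + 1))) ^ 2 * u ^ 2) =
        (κ * (N / M) * u ^ 2) / (4 * (n + 1) ^ 2) * N := by field_simp; ring
    rw [e1] at h5
    have h7 := le_of_mul_le_mul_right h5 hN0
    rw [div_le_iff₀ (by positivity)] at h7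
    have h8 : ε' ≤ N / M := by rw [le_div_iff₀ hM]; exact hN
    have h9 : κ * ε' * u ^ 2 ≤ κ * (N / M) * u ^ 2 := by gcongr
    linarith
  rw [div_le_iff₀ (by positivity)] at hκ
  have h10 : u ^ 2 ≤ (ε₁ / 2) ^ 2 := by
    have : κ * ε' * u ^ 2 ≤ κ * ε' * (ε₁ / 2) ^ 2 := by nlinarith
    exact le_of_mul_le_mul_left this (by positivity)
  exact abs_le_of_sq_le_sq' h10 (by positivity) |> abs_le.2

/-- The equivalence listing the labels of the added sites. -/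
lemma exists_equiv (n N : ℕ) : ∃ e : Fin (n + 1) ≃ Fin (n + 1),
    ∀ i : Fin (n + 1), pat n (N + i + 1) 0 = e i := by
  refine ⟨Equiv.addLeft (Fin.ofNat (n + 1) N), fun i => ?_⟩
  rw [pat_zero]
  ext
  simp [Fin.val_add]

/-- The smallness conditions on `M`. -/
lemma exists_M₀ {ε' s κ Cc D a M₁ C₁ : ℝ} (hε' : 0 < ε') (hs : 0 < s) (ha : 0 < a) :
    ∃ M₀ : ℕ, ∀ M : ℕ, M₀ ≤ M → (1 : ℝ) ≤ M ∧ M₁ ≤ M ∧ 1 / √M ≤ s ∧ C₁ ≤ ε' * M ∧
      Cc * (1 / √(ε' * M)) ≤ a ∧ Cc * (κ / M * (√(D * M) + 1)) ≤ a := by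
  have hM : Filter.Tendsto (fun M : ℕ => (M : ℝ)) Filter.atTop Filter.atTop :=
    tendsto_natCast_atTop_atTop
  have hM' : Filter.Tendsto (fun M : ℕ => ε' * (M : ℝ)) Filter.atTop Filter.atTop :=
    hM.const_mul_atTop hε'
  have hsq : Filter.Tendsto (fun M : ℕ => 1 / √(M : ℝ)) Filter.atTop (nhds 0) := by
    simpa [Pi.inv_def] using (Real.tendsto_sqrt_atTop.comp hM).inv_tendsto_atTop
  have hsq' : Filter.Tendsto (fun M : ℕ => Cc * (1 / √(ε' * M))) Filter.atTop (nhds 0) := by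
    simpa using ((Real.tendsto_sqrt_atTop.comp hM').inv_tendsto_atTop).const_mul Cc
  have hinv : Filter.Tendsto (fun M : ℕ => (M : ℝ)⁻¹) Filter.atTop (nhds 0) := hM.inv_tendsto_atTop
  have h3 : Filter.Tendsto (fun M : ℕ => Cc * (κ * (√D * (1 / √(M : ℝ)) + (M : ℝ)⁻¹)))
      Filter.atTop (nhds 0) := by
    simpa using (((hsq.const_mul √D).add hinv).const_mul κ).const_mul Cc
  refine Filter.eventually_atTop.1 ?_
  filter_upwards [hM.eventually_ge_atTop 1, hM.eventually_ge_atTop M₁,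
    hsq.eventually (ge_mem_nhds hs), hM'.eventually_ge_atTop C₁, hsq'.eventually (ge_mem_nhds ha),
    h3.eventually (ge_mem_nhds ha)] with M h1 h2 h3 h4 h5 h6
  refine ⟨h1, h2, h3, h4, h5, le_trans (le_of_eq ?_) h6⟩
  have hM0 : (0 : ℝ) < M := by linarith
  have hsM : 0 < √(M : ℝ) := Real.sqrt_pos.2 hM0
  rw [Real.sqrt_mul' _ hM0.le]
  have e : (M : ℝ) = √M * √M := (Real.mul_self_sqrt hM0.le).symm
  congr 1
  generalize √(M : ℝ) = r at *
  rw [e]
  field_simp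

end Blk

open Blk in
theorem block {n : ℕ} (hn : 1 ≤ n) {lam : Fin (n + 1) → ℝ} (hlam : Monotone lam) (c m : Fin (n + 1) → ℝ)
    (hm : ∀ j, |m j| < 1) {s₀ : ℝ}
    (hs : ∀ p s', IsTrialPath p → SLe (fun _ => 1 / ((n : ℝ) + 1)) m p s' →
      s₀ ≤ s' + spectralPart (muf lam) (lam (Fin.last n)) p)
    (h : ∀ N, Haar N) {η : ℝ} (hη0 : 0 < η) (hη1 : η < 1) {ε ε' : ℝ} (hε : 0 < ε) (hε' : 0 < ε') :
    ∃ (κ s K : ℝ) (k : ℕ), 0 < κ ∧ 0 < s ∧ 0 < K ∧ 1 ≤ k ∧ (k + 1) * (n + 2) * s ≤ ε ∧ ∃ M₀ : ℕ,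
      ∀ (M N : ℕ) (ex : Expo (k + 2)) (d : LD n) (θ : LP n), M₀ ≤ M → ε' * M ≤ N → N + (n + 1) ≤ M →
        IsGrid ex η → d = ⟨lam, c, m, s, κ / M⟩ →
        d.NearMax ex (h N) (pat n N) (pat n N) (M * K) θ →
        d.X ex (h N) (pat n N) (pat n N) θ + (∑ j, c j * m j + (n + 1) * (s₀ - ε)) ≤
          d.X ex (h (N + (n + 1))) (pat n _) (pat n _) θ := by
  have hm1 : ∀ j, |m j| ≤ 1 := fun j => (hm j).le
  obtain ⟨δ, hδ, hmδ⟩ : ∃ δ : ℝ, 0 < δ ∧ ∀ j, |m j| ≤ 1 - δ := by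
    obtain ⟨j₀, -, hj₀⟩ := Finset.exists_max_image univ (fun j => |m j|) univ_nonempty
    exact ⟨1 - |m j₀|, by linarith [hm j₀], fun j => by linarith [hj₀ j (mem_univ j)]⟩
  obtain ⟨Cf, hCf, hfin⟩ := final_ineq hlam hη0
  obtain ⟨Ca, hCa, hapr⟩ := apriori lam c m hm1
  obtain ⟨e, he0, heε⟩ : ∃ e : ℝ, 0 < e ∧ Cf * e ≤ ε / 2 := by
    refine ⟨ε / (2 * (Cf + 1)), by positivity, ?_⟩
    rw [← mul_div_assoc, div_le_div_iff₀ (by positivity) (by positivity)]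
    nlinarith
  obtain ⟨ε₁, hε₁, hstab⟩ := one_stable (δ := δ) (Hm := (lam (Fin.last n) - lam 0) / η)
    (ε := e / 40) hδ (by positivity)
  obtain ⟨t, ht0, ht1, hte, htε₁, htε⟩ : ∃ t : ℝ, 0 < t ∧ t ≤ 1 ∧ 408 * t ≤ e / 2 ∧
      204 * t ≤ ε₁ / 2 ∧ 2 * t ≤ ε / 4 := by
    refine ⟨min (min 1 (e / 816)) (min (ε₁ / 408) (ε / 8)), by positivity, ?_, ?_, ?_, ?_⟩
    · exact (min_le_left _ _).trans (min_le_left _ _)
    · linarith [(min_le_left (min 1 (e / 816)) (min (ε₁ / 408) (ε / 8))).trans (min_le_right _ _)]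
    · linarith [(min_le_right (min 1 (e / 816)) (min (ε₁ / 408) (ε / 8))).trans (min_le_left _ _)]
    · linarith [(min_le_right (min 1 (e / 816)) (min (ε₁ / 408) (ε / 8))).trans (min_le_right _ _)]
  obtain ⟨κ, hκdef⟩ : ∃ κ : ℝ, κ = 16 * (n + 1) ^ 2 * (Ca + 1) / (ε' * ε₁ ^ 2) := ⟨_, rfl⟩
  have hκ : 0 < κ := by rw [hκdef]; positivity
  obtain ⟨Cc, σ₀, hCc, hσ₀, hcav⟩ := cavity_L hn hlam c m hm1 hη0 κ 1 (ε := t ^ 3) (by positivity)
  obtain ⟨k₀, hpin⟩ := pin_near hlam hη0 hη1 (ε := t ^ 3 / (3 * (Cc + 1))) (by positivity)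
  obtain ⟨k, hk₀, hk1⟩ : ∃ k : ℕ, k₀ ≤ k ∧ 1 ≤ k := ⟨max k₀ 1, le_max_left _ _, le_max_right _ _⟩
  obtain ⟨s₁, hs₁, hpin⟩ := hpin k hk₀
  obtain ⟨s, hs0, hss₁, hs1, hsσ, hsε⟩ : ∃ s : ℝ, 0 < s ∧ s ≤ s₁ ∧ (k + 1) * (n + 2) * s ≤ 1 ∧
      (k + 1) * (n + 2) * s ≤ σ₀ ∧ (k + 1) * (n + 2) * s ≤ ε := by
    have hp : (0 : ℝ) < (k + 1) * (n + 2) := by positivity
    have key : ((k : ℝ) + 1) * (n + 2) * min s₁ (min 1 (min σ₀ ε) / ((k + 1) * (n + 2))) ≤
        min 1 (min σ₀ ε) := by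
      rw [mul_comm, ← le_div_iff₀ hp]; exact min_le_right _ _
    exact ⟨min s₁ (min 1 (min σ₀ ε) / ((k + 1) * (n + 2))), by positivity, min_le_left _ _,
      key.trans (min_le_left _ _), key.trans ((min_le_right _ _).trans (min_le_left _ _)),
      key.trans ((min_le_right _ _).trans (min_le_right _ _))⟩
  have hsn : ((n : ℝ) + 2) * s ≤ (k + 1) * (n + 2) * s := by
    have : (0 : ℝ) ≤ k * ((n + 2) * s) := by positivity
    nlinarith
  have hsε' : s ≤ ε := by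
    have : (0 : ℝ) ≤ (n + 1) * s := by positivity
    linarith
  obtain ⟨Cn, hCn, hnear⟩ := near_L hlam c m hm1 κ 1
  obtain ⟨K, hK1, hKs⟩ : ∃ K : ℝ, 1 ≤ K ∧ 2 / √K ≤ s / 8 := by
    refine ⟨max 1 ((16 / s) ^ 2), le_max_left _ _, ?_⟩
    have h1 : 16 / s ≤ √(max 1 ((16 / s) ^ 2)) := Real.le_sqrt_of_sq_le (le_max_right _ _)
    rw [div_le_iff₀ (lt_of_lt_of_le (by positivity) h1)]
    rw [div_le_iff₀ hs0] at h1
    linarith
  obtain ⟨C, hCdef⟩ : ∃ C : ℝ, C = (n + 1) * Cn := ⟨_, rfl⟩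
  have hC0 : 0 ≤ C := by rw [hCdef]; positivity
  obtain ⟨D, hDdef⟩ : ∃ D : ℝ, D = 2 * (K + 1 + 2 * C) + 4 * exp (2 * (K + 1 + 2 * C)) / η ^ 2 :=
    ⟨_, rfl⟩
  obtain ⟨M₁, hpin⟩ := hpin s hs0 hss₁ (n + 1) D (ε' / 2) (by positivity)
  obtain ⟨M₀, hM₀⟩ := exists_M₀ (ε' := ε' / 2) (s := s / 8) (κ := κ) (Cc := Cc) (D := D)
    (a := t ^ 3 / 3) (M₁ := max M₁ (4 * κ * (n + 1)))
    (C₁ := Cc + Cn + 2 * (n + 1) + 4 * (n + 1) / e) (by positivity) (by positivity) (by positivity)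
  refine ⟨κ, s, K, k, hκ, hs0, by linarith, hk1, hsε, M₀, ?_⟩
  intro M N ex d θ hM hN hNM hex hd hθ
  obtain ⟨hM1, hM2, hM3, hM4, hM5, hM6⟩ := hM₀ M hM
  have hMpos : (0 : ℝ) < M := by linarith
  have hn1 : (0 : ℝ) < n + 1 := by positivity
  have hne : (0 : ℝ) < 4 * (n + 1) / e := by positivity
  have hdl : d.lam = lam := by rw [hd]
  have hdc : d.c = c := by rw [hd]
  have hdm : d.m = m := by rw [hd]
  have hds : d.s = s := by rw [hd]
  have hdκ : d.κ = κ / M := by rw [hd]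
  have hdκ0 : 0 ≤ d.κ := by rw [hdκ]; positivity
  have hNM' : (N : ℝ) + (n + 1) ≤ M := by exact_mod_cast hNM
  have hθ4 : θ.box k (d.s / 4) := hθ.1
  have hθ8 : θ.box k (d.s / 8) := by
    refine box_mono (d.nearMax_small ex (h N) _ _ hM1 (by linarith) hK1 (by rw [hds]; exact hs0)
      (by rw [hds]; linarith) hθ) (by rw [hds]; exact hKs)
  -- neighbouring systems
  have htouch : ∀ (N' : ℕ) (lab' sp' : Fin N' → Fin (n + 1)),
      (∀ θ' : LP n, θ'.box k (d.s / 4) →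
        |d.X ex (h N') lab' sp' θ' - d.X ex (h N) (pat n N) (pat n N) θ'| ≤ C) →
      d.Touch ex (h N') lab' sp' θ (M * K) D M := by
    intro N' lab' sp' hnr
    have := d.touch_of_near ex (h N) (h N') (pat n N) (pat n N) lab' sp' hM1 (by linarith) hC0
      (by rw [hds]; exact hM3) hθ hθ8 hnr
    rwa [hex.1, ← hDdef] at this
  have hT0 : d.Touch ex (h N) (pat n N) (pat n N) θ (M * K) D M :=
    htouch N _ _ fun θ' _ => by simpa using hC0
  have hNlow : ε' / 2 * M ≤ (N : ℝ) - 1 := by linarith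
  have hN0 : 0 < N := by
    have : (0 : ℝ) < N := by nlinarith
    exact_mod_cast this
  have hN0' : (0 : ℝ) < N := by exact_mod_cast hN0
  obtain ⟨q, hqdef⟩ : ∃ q : ℕ → ℝ,
      q = (mLev ex (h N) (unif _)).qq (d.H (pat n N) (pat n N) θ) univ Y := ⟨_, rfl⟩
  have hq : IsOv k q := by rw [hqdef]; exact isOv_qq ex (h N) _ _ _ _ hN0
  obtain ⟨sq', hsq'⟩ : ∃ sq' : ℕ → ℝ, sq' = sq lam ex k q := ⟨_, rfl⟩
  have hseq : IsSeq n k sq' := by rw [hsq']; exact isSeq_sq hlam ex hq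
  obtain ⟨x, hx⟩ : ∃ x : ℕ → ℝ, x = fun l => √(vv lam ex sq' l) := ⟨_, rfl⟩
  have hnearstep : ∀ (N' : ℕ) (lab' sp' : Fin (N' + 1) → Fin (n + 1)), (N : ℝ) - 1 ≤ N' →
      (N' : ℝ) ≤ M → Bal (fun i : Fin N' => sp' i.succ) 1 → ∀ θ' : LP n, θ'.box k (d.s / 4) →
      |d.X ex (h (N' + 1)) lab' sp' θ' -
        d.X ex (h N') (fun r => lab' r.succ) (fun i => sp' i.succ) θ'| ≤ Cn := by
    intro N' lab' sp' h1 h2 h3 θ' hθ'
    refine hnear d k N' ex (h N') (h (N' + 1)) lab' sp' θ' hdl hdc hdm (by rw [hds]; exact hs0)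
      (by rw [hds]; exact hs1) hdκ0 ?_ (by linarith) h3 hθ'
    rw [hdκ, div_mul_eq_mul_div, div_le_iff₀ hMpos]
    gcongr
  have hstep : ∀ (N' : ℕ) (lab' sp' : Fin (N' + 1) → Fin (n + 1)), (N : ℝ) - 1 ≤ N' →
      (N' : ℝ) ≤ N + n → Bal (fun i : Fin N' => sp' i.succ) 1 → Bal lab' 1 →
      (∀ θ' : LP n, θ'.box k (d.s / 4) →
        |d.X ex (h N') (fun r => lab' r.succ) (fun i => sp' i.succ) θ' -
          d.X ex (h N) (pat n N) (pat n N) θ'| ≤ C) →
      ∀ (y₀ : ℝ) (y : ℕ → ℝ), y 0 = 0 → |y₀| + ∑ l ∈ Icc 1 k, |y l| ≤ 1 →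
      |(eLev ex (h (N' + 1))).X0
            (He (fun i => d.lamP θ (sp' i)) (fun l i => d.xP θ l (sp' i)) (d.wt θ lab') y₀ y) -
          (d.X ex (h N') (fun r => lab' r.succ) (fun i => sp' i.succ) θ +
            (2 * d.κ * d.Tbar ex (h N') lab' sp' θ * m (lab' 0) + cst lam ex k sq' (sp' 0))) -
          oX ex (d.bL ex (h N') lab' sp' θ + y₀) x y| ≤ 2 * t ^ 3 := by
    intro N' lab' sp' h1 h2 h3 h4 hnr y₀ y hy0 hy
    have hT := htouch N' _ _ hnr
    have hP := hpin M (M * K) d N N' ex (h N) (h N') (pat n N) (pat n N) (fun r => lab' r.succ)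
      (fun i => sp' i.succ) θ ((le_max_left _ _).trans hM2) hdl hds hex (by linarith) (by linarith)
      (abs_le.2 ⟨by linarith, by linarith⟩) (bal_mono (bal_pat n N) (by linarith))
      (bal_mono h3 (by linarith)) (by rw [← hds]; exact hθ4) hT0 hT
    rw [← hqdef, ← hsq'] at hP
    have hc := hcav d k N' ex (h N') (h (N' + 1)) lab' sp' θ sq' (D * M) y₀ y hdl hdc hdm
      (by rw [hds]; exact hs0) (by rw [hds]; exact hsσ) hdκ0
      (by
        rw [hdκ, div_mul_eq_mul_div, div_le_iff₀ hMpos]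
        exact mul_le_mul_of_nonneg_left (by linarith) hκ.le) (by linarith)
      hex.1 hex.2.1 hseq h3 h4 hθ4 (hT.mag _) hy0 hy
    rw [← hx] at hc
    have e1 : Cc * (1 / √N') ≤ t ^ 3 / 3 := by
      refine le_trans ?_ hM5
      have : 0 < ε' / 2 * M := by positivity
      gcongr
      linarith
    have e2 : Cc * (t ^ 3 / (3 * (Cc + 1))) ≤ t ^ 3 / 3 := by
      rw [← mul_div_assoc, div_le_div_iff₀ (by positivity) (by positivity)]
      have : 0 < t ^ 3 := by positivity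
      nlinarith
    have e3 := mul_le_mul_of_nonneg_left hP hCc
    rw [hdκ] at hc
    refine le_trans (le_of_eq ?_) (hc.trans ?_)
    · rw [hdκ]; congr 1; ring
    · rw [mul_add, mul_add]; linarith
  -- the target fields
  have hxsum : ∑ l ∈ range (k + 1), x l ^ 2 ≤ (lam (Fin.last n) - lam 0) / η := by
    rw [← hex.1]
    refine le_trans (le_of_eq (Finset.sum_congr rfl fun l hl => ?_)) (sum_vv_le hlam ex hseq)
    rw [hx]
    exact Real.sq_sqrt (vv_nonneg hlam ex hseq (mem_range.1 hl).le)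
  choose bs hbs hbs' using fun j => hstab (k + 1) ex x hxsum (m j) (hmδ j)
  -- removal of a site
  have hsite : ∀ r : Fin N, ∀ l ∈ Icc 1 k,
      |tail ex k (qs (mLev ex (h N) (unif _)) (d.H (pat n N) (pat n N) θ) r) l -
        oT ex (bs (pat n N r)) x l| ≤ 3 * e / 4 := by
    obtain ⟨N', rfl⟩ : ∃ N', N = N' + 1 := ⟨N - 1, by omega⟩
    intro r l hl
    have hb1 : Bal (fun i : Fin N' => pat n (N' + 1) i.succ) 1 := by
      rw [pat_succ']; exact bal_pat n N'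
    have hcast : ((N' + 1 : ℕ) : ℝ) = N' + 1 := by push_cast; ring
    have hs' := hstep N' (pat n (N' + 1) ∘ Equiv.swap 0 r) (pat n (N' + 1)) (by linarith)
      (by rw [hcast]; linarith [(Nat.cast_nonneg n : (0 : ℝ) ≤ n)]) hb1
      (bal_perm (bal_pat n _) _) (fun θ' hθ' => by
        have := hnearstep N' (pat n (N' + 1) ∘ Equiv.swap 0 r) (pat n (N' + 1)) (by linarith)
          (by linarith) hb1 θ' hθ'
        rw [d.X_perm] at this
        rw [abs_sub_comm]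
        refine this.trans ?_
        rw [hCdef]; nlinarith)
    obtain ⟨a1, a2⟩ := self_cons ex (h (N' + 1)) _ _ _ x ht0 ht1 hs'
    obtain ⟨p1, p2⟩ := d.site_perm_L ex (h (N' + 1)) (pat n (N' + 1)) (pat n (N' + 1))
      (Equiv.swap 0 r) θ 0
    rw [Equiv.swap_apply_left] at p1 p2
    have a1' : |(mLev ex (h (N' + 1)) (unif _)).E0 (d.H (pat n (N' + 1)) (pat n (N' + 1)) θ) (Sg r) -
        oM ex (d.bL ex (h N') (pat n (N' + 1) ∘ Equiv.swap 0 r) (pat n (N' + 1)) θ) x| ≤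
        2 * (2 * t ^ 3) / t + 200 * t := by rw [← p1]; exact a1
    have a2' : |tail ex k (qs (mLev ex (h (N' + 1)) (unif _))
        (d.H (pat n (N' + 1)) (pat n (N' + 1)) θ) r) l -
        oT ex (d.bL ex (h N') (pat n (N' + 1) ∘ Equiv.swap 0 r) (pat n (N' + 1)) θ) x l| ≤
        4 * (2 * t ^ 3) / t ^ 2 + 400 * t := by
      rw [← funext p2]; exact a2 l hl
    have f1 : 2 * (2 * t ^ 3) / t + 200 * t ≤ ε₁ / 2 := by
      have : 2 * (2 * t ^ 3) / t = 4 * t * t := by field_simp; ring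
      rw [this]; nlinarith
    have f2 : 4 * (2 * t ^ 3) / t ^ 2 + 400 * t ≤ e / 2 := by
      have : 4 * (2 * t ^ 3) / t ^ 2 = 8 * t := by field_simp; ring
      rw [this]; linarith
    have hmag := (hapr s (κ / M) d k (N' + 1) ex (h (N' + 1)) (pat n (N' + 1)) (pat n (N' + 1)) θ hd
      hs0 hs1 (by positivity) (by rw [← hds]; exact hθ4)).2.2.2 r
    have hmag' := mag_close hMpos hε' hε₁ hCa hκdef.ge hN (by linarith)
      ((le_max_right _ _).trans hM2) (bal_pat n (N' + 1) (pat n (N' + 1) r)) hmag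
    have hb := hbs' (pat n (N' + 1) r)
      (d.bL ex (h N') (pat n (N' + 1) ∘ Equiv.swap 0 r) (pat n (N' + 1)) θ) (by
        have := abs_sub_le (oM ex (d.bL ex (h N') (pat n (N' + 1) ∘ Equiv.swap 0 r)
          (pat n (N' + 1)) θ) x) ((mLev ex (h (N' + 1)) (unif _)).E0
            (d.H (pat n (N' + 1)) (pat n (N' + 1)) θ) (Sg r)) (m (pat n (N' + 1) r))
        rw [abs_sub_comm] at a1'
        linarith)
    have hlip := oT_lip ex (d.bL ex (h N') (pat n (N' + 1) ∘ Equiv.swap 0 r) (pat n (N' + 1)) θ)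
      (bs (pat n (N' + 1) r)) x hl
    have := abs_sub_le (tail ex k (qs (mLev ex (h (N' + 1)) (unif _))
        (d.H (pat n (N' + 1)) (pat n (N' + 1)) θ) r) l)
      (oT ex (d.bL ex (h N') (pat n (N' + 1) ∘ Equiv.swap 0 r) (pat n (N' + 1)) θ) x l)
      (oT ex (bs (pat n (N' + 1) r)) x l)
    linarith
  have htail : ∀ l ∈ Icc 1 k, |tail ex k q l - (∑ j, oT ex (bs j) x l) / (n + 1)| ≤ e := by
    intro l hl
    have := tail_avg hN0 ex (pat n N) (bal_pat n N) q _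
      (fun e => by rw [hqdef]; exact qq_univ_site ex (h N) _ _ _ _ e)
      (fun j => oT ex (bs j) x l) (fun j => by
        have := T1.oT_mem ex (bs j) x (l := l) (by have := (mem_Icc.1 hl).2; omega)
        exact abs_le.2 ⟨by linarith [this.1], this.2⟩) l (fun r => hsite r l hl)
    refine this.trans ?_
    have h1 : ((n : ℝ) + 1) / N ≤ e / 4 := by
      rw [div_le_iff₀ hN0']
      have h2 : 4 * ((n : ℝ) + 1) / e ≤ N := by linarith
      rw [div_le_iff₀ he0] at h2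
      linarith
    linarith
  -- addition of sites
  have hchain : ∀ i : ℕ, i ≤ n + 1 → ∀ θ' : LP n, θ'.box k (d.s / 4) →
      |d.X ex (h (N + i)) (pat n (N + i)) (pat n (N + i)) θ' -
        d.X ex (h N) (pat n N) (pat n N) θ'| ≤ i * Cn := by
    intro i
    induction i with
    | zero => intro _ θ' _; simp
    | succ i ih =>
      intro hi θ' hθ'
      have hi' : (i : ℝ) + 1 ≤ n + 1 := by exact_mod_cast hi
      have h1 := hnearstep (N + i) (pat n (N + i + 1)) (pat n (N + i + 1))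
        (by push_cast; linarith [(Nat.cast_nonneg i : (0 : ℝ) ≤ i)]) (by push_cast; linarith)
        (by rw [pat_succ']; exact bal_pat n _) θ' hθ'
      rw [pat_succ'] at h1
      have h2 := ih (by omega) θ' hθ'
      have h3 := abs_sub_le (d.X ex (h (N + i + 1)) (pat n (N + i + 1)) (pat n (N + i + 1)) θ')
        (d.X ex (h (N + i)) (pat n (N + i)) (pat n (N + i)) θ') (d.X ex (h N) (pat n N) (pat n N) θ')
      push_cast
      exact h3.trans (by linarith)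
  obtain ⟨eqv, heqv⟩ := exists_equiv n N
  have hadd : ∀ i : Fin (n + 1), ∃ b : ℝ,
      c (eqv i) * m (eqv i) + (cst lam ex k sq' (eqv i) + oX ex b x 0 - b * m (eqv i)) - ε / 2 ≤
        d.X ex (h (N + (i + 1))) (pat n (N + (i + 1))) (pat n (N + (i + 1))) θ -
          d.X ex (h (N + i)) (pat n (N + i)) (pat n (N + i)) θ := by
    intro i
    have hi : ((i : ℕ) : ℝ) ≤ n := by exact_mod_cast Nat.lt_succ_iff.1 i.2
    have h1 := hstep (N + i) (pat n (N + i + 1)) (pat n (N + i + 1))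
      (by push_cast; linarith [(Nat.cast_nonneg (i : ℕ) : (0 : ℝ) ≤ (i : ℕ))])
      (by push_cast; linarith) (by rw [pat_succ']; exact bal_pat n _) (bal_pat n _)
      (fun θ' hθ' => by
        rw [pat_succ']
        refine (hchain i (by omega) θ' hθ').trans ?_
        rw [hCdef]; gcongr; linarith) 0 0 rfl (by simp)
    rw [X0_He_zero, pat_succ', heqv, add_zero] at h1
    refine ⟨d.bL ex (h (N + i)) (pat n (N + i + 1)) (pat n (N + i + 1)) θ, ?_⟩
    have h2 := (abs_le.1 h1).1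
    have hβ : |θ.β (eqv i) * m (eqv i)| ≤ ε / 4 := by
      rw [abs_mul]
      have := hθ4.2.2 (eqv i)
      rw [hds] at this
      nlinarith [abs_nonneg (θ.β (eqv i)), hm1 (eqv i), abs_nonneg (m (eqv i))]
    have h3 : d.bL ex (h (N + i)) (pat n (N + i + 1)) (pat n (N + i + 1)) θ = c (eqv i) +
        θ.β (eqv i) - 2 * d.κ * d.Tbar ex (h (N + i)) (pat n (N + i + 1)) (pat n (N + i + 1)) θ := by
      rw [LD.bL, heqv, hdc]
    have h4 : 2 * t ^ 3 ≤ ε / 4 := by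
      have : t ^ 3 ≤ t := by
        calc t ^ 3 ≤ t ^ 1 := pow_le_pow_of_le_one ht0.le ht1 (by norm_num)
          _ = t := pow_one t
      linarith
    have h5 := (abs_le.1 hβ).1
    change _ ≤ (mLev ex (h (N + i + 1)) (unif _)).X0
      (Hm (fun r => d.lamP θ (pat n (N + i + 1) r)) (fun l r => d.xP θ l (pat n (N + i + 1) r))
        (d.wt θ (pat n (N + i + 1)))) - _
    have h6 : d.bL ex (h (N + i)) (pat n (N + i + 1)) (pat n (N + i + 1)) θ * m (eqv i) =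
        c (eqv i) * m (eqv i) + θ.β (eqv i) * m (eqv i) -
          2 * d.κ * d.Tbar ex (h (N + i)) (pat n (N + i + 1)) (pat n (N + i + 1)) θ * m (eqv i) := by
      rw [h3]; ring
    linarith
  choose b hb using hadd
  have hfin' := hfin m s₀ hs k ex q x bs (fun j => b (eqv.symm j)) e hex.1 hq (by rw [hx, hsq'])
    he0.le hbs htail
  rw [← hsq', ← Equiv.sum_comp eqv] at hfin'
  simp only [Equiv.symm_apply_apply] at hfin'
  have hsum := Finset.sum_le_sum fun i (_ : i ∈ univ) => hb i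
  rw [Fin.sum_univ_eq_sum_range (fun i => d.X ex (h (N + (i + 1))) (pat n (N + (i + 1)))
      (pat n (N + (i + 1))) θ - d.X ex (h (N + i)) (pat n (N + i)) (pat n (N + i)) θ) (n + 1),
    Finset.sum_range_sub (fun i => d.X ex (h (N + i)) (pat n (N + i)) (pat n (N + i)) θ),
    Finset.sum_sub_distrib, Finset.sum_add_distrib, Equiv.sum_comp eqv (fun j => c j * m j)] at hsum
  simp only [Finset.sum_const, card_univ, Fintype.card_fin, nsmul_eq_mul] at hsum
  push_cast at hsum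
  have h7 : (n + 1) * (s₀ - ε / 2) ≤ ∑ i, (cst lam ex k sq' (eqv i) + oX ex (b i) x 0 - b i * m (eqv i)) := by
    rw [mul_comm, ← le_div_iff₀ hn1]
    linarith
  change _ ≤ _ - d.X ex (h N) (pat n N) (pat n N) θ at hsum
  linarith

end Crest.Agent.R164
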