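import Crest.Agent.R164.CavDefs

/-! # Row 164: the perturbed and softly constrained systems of the lower bound -/

set_option autoImplicit false

namespace Crest.Agent.R164

open MeasureTheory ProbabilityTheory Real Finset Crest.ProbabilityR.InvariantGlass

/-- Perturbation parameters. -/
structure LP (n : ℕ) where
  u : ℕ → Fin (n + 1) → ℝ
  w : Fin (n + 1) → ℝ
  β : Fin (n + 1) → ℝ

noncomputable def LP.pen {n : ℕ} (θ : LP n) (k : ℕ) : ℝ :=
  ∑ l ∈ Icc 1 k, ∑ a, θ.u l a ^ 2 + ∑ a, θ.w a ^ 2 + ∑ a, θ.β a ^ 2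

def LP.box {n : ℕ} (θ : LP n) (k : ℕ) (r : ℝ) : Prop :=
  (∀ l ∈ Icc 1 k, ∀ a, |θ.u l a| ≤ r) ∧ (∀ a, |θ.w a| ≤ r) ∧ ∀ a, |θ.β a| ≤ r

/-- Fixed data: eigenvalues, fields, target magnetisations, size `s` of the perturbation, strength
`κ` of the soft constraint. -/
structure LD (n : ℕ) where
  lam : Fin (n + 1) → ℝ
  c : Fin (n + 1) → ℝ
  m : Fin (n + 1) → ℝ
  s : ℝ
  κ : ℝ

namespace LD

variable {n : ℕ} (d : LD n)

noncomputable def lamP (θ : LP n) (a : Fin (n + 1)) : ℝ := d.lam a + d.s * (a : ℕ) + θ.w a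

noncomputable def xP (θ : LP n) (l : ℕ) (a : Fin (n + 1)) : ℝ := d.s * (1 + (a : ℕ)) + θ.u l a

/-- Deviation of the magnetisation of group `j`. -/
noncomputable def dev {N : ℕ} (lab : Fin N → Fin (n + 1)) (j : Fin (n + 1)) (σ : Fin N → Bool) : ℝ :=
  mag lab j σ - (blk lab j).card * d.m j

noncomputable def wt (θ : LP n) {N : ℕ} (lab : Fin N → Fin (n + 1)) (σ : Fin N → Bool) : ℝ :=
  ∑ r, (d.c (lab r) + θ.β (lab r)) * sg (σ r) - d.κ * ∑ j, d.dev lab j σ ^ 2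

noncomputable def H {k N : ℕ} (lab sp : Fin N → Fin (n + 1)) (θ : LP n) : Cfg (k + 2) (Om N) → ℝ :=
  Hm (fun i => d.lamP θ (sp i)) (fun l i => d.xP θ l (sp i)) (d.wt θ lab)

noncomputable def X {k N : ℕ} (ex : Expo (k + 2)) (h : Haar N) (lab sp : Fin N → Fin (n + 1))
    (θ : LP n) : ℝ := (mLev ex h (unif _)).X0 (d.H lab sp θ)

/-- `θ` almost maximises the penalised value. -/
def NearMax {k N : ℕ} (ex : Expo (k + 2)) (h : Haar N) (lab sp : Fin N → Fin (n + 1)) (A : ℝ)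
    (θ : LP n) : Prop := θ.box k (d.s / 4) ∧ ∀ θ' : LP n, θ'.box k (d.s / 4) →
      d.X ex h lab sp θ' - A * θ'.pen k ≤ d.X ex h lab sp θ - A * θ.pen k + 1

/-- Means and variances of all perturbation directions are controlled. -/
structure Touch {k N : ℕ} (ex : Expo (k + 2)) (h : Haar N) (lab sp : Fin N → Fin (n + 1)) (θ : LP n)
    (A D M : ℝ) : Prop where
  fld : ∀ l ∈ Icc 1 k, ∀ a,
    |(mLev ex h (unif _)).E0 (d.H lab sp θ) (fun ω => ∑ i ∈ blk sp a, gl l i ω * Y i ω) -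
        2 * A * θ.u l a| ≤ D * √M ∧
      (mLev ex h (unif _)).Var (d.H lab sp θ) (fun ω => ∑ i ∈ blk sp a, gl l i ω * Y i ω) ≤ D * M
  eig : ∀ a,
    |(mLev ex h (unif _)).E0 (d.H lab sp θ) (fun ω => ∑ i ∈ blk sp a, Y i ω ^ 2) - 4 * A * θ.w a| ≤
        D * √M ∧
      (mLev ex h (unif _)).Var (d.H lab sp θ) (fun ω => ∑ i ∈ blk sp a, Y i ω ^ 2) ≤ D * M
  mag : ∀ j, (mLev ex h (unif _)).Var (d.H lab sp θ) (fun ω => d.dev lab j (spn ω)) ≤ D * M

/-- Mean deviation of the group of the added site in the base system. -/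
noncomputable def Tbar {k N : ℕ} (ex : Expo (k + 2)) (h : Haar N) (lab' sp' : Fin (N + 1) → Fin (n + 1))
    (θ : LP n) : ℝ :=
  (mLev ex h (unif _)).E0 (d.H (fun r => lab' r.succ) (fun i => sp' i.succ) θ)
    fun ω => d.dev (fun r => lab' r.succ) (lab' 0) (spn ω)

/-- The effective field on the added site. -/
noncomputable def bL {k N : ℕ} (ex : Expo (k + 2)) (h : Haar N) (lab' sp' : Fin (N + 1) → Fin (n + 1))
    (θ : LP n) : ℝ := d.c (lab' 0) + θ.β (lab' 0) - 2 * d.κ * d.Tbar ex h lab' sp' θ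

end LD

end Crest.Agent.R164
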