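import Crest.Agent.R164.LowBlock

/-! # Row 164: the lower bound on small moments of the partition function -/

set_option autoImplicit false

namespace Crest.Agent.R164

open MeasureTheory ProbabilityTheory Real Finset Crest.ProbabilityR.InvariantGlass

namespace LowerAux

lemma pen_nonneg {n : ℕ} (θ : LP n) (k : ℕ) : 0 ≤ θ.pen k := by
  unfold LP.pen
  positivity

lemma pen_zero (n k : ℕ) : (⟨0, 0, 0⟩ : LP n).pen k = 0 := by simp [LP.pen]

lemma box_zero (n k : ℕ) {r : ℝ} (hr : 0 ≤ r) : (⟨0, 0, 0⟩ : LP n).box k r := by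
  simp [LP.box, hr]

/-- The value without Gaussian fields is a moment of the partition function. -/
lemma exp_X0_eq {k N : ℕ} (hN : 0 < N) (ex : Expo (k + 2)) (h : Haar N) (lam c : Fin N → ℝ) :
    exp (ex.ζ 0 * (mLev ex h (unif _)).X0 (Hm lam 0 fun σ => ∑ r, c r * sg (σ r))) =
      ∫ U, exp (ex.ζ 0 * N * pressureFieldN lam U.1 c) ∂h.κ := by
  rw [exp_X0_Hm_zero]
  refine integral_congr_ae (Filter.Eventually.of_forall fun U => ?_)
  have hN' : (N : ℝ) ≠ 0 := by positivity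
  have e : ∫ σ, exp (∑ i, lam i * yv U σ i ^ 2 / 2 + ∑ r, c r * sg (σ r)) ∂unif (Fin N → Bool) =
      (1 / 2) ^ N * ∑ σ : Fin N → Bool,
        exp ((1 / 2) * (∑ i : Fin N, lam i * (U.1.mulVec (spinVec σ) i) ^ 2) +
          ∑ r : Fin N, c r * spinVec σ r) := by
    rw [unif, integral_unifOn, card_univ, Fintype.card_fun, Fintype.card_bool, Fintype.card_fin,
      div_eq_inv_mul, one_div, inv_pow]
    push_cast
    congr 1
    refine sum_congr rfl fun σ _ => ?_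
    rw [← sum_div, div_eq_inv_mul]
    rfl
  have hpos : (0 : ℝ) < (1 / 2) ^ N * ∑ σ : Fin N → Bool,
        exp ((1 / 2) * (∑ i : Fin N, lam i * (U.1.mulVec (spinVec σ) i) ^ 2) +
          ∑ r : Fin N, c r * spinVec σ r) :=
    mul_pos (by positivity) (sum_pos (fun _ _ => exp_pos _) univ_nonempty)
  simp only
  rw [e, rpow_def_of_pos hpos, pressureFieldN]
  congr 1
  field_simp

/-- Iteration of a one-block gain. -/
lemma iterate {f : ℕ → ℝ} {b N₁ i : ℕ} {g : ℝ}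
    (hstep : ∀ N, N₁ ≤ N → N + b ≤ N₁ + i * b → f N + b * g ≤ f (N + b)) :
    f N₁ + (i * b : ℕ) * g ≤ f (N₁ + i * b) := by
  have key : ∀ j ≤ i, f N₁ + (j * b : ℕ) * g ≤ f (N₁ + j * b) := by
    intro j hj
    induction j with
    | zero => simp
    | succ j ih =>
      have h1 := ih (by omega)
      have h2 := hstep (N₁ + j * b) (by omega) (by
        have := Nat.mul_le_mul_right b hj
        rw [Nat.succ_mul] at this
        omega)
      rw [Nat.succ_mul, ← add_assoc]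
      push_cast at h1 h2 ⊢
      linarith
  exact key i le_rfl

end LowerAux

open LowerAux in
theorem lower_moment {n : ℕ} (hn : 1 ≤ n) {lam : Fin (n + 1) → ℝ} (hlam : Monotone lam)
    (c m : Fin (n + 1) → ℝ) (hm : ∀ j, |m j| < 1) {s₀ : ℝ}
    (hs : ∀ p s', IsTrialPath p → SLe (fun _ => 1 / ((n : ℝ) + 1)) m p s' →
      s₀ ≤ s' + spectralPart (muf lam) (lam (Fin.last n)) p)
    (h : ∀ N, Haar N) {η : ℝ} (hη0 : 0 < η) (hη1 : η < 1) {ε : ℝ} (hε : 0 < ε) :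
    ∀ᶠ N : ℕ in Filter.atTop, exp (η * N * ((∑ j, c j * m j) / (n + 1) + s₀ - ε)) ≤
      ∫ U, exp (η * N * pressureFieldN (fun i => lam (pat n N i)) U.1 fun r => c (pat n N r)) ∂(h N).κ := by
  obtain ⟨C, hC, hap⟩ := apriori lam c m fun j => (hm j).le
  set G : ℝ := (∑ j, c j * m j) / (n + 1) + s₀ with hG
  set δ : ℝ := min (ε / 10) 1 with hδ
  have hδ0 : 0 < δ := lt_min (by positivity) one_pos
  have hδ1 : δ ≤ 1 := min_le_right _ _
  have hδε : δ ≤ ε / 10 := min_le_left _ _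
  have hGC : 0 < |G| + C + 1 := by positivity
  set ε' : ℝ := δ / (|G| + C + 1) with hε'
  have hε'0 : 0 < ε' := by positivity
  have hε'δ : ε' * (|G| + C + 1) = δ := div_mul_cancel₀ _ hGC.ne'
  have hε'1 : ε' ≤ 1 := by nlinarith [abs_nonneg G]
  obtain ⟨κ, s, K, k, hκ, hs0, hK, hk, hks, M₀, hblock⟩ := block hn hlam c m hm hs h hη0 hη1 hδ0 hε'0
  obtain ⟨ex, hex⟩ := exists_grid hη0 hη1 hk
  have hev : ∀ᶠ M : ℕ in Filter.atTop, (n + 1) * (|G| + C + 4 * κ) / δ ≤ (M : ℝ) :=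
    tendsto_natCast_atTop_atTop.eventually_ge_atTop _
  filter_upwards [hev, Filter.eventually_ge_atTop M₀, Filter.eventually_ge_atTop 1] with M hM hM0 hM1
  rw [div_le_iff₀ hδ0] at hM
  have hMr : (1 : ℝ) ≤ M := by exact_mod_cast hM1
  have hκM : 0 ≤ κ / M := by positivity
  let d : LD n := ⟨lam, c, m, s, κ / M⟩
  let g : ℕ → LP n → ℝ := fun N θ => d.X ex (h N) (pat n N) (pat n N) θ
  let S : ℕ → Set ℝ := fun N => {x | ∃ θ : LP n, θ.box k (s / 4) ∧ x = g N θ - M * K * θ.pen k}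
  have hap' := fun N θ (hθ : LP.box θ k (s / 4)) =>
    hap s (κ / M) d k N ex (h N) (pat n N) (pat n N) θ rfl hs0 (hks.trans hδ1) hκM hθ
  have hpen : ∀ θ : LP n, 0 ≤ M * K * θ.pen k := fun θ => by
    have := pen_nonneg θ k
    positivity
  have hne : ∀ N, (S N).Nonempty := fun N => ⟨_, ⟨0, 0, 0⟩, box_zero n k (by positivity), rfl⟩
  have hbd : ∀ N, BddAbove (S N) := fun N => ⟨C * N, by
    rintro _ ⟨θ, hθ, rfl⟩
    have := (hap' N θ hθ).2.1
    linarith [hpen θ]⟩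
  have hle : ∀ N θ, LP.box θ k (s / 4) → g N θ - M * K * θ.pen k ≤ sSup (S N) := fun N θ hθ =>
    le_csSup (hbd N) ⟨θ, hθ, rfl⟩
  have hstep : ∀ N : ℕ, ε' * M ≤ N → N + (n + 1) ≤ M →
      sSup (S N) + ((n + 1 : ℕ) : ℝ) * (G - 2 * δ) ≤ sSup (S (N + (n + 1))) := by
    intro N h1 h2
    obtain ⟨_, ⟨θ, hθ, rfl⟩, hx⟩ := exists_lt_of_lt_csSup (hne N)
      (show sSup (S N) - δ < sSup (S N) by linarith)
    have hnear : d.NearMax ex (h N) (pat n N) (pat n N) (M * K) θ :=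
      ⟨hθ, fun θ' hθ' => by linarith [hle N θ' hθ']⟩
    have h3 := hblock M N ex d θ hM0 h1 h2 hex rfl hnear
    have h4 := hle (N + (n + 1)) θ hθ
    have h5 : ((n + 1 : ℕ) : ℝ) * G = ∑ j, c j * m j + (n + 1) * s₀ := by
      rw [hG]; push_cast; field_simp
    have h6 : (0 : ℝ) ≤ n * δ := by positivity
    push_cast at h5 ⊢
    simp only [g] at hx h4
    nlinarith
  have ha : ⌈ε' * M⌉₊ ≤ M := Nat.ceil_le.2 (by nlinarith)
  obtain ⟨N₁, i, hN₁, hlo, hhi⟩ : ∃ N₁ i : ℕ, N₁ + i * (n + 1) = M ∧ ε' * M ≤ N₁ ∧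
      (N₁ : ℝ) ≤ ε' * M + (n + 1) := by
    refine ⟨⌈ε' * M⌉₊ + (M - ⌈ε' * M⌉₊) % (n + 1), (M - ⌈ε' * M⌉₊) / (n + 1), ?_, ?_, ?_⟩
    · have := Nat.mod_add_div' (M - ⌈ε' * M⌉₊) (n + 1)
      omega
    · push_cast
      have := Nat.le_ceil (ε' * M)
      have : (0 : ℝ) ≤ ((M - ⌈ε' * M⌉₊) % (n + 1) : ℕ) := Nat.cast_nonneg _
      linarith
    · have h1 : (((M - ⌈ε' * M⌉₊) % (n + 1) : ℕ) : ℝ) ≤ n := by
        exact_mod_cast Nat.lt_succ_iff.1 (Nat.mod_lt _ (Nat.succ_pos n))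
      have h2 := (Nat.ceil_lt_add_one (show 0 ≤ ε' * M by positivity)).le
      rw [Nat.cast_add]
      linarith
  have hit := iterate (f := fun N => sSup (S N)) (b := n + 1) (N₁ := N₁) (i := i) (g := G - 2 * δ)
    fun N h1 h2 => hstep N (hlo.trans (by exact_mod_cast h1)) (hN₁ ▸ h2)
  have hcast : ((i * (n + 1) : ℕ) : ℝ) = M - N₁ := by
    rw [← hN₁]; push_cast; ring
  rw [hN₁, hcast] at hit
  have hlow : -(C * N₁ + 4 * κ * (n + 1)) ≤ sSup (S N₁) := by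
    have h1 := hle N₁ _ (box_zero n k (by positivity))
    have h2 := (hap' N₁ _ (box_zero n k (by positivity))).1
    rw [pen_zero, mul_zero, sub_zero] at h1
    have h3 : κ / M ≤ κ := div_le_self hκ.le hMr
    have h4 : 4 * (κ / M) * (n + 1) ≤ 4 * κ * (n + 1) := by gcongr
    simp only [g] at h1
    linarith
  have hup : sSup (S M) ≤ (mLev ex (h M) (unif _)).X0
      (Hm (fun i => lam (pat n M i)) 0 fun σ => ∑ r, c (pat n M r) * sg (σ r)) + 3 * δ * M := by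
    refine csSup_le (hne M) ?_
    rintro _ ⟨θ, hθ, rfl⟩
    have h1 := (hap' M θ hθ).2.2.1
    have h2 : 3 * ((k + 1) * (n + 2) * s) * (M : ℝ) ≤ 3 * δ * M := by gcongr
    simp only [g]
    linarith [hpen θ]
  have hz : ex.ζ 0 = η := hex.1
  rw [← hz, ← exp_X0_eq hM1, hz, mul_assoc]
  refine exp_le_exp.2 (mul_le_mul_of_nonneg_left ?_ hη0.le)
  have hN0 : (0 : ℝ) ≤ N₁ := Nat.cast_nonneg _
  have h1 : (N₁ : ℝ) * (G - 2 * δ + C) ≤ N₁ * (|G| + C) := by
    have := le_abs_self G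
    exact mul_le_mul_of_nonneg_left (by linarith) hN0
  have h2 : (N₁ : ℝ) * (|G| + C) ≤ (ε' * M + (n + 1)) * (|G| + C) :=
    mul_le_mul_of_nonneg_right hhi (by positivity)
  have h3 : ε' * M * (|G| + C) ≤ δ * M := by
    rw [← hε'δ]
    nlinarith [mul_pos hε'0 (by linarith : (0 : ℝ) < M)]
  have h4 : 7 * δ * M ≤ ε * M := mul_le_mul_of_nonneg_right (by linarith) (by linarith)
  nlinarith

end Crest.Agent.R164
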