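import Crest.Agent.R164.MainA
import Crest.Agent.R164.FinLow

/-! # Row 164: finite alphabets, general spectrum -/

set_option autoImplicit false

namespace Crest.Agent.R164

open MeasureTheory ProbabilityTheory Real Finset Crest.ProbabilityR.InvariantGlass

namespace M48

open Filter

lemma tendsto_pat (n : ℕ) (a : Fin (n + 1)) :
    Tendsto (fun N : ℕ => ((blk (pat n N) a).card : ℝ) / N) atTop (nhds (1 / ((n : ℝ) + 1))) := by
  rw [tendsto_iff_norm_sub_tendsto_zero]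
  refine squeeze_zero' (Eventually.of_forall fun _ => norm_nonneg _) ?_
    tendsto_one_div_atTop_nhds_zero_nat
  filter_upwards [eventually_gt_atTop 0] with N hN
  have hN' : (0 : ℝ) < N := by exact_mod_cast hN
  have h1 : ((blk (pat n N) a).card : ℝ) / N - 1 / ((n : ℝ) + 1) =
      (((blk (pat n N) a).card : ℝ) - N / (n + 1)) / N := by field_simp
  rw [Real.norm_eq_abs, h1, abs_div, abs_of_pos hN']
  exact div_le_div_of_nonneg_right (bal_pat n N a) hN'.le

lemma card_blk_comp {N n J : ℕ} (τ : Fin n → Fin J) (sp : Fin N → Fin n) (j : Fin J) :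
    (blk (fun r => τ (sp r)) j).card = ∑ a ∈ blk τ j, (blk sp a).card := by
  rw [card_eq_sum_card_fiberwise (f := sp) (t := blk τ j) fun r hr => by simpa [blk] using hr]
  refine sum_congr rfl fun a ha => congrArg card ?_
  ext r
  have ha' : τ a = j := by simpa [blk] using ha
  simp only [blk, mem_filter, mem_univ, true_and, and_iff_right_iff_imp]
  rintro rfl
  exact ha'

lemma tendsto_lab {n J : ℕ} {γ : Fin J → ℚ} {τ : Fin (n + 1) → Fin J}
    (hτ : ∀ j, ((blk τ j).card : ℚ) = γ j * (n + 1)) (j : Fin J) :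
    Tendsto (fun N : ℕ => ((blk (fun r => τ (pat n N r)) j).card : ℝ) / N) atTop
      (nhds ((γ j : ℚ) : ℝ)) := by
  have h1 := tendsto_finsetSum (blk τ j) fun a _ => tendsto_pat n a
  have h2 : ((blk τ j).card : ℝ) = (γ j : ℝ) * (n + 1) := by exact_mod_cast hτ j
  have h3 : ∑ _a ∈ blk τ j, 1 / ((n : ℝ) + 1) = γ j := by
    rw [sum_const, nsmul_eq_mul, h2]
    field_simp
  rw [h3] at h1
  refine h1.congr fun N => ?_
  rw [card_blk_comp, Nat.cast_sum, sum_div]

lemma sum_abs_le {N J : ℕ} (cval : Fin J → ℝ) (l l' : Fin N → Fin J) :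
    ∑ r, |cval (l r) - cval (l' r)| ≤
      2 * (∑ j, |cval j|) * ((univ.filter fun r => l r ≠ l' r).card : ℝ) := by
  have hb : ∀ j, |cval j| ≤ ∑ j, |cval j| := fun j =>
    single_le_sum (f := fun j => |cval j|) (fun _ _ => abs_nonneg _) (mem_univ j)
  rw [card_filter, Nat.cast_sum, mul_sum]
  refine sum_le_sum fun r _ => ?_
  split_ifs with h
  · have := abs_sub (cval (l r)) (cval (l' r))
    have h1 := hb (l r)
    have h2 := hb (l' r)
    push_cast
    linarith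
  · rw [not_not.1 h]
    simp

variable {μ : Measure ℝ} [IsProbabilityMeasure μ] {lo hi : ℝ} {eig : (N : ℕ) → Fin N → ℝ}
  (hs : SpecHyp μ lo hi eig) {J : ℕ} (cval : Fin J → ℝ) {γ : Fin J → ℚ} (hγ : ∀ j, 0 < γ j)
  (hγ1 : ∑ j, γ j = 1) (lab : (N : ℕ) → Fin N → Fin J)
  (hlab : ∀ j, Tendsto (fun N : ℕ => ((blk (lab N) j).card : ℝ) / N) atTop (nhds ((γ j : ℚ) : ℝ)))
  (h : ∀ N, Haar N) {F : ℝ} (hF : magneticValue μ hi cval γ = (F : EReal))

include hs hγ hγ1 hlab hF

lemma upper {ε : ℝ} (hε : 0 < ε) : ∃ a : ℝ, 0 < a ∧ ∀ᶠ N : ℕ in atTop,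
    (h N).κ.real {U | pressureFieldN (eig N) U.1 (fun r => cval (lab N r)) ∈ Set.Ici (F + ε)} ≤
      exp (-a * N) := by
  obtain ⟨n, hn⟩ := exists_upper_spec μ hs.le hs.supp (half_pos hε)
  obtain ⟨lam, hlam, h1, h2⟩ := hn n le_rfl
  have h3 := magneticValue_le_add h1 cval γ
  rw [hF, ← EReal.coe_add] at h3
  obtain ⟨a, ha, h4⟩ := fin_upper hlam cval hγ hγ1 h (pat n) (bal_pat n) lab hlab (F := F + ε)
    (h3.trans_lt (EReal.coe_lt_coe_iff.2 (by linarith)))
  refine ⟨a, ha, ?_⟩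
  filter_upwards [h4, h2 eig hs.weak hs.ext (pat n) (bal_pat n)] with N h5 ⟨σ, hσ⟩
  rw [← law_perm (h N) _ _ σ 1 measurableSet_Ici]
  refine le_trans (measureReal_mono (fun U hU => ?_)) h5
  exact le_trans hU (pressure_mono_eig hσ _ _)

lemma lower {ε : ℝ} (hε : 0 < ε) : ∃ a : ℝ, 0 < a ∧ ∀ᶠ N : ℕ in atTop,
    (h N).κ.real {U | pressureFieldN (eig N) U.1 (fun r => cval (lab N r)) ∈ Set.Iic (F - ε)} ≤
      exp (-a * N) := by
  obtain ⟨n₀, hn₀⟩ := exists_lower_spec μ hs.le hs.supp hs.edge (ε := ε / 4) (by positivity)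
  obtain ⟨n, hn, τ, hτ⟩ := exists_group_map hγ hγ1 (max n₀ 1)
  obtain ⟨lam, hlam, h1, h2⟩ := hn₀ n (le_of_max_le_left hn)
  have h3 := magneticValue_le_add h1 cval γ
  rw [hF] at h3
  obtain ⟨a, ha, h4⟩ := fin_lower (le_of_max_le_right hn) hlam cval hγ τ hτ h (F := F - ε / 2) (by
    by_contra h5
    have h6 := h3.trans (add_le_add_left (not_lt.1 h5) _)
    rw [← EReal.coe_add, EReal.coe_le_coe_iff] at h6
    linarith)
  have h5 : Tendsto (fun N : ℕ => 2 * (∑ j, |cval j|) * ∑ j,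
      |((blk (lab N) j).card : ℝ) / N - ((blk (fun r => τ (pat n N r)) j).card : ℝ) / N|) atTop
      (nhds 0) := by
    simpa using (tendsto_finsetSum univ fun j _ =>
      ((hlab j).sub (tendsto_lab hτ j)).abs).const_mul (2 * ∑ j, |cval j|)
  refine ⟨a, ha, ?_⟩
  filter_upwards [h4, h2 eig hs.weak hs.ext (pat n) (bal_pat n),
    h5.eventually (eventually_le_nhds (half_pos hε))] with N h6 ⟨σ, hσ⟩ h7
  obtain ⟨ρ, hρ⟩ := exists_perm_mismatch (lab N) (fun r => τ (pat n N r))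
  rw [← law_perm (h N) _ _ σ ρ measurableSet_Iic]
  refine le_trans (measureReal_mono (fun U hU => ?_)) h6
  have h8 : pressureFieldN (eig N ∘ σ) U.1 (fun r => cval (lab N (ρ r))) ≤ F - ε := hU
  have h9 := pressure_mono_eig (eig' := eig N ∘ σ) hσ U.1 (fun r => cval (τ (pat n N r)))
  have h10 := abs_pressure_sub_le (eig N ∘ σ) U.1 (fun r => cval (lab N (ρ r)))
    (fun r => cval (τ (pat n N r)))
  have h11 := (sum_abs_le cval (fun r => lab N (ρ r)) (fun r => τ (pat n N r))).trans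
    (mul_le_mul_of_nonneg_left hρ (by positivity))
  have h12 := div_le_div_of_nonneg_right h11 (Nat.cast_nonneg (α := ℝ) N)
  simp only [← sub_div, abs_div, Nat.abs_cast, ← sum_div, ← mul_div_assoc] at h7
  show pressureFieldN _ _ _ ≤ F - ε / 2
  linarith [(abs_le.1 (h10.trans (h12.trans h7))).1]

end M48

theorem expConv_finite {μ : Measure ℝ} [IsProbabilityMeasure μ] {lo hi : ℝ}
    {eig : (N : ℕ) → Fin N → ℝ} (hs : SpecHyp μ lo hi eig) {J : ℕ} (cval : Fin J → ℝ)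
    {γ : Fin J → ℚ} (hγ : ∀ j, 0 < γ j) (hγ1 : ∑ j, γ j = 1) (lab : (N : ℕ) → Fin N → Fin J)
    (hlab : ∀ j, Filter.Tendsto (fun N : ℕ => ((blk (lab N) j).card : ℝ) / N) Filter.atTop
      (nhds ((γ j : ℚ) : ℝ))) (h : ∀ N, Haar N) {F : ℝ}
    (hF : magneticValue μ hi cval γ = (F : EReal)) :
    ExpConv h eig (fun N r => cval (lab N r)) F := by
  intro ε hε
  obtain ⟨a, ha, h1⟩ := M48.upper hs cval hγ hγ1 lab hlab h hF hε
  obtain ⟨b, hb, h2⟩ := M48.lower hs cval hγ hγ1 lab hlab h hF hε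
  have hm : 0 < min a b / 2 := half_pos (lt_min ha hb)
  refine ⟨min a b / 2, hm, ?_⟩
  filter_upwards [h1, h2, (tendsto_natCast_atTop_atTop.const_mul_atTop hm).eventually_ge_atTop 1]
    with N h3 h4 h5
  have hN : (0 : ℝ) ≤ N := Nat.cast_nonneg N
  have h6 : exp (-a * N) ≤ exp (-(min a b) * N) :=
    exp_le_exp.2 (mul_le_mul_of_nonneg_right (neg_le_neg (min_le_left _ _)) hN)
  have h7 : exp (-b * N) ≤ exp (-(min a b) * N) :=
    exp_le_exp.2 (mul_le_mul_of_nonneg_right (neg_le_neg (min_le_right _ _)) hN)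
  have h8 : exp (-(min a b / 2) * N) = exp (min a b / 2 * N) * exp (-(min a b) * N) := by
    rw [← exp_add]
    congr 1
    ring
  have h9 : 2 ≤ exp (min a b / 2 * N) := by linarith [add_one_le_exp (min a b / 2 * N)]
  have h10 := mul_le_mul_of_nonneg_right h9 (exp_pos (-(min a b) * N)).le
  refine le_trans (le_trans (measureReal_mono (fun U hU => ?_)) (measureReal_union_le _ _))
    ((add_le_add h3 h4).trans (by linarith))
  rcases le_abs.1 (show ε ≤ |_| from hU) with h11 | h11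
  · exact Or.inl (show F + ε ≤ _ by linarith)
  · exact Or.inr (show _ ≤ F - ε by linarith)

/-- Periodic labellings with prescribed proportions. -/
lemma exists_lab {J : ℕ} {γ : Fin J → ℚ} (hγ : ∀ j, 0 < γ j) (hγ1 : ∑ j, γ j = 1) :
    ∃ lab : (N : ℕ) → Fin N → Fin J, ∀ j, Filter.Tendsto
      (fun N : ℕ => ((blk (lab N) j).card : ℝ) / N) Filter.atTop (nhds ((γ j : ℚ) : ℝ)) := by
  obtain ⟨n, -, τ, hτ⟩ := exists_group_map hγ hγ1 0
  exact ⟨fun N r => τ (pat n N r), M48.tendsto_lab hτ⟩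

end Crest.Agent.R164
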