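import Crest.Agent.R164.ModelDefs

/-! # Row 164: the `L¹` distance of distribution functions -/

set_option autoImplicit false

namespace Crest.Agent.R164

open MeasureTheory ProbabilityTheory Real Finset Crest.ProbabilityR.InvariantGlass

/-- `L¹` distance of the distribution functions. -/
noncomputable def cdfDist (ν ν' : Measure ℝ) : ENNReal :=
  ∫⁻ t, ‖ν.real (Set.Iic t) - ν'.real (Set.Iic t)‖ₑ

/-- The law of a finite alphabet. -/
noncomputable def alaw {J : ℕ} (cval : Fin J → ℝ) (γ : Fin J → ℚ) : Measure ℝ :=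
  ∑ j : Fin J, ENNReal.ofReal ((γ j : ℚ) : ℝ) • Measure.dirac (cval j)

namespace Transport

lemma meas_cdf (ν : Measure ℝ) [IsFiniteMeasure ν] : Measurable fun t => ν.real (Set.Iic t) :=
  Monotone.measurable fun _ _ hab => measureReal_mono (Set.Iic_subset_Iic.2 hab)

/-- Distribution function of a point mass. -/
noncomputable def ind (x t : ℝ) : ℝ := if x ≤ t then 1 else 0

lemma meas_ind₂ : Measurable fun p : ℝ × ℝ => ind p.1 p.2 :=
  Measurable.ite (measurableSet_le measurable_fst measurable_snd) measurable_const measurable_const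

lemma meas_ind (x : ℝ) : Measurable (ind x) :=
  Measurable.ite (measurableSet_le measurable_const measurable_id) measurable_const measurable_const

lemma lint_ind_aux {x y : ℝ} (h : x ≤ y) : ∫⁻ t, ‖ind x t - ind y t‖ₑ = ‖x - y‖ₑ := by
  have e : (fun t => ‖ind x t - ind y t‖ₑ) = (Set.Ico x y).indicator 1 := by
    funext t
    by_cases h1 : x ≤ t <;> by_cases h2 : y ≤ t
    · simp [ind, h1, h2, Set.indicator]
    · simp [ind, h1, h2, Set.indicator, not_le.1 h2]
    · exact absurd (h.trans h2) h1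
    · simp [ind, h1, h2, Set.indicator]
  rw [e, lintegral_indicator_one measurableSet_Ico, Real.volume_Ico, Real.enorm_eq_ofReal_abs,
    abs_sub_comm, abs_of_nonneg (sub_nonneg.2 h)]

lemma lint_ind (x y : ℝ) : ∫⁻ t, ‖ind x t - ind y t‖ₑ = ‖x - y‖ₑ := by
  rcases le_total x y with h | h
  · exact lint_ind_aux h
  · rw [← enorm_neg, neg_sub, ← lint_ind_aux h]
    exact lintegral_congr fun t => by rw [← enorm_neg, neg_sub]

lemma dirac_Iic (x t : ℝ) : Measure.dirac x (Set.Iic t) = ENNReal.ofReal (ind x t) := by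
  rw [Measure.dirac_apply' _ measurableSet_Iic]
  by_cases h : x ≤ t <;> simp [ind, h, Set.indicator]

lemma ind_nonneg (x t : ℝ) : 0 ≤ ind x t := by unfold ind; split_ifs <;> norm_num

lemma alaw_real {J : ℕ} (cval : Fin J → ℝ) {γ : Fin J → ℚ} (hγ : ∀ j, 0 ≤ γ j) (t : ℝ) :
    (alaw cval γ).real (Set.Iic t) = ∑ j, ((γ j : ℚ) : ℝ) * ind (cval j) t := by
  have h0 : ∀ j, (0 : ℝ) ≤ ((γ j : ℚ) : ℝ) := fun j => by exact_mod_cast hγ j
  simp only [Measure.real, alaw, Measure.coe_finsetSum, Finset.sum_apply, Measure.smul_apply,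
    smul_eq_mul, dirac_Iic]
  rw [ENNReal.toReal_sum fun j _ => ENNReal.mul_ne_top ENNReal.ofReal_ne_top ENNReal.ofReal_ne_top]
  refine Finset.sum_congr rfl fun j _ => ?_
  rw [ENNReal.toReal_mul, ENNReal.toReal_ofReal (h0 j), ENNReal.toReal_ofReal (ind_nonneg _ _)]

lemma emp_real {N : ℕ} (c : Fin N → ℝ) (t : ℝ) :
    (empiricalLaw c).real (Set.Iic t) = (∑ r, ind (c r) t) / N := by
  simp only [Measure.real, empiricalLaw, Measure.coe_finsetSum, Finset.sum_apply,
    Measure.smul_apply, smul_eq_mul, dirac_Iic]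
  rw [ENNReal.toReal_mul, ENNReal.toReal_sum fun j _ => ENNReal.ofReal_ne_top, ENNReal.toReal_inv,
    ENNReal.toReal_natCast, div_eq_inv_mul]
  congr 1
  exact Finset.sum_congr rfl fun j _ => ENNReal.toReal_ofReal (ind_nonneg _ _)

lemma sum_abs_mono {N : ℕ} {a b : Fin N → ℝ} (ha : Monotone a) (hb : Monotone b) (t : ℝ) :
    ∑ i, |ind (a i) t - ind (b i) t| = |∑ i, ind (a i) t - ∑ i, ind (b i) t| := by
  rw [← Finset.sum_sub_distrib]
  by_cases h : ∀ i, a i ≤ t → b i ≤ t
  · have h' : ∀ i, ind (a i) t - ind (b i) t ≤ 0 := fun i => by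
      by_cases h1 : a i ≤ t
      · simp [ind, h1, h i h1]
      · simp only [ind, h1, if_false, zero_sub, neg_nonpos]; exact ind_nonneg _ _
    rw [abs_of_nonpos (Finset.sum_nonpos fun i _ => h' i), ← Finset.sum_neg_distrib]
    exact Finset.sum_congr rfl fun i _ => abs_of_nonpos (h' i)
  · obtain ⟨i, hi⟩ := not_forall.1 h
    obtain ⟨hi1, hi2⟩ := Classical.not_imp.1 hi
    have h' : ∀ j, 0 ≤ ind (a j) t - ind (b j) t := fun j => by
      by_cases h1 : b j ≤ t
      · have : j ≤ i := by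
          by_contra hji
          exact hi2 ((hb (not_le.1 hji).le).trans h1)
        simp [ind, h1, (ha this).trans hi1]
      · simp only [ind, h1, if_false, sub_zero]; exact ind_nonneg _ _
    rw [abs_of_nonneg (Finset.sum_nonneg fun j _ => h' j)]
    exact Finset.sum_congr rfl fun j _ => abs_of_nonneg (h' j)

lemma card_blk_perm' {N : ℕ} {A : Type} [DecidableEq A] (sp : Fin N → A) (σ : Equiv.Perm (Fin N))
    (a : A) : (blk (sp ∘ σ) a).card = (blk sp a).card := by
  simp only [blk, Finset.card_filter, Function.comp]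
  exact Equiv.sum_comp σ (fun i => if sp i = a then 1 else 0)

lemma sum_lab {N J : ℕ} (lab : Fin N → Fin J) (f : Fin J → ℝ) :
    ∑ r, f (lab r) = ∑ j, ((blk lab j).card : ℝ) * f j := by
  rw [← Finset.sum_fiberwise (s := univ) (g := lab)]
  refine Finset.sum_congr rfl fun j _ => ?_
  rw [Finset.sum_congr rfl (g := fun _ => f j) fun r hr => by rw [(Finset.mem_filter.1 hr).2]]
  simp [blk]

end Transport

open Transport

lemma cdfDist_comm (ν ν' : Measure ℝ) : cdfDist ν ν' = cdfDist ν' ν :=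
  lintegral_congr fun t => by rw [← enorm_neg, neg_sub]

lemma cdfDist_triangle (ν ν' ν'' : Measure ℝ) [IsFiniteMeasure ν] [IsFiniteMeasure ν']
    [IsFiniteMeasure ν''] : cdfDist ν ν'' ≤ cdfDist ν ν' + cdfDist ν' ν'' := by
  unfold cdfDist
  rw [← lintegral_add_left ((meas_cdf ν).fun_sub (meas_cdf ν')).enorm]
  refine lintegral_mono fun t => ?_
  have : ν.real (Set.Iic t) - ν''.real (Set.Iic t) = (ν.real (Set.Iic t) - ν'.real (Set.Iic t)) +
      (ν'.real (Set.Iic t) - ν''.real (Set.Iic t)) := by ring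
  simp only
  rw [this]
  exact enorm_add_le _ _

lemma cdfDist_le_transportCost (ν ν' : Measure ℝ) [IsProbabilityMeasure ν'] :
    cdfDist ν ν' ≤ transportCost ν ν' := by
  refine le_iInf fun μ => le_iInf fun h => ?_
  obtain ⟨h1, h2⟩ := h
  have hμ : IsProbabilityMeasure μ := by
    constructor
    have : (μ.map Prod.snd) Set.univ = 1 := by rw [h2]; exact measure_univ
    rwa [Measure.map_apply measurable_snd MeasurableSet.univ, Set.preimage_univ] at this
  have key : ∀ (f : ℝ × ℝ → ℝ), Measurable f → ∀ t, (μ.map f).real (Set.Iic t) =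
      ∫ z, ind (f z) t ∂μ := fun f hf t => by
    rw [map_measureReal_apply hf measurableSet_Iic, ← integral_indicator_one (hf measurableSet_Iic)]
    refine integral_congr_ae (Filter.Eventually.of_forall fun z => ?_)
    by_cases h : f z ≤ t <;> simp [ind, h, Set.indicator]
  have hint : ∀ (f : ℝ × ℝ → ℝ), Measurable f → ∀ t, Integrable (fun z => ind (f z) t) μ :=
    fun f hf t => by
      refine Integrable.of_bound (C := 1)
        (meas_ind₂.comp (hf.prodMk measurable_const)).aestronglyMeasurable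
        (Filter.Eventually.of_forall fun z => ?_)
      unfold ind; split_ifs <;> simp
  calc cdfDist ν ν' = ∫⁻ t, ‖∫ z, (ind z.1 t - ind z.2 t) ∂μ‖ₑ := by
        refine lintegral_congr fun t => ?_
        rw [integral_sub (hint _ measurable_fst t) (hint _ measurable_snd t), ← h1, ← h2,
          key _ measurable_fst, key _ measurable_snd]
    _ ≤ ∫⁻ t, ∫⁻ z, ‖ind z.1 t - ind z.2 t‖ₑ ∂μ :=
        lintegral_mono fun t => enorm_integral_le_lintegral_enorm _
    _ = ∫⁻ z, (∫⁻ t, ‖ind z.1 t - ind z.2 t‖ₑ) ∂μ := by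
        refine lintegral_lintegral_swap (Measurable.aemeasurable ?_)
        exact ((meas_ind₂.comp (measurable_snd.fst.prodMk measurable_fst)).sub
          (meas_ind₂.comp (measurable_snd.snd.prodMk measurable_fst))).enorm
    _ = ∫⁻ z, ‖z.1 - z.2‖ₑ ∂μ := lintegral_congr fun z => lint_ind _ _

lemma alaw_prob {J : ℕ} (cval : Fin J → ℝ) {γ : Fin J → ℚ} (hγ : ∀ j, 0 < γ j) (hγ1 : ∑ j, γ j = 1) :
    IsProbabilityMeasure (alaw cval γ) := by
  constructor
  have h0 : ∀ j, (0 : ℝ) ≤ ((γ j : ℚ) : ℝ) := fun j => by exact_mod_cast (hγ j).le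
  simp only [alaw, Measure.coe_finsetSum, Finset.sum_apply, Measure.smul_apply, smul_eq_mul,
    measure_univ, mul_one]
  rw [← ENNReal.ofReal_sum_of_nonneg fun j _ => h0 j]
  have : ∑ j, ((γ j : ℚ) : ℝ) = 1 := by exact_mod_cast hγ1
  rw [this, ENNReal.ofReal_one]

lemma empiricalLaw_eq {N : ℕ} (c : Fin N → ℝ) : empiricalLaw c = alaw c fun _ => 1 / (N : ℚ) := by
  unfold empiricalLaw alaw
  rw [Finset.smul_sum]
  refine Finset.sum_congr rfl fun r _ => ?_
  have hN : (0 : ℝ) < N := by exact_mod_cast Fin.pos r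
  congr 1
  push_cast
  rw [one_div, ENNReal.ofReal_inv_of_pos hN, ENNReal.ofReal_natCast]

lemma empiricalLaw_finite {N : ℕ} (c : Fin N → ℝ) : IsFiniteMeasure (empiricalLaw c) := by
  constructor
  rw [empiricalLaw_eq]
  simp only [alaw, Measure.coe_finsetSum, Finset.sum_apply, Measure.smul_apply, smul_eq_mul,
    measure_univ, mul_one]
  exact ENNReal.sum_lt_top.2 fun _ _ => ENNReal.ofReal_lt_top

/-- Sorted matching. -/
lemma exists_perm_cdf {N : ℕ} (u v : Fin N → ℝ) : ∃ σ : Equiv.Perm (Fin N),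
    ENNReal.ofReal ((∑ r, |u r - v (σ r)|) / N) ≤ cdfDist (empiricalLaw u) (empiricalLaw v) := by
  refine ⟨(Tuple.sort u).symm.trans (Tuple.sort v), ?_⟩
  have ha := Tuple.monotone_sort u
  have hb := Tuple.monotone_sort v
  set a := u ∘ Tuple.sort u with hadef
  set b := v ∘ Tuple.sort v with hbdef
  have e1 : ∑ r, |u r - v (((Tuple.sort u).symm.trans (Tuple.sort v)) r)| = ∑ i, |a i - b i| := by
    rw [← Equiv.sum_comp (Tuple.sort u)]
    simp [hadef, hbdef]
  have ea : ∀ t, ∑ r, ind (u r) t = ∑ i, ind (a i) t := fun t =>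
    (Equiv.sum_comp (Tuple.sort u) fun r => ind (u r) t).symm
  have eb : ∀ t, ∑ r, ind (v r) t = ∑ i, ind (b i) t := fun t =>
    (Equiv.sum_comp (Tuple.sort v) fun r => ind (v r) t).symm
  have hdiv : ∀ f : Fin N → ℝ, ENNReal.ofReal ((∑ i, |f i|) / N) =
      ENNReal.ofReal (1 / N) * ∑ i, ‖f i‖ₑ := fun f => by
    rw [div_eq_mul_one_div, mul_comm, ENNReal.ofReal_mul (by positivity),
      ENNReal.ofReal_sum_of_nonneg fun i _ => abs_nonneg _]
    simp only [Real.enorm_eq_ofReal_abs]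
  rw [e1, hdiv]
  refine le_of_eq ?_
  unfold cdfDist
  have e2 : ∀ t, ‖(empiricalLaw u).real (Set.Iic t) - (empiricalLaw v).real (Set.Iic t)‖ₑ =
      ENNReal.ofReal (1 / N) * ∑ i, ‖ind (a i) t - ind (b i) t‖ₑ := fun t => by
    rw [← hdiv, emp_real, emp_real, ea, eb, sum_abs_mono ha hb, ← sub_div,
      Real.enorm_eq_ofReal_abs, abs_div, Nat.abs_cast]
  have hm : ∀ i, Measurable fun t => ‖ind (a i) t - ind (b i) t‖ₑ := fun i =>
    ((meas_ind _).sub (meas_ind _)).enorm
  rw [lintegral_congr e2, lintegral_const_mul _ (Finset.measurable_sum _ fun i _ => hm i),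
    lintegral_finsetSum _ fun i _ => hm i]
  simp only [lint_ind]

lemma tendsto_cdfDist_lab {J : ℕ} (cval : Fin J → ℝ) {γ : Fin J → ℚ} (hγ : ∀ j, 0 < γ j)
    (hγ1 : ∑ j, γ j = 1) (lab : (N : ℕ) → Fin N → Fin J)
    (hlab : ∀ j, Filter.Tendsto (fun N : ℕ => ((blk (lab N) j).card : ℝ) / N) Filter.atTop
      (nhds ((γ j : ℚ) : ℝ))) :
    Filter.Tendsto (fun N : ℕ => cdfDist (empiricalLaw fun r => cval (lab N r)) (alaw cval γ))
      Filter.atTop (nhds 0) := by
  have hγ1' : ∑ j, ((γ j : ℚ) : ℝ) = 1 := by exact_mod_cast hγ1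
  set δ : ℕ → Fin J → ℝ := fun N j => ((blk (lab N) j).card : ℝ) / N - ((γ j : ℚ) : ℝ) with hδ
  have hlim : Filter.Tendsto (fun N : ℕ => ENNReal.ofReal (∑ j, |δ N j| * |cval j|))
      Filter.atTop (nhds 0) := by
    rw [← ENNReal.ofReal_zero]
    refine ENNReal.tendsto_ofReal ?_
    have : (0 : ℝ) = ∑ j : Fin J, |((γ j : ℚ) : ℝ) - ((γ j : ℚ) : ℝ)| * |cval j| := by simp
    rw [this]
    exact tendsto_finsetSum _ fun j _ => (((hlab j).sub_const _).abs).mul_const _
  refine tendsto_of_tendsto_of_tendsto_of_le_of_le' tendsto_const_nhds hlim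
    (Filter.Eventually.of_forall fun _ => zero_le) ?_
  filter_upwards [Filter.eventually_gt_atTop 0] with N hN
  have hN' : (0 : ℝ) < N := by exact_mod_cast hN
  have hsum : ∑ j, δ N j = 0 := by
    have h := sum_lab (lab N) fun _ => 1
    simp only [Finset.sum_const, Finset.card_univ, Fintype.card_fin, nsmul_eq_mul, mul_one] at h
    simp only [hδ, Finset.sum_sub_distrib, hγ1', ← Finset.sum_div, ← h, div_self hN'.ne', sub_self]
  have e : ∀ t, (empiricalLaw fun r => cval (lab N r)).real (Set.Iic t) -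
      (alaw cval γ).real (Set.Iic t) = ∑ j, δ N j * (ind (cval j) t - ind 0 t) := fun t => by
    rw [emp_real, alaw_real _ fun j => (hγ j).le, sum_lab (lab N) fun j => ind (cval j) t]
    simp only [mul_sub, Finset.sum_sub_distrib, ← Finset.sum_mul, hsum, zero_mul, sub_zero]
    rw [Finset.sum_div, ← Finset.sum_sub_distrib]
    exact Finset.sum_congr rfl fun j _ => by simp only [hδ]; ring
  have hm : ∀ j, Measurable fun t => ‖δ N j‖ₑ * ‖ind (cval j) t - ind 0 t‖ₑ := fun j =>
    ((meas_ind _).sub (meas_ind _)).enorm.const_mul _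
  calc cdfDist (empiricalLaw fun r => cval (lab N r)) (alaw cval γ)
      ≤ ∫⁻ t, ∑ j, ‖δ N j‖ₑ * ‖ind (cval j) t - ind 0 t‖ₑ := by
        refine lintegral_mono fun t => ?_
        simp only
        rw [e]
        refine (enorm_sum_le _ _).trans (le_of_eq ?_)
        simp only [enorm_mul]
    _ = ∑ j, ‖δ N j‖ₑ * ‖cval j‖ₑ := by
        rw [lintegral_finsetSum _ fun j _ => hm j]
        refine Finset.sum_congr rfl fun j _ => ?_
        rw [lintegral_const_mul _ ((meas_ind _).fun_sub (meas_ind _)).enorm, lint_ind, sub_zero]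
    _ = ENNReal.ofReal (∑ j, |δ N j| * |cval j|) := by
        rw [ENNReal.ofReal_sum_of_nonneg fun j _ => by positivity]
        refine Finset.sum_congr rfl fun j _ => ?_
        rw [ENNReal.ofReal_mul (abs_nonneg _), Real.enorm_eq_ofReal_abs, Real.enorm_eq_ofReal_abs]

/-- Matching field vectors with a finite alphabet. -/
theorem exists_match {J : ℕ} (cval : Fin J → ℝ) {γ : Fin J → ℚ} (hγ : ∀ j, 0 < γ j)
    (hγ1 : ∑ j, γ j = 1) (lab₀ : (N : ℕ) → Fin N → Fin J)
    (hlab₀ : ∀ j, Filter.Tendsto (fun N : ℕ => ((blk (lab₀ N) j).card : ℝ) / N) Filter.atTop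
      (nhds ((γ j : ℚ) : ℝ))) (ν : Measure ℝ) [IsProbabilityMeasure ν] (c : (N : ℕ) → Fin N → ℝ)
    (hc : Filter.Tendsto (fun N : ℕ => cdfDist (empiricalLaw (c N)) ν) Filter.atTop (nhds 0))
    {d : ℝ} (hd0 : 0 ≤ d) (hd : cdfDist (alaw cval γ) ν ≤ ENNReal.ofReal d) :
    ∃ lab : (N : ℕ) → Fin N → Fin J, (∀ j, Filter.Tendsto
        (fun N : ℕ => ((blk (lab N) j).card : ℝ) / N) Filter.atTop (nhds ((γ j : ℚ) : ℝ))) ∧
      ∀ ε : ℝ, 0 < ε → ∀ᶠ N : ℕ in Filter.atTop, (∑ r, |c N r - cval (lab N r)|) / N ≤ d + ε := by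
  choose σ hσ using fun N => exists_perm_cdf (c N) fun r => cval (lab₀ N r)
  refine ⟨fun N => lab₀ N ∘ σ N, fun j => by simpa only [card_blk_perm'] using hlab₀ j,
    fun ε hε => ?_⟩
  have hε2 : (0 : ENNReal) < ENNReal.ofReal (ε / 2) := ENNReal.ofReal_pos.2 (by positivity)
  have := alaw_prob cval hγ hγ1
  filter_upwards [hc.eventually (gt_mem_nhds hε2),
    (tendsto_cdfDist_lab cval hγ hγ1 lab₀ hlab₀).eventually (gt_mem_nhds hε2)] with N h1 h2
  have := empiricalLaw_finite (c N)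
  have := empiricalLaw_finite fun r => cval (lab₀ N r)
  rw [← ENNReal.ofReal_le_ofReal_iff (by positivity)]
  calc _ ≤ _ := hσ N
    _ ≤ cdfDist (empiricalLaw (c N)) ν + cdfDist ν (empiricalLaw fun r => cval (lab₀ N r)) :=
        cdfDist_triangle _ _ _
    _ ≤ cdfDist (empiricalLaw (c N)) ν + (cdfDist ν (alaw cval γ) +
          cdfDist (alaw cval γ) (empiricalLaw fun r => cval (lab₀ N r))) := by
        gcongr; exact cdfDist_triangle _ _ _
    _ ≤ ENNReal.ofReal (ε / 2) + (ENNReal.ofReal d + ENNReal.ofReal (ε / 2)) := by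
        rw [cdfDist_comm ν, cdfDist_comm (alaw cval γ) (empiricalLaw _)]
        exact add_le_add h1.le (add_le_add hd h2.le)
    _ = ENNReal.ofReal (d + ε) := by
        rw [← ENNReal.ofReal_add hd0 (by positivity),
          ← ENNReal.ofReal_add (by positivity) (by positivity)]
        congr 1; ring

end Crest.Agent.R164
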