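import Crest.Agent.R164.Main48
import Crest.Agent.R164.Transport

/-! # Row 164: general field laws -/

set_option autoImplicit false

namespace Crest.Agent.R164

open MeasureTheory ProbabilityTheory Real Finset Crest.ProbabilityR.InvariantGlass

variable {μ : Measure ℝ} [IsProbabilityMeasure μ] {lo hi : ℝ} {eig : (N : ℕ) → Fin N → ℝ}

lemma M49.ev_exp_lt {a : ℝ} (ha : 0 < a) : ∀ᶠ N : ℕ in Filter.atTop, exp (-a * N) < 1 / 2 := by
  have h : Filter.Tendsto (fun N : ℕ => exp (-a * N)) Filter.atTop (nhds 0) :=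
    Real.tendsto_exp_atBot.comp
      (tendsto_natCast_atTop_atTop.const_mul_atTop_of_neg (neg_lt_zero.2 ha))
  exact h.eventually (gt_mem_nhds (by norm_num))

/-- Two exponentially convergent systems with close fields have close limits. -/
lemma M49.expConv_close {h : ∀ N, Haar N} {c c' : (N : ℕ) → Fin N → ℝ} {F F' d : ℝ}
    (hF : ExpConv h eig c F) (hF' : ExpConv h eig c' F')
    (hd : ∀ ε : ℝ, 0 < ε → ∀ᶠ N : ℕ in Filter.atTop, (∑ r, |c' N r - c N r|) / N ≤ d + ε) :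
    |F - F'| ≤ d := by
  refine le_of_forall_pos_le_add fun ε hε => ?_
  have hε3 : 0 < ε / 3 := by positivity
  obtain ⟨a, ha, h1⟩ := hF _ hε3
  obtain ⟨a', ha', h2⟩ := hF' _ hε3
  obtain ⟨N, ⟨⟨⟨h1, h2⟩, h3⟩, h4⟩, h5⟩ :=
    ((((h1.and h2).and (hd _ hε3)).and (M49.ev_exp_lt ha)).and (M49.ev_exp_lt ha')).exists
  obtain ⟨U, hU, hU'⟩ : ∃ U : O N, |pressureFieldN (eig N) U.1 (c N) - F| < ε / 3 ∧
      |pressureFieldN (eig N) U.1 (c' N) - F'| < ε / 3 := by
    by_contra hcon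
    have hsub : (Set.univ : Set (O N)) ⊆ {U | ε / 3 ≤ |pressureFieldN (eig N) U.1 (c N) - F|} ∪
        {U | ε / 3 ≤ |pressureFieldN (eig N) U.1 (c' N) - F'|} := by
      intro U _
      by_contra hU
      simp only [Set.mem_union, Set.mem_ofPred_eq, not_or, not_le] at hU
      exact hcon ⟨U, hU⟩
    have h6 := (measureReal_mono (μ := (h N).κ) hsub).trans (measureReal_union_le _ _)
    rw [probReal_univ] at h6
    linarith
  have h6 := (abs_pressure_sub_le (eig N) U.1 (c' N) (c N)).trans h3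
  rw [abs_lt] at hU hU'
  rw [abs_le] at h6 ⊢
  constructor <;> linarith [hU.1, hU.2, hU'.1, hU'.2, h6.1, h6.2]

/-- The finite-alphabet value is Lipschitz in the law of the alphabet. -/
theorem value_lip (hs : SpecHyp μ lo hi eig) (h : ∀ N, Haar N) {J J' : ℕ} (cval : Fin J → ℝ)
    (cval' : Fin J' → ℝ) {γ : Fin J → ℚ} {γ' : Fin J' → ℚ} (hγ : ∀ j, 0 < γ j) (hγ1 : ∑ j, γ j = 1)
    (hγ' : ∀ j, 0 < γ' j) (hγ1' : ∑ j, γ' j = 1) {F F' d : ℝ}
    (hF : magneticValue μ hi cval γ = (F : EReal)) (hF' : magneticValue μ hi cval' γ' = (F' : EReal))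
    (hd0 : 0 ≤ d) (hd : cdfDist (alaw cval γ) (alaw cval' γ') ≤ ENNReal.ofReal d) : |F - F'| ≤ d := by
  obtain ⟨lab₀, hlab₀⟩ := exists_lab hγ hγ1
  obtain ⟨lab', hlab'⟩ := exists_lab hγ' hγ1'
  have := alaw_prob cval' hγ' hγ1'
  obtain ⟨lab, hlab, hm⟩ := exists_match cval hγ hγ1 lab₀ hlab₀ (alaw cval' γ')
    (fun N r => cval' (lab' N r)) (tendsto_cdfDist_lab cval' hγ' hγ1' lab' hlab') hd0 hd
  exact M49.expConv_close (expConv_finite hs cval hγ hγ1 lab hlab h hF)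
    (expConv_finite hs cval' hγ' hγ1' lab' hlab' h hF') hm

theorem expConv_general (hs : SpecHyp μ lo hi eig) (h : ∀ N, Haar N) (ν : Measure ℝ)
    [IsProbabilityMeasure ν] (c : (N : ℕ) → Fin N → ℝ)
    (hW : Filter.Tendsto (fun N : ℕ => transportCost (empiricalLaw (c N)) ν) Filter.atTop (nhds 0)) :
    ∃ F : ℝ,
      (∀ (Jq : ℕ → ℕ) (cq : (q : ℕ) → Fin (Jq q) → ℝ) (γq : (q : ℕ) → Fin (Jq q) → ℚ),
        (∀ q, (∀ j, 0 < γq q j) ∧ ∑ j, γq q j = 1) →
        Filter.Tendsto (fun q : ℕ => transportCost (alaw (cq q) (γq q)) ν) Filter.atTop (nhds 0) →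
        Filter.Tendsto (fun q : ℕ => magneticValue μ hi (cq q) (γq q)) Filter.atTop
          (nhds (F : EReal))) ∧
      ExpConv h eig c F ∧ ∃ B : ℝ, ∀ᶠ N : ℕ in Filter.atTop, (∑ r, |c N r|) ≤ B * N := by
  have hpos : ∀ (N : ℕ) (_ : Fin (N + 1)), (0 : ℚ) < 1 / ((N + 1 : ℕ) : ℚ) := fun N _ => by positivity
  have hsum : ∀ N : ℕ, ∑ _j : Fin (N + 1), (1 / ((N + 1 : ℕ) : ℚ)) = 1 := fun N => by
    rw [Finset.sum_const, Finset.card_univ, Fintype.card_fin, nsmul_eq_mul]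
    field_simp
  choose V hV using fun N : ℕ => magneticValue_real μ hs.le hs.supp (c (N + 1)) (hpos N)
  have hc : Filter.Tendsto (fun N : ℕ => cdfDist (empiricalLaw (c N)) ν) Filter.atTop (nhds 0) :=
    tendsto_of_tendsto_of_tendsto_of_le_of_le tendsto_const_nhds hW (fun _ => zero_le)
      fun N => cdfDist_le_transportCost _ _
  have hD : ∀ ε : ℝ, 0 < ε → ∀ᶠ N : ℕ in Filter.atTop,
      cdfDist (alaw (c (N + 1)) fun _ => 1 / ((N + 1 : ℕ) : ℚ)) ν ≤ ENNReal.ofReal ε := by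
    intro ε hε
    have h1 := (hc.comp (Filter.tendsto_add_atTop_nat 1)).eventually
      (ge_mem_nhds (ENNReal.ofReal_pos.2 hε))
    filter_upwards [h1] with N hN
    rw [← empiricalLaw_eq]
    exact hN
  have key : ∀ {J : ℕ} (cval : Fin J → ℝ) {γ : Fin J → ℚ}, (∀ j, 0 < γ j) → ∑ j, γ j = 1 →
      ∀ {G d d' : ℝ}, magneticValue μ hi cval γ = (G : EReal) → 0 ≤ d → 0 ≤ d' →
      cdfDist (alaw cval γ) ν ≤ ENNReal.ofReal d → ∀ N : ℕ,
      cdfDist (alaw (c (N + 1)) fun _ => 1 / ((N + 1 : ℕ) : ℚ)) ν ≤ ENNReal.ofReal d' →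
      |G - V N| ≤ d + d' := by
    intro J cval γ hγ hγ1 G d d' hG hd0 hd0' hd N hN
    have := alaw_prob cval hγ hγ1
    have := alaw_prob (c (N + 1)) (hpos N) (hsum N)
    refine value_lip hs h cval (c (N + 1)) hγ hγ1 (hpos N) (hsum N) hG (hV N) (add_nonneg hd0 hd0') ?_
    refine (cdfDist_triangle _ ν _).trans ?_
    rw [ENNReal.ofReal_add hd0 hd0', cdfDist_comm ν]
    exact add_le_add hd hN
  have hcau : CauchySeq V := by
    refine Metric.cauchySeq_iff.2 fun ε hε => ?_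
    have hε3 : 0 < ε / 3 := by positivity
    obtain ⟨M, hM⟩ := Filter.eventually_atTop.1 (hD _ hε3)
    refine ⟨M, fun m hm n hn => ?_⟩
    have := key (c (m + 1)) (hpos m) (hsum m) (hV m) hε3.le hε3.le (hM m hm) n (hM n hn)
    rw [Real.dist_eq]
    linarith
  obtain ⟨F, hF⟩ := cauchySeq_tendsto_of_complete hcau
  have key2 : ∀ {J : ℕ} (cval : Fin J → ℝ) {γ : Fin J → ℚ}, (∀ j, 0 < γ j) → ∑ j, γ j = 1 →
      ∀ {G d : ℝ}, magneticValue μ hi cval γ = (G : EReal) → 0 ≤ d →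
      cdfDist (alaw cval γ) ν ≤ ENNReal.ofReal d → |G - F| ≤ d := by
    intro J cval γ hγ hγ1 G d hG hd0 hd
    refine le_of_forall_pos_le_add fun ε hε => ?_
    have hε2 : 0 < ε / 2 := by positivity
    obtain ⟨N, h1, h2⟩ := ((hD _ hε2).and (Metric.tendsto_nhds.1 hF _ hε2)).exists
    have h3 := key cval hγ hγ1 hG hd0 hε2.le hd N h1
    rw [Real.dist_eq] at h2
    have := abs_sub_le G (V N) F
    linarith
  have hmatch : ∀ ε : ℝ, 0 < ε → ∃ (M : ℕ) (lab : (N : ℕ) → Fin N → Fin (M + 1)), |V M - F| ≤ ε ∧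
      ExpConv h eig (fun N r => c (M + 1) (lab N r)) (V M) ∧
      ∀ᶠ N : ℕ in Filter.atTop, (∑ r, |c N r - c (M + 1) (lab N r)|) / N ≤ ε + ε := by
    intro ε hε
    obtain ⟨M, hM⟩ := (hD _ hε).exists
    obtain ⟨lab₀, hlab₀⟩ := exists_lab (hpos M) (hsum M)
    obtain ⟨lab, hlab, hm⟩ := exists_match (c (M + 1)) (hpos M) (hsum M) lab₀ hlab₀ ν c hc hε.le hM
    exact ⟨M, lab, key2 _ (hpos M) (hsum M) (hV M) hε.le hM,
      expConv_finite hs _ (hpos M) (hsum M) lab hlab h (hV M), hm ε hε⟩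
  refine ⟨F, fun Jq cq γq hq hT => ?_, fun ε hε => ?_, ?_⟩
  · choose W hW using fun q => magneticValue_real μ hs.le hs.supp (cq q) (hq q).1
    simp only [hW]
    refine (continuous_coe_real_ereal.tendsto F).comp (Metric.tendsto_nhds.2 fun ε hε => ?_)
    have hε2 : 0 < ε / 2 := by positivity
    filter_upwards [hT.eventually (ge_mem_nhds (ENNReal.ofReal_pos.2 hε2))] with q hq'
    have := key2 (cq q) (hq q).1 (hq q).2 (hW q) hε2.le
      ((cdfDist_le_transportCost _ _).trans hq')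
    rw [Real.dist_eq]
    linarith
  · have hε4 : 0 < ε / 4 := by positivity
    obtain ⟨M, lab, h1, h2, h3⟩ := hmatch _ hε4
    obtain ⟨a, ha, h4⟩ := h2 _ hε4
    refine ⟨a, ha, ?_⟩
    filter_upwards [h3, h4] with N h3 h4
    refine le_trans (measureReal_mono fun U hU => ?_) h4
    simp only [Set.mem_ofPred_eq] at hU ⊢
    have h5 := (abs_pressure_sub_le (eig N) U.1 (c N) fun r => c (M + 1) (lab N r)).trans h3
    have h6 := abs_sub_le (pressureFieldN (eig N) U.1 (c N))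
      (pressureFieldN (eig N) U.1 fun r => c (M + 1) (lab N r)) F
    have h7 := abs_sub_le (pressureFieldN (eig N) U.1 fun r => c (M + 1) (lab N r)) (V M) F
    linarith
  · obtain ⟨M, lab, -, -, h3⟩ := hmatch 1 one_pos
    refine ⟨2 + ∑ j, |c (M + 1) j|, ?_⟩
    filter_upwards [h3, Filter.eventually_gt_atTop 0] with N h3 hN
    have hN' : (0 : ℝ) < N := by exact_mod_cast hN
    rw [div_le_iff₀ hN'] at h3
    have h4 : ∑ r, |c N r| ≤ ∑ r : Fin N, (|c N r - c (M + 1) (lab N r)| + ∑ j, |c (M + 1) j|) := by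
      refine Finset.sum_le_sum fun r _ => ?_
      have h5 := Finset.single_le_sum (f := fun j => |c (M + 1) j|) (fun j _ => abs_nonneg _)
        (Finset.mem_univ (lab N r))
      have h6 := abs_sub_abs_le_abs_sub (c N r) (c (M + 1) (lab N r))
      linarith
    rw [Finset.sum_add_distrib, Finset.sum_const, Finset.card_univ, Fintype.card_fin,
      nsmul_eq_mul] at h4
    linarith

end Crest.Agent.R164
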