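import Crest.Agent.R164.OneDefs

/-! # Row 164: the Gaussian operator on `1`-Lipschitz functions; facts on `fieldValueAt` -/

set_option autoImplicit false

namespace Crest.Agent.R164

open MeasureTheory ProbabilityTheory Real Finset Crest.ProbabilityR.InvariantGlass

variable {f g : ℝ → ℝ} {a a' v v' : ℝ}

lemma lip_le (hf : LipschitzWith 1 f) (x y : ℝ) : f x ≤ f y + |x - y| := by
  simpa [Real.dist_eq] using hf.le_add_mul x y

lemma lip_add_const (hf : LipschitzWith 1 f) (c : ℝ) : LipschitzWith 1 fun x => f x + c :=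
  LipschitzWith.of_le_add fun x y => by
    rw [Real.dist_eq]; linarith [lip_le hf x y]

lemma lip_abs : LipschitzWith 1 fun z : ℝ => |z| :=
  LipschitzWith.of_le_add fun x y => by
    rw [Real.dist_eq]; linarith [abs_sub_abs_le_abs_sub x y]

lemma lip_logcosh : LipschitzWith 1 fun z : ℝ => log (cosh z) := by
  refine LipschitzWith.of_le_add fun x y => ?_
  rw [Real.dist_eq, log_le_iff_le_exp (cosh_pos x), exp_add, exp_log (cosh_pos y), cosh_eq, cosh_eq]
  have h1 : exp x ≤ exp y * exp |x - y| := by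
    rw [← exp_add]; exact exp_le_exp.2 (by linarith [le_abs_self (x - y)])
  have h2 : exp (-x) ≤ exp (-y) * exp |x - y| := by
    rw [← exp_add]; exact exp_le_exp.2 (by linarith [neg_abs_le (x - y)])
  linarith
lemma convex_logcosh : ConvexOn ℝ Set.univ fun z : ℝ => log (cosh z) := by
  have hd : ∀ z : ℝ, HasDerivAt (fun z : ℝ => log (cosh z)) (sinh z / cosh z) z := fun z =>
    (hasDerivAt_cosh z).log (cosh_pos z).ne'
  refine Monotone.convexOn_univ_of_deriv (fun z => (hd z).differentiableAt) fun x y h => ?_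
  rw [(hd x).deriv, (hd y).deriv, div_le_div_iff₀ (cosh_pos x) (cosh_pos y)]
  have h1 : sinh (x - y) ≤ 0 := sinh_nonpos_iff.2 (sub_nonpos.2 h)
  rw [sinh_sub] at h1
  linarith
lemma logcosh_bounds (z : ℝ) : |z| - log 2 ≤ log (cosh z) ∧ log (cosh z) ≤ |z| := by
  constructor
  · rw [le_log_iff_exp_le (cosh_pos z), exp_sub, exp_log two_pos, ← cosh_abs, cosh_eq]
    linarith [exp_pos (-|z|)]
  · simpa using lip_le lip_logcosh z 0
lemma integrable_exp_lip (hf : LipschitzWith 1 f) (a c x : ℝ) :
    Integrable (fun g => exp (a * f (x + c * g))) (gaussianReal 0 1) := by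
  have hc := hf.continuous
  refine ((integrable_exp_abs_gauss (|a| * |c|)).const_mul (exp (a * f x))).mono'
    (Continuous.aestronglyMeasurable (by fun_prop)) (Filter.Eventually.of_forall fun g => ?_)
  rw [Real.norm_eq_abs, abs_of_pos (exp_pos _), ← exp_add]
  refine exp_le_exp.2 ?_
  have h1 : |f (x + c * g) - f x| ≤ |c * g| := by
    simpa [Real.dist_eq] using hf.dist_le_mul (x + c * g) x
  have h2 : a * (f (x + c * g) - f x) ≤ |a| * |c * g| :=
    (le_abs_self _).trans (by rw [abs_mul]; exact mul_le_mul_of_nonneg_left h1 (abs_nonneg a))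
  rw [abs_mul, ← mul_assoc] at h2
  linarith
lemma integrable_lip (hf : LipschitzWith 1 f) (c x : ℝ) :
    Integrable (fun g => f (x + c * g)) (gaussianReal 0 1) := by
  have hc := hf.continuous
  refine ((integrable_exp_lip hf 1 c x).add (integrable_exp_lip hf (-1) c x)).mono'
    (Continuous.aestronglyMeasurable (by fun_prop)) (Filter.Eventually.of_forall fun g => ?_)
  simp only [Pi.add_apply, one_mul, neg_mul, Real.norm_eq_abs, abs_le]
  constructor
  · linarith [add_one_le_exp (-f (x + c * g)), exp_pos (f (x + c * g))]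
  · linarith [add_one_le_exp (f (x + c * g)), exp_pos (-f (x + c * g))]
lemma gaussOp_of_ne (ha : a ≠ 0) (v : ℝ) (f : ℝ → ℝ) (x : ℝ) :
    gaussOp a v f x = a⁻¹ * log (∫ g, exp (a * f (x + √v * g)) ∂gaussianReal 0 1) := if_neg ha
lemma gaussOp_zero (v : ℝ) (f : ℝ → ℝ) (x : ℝ) :
    gaussOp 0 v f x = ∫ g, f (x + √v * g) ∂gaussianReal 0 1 := if_pos rfl
lemma gaussOp_zero_var (a : ℝ) (f : ℝ → ℝ) : gaussOp a 0 f = f := by
  funext x
  by_cases ha : a = 0
  · simp [gaussOp, ha]
  · simp [gaussOp, ha]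

lemma exp_gaussOp (ha : a ≠ 0) (hf : LipschitzWith 1 f) (v x : ℝ) :
    exp (a * gaussOp a v f x) = ∫ g, exp (a * f (x + √v * g)) ∂gaussianReal 0 1 := by
  rw [gaussOp_of_ne ha, mul_inv_cancel_left₀ ha,
    exp_log (integral_exp_pos (integrable_exp_lip hf a _ x))]

lemma gaussOp_le_of_int (ha : 0 < a) (hf : LipschitzWith 1 f) {x c : ℝ}
    (h : ∫ g, exp (a * f (x + √v * g)) ∂gaussianReal 0 1 ≤ exp (a * c)) : gaussOp a v f x ≤ c := by
  rw [← exp_gaussOp ha.ne' hf, exp_le_exp] at h
  exact le_of_mul_le_mul_left h ha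

/-- The normalised weight has integral one. -/
lemma integral_exp_norm (ha : a ≠ 0) (hf : LipschitzWith 1 f) (v x : ℝ) :
    ∫ g, exp (a * f (x + √v * g)) * exp (-(a * gaussOp a v f x)) ∂gaussianReal 0 1 = 1 := by
  rw [integral_mul_const, ← exp_gaussOp ha hf, ← exp_add, add_neg_cancel, exp_zero]

lemma gaussOp_le (ha : 0 ≤ a) (hf : LipschitzWith 1 f) (hg : LipschitzWith 1 g) {c : ℝ}
    (h : ∀ x, f x ≤ g x + c) (v x : ℝ) : gaussOp a v f x ≤ gaussOp a v g x + c := by
  rcases ha.eq_or_lt with rfl | ha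
  · rw [gaussOp_zero, gaussOp_zero]
    refine (integral_mono (integrable_lip hf _ x) (integrable_lip (lip_add_const hg c) (√v) x)
      fun y => h _).trans_eq ?_
    rw [integral_add (integrable_lip hg _ x) (integrable_const c)]
    simp
  · refine gaussOp_le_of_int ha hf ?_
    rw [mul_add, exp_add, exp_gaussOp ha.ne' hg, ← integral_mul_const]
    refine integral_mono (integrable_exp_lip hf a _ x) ((integrable_exp_lip hg a _ x).mul_const _)
      fun y => ?_
    simp only
    rw [← exp_add, ← mul_add]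
    exact exp_le_exp.2 (mul_le_mul_of_nonneg_left (h _) ha.le)
lemma gaussOp_add_const (ha : 0 ≤ a) (hf : LipschitzWith 1 f) (c v : ℝ) :
    gaussOp a v (fun x => f x + c) = fun x => gaussOp a v f x + c := by
  funext x
  refine le_antisymm (gaussOp_le ha (lip_add_const hf c) hf (fun _ => le_rfl) v x) ?_
  have := gaussOp_le ha hf (lip_add_const hf c) (c := -c) (fun y => by linarith) v x
  linarith

lemma gaussOp_shift (a v : ℝ) (f : ℝ → ℝ) (x d : ℝ) :
    gaussOp a v f (x + d) = gaussOp a v (fun z => f (z + d)) x := by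
  simp only [gaussOp, add_right_comm]

lemma lip_shift (hf : LipschitzWith 1 f) (d : ℝ) : LipschitzWith 1 fun z => f (z + d) :=
  LipschitzWith.of_le_add fun x y => by
    have := lip_le hf (x + d) (y + d)
    rwa [add_sub_add_right_eq_sub] at this

lemma gaussOp_lip (ha : 0 ≤ a) (hf : LipschitzWith 1 f) (v : ℝ) : LipschitzWith 1 (gaussOp a v f) := by
  refine LipschitzWith.of_le_add fun x y => ?_
  have h1 := gaussOp_shift a v f y (x - y)
  rw [add_sub_cancel] at h1
  rw [h1, Real.dist_eq]
  refine gaussOp_le ha (lip_shift hf _) hf (fun z => ?_) v y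
  simpa using lip_le hf (z + (x - y)) z
lemma gaussOp_convex (ha : 0 ≤ a) (hf : LipschitzWith 1 f) (hc : ConvexOn ℝ Set.univ f) (v : ℝ) :
    ConvexOn ℝ Set.univ (gaussOp a v f) := by
  refine ⟨convex_univ, fun x _ y _ s t hs ht hst => ?_⟩
  simp only [smul_eq_mul]
  have h1 : ∀ z, f (s * x + t * y + z) ≤ s * f (x + z) + t * f (y + z) := fun z => by
    have h2 := hc.2 (Set.mem_univ (x + z)) (Set.mem_univ (y + z)) hs ht hst
    simp only [smul_eq_mul] at h2
    rwa [show s * (x + z) + t * (y + z) = s * x + t * y + (s + t) * z by ring, hst, one_mul] at h2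
  rcases ha.eq_or_lt with rfl | ha
  · rw [gaussOp_zero, gaussOp_zero, gaussOp_zero, ← integral_const_mul, ← integral_const_mul,
      ← integral_add ((integrable_lip hf _ x).const_mul s) ((integrable_lip hf _ y).const_mul t)]
    exact integral_mono (integrable_lip hf _ _)
      (((integrable_lip hf _ x).const_mul s).add ((integrable_lip hf _ y).const_mul t))
      fun z => h1 _
  · refine gaussOp_le_of_int ha hf ?_
    set cx := gaussOp a v f x with hcx
    set cy := gaussOp a v f y with hcy
    have ix := ((integrable_exp_lip hf a (√v) x).mul_const (exp (-(a * cx)))).const_mul s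
    have iy := ((integrable_exp_lip hf a (√v) y).mul_const (exp (-(a * cy)))).const_mul t
    refine (integral_mono (integrable_exp_lip hf a _ _)
      ((ix.add iy).const_mul (exp (a * (s * cx + t * cy)))) fun z => ?_).trans_eq ?_
    · have h2 := convexOn_exp.2 (Set.mem_univ (a * f (x + √v * z) + -(a * cx)))
        (Set.mem_univ (a * f (y + √v * z) + -(a * cy))) hs ht hst
      simp only [smul_eq_mul, Pi.add_apply] at h2 ⊢
      rw [← exp_add, ← exp_add]
      refine le_trans ?_ (mul_le_mul_of_nonneg_left h2 (exp_pos _).le)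
      rw [← exp_add]
      have h3 := mul_le_mul_of_nonneg_left (h1 (√v * z)) ha.le
      exact exp_le_exp.2 (by linarith)
    · simp only [Pi.add_apply]
      rw [integral_const_mul, integral_add ix iy, integral_const_mul, integral_const_mul, hcx, hcy,
        integral_exp_norm ha.ne' hf, integral_exp_norm ha.ne' hf, mul_one, mul_one, hst, mul_one]

lemma integral_gauss_neg (F : ℝ → ℝ) :
    ∫ g, F (-g) ∂gaussianReal 0 1 = ∫ g, F g ∂gaussianReal 0 1 := by
  have h := integral_map_equiv (μ := gaussianReal 0 1) (MeasurableEquiv.neg ℝ) F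
  have h2 : (gaussianReal 0 1).map (MeasurableEquiv.neg ℝ) = gaussianReal 0 1 := by
    simpa using gaussianReal_map_neg (μ := 0) (v := 1)
  rw [h2] at h
  exact h.symm

lemma gaussOp_even (hf : LipschitzWith 1 f) (he : ∀ x, f (-x) = f x) (a v x : ℝ) :
    gaussOp a v f (-x) = gaussOp a v f x := by
  have _ := hf
  have h1 : ∀ g, f (-x + √v * g) = f (x + √v * -g) := fun g => by
    rw [← he]; congr 1; ring
  simp only [gaussOp, h1]
  rw [integral_gauss_neg fun g => f (x + √v * g),
    integral_gauss_neg fun g => exp (a * f (x + √v * g))]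
lemma gaussOp_mono_exp (ha : 0 ≤ a) (haa : a ≤ a') (hf : LipschitzWith 1 f) (v x : ℝ) :
    gaussOp a v f x ≤ gaussOp a' v f x := by
  rcases haa.eq_or_lt with rfl | haa
  · exact le_rfl
  have ha' : 0 < a' := ha.trans_lt haa
  set c := gaussOp a' v f x with hc
  have i1 := (integrable_exp_lip hf a' (√v) x).mul_const (exp (-(a' * c)))
  have e1 := integral_exp_norm ha'.ne' hf v x
  rw [← hc] at e1
  rcases ha.eq_or_lt with rfl | ha
  · have i2 := ((integrable_lip hf (√v) x).const_mul a').add (integrable_const (-(a' * c) + 1))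
    have h1 := integral_mono i2 i1 fun z => by
      simp only [Pi.add_apply]
      rw [← exp_add, ← add_assoc]
      exact add_one_le_exp _
    simp only [Pi.add_apply] at h1
    rw [e1, integral_add ((integrable_lip hf (√v) x).const_mul a') (integrable_const _),
      integral_const_mul, ← gaussOp_zero] at h1
    simp only [integral_const, probReal_univ, smul_eq_mul, one_mul] at h1
    exact le_of_mul_le_mul_left (by linarith) ha'
  · refine gaussOp_le_of_int ha hf ?_
    have ht0 : 0 ≤ a / a' := by positivity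
    have ht1 : 0 ≤ 1 - a / a' := sub_nonneg.2 ((div_le_one ha').2 haa.le)
    have i2 := (i1.const_mul (a / a')).add (integrable_const (1 - a / a'))
    refine (integral_mono (integrable_exp_lip hf a _ _) (i2.const_mul (exp (a * c)))
      fun z => ?_).trans_eq ?_
    · have h2 := convexOn_exp.2 (Set.mem_univ (a' * f (x + √v * z) + -(a' * c)))
        (Set.mem_univ 0) ht0 ht1 (by ring)
      simp only [smul_eq_mul, Pi.add_apply, exp_zero, mul_one, mul_zero, add_zero] at h2 ⊢
      rw [← exp_add]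
      refine le_trans ?_ (mul_le_mul_of_nonneg_left h2 (exp_pos _).le)
      rw [← exp_add]
      refine exp_le_exp.2 (le_of_eq ?_)
      field_simp
      ring
    · simp only [Pi.add_apply]
      rw [integral_const_mul, integral_add (i1.const_mul _) (integrable_const _), integral_const_mul,
        e1]
      simp
lemma le_gaussOp (ha : 0 ≤ a) (hf : LipschitzWith 1 f) (hc : ConvexOn ℝ Set.univ f) (v x : ℝ) :
    f x ≤ gaussOp a v f x := by
  refine le_trans ?_ (gaussOp_mono_exp le_rfl ha hf v x)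
  have i1 := integrable_lip hf (√v) x
  have i2 : Integrable (fun g => f (x + √v * -g)) (gaussianReal 0 1) := by
    simpa using integrable_lip hf (-√v) x
  have h1 := integral_mono (integrable_const (2 * f x)) (i1.add i2) fun z => by
    have h2 := hc.2 (Set.mem_univ (x + √v * z)) (Set.mem_univ (x + √v * -z))
      (show (0 : ℝ) ≤ 1 / 2 by norm_num) (show (0 : ℝ) ≤ 1 / 2 by norm_num) (by norm_num)
    simp only [smul_eq_mul, Pi.add_apply] at h2 ⊢
    rw [show 1 / 2 * (x + √v * z) + 1 / 2 * (x + √v * -z) = x by ring] at h2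
    linarith
  simp only [Pi.add_apply] at h1
  rw [integral_add i1 i2, integral_gauss_neg fun g => f (x + √v * g), ← gaussOp_zero] at h1
  simp only [integral_const, probReal_univ, smul_eq_mul, one_mul] at h1
  linarith

lemma map_sqrt_gauss (hv : 0 ≤ v) :
    (gaussianReal 0 1).map (√v * ·) = gaussianReal 0 ⟨v, hv⟩ := by
  rw [gaussianReal_map_const_mul, mul_zero, mul_one]
  congr 1
  exact NNReal.eq (sq_sqrt hv)

lemma integral_sqrt_gauss (hv : 0 ≤ v) {F : ℝ → ℝ} (hF : Continuous F) :
    ∫ g, F (√v * g) ∂gaussianReal 0 1 = ∫ y, F y ∂gaussianReal 0 ⟨v, hv⟩ := by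
  rw [← map_sqrt_gauss hv, integral_map (by fun_prop) hF.aestronglyMeasurable]

lemma gaussOp_semigroup (ha : 0 < a) (hv : 0 ≤ v) (hv' : 0 ≤ v') (hf : LipschitzWith 1 f) :
    gaussOp a v (gaussOp a v' f) = gaussOp a (v + v') f := by
  funext x
  have hc := hf.continuous
  have hc' := (gaussOp_lip ha.le hf v').continuous
  have hF : Continuous fun y => exp (a * f (x + y)) := by fun_prop
  have hvv := add_nonneg hv hv'
  have hi : Integrable (fun y => exp (a * f (x + y)))
      (gaussianReal 0 ⟨v, hv⟩ ∗ gaussianReal 0 ⟨v', hv'⟩) := by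
    rw [gaussianReal_conv_gaussianReal, add_zero]
    change Integrable _ (gaussianReal 0 ⟨v + v', hvv⟩)
    rw [← map_sqrt_gauss hvv, integrable_map_measure hF.aestronglyMeasurable (by fun_prop)]
    exact integrable_exp_lip hf a _ x
  have h1 := integral_conv hi
  rw [gaussianReal_conv_gaussianReal, add_zero] at h1
  rw [gaussOp_of_ne ha.ne', gaussOp_of_ne ha.ne' (v + v'), integral_sqrt_gauss hvv hF,
    integral_sqrt_gauss hv (F := fun y => exp (a * gaussOp a v' f (x + y))) (by fun_prop)]
  congr 2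
  refine Eq.trans ?_ h1.symm
  congr 1
  funext y
  rw [exp_gaussOp ha.ne' hf,
    integral_sqrt_gauss hv' (F := fun z => exp (a * f (x + y + z))) (by fun_prop)]
  simp only [add_assoc]

lemma integral_exp_gauss (x t : ℝ) :
    ∫ g, exp (x + t * g) ∂gaussianReal 0 1 = exp (x + t ^ 2 / 2) := by
  have h := congrFun (mgf_fun_id_gaussianReal (μ := 0) (v := 1)) t
  simp only [mgf, zero_mul, zero_add, NNReal.coe_one, one_mul] at h
  simp only [exp_add]
  rw [integral_const_mul, h]

lemma integrable_exp_gauss (x t : ℝ) : Integrable (fun g => exp (x + t * g)) (gaussianReal 0 1) := by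
  simp only [exp_add]
  exact (integrable_exp_mul_gaussianReal t).const_mul _

lemma gaussOp_one_logcosh (hv : 0 ≤ v) :
    gaussOp 1 v (fun z => log (cosh z)) = fun z => log (cosh z) + v / 2 := by
  funext z
  have h1 : ∀ g, exp (1 * log (cosh (z + √v * g))) =
      (exp (z + √v * g) + exp (-z + -√v * g)) / 2 := fun g => by
    rw [one_mul, exp_log (cosh_pos _), cosh_eq]
    congr 3
    ring
  rw [gaussOp_of_ne one_ne_zero]
  simp only [h1]
  rw [integral_div, integral_add (integrable_exp_gauss _ _) (integrable_exp_gauss _ _),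
    integral_exp_gauss, integral_exp_gauss, neg_sq, sq_sqrt hv, inv_one, one_mul,
    ← log_exp (v / 2), ← log_mul (cosh_pos z).ne' (exp_pos _).ne', log_exp, cosh_eq, exp_add, exp_add]
  congr 1
  ring
lemma gaussOp_abs_le' (ha : 0 < a) (hv : 0 ≤ v) (x : ℝ) :
    gaussOp a v (fun z => |z|) x ≤ |x| + log 2 / a + a * v / 2 := by
  refine gaussOp_le_of_int ha lip_abs ?_
  have i1 := integrable_exp_gauss (a * x) (a * √v)
  have i2 := integrable_exp_gauss (-(a * x)) (-(a * √v))
  refine (integral_mono (integrable_exp_lip lip_abs a _ _) (i1.add i2) fun g => ?_).trans ?_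
  · simp only [Pi.add_apply]
    rcases abs_cases (x + √v * g) with h | h <;> rw [h.1]
    · rw [show a * (x + √v * g) = a * x + a * √v * g by ring]
      linarith [exp_pos (-(a * x) + -(a * √v) * g)]
    · rw [show a * -(x + √v * g) = -(a * x) + -(a * √v) * g by ring]
      linarith [exp_pos (a * x + a * √v * g)]
  · simp only [Pi.add_apply]
    have h1 : a * (|x| + log 2 / a + a * v / 2) = log 2 + (a * |x| + a ^ 2 * v / 2) := by
      field_simp
      ring
    rw [integral_add i1 i2, integral_exp_gauss, integral_exp_gauss, neg_sq, mul_pow, sq_sqrt hv, h1,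
      exp_add (log 2), exp_log two_pos]
    have h2 : exp (a * x + a ^ 2 * v / 2) ≤ exp (a * |x| + a ^ 2 * v / 2) :=
      exp_le_exp.2 (by linarith [mul_le_mul_of_nonneg_left (le_abs_self x) ha.le])
    have h3 : exp (-(a * x) + a ^ 2 * v / 2) ≤ exp (a * |x| + a ^ 2 * v / 2) :=
      exp_le_exp.2 (by linarith [mul_le_mul_of_nonneg_left (neg_abs_le x) ha.le])
    linarith

lemma gaussOp_abs_zero_le (ha : 0 ≤ a) (ha1 : a ≤ 1) (hv : 0 ≤ v) :
    gaussOp a v (fun z => |z|) 0 ≤ 2 * √v + v := by
  rcases hv.eq_or_lt with rfl | hv0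
  · simp [gaussOp_zero_var]
  have hs : 0 < √v := sqrt_pos.2 hv0
  have hi : 0 < (√v)⁻¹ := inv_pos.2 hs
  have h1 := gaussOp_mono_exp ha (show a ≤ 1 + (√v)⁻¹ by linarith) lip_abs v 0
  have h2 := gaussOp_abs_le' (show 0 < 1 + (√v)⁻¹ by linarith) hv 0
  have h3 : log 2 / (1 + (√v)⁻¹) ≤ √v := by
    rw [div_le_iff₀ (by linarith), mul_add, mul_inv_cancel₀ hs.ne']
    linarith [log_two_lt_d9]
  have h4 : (√v)⁻¹ * v = √v := by
    rw [inv_mul_eq_div, div_sqrt]
  rw [abs_zero, add_mul, h4] at h2
  linarith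

lemma abs_gaussOp_sub_le (ha : 0 ≤ a) (ha1 : a ≤ 1) (hv : 0 ≤ v) (hf : LipschitzWith 1 f) (x : ℝ) :
    |gaussOp a v f x - f x| ≤ 2 * √v + v := by
  rw [abs_le]
  constructor
  · have h1 := gaussOp_mono_exp le_rfl ha hf v x
    have h2 := gaussOp_abs_zero_le le_rfl zero_le_one hv
    have i1 := integrable_lip hf (√v) x
    have i2 := integrable_lip lip_abs (√v) 0
    have h3 := integral_mono (integrable_const (f x)) (i1.add i2) fun z => by
      simpa using lip_le hf x (x + √v * z)
    simp only [Pi.add_apply] at h3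
    rw [integral_add i1 i2, ← gaussOp_zero, ← gaussOp_zero v fun z => |z|] at h3
    simp only [integral_const, probReal_univ, smul_eq_mul, one_mul] at h3
    linarith
  · have h1 := gaussOp_shift a v f 0 x
    rw [zero_add] at h1
    have h2 := gaussOp_le ha (lip_shift hf x) lip_abs (c := f x)
      (fun z => by simpa [add_comm] using lip_le hf (z + x) x) v 0
    linarith [gaussOp_abs_zero_le ha ha1 hv]
lemma gaussOp_abs_le (ha : 0 < a) (hv : 0 ≤ v) (x : ℝ) :
    gaussOp a v (fun z => |z|) x ≤ |x| + log 2 / a + a * v / 2 := gaussOp_abs_le' ha hv x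

lemma fl_nil : fl [] = fun z => log (cosh z) := rfl
lemma fl_cons (q : ℝ × ℝ) (L : List (ℝ × ℝ)) : fl (q :: L) = gaussOp q.1 q.2 (fl L) := rfl

lemma fl_lip {L : List (ℝ × ℝ)} (hL : ∀ q ∈ L, 0 ≤ q.1) : LipschitzWith 1 (fl L) := by
  induction L with
  | nil => exact lip_logcosh
  | cons q L ih =>
    exact gaussOp_lip (hL q List.mem_cons_self) (ih fun p hp => hL p (List.mem_cons_of_mem _ hp)) _
lemma fl_convex {L : List (ℝ × ℝ)} (hL : ∀ q ∈ L, 0 ≤ q.1) : ConvexOn ℝ Set.univ (fl L) := by
  induction L with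
  | nil => exact convex_logcosh
  | cons q L ih =>
    have h := fun p hp => hL p (List.mem_cons_of_mem q hp)
    exact gaussOp_convex (hL q List.mem_cons_self) (fl_lip h) (ih h) _
lemma logcosh_le_fl {L : List (ℝ × ℝ)} (hL : ∀ q ∈ L, 0 ≤ q.1) (x : ℝ) : log (cosh x) ≤ fl L x := by
  induction L with
  | nil => exact le_rfl
  | cons q L ih =>
    have h := fun p hp => hL p (List.mem_cons_of_mem q hp)
    exact (ih h).trans (le_gaussOp (hL q List.mem_cons_self) (fl_lip h) (fl_convex h) _ x)
lemma exists_fl_le {L : List (ℝ × ℝ)} (hL : ∀ q ∈ L, 0 ≤ q.1) : ∃ C, ∀ x, fl L x ≤ |x| + C :=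
  ⟨fl L 0, fun x => by simpa [add_comm] using lip_le (fl_lip hL) x 0⟩
lemma bddAbove_Wl {L : List (ℝ × ℝ)} (hL : ∀ q ∈ L, 0 ≤ q.1) {m : ℝ} (hm : |m| ≤ 1) :
    BddAbove (Set.range fun b : ℝ => b * m - fl L b) := by
  refine ⟨log 2, ?_⟩
  rintro _ ⟨b, rfl⟩
  have h1 : b * m ≤ |b| :=
    (le_abs_self _).trans (by rw [abs_mul]; exact mul_le_of_le_one_right (abs_nonneg b) hm)
  simp only
  linarith [logcosh_le_fl hL b, (logcosh_bounds b).1]
lemma Ft_lip {L : List (ℝ × ℝ)} (hL : ∀ q ∈ L, 0 ≤ q.1) (τ : ℝ) : LipschitzWith 1 (Ft τ L) := by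
  induction L generalizing τ with
  | nil => exact lip_add_const lip_logcosh (-(τ / 2))
  | cons q L ih =>
    exact gaussOp_lip (hL q List.mem_cons_self)
      (ih (fun p hp => hL p (List.mem_cons_of_mem _ hp)) _) _

lemma fl_even {L : List (ℝ × ℝ)} (hL : ∀ q ∈ L, 0 ≤ q.1) (x : ℝ) : fl L (-x) = fl L x := by
  induction L generalizing x with
  | nil => simp [fl_nil]
  | cons q L ih =>
    have h := fun p hp => hL p (List.mem_cons_of_mem q hp)
    exact gaussOp_even (fl_lip h) (ih h) _ _ x

lemma fl_le_logcosh {L : List (ℝ × ℝ)} (hL : ∀ q ∈ L, 0 ≤ q.1 ∧ q.1 ≤ 1 ∧ 0 ≤ q.2) (x : ℝ) :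
    fl L x ≤ log (cosh x) + (L.map Prod.snd).sum / 2 := by
  induction L generalizing x with
  | nil => simp [fl_nil]
  | cons q L ih =>
    have h := fun p hp => hL p (List.mem_cons_of_mem q hp)
    obtain ⟨h0, h1, h2⟩ := hL q List.mem_cons_self
    have h3 := gaussOp_le h0 (fl_lip fun p hp => (h p hp).1) lip_logcosh (ih h) q.2 x
    have h4 := gaussOp_mono_exp h0 h1 lip_logcosh q.2 x
    rw [gaussOp_one_logcosh h2] at h4
    rw [fl_cons, List.map_cons, List.sum_cons]
    simp only at h4
    linarith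

section field

variable {k : ℕ} {w hv : Fin k → ℝ}

lemma fieldValueAt_zero (w hv : Fin k → ℝ) : fieldValueAt 0 w hv = fieldValue w hv := rfl

lemma fieldValueAt_eq (b : ℝ) (w hv : Fin k → ℝ) : fieldValueAt b w hv =
    fl ((List.finRange k).map fun i => (leftEnd w i, increment hv i)) b -
      (∑ l : Fin k, if l.val + 1 = k then hv l else 0) / 2 := by
  rw [fieldValueAt, fl, List.foldr_map]

lemma field_list (h : IsStepField w hv) :
    ∀ q ∈ (List.finRange k).map fun i => (leftEnd w i, increment hv i),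
      0 ≤ q.1 ∧ q.1 ≤ 1 ∧ 0 ≤ q.2 := by
  intro q hq
  obtain ⟨i, -, rfl⟩ := List.mem_map.1 hq
  obtain ⟨-, hw, hs, hm, h0⟩ := h
  change 0 ≤ leftEnd w i ∧ leftEnd w i ≤ 1 ∧ 0 ≤ increment hv i
  unfold leftEnd
  refine ⟨?_, ?_, ?_⟩
  · refine Finset.sum_nonneg fun l _ => ?_
    split_ifs
    exacts [(hw l).le, le_rfl]
  · rw [← hs]
    refine Finset.sum_le_sum fun l _ => ?_
    split_ifs
    exacts [le_rfl, (hw l).le]
  · simp only [increment, sub_nonneg]
    by_cases hi : i.val = 0
    · rw [Finset.sum_eq_zero fun l _ => if_neg (by omega)]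
      exact h0 i
    · have hi' : i.val - 1 < k := by have := i.2; omega
      rw [Finset.sum_eq_single (⟨i.val - 1, hi'⟩ : Fin k)]
      · rw [if_pos (by simp only; omega)]
        exact hm (Fin.le_def.2 (Nat.sub_le _ _))
      · intro l _ hl
        exact if_neg fun h' => hl (Fin.ext (by simp only; omega))
      · simp

lemma sum_increment (hv : Fin k → ℝ) :
    ∑ i, increment hv i = ∑ l : Fin k, if l.val + 1 = k then hv l else 0 := by
  simp only [increment]
  rw [Finset.sum_sub_distrib, Finset.sum_comm, ← Finset.sum_sub_distrib]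
  refine Finset.sum_congr rfl fun l _ => ?_
  by_cases hl : l.val + 1 = k
  · rw [if_pos hl, Finset.sum_eq_zero fun i _ => if_neg (by have := i.2; omega), sub_zero]
  · have hl' : l.val + 1 < k := by have := l.2; omega
    rw [if_neg hl, Finset.sum_eq_single (⟨l.val + 1, hl'⟩ : Fin k)]
    · simp
    · intro i _ hi
      exact if_neg fun h' => hi (Fin.ext h'.symm)
    · simp

lemma fieldValueAt_neg (h : IsStepField w hv) (b : ℝ) : fieldValueAt (-b) w hv = fieldValueAt b w hv := by
  rw [fieldValueAt_eq, fieldValueAt_eq, fl_even fun q hq => (field_list h q hq).1]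
lemma fieldValueAt_zero_le (h : IsStepField w hv) (b : ℝ) : fieldValueAt 0 w hv ≤ fieldValueAt b w hv := by
  have h1 := fun q hq => (field_list h q hq).1
  have h2 := (fl_convex h1).2 (Set.mem_univ b) (Set.mem_univ (-b))
    (show (0 : ℝ) ≤ 1 / 2 by norm_num) (show (0 : ℝ) ≤ 1 / 2 by norm_num) (by norm_num)
  simp only [smul_eq_mul] at h2
  rw [fl_even h1, show 1 / 2 * b + 1 / 2 * -b = 0 by ring] at h2
  rw [fieldValueAt_eq, fieldValueAt_eq]
  linarith
lemma fieldValueAt_le (h : IsStepField w hv) (b : ℝ) : fieldValueAt b w hv ≤ log (cosh b) := by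
  have h1 := fl_le_logcosh (field_list h) b
  rw [List.map_map, ← Fin.sum_univ_def] at h1
  simp only [Function.comp] at h1
  rw [sum_increment] at h1
  rw [fieldValueAt_eq]
  linarith
lemma le_fieldValueAt (h : IsStepField w hv) (b : ℝ) :
    |b| - log 2 - (∑ l : Fin k, if l.val + 1 = k then hv l else 0) / 2 ≤ fieldValueAt b w hv := by
  rw [fieldValueAt_eq]
  linarith [logcosh_le_fl (fun q hq => (field_list h q hq).1) b, (logcosh_bounds b).1]
/-- The trivial step field. -/
lemma exists_trivial_field : IsStepField (fun _ : Fin 1 => (1 : ℝ)) (fun _ => 0) ∧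
    (∀ b, fieldValueAt b (fun _ : Fin 1 => (1 : ℝ)) (fun _ => 0) = log (cosh b)) ∧
    ∀ s, stepFn (fun _ : Fin 1 => (1 : ℝ)) (fun _ => 0) s = 0 := by
  refine ⟨⟨one_pos, fun _ => one_pos, by simp, monotone_const, fun _ => le_rfl⟩, fun b => ?_,
    fun s => by simp [stepFn]⟩
  simp [fieldValueAt, increment, List.finRange, gaussOp_zero_var]
lemma stepFn_nonneg (h : IsStepField w hv) (s : ℝ) : 0 ≤ stepFn w hv s := by
  refine Finset.sum_nonneg fun i _ => ?_
  split_ifs
  exacts [h.2.2.2.2 i, le_rfl]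
lemma integrableOn_mul_stepFn (h : IsStepField w hv) {p : ℝ → ℝ} (hp : IsTrialPath p) :
    IntegrableOn (fun s => p s * stepFn w hv s) (Set.Ioo 0 1) := by
  have hm : Measurable (stepFn w hv) :=
    Finset.measurable_sum _ fun i _ => Measurable.ite measurableSet_Ioc measurable_const
      measurable_const
  refine Measure.integrableOn_of_bounded (M := ∑ i, hv i) (by simp)
    (hp.1.mul hm).aestronglyMeasurable ?_
  filter_upwards [ae_restrict_mem measurableSet_Ioo] with s hs
  obtain ⟨h0, h1⟩ := hp.2.2 s hs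
  have h2 := stepFn_nonneg h s
  rw [Real.norm_eq_abs, abs_of_nonneg (mul_nonneg h0 h2)]
  refine (mul_le_of_le_one_left h2 h1).trans (Finset.sum_le_sum fun i _ => ?_)
  split_ifs
  exacts [le_rfl, h.2.2.2.2 i]

end field

end Crest.Agent.R164
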