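import Crest.Agent.R164.SpecApxAux

/-! # Row 164: a general spectrum between two finite uniform spectra -/

set_option autoImplicit false

namespace Crest.Agent.R164

open MeasureTheory Real Finset Crest.ProbabilityR.InvariantGlass

/-- Sorting: domination of all tail counts gives a dominating matching. -/
lemma exists_perm_le {N : ℕ} (u v : Fin N → ℝ)
    (h : ∀ t, (univ.filter fun i => t ≤ u i).card ≤ (univ.filter fun i => t ≤ v i).card) :
    ∃ σ : Equiv.Perm (Fin N), ∀ i, u i ≤ v (σ i) := by
  refine ⟨(Tuple.sort u).symm.trans (Tuple.sort v), fun i => ?_⟩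
  obtain ⟨j, rfl⟩ := (Tuple.sort u).surjective i
  simp only [Equiv.trans_apply, Equiv.symm_apply_apply]
  by_contra hc
  have h1 : (Ici j).card ≤ (univ.filter fun i => u (Tuple.sort u j) ≤ u i).card :=
    card_le_card_of_injOn (Tuple.sort u) (fun k hk => by
      simpa using Tuple.monotone_sort u (mem_Ici.1 (mem_coe.1 hk)))
      (Tuple.sort u).injective.injOn
  have h2 : (univ.filter fun i => u (Tuple.sort u j) ≤ v i).card ≤ (Ioi j).card :=
    card_le_card_of_injOn (Tuple.sort v).symm (fun k hk => by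
      have hk' := (mem_filter.1 (mem_coe.1 hk)).2
      rw [mem_coe, mem_Ioi]
      by_contra h3
      have := Tuple.monotone_sort v (not_lt.1 h3)
      simp only [Function.comp_apply, Equiv.apply_symm_apply] at this
      exact hc (hk'.trans this)) (Tuple.sort v).symm.injective.injOn
  have h3 := (h1.trans (h _)).trans h2
  rw [Fin.card_Ici, Fin.card_Ioi] at h3
  have := j.2
  omega

section

variable (μ : Measure ℝ) [IsProbabilityMeasure μ] {lo hi : ℝ} (hle : lo ≤ hi)
  (hsupp : μ (Set.Icc lo hi) = 1)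

include hle hsupp

lemma rTransform_mem {x : ℝ} : lo ≤ rTransform μ hi x ∧ rTransform μ hi x ≤ hi := by
  unfold rTransform
  split_ifs with hx
  · obtain ⟨h1, h2⟩ := resolventPoint_spec μ hle hsupp hx
    have hx' : 0 < 1 / x := by positivity
    constructor
    · rw [le_sub_iff_add_le]
      refine le_of_forall_gt_imp_ge_of_dense fun b hb => ?_
      have h3 := (stj_bounds μ hsupp (h1.trans_lt hb)).1.trans (stj_le_of_lt μ hle hsupp hx hb)
      have h4 : 0 < b - lo := by linarith
      rw [inv_le_comm₀ h4 hx, ← one_div] at h3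
      linarith
    · rw [sub_le_iff_le_add]
      refine (h2 _ (by linarith)).2 ((stj_bounds μ hsupp (by linarith)).2.trans ?_)
      simp
  · have hi' : Integrable (fun t : ℝ => t) μ :=
      Integrable.of_mem_Icc lo hi measurable_id.aemeasurable (ae_mem_supp μ hsupp)
    constructor
    · have := integral_mono_ae (integrable_const lo) hi' ((ae_mem_supp μ hsupp).mono fun t h => h.1)
      simpa using this
    · have := integral_mono_ae hi' (integrable_const hi) ((ae_mem_supp μ hsupp).mono fun t h => h.2)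
      simpa using this

lemma measurable_rTransform : Measurable (rTransform μ hi) := by
  have h1 : Antitone fun y => resolventPoint μ hi (exp y) := fun y y' h =>
    le_of_forall_gt_imp_ge_of_dense fun b hb =>
      ((resolventPoint_spec μ hle hsupp (exp_pos y')).2 b
        ((resolventPoint_spec μ hle hsupp (exp_pos y)).1.trans_lt hb)).2
        ((stj_le_of_lt μ hle hsupp (exp_pos y) hb).trans (exp_le_exp.2 h))
  have h2 : rTransform μ hi = fun x =>
      if 0 < x then resolventPoint μ hi (exp (log x)) - 1 / x else ∫ lam, lam ∂μ := by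
    funext x
    unfold rTransform
    split_ifs with hx
    · rw [exp_log hx]
    · rfl
  rw [h2]
  exact Measurable.ite measurableSet_Ioi
    ((h1.measurable.comp measurable_log).sub (by fun_prop)) measurable_const

lemma integrable_rTransform {p : ℝ → ℝ} (hp : IsTrialPath p) :
    IntegrableOn (fun r => rTransform μ hi (deficit p r)) (Set.Ioo 0 1) :=
  Integrable.of_mem_Icc lo hi
    ((measurable_rTransform μ hle hsupp).comp (deficit_continuous hp).measurable).aemeasurable
    (Filter.Eventually.of_forall fun _ => rTransform_mem μ hle hsupp)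

lemma spectralPart_le_of {ν : Measure ℝ} [IsProbabilityMeasure ν] {lo' hi' : ℝ} (hle' : lo' ≤ hi')
    (hν : ν (Set.Icc lo' hi') = 1) {ε : ℝ} (hε : 0 ≤ ε)
    (h0 : ∫ t, t ∂μ ≤ ∫ t, t ∂ν + ε)
    (h1 : ∀ x, 0 < x → resolventPoint μ hi x ≤ resolventPoint ν hi' x + ε)
    {p : ℝ → ℝ} (hp : IsTrialPath p) : spectralPart μ hi p ≤ spectralPart ν hi' p + ε := by
  have h2 : ∀ x, rTransform μ hi x ≤ rTransform ν hi' x + ε := fun x => by
    unfold rTransform
    split_ifs with hx
    · linarith [h1 x hx]
    · exact h0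
  have h3 := setIntegral_mono (integrable_rTransform μ hle hsupp hp)
    ((integrable_rTransform ν hle' hν hp).add (integrable_const ε)) fun r => h2 (deficit p r)
  simp only [Pi.add_apply] at h3
  rw [integral_add (integrable_rTransform ν hle' hν hp) (integrable_const ε)] at h3
  simp only [integral_const, MeasurableSet.univ, measureReal_restrict_apply, Set.univ_inter,
    Real.volume_real_Ioo, sub_zero, smul_eq_mul] at h3
  norm_num at h3
  unfold spectralPart
  linarith

omit hsupp in
lemma exists_small {h : ℝ} (hh : 0 < h) : ∃ n₀ : ℕ, ∀ n, n₀ ≤ n →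
    2 / ((n : ℝ) + 1) * (hi - lo) * (h + (hi - lo)) ≤ h ^ 2 ∧ 2 / ((n : ℝ) + 1) * (hi - lo) ≤ h := by
  have hw : 0 ≤ hi - lo := sub_nonneg.2 hle
  obtain ⟨n₀, hn₀⟩ := exists_nat_ge (2 * (hi - lo) * (h + (hi - lo)) / h ^ 2)
  refine ⟨n₀, fun n hn => ?_⟩
  have h1 : (n₀ : ℝ) ≤ n + 1 := by exact_mod_cast (by omega : n₀ ≤ n + 1)
  have h2 : 2 / ((n : ℝ) + 1) * (hi - lo) * (h + (hi - lo)) ≤ h ^ 2 := by
    have h3 := hn₀.trans h1
    rw [div_le_iff₀ (by positivity)] at h3
    rw [div_mul_eq_mul_div, div_mul_eq_mul_div, div_le_iff₀ (by positivity)]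
    linarith
  refine ⟨h2, le_of_mul_le_mul_right ?_ hh⟩
  have h3 : 0 ≤ 2 / ((n : ℝ) + 1) * (hi - lo) := by positivity
  nlinarith

lemma spectralPart_mem {p : ℝ → ℝ} (hp : IsTrialPath p) :
    lo / 2 ≤ spectralPart μ hi p ∧ spectralPart μ hi p ≤ hi / 2 := by
  have h1 := setIntegral_mono (integrable_const lo) (integrable_rTransform μ hle hsupp hp)
    fun r => (rTransform_mem μ hle hsupp).1
  have h2 := setIntegral_mono (integrable_rTransform μ hle hsupp hp) (integrable_const hi)
    fun r => (rTransform_mem μ hle hsupp).2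
  simp only [integral_const, MeasurableSet.univ, measureReal_restrict_apply, Set.univ_inter,
    Real.volume_real_Ioo, sub_zero, smul_eq_mul] at h1 h2
  norm_num at h1 h2
  unfold spectralPart
  constructor <;> linarith

/-- Finite spectrum above. -/
theorem exists_upper_spec {ε : ℝ} (hε : 0 < ε) : ∃ n₀ : ℕ, ∀ n, n₀ ≤ n → ∃ lam : Fin (n + 1) → ℝ,
    Monotone lam ∧
    (∀ p, IsTrialPath p → spectralPart (muf lam) (lam (Fin.last n)) p ≤ spectralPart μ hi p + ε) ∧
    ∀ (eig : (N : ℕ) → Fin N → ℝ),
      (∀ φ : ℝ → ℝ, Continuous φ → (∃ C : ℝ, ∀ x, |φ x| ≤ C) →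
        Filter.Tendsto (fun N : ℕ => (1 / (N : ℝ)) * ∑ i : Fin N, φ (eig N i)) Filter.atTop
          (nhds (∫ x, φ x ∂μ))) →
      (∀ ε : ℝ, 0 < ε → ∀ᶠ N : ℕ in Filter.atTop, ∀ i : Fin N, lo - ε ≤ eig N i ∧ eig N i ≤ hi + ε) →
      ∀ (sp : (N : ℕ) → Fin N → Fin (n + 1)),
        (∀ N a, |((univ.filter fun i => sp N i = a).card : ℝ) - N / (n + 1)| ≤ 1) →
        ∀ᶠ N : ℕ in Filter.atTop, ∃ σ : Equiv.Perm (Fin N), ∀ i, eig N (σ i) ≤ lam (sp N i) := by
  classical
  obtain ⟨n₀, hn₀⟩ := exists_small hle (half_pos hε)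
  refine ⟨n₀, fun n hn => ?_⟩
  have hn1 : (0 : ℝ) < n + 1 := by positivity
  let q : Fin (n + 1) → ℝ := fun a => qtl μ lo hi (((a : ℝ) + 2) / (n + 1))
  have hq : Monotone q := fun a b h => qtl_mono μ hle (by
    have : ((a : ℕ) : ℝ) ≤ (b : ℕ) := by exact_mod_cast h
    gcongr)
  have hqm : ∀ a, q a ∈ Set.Icc lo hi := fun a => qtl_mem μ hle _
  have hqlast : q (Fin.last n) = hi := qtl_of_gt μ hle (by
    rw [one_lt_div hn1, Fin.val_last]; linarith)
  have := muf_prob q
  have := muf_prob fun a => q a + ε / 2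
  have hdom : ∀ U : Set ℝ, IsUpperSet U → (muf q).real U ≤ μ.real U + 2 / (n + 1) := by
    intro U hU
    rw [muf_real q hU.ordConnected.measurableSet]
    rcases (univ.filter fun a => q a ∈ U).eq_empty_or_nonempty with h | h
    · rw [h]; simp only [card_empty, Nat.cast_zero, zero_div]; positivity
    · set a := (univ.filter fun a => q a ∈ U).min' h with ha
      have h1 : q a ∈ U := (mem_filter.1 (min'_mem _ h)).2
      have h2 : (univ.filter fun a => q a ∈ U).card ≤ (Ici a).card :=
        card_le_card fun b hb => mem_Ici.2 (min'_le _ _ hb)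
      rw [Fin.card_Ici] at h2
      have h3 : ((univ.filter fun a => q a ∈ U).card : ℝ) + a ≤ n + 1 := by
        have := a.2
        exact_mod_cast (by omega : (univ.filter fun a => q a ∈ U).card + a ≤ n + 1)
      have h4 := (qtl_Ici μ hsupp (u := ((a : ℝ) + 2) / (n + 1)) (by positivity)).trans
        (measureReal_mono (hU.Ici_subset h1))
      rw [div_le_iff₀ hn1]
      have h5 := mul_le_mul_of_nonneg_right h4 hn1.le
      rw [sub_mul, div_mul_cancel₀ _ hn1.ne'] at h5
      rw [add_mul, div_mul_cancel₀ _ hn1.ne']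
      linarith
  refine ⟨fun a => q a + ε / 2, fun a b h => by simpa using hq h, fun p hp => ?_, ?_⟩
  · have hs : (muf fun a => q a + ε / 2) (Set.Icc lo (q (Fin.last n) + ε / 2)) = 1 :=
      muf_supp _ fun a => ⟨by linarith [(hqm a).1], by linarith [hq (Fin.le_last a)]⟩
    have hle' : lo ≤ q (Fin.last n) + ε / 2 := by linarith [(hqm (Fin.last n)).1]
    refine spectralPart_le_of _ hle' hs hle hsupp hε.le ?_ (fun x hx => ?_) hp
    · have := mean_le (muf q) hle μ (muf_supp q hqm) hsupp hdom
      rw [mean_muf_shift]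
      linarith [(hn₀ n hn).2]
    · rw [← sub_le_iff_le_add]
      refine le_of_forall_gt_imp_ge_of_dense fun b hb => ?_
      have hb' := (resolventPoint_spec μ hle hsupp hx).1.trans_lt hb
      have h1 := (stj_shift_le (muf q) hle μ (muf_supp q hqm) hsupp (by positivity) (half_pos hε)
        hdom (hn₀ n hn).1 hb').trans (stj_le_of_lt μ hle hsupp hx hb)
      rw [← stj_muf_shift q (ε / 2)] at h1
      have h2 := ((resolventPoint_spec _ hle' hs hx).2 _ (by rw [hqlast]; linarith)).2 h1
      linarith
  · intro eig hw hb sp hsp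
    have h1 : ∀ a : Fin (n + 1), ∀ᶠ N : ℕ in Filter.atTop,
        (univ.filter fun i => sp N i ∈ Iic a).card ≤
          (univ.filter fun i => eig N i ≤ q a + ε / 2).card := by
      intro a
      by_cases ha : a = Fin.last n
      · filter_upwards [hb (ε / 2) (half_pos hε)] with N hN
        refine card_le_card fun i _ => mem_filter.2 ⟨mem_univ _, ?_⟩
        rw [ha, hqlast]; exact (hN i).2
      · have ha' : ((a : ℕ) : ℝ) + 1 ≤ n := by
          have := Fin.val_lt_last ha
          exact_mod_cast this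
        have h2 := qtl_Iic μ hle hsupp (u := ((a : ℝ) + 2) / (n + 1))
          ((div_le_one hn1).2 (by linarith))
        have h3 := eventually_count μ eig hw (ψ := fun t => (q a + ε / 2 - t) / (ε / 2))
          (by fun_prop) (m := ((a : ℝ) + 1) / (n + 1)) (by
            refine lt_of_lt_of_le (b := ((a : ℝ) + 2) / (n + 1)) (by gcongr; norm_num)
              (h2.trans (measureReal_mono fun t ht => ?_))
            have ht' : t ≤ q a := ht
            show 1 ≤ (q a + ε / 2 - t) / (ε / 2)
            rw [one_le_div (half_pos hε)]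
            linarith) (n + 1)
        filter_upwards [h3] with N hN
        have h4 := card_species_le (sp N) (hsp N) (Iic a)
        rw [Fin.card_Iic] at h4
        have h5 : (univ.filter fun i => 0 ≤ (q a + ε / 2 - eig N i) / (ε / 2)) =
            univ.filter fun i => eig N i ≤ q a + ε / 2 := filter_congr fun i _ => by
          rw [le_div_iff₀ (half_pos hε), zero_mul, sub_nonneg]
        rw [h5] at hN
        have h6 : ((a : ℝ) + 1) / (n + 1) * N = ((a + 1 : ℕ) : ℝ) * (N / (n + 1)) := by
          push_cast; ring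
        rw [h6] at hN
        exact_mod_cast h4.trans hN
    filter_upwards [Filter.eventually_all.2 h1] with N hN
    obtain ⟨σ, hσ⟩ := exists_perm_le (fun i => -(q (sp N i) + ε / 2)) (fun i => -eig N i) fun t => by
      rcases (univ.filter fun a => t ≤ -(q a + ε / 2)).eq_empty_or_nonempty with h | h
      · rw [filter_eq_empty_iff.2 fun i _ => filter_eq_empty_iff.1 h (mem_univ (sp N i))]
        exact Nat.zero_le _
      · set a := (univ.filter fun a => t ≤ -(q a + ε / 2)).max' h with ha
        have h2 : t ≤ -(q a + ε / 2) := (mem_filter.1 (max'_mem _ h)).2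
        refine le_trans (card_le_card fun i hi => ?_) ((hN a).trans (card_le_card fun i hi => ?_))
        · exact mem_filter.2 ⟨mem_univ _, mem_Iic.2
            (le_max' (univ.filter fun a => t ≤ -(q a + ε / 2)) (sp N i)
              (mem_filter.2 ⟨mem_univ _, (mem_filter.1 hi).2⟩))⟩
        · exact mem_filter.2 ⟨mem_univ _, by linarith [(mem_filter.1 hi).2]⟩
    exact ⟨σ, fun i => neg_le_neg_iff.1 (hσ i)⟩

/-- Finite spectrum below. -/
theorem exists_lower_spec (hedge : ∀ ε : ℝ, 0 < ε → 0 < μ (Set.Icc (hi - ε) hi)) {ε : ℝ} (hε : 0 < ε) :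
    ∃ n₀ : ℕ, ∀ n, n₀ ≤ n → ∃ lam : Fin (n + 1) → ℝ, Monotone lam ∧
    (∀ p, IsTrialPath p → spectralPart μ hi p ≤ spectralPart (muf lam) (lam (Fin.last n)) p + ε) ∧
    ∀ (eig : (N : ℕ) → Fin N → ℝ),
      (∀ φ : ℝ → ℝ, Continuous φ → (∃ C : ℝ, ∀ x, |φ x| ≤ C) →
        Filter.Tendsto (fun N : ℕ => (1 / (N : ℝ)) * ∑ i : Fin N, φ (eig N i)) Filter.atTop
          (nhds (∫ x, φ x ∂μ))) →
      (∀ ε : ℝ, 0 < ε → ∀ᶠ N : ℕ in Filter.atTop, ∀ i : Fin N, lo - ε ≤ eig N i ∧ eig N i ≤ hi + ε) →
      ∀ (sp : (N : ℕ) → Fin N → Fin (n + 1)),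
        (∀ N a, |((univ.filter fun i => sp N i = a).card : ℝ) - N / (n + 1)| ≤ 1) →
        ∀ᶠ N : ℕ in Filter.atTop, ∃ σ : Equiv.Perm (Fin N), ∀ i, lam (sp N i) ≤ eig N (σ i) := by
  classical
  have hε3 : 0 < ε / 3 := by positivity
  obtain ⟨n₀, hn₀⟩ := exists_small hle hε3
  have hm : 0 < μ.real (Set.Icc (hi - ε / 3) hi) :=
    ENNReal.toReal_pos (hedge _ hε3).ne' (measure_ne_top _ _)
  obtain ⟨n₁, hn₁⟩ := exists_nat_gt (2 / μ.real (Set.Icc (hi - ε / 3) hi))
  refine ⟨max n₀ n₁, fun n hn => ?_⟩
  have hnn₀ := hn₀ n ((le_max_left _ _).trans hn)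
  have hn1 : (0 : ℝ) < n + 1 := by positivity
  let q : Fin (n + 1) → ℝ := fun a => qtl μ lo hi (((a : ℝ) - 1) / (n + 1))
  have hq : Monotone q := fun a b h => qtl_mono μ hle (by
    have : ((a : ℕ) : ℝ) ≤ (b : ℕ) := by exact_mod_cast h
    gcongr)
  have hqm : ∀ a, q a ∈ Set.Icc lo hi := fun a => qtl_mem μ hle _
  have hq0 : q 0 = lo := qtl_of_le μ hle (by
    simp only [Fin.val_zero, Nat.cast_zero, zero_sub]
    exact div_nonpos_of_nonpos_of_nonneg (by norm_num) hn1.le)
  have hqlast : hi - ε / 3 ≤ q (Fin.last n) := le_qtl μ hle fun t _ ht => by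
    by_contra hc
    have hc' := not_le.1 hc
    rcases ht with ht | ht
    · linarith
    · have h1 : μ.real (Set.Iic t) + μ.real (Set.Icc (hi - ε / 3) hi) ≤ 1 := by
        rw [← measureReal_union (Set.disjoint_left.2 fun s hs hs' => by
          have : s ≤ t := hs
          linarith [hs'.1]) measurableSet_Icc]
        exact measureReal_le_one
      have h2 : (n₁ : ℝ) ≤ n := by exact_mod_cast (le_max_right _ _).trans hn
      rw [div_lt_iff₀ hm] at hn₁
      rw [Fin.val_last, div_le_iff₀ hn1] at ht
      nlinarith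
  have := muf_prob q
  have := muf_prob fun a => q a + -(ε / 3)
  have hdom : ∀ U : Set ℝ, IsUpperSet U → μ.real U ≤ (muf q).real U + 2 / (n + 1) := by
    intro U hU
    rw [muf_real q hU.ordConnected.measurableSet]
    rcases (univ.filter fun a => q a ∉ U).eq_empty_or_nonempty with h | h
    · rw [filter_true_of_mem fun a _ => not_not.1 (filter_eq_empty_iff.1 h (mem_univ a)),
        card_univ, Fintype.card_fin]
      push_cast
      rw [div_self hn1.ne']
      have : (0 : ℝ) ≤ 2 / (n + 1) := by positivity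
      linarith [measureReal_le_one (μ := μ) (s := U)]
    · set a := (univ.filter fun a => q a ∉ U).max' h with ha
      have h1 : q a ∉ U := (mem_filter.1 (max'_mem _ h)).2
      have h2 : (Ioi a).card ≤ (univ.filter fun a => q a ∈ U).card :=
        card_le_card fun b hb => mem_filter.2 ⟨mem_univ _, by
          by_contra hc
          exact absurd (le_max' (univ.filter fun a => q a ∉ U) b (mem_filter.2 ⟨mem_univ b, hc⟩))
            (not_le.2 (mem_Ioi.1 hb))⟩
      rw [Fin.card_Ioi] at h2
      have h3 : (n : ℝ) ≤ ((univ.filter fun a => q a ∈ U).card : ℝ) + a := by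
        have := a.2
        exact_mod_cast (by omega : n ≤ (univ.filter fun a => q a ∈ U).card + a)
      have ha' : ((a : ℕ) : ℝ) ≤ n := by exact_mod_cast Nat.lt_succ_iff.1 a.2
      have h4 := qtl_Iic μ hle hsupp (u := ((a : ℝ) - 1) / (n + 1))
        ((div_le_one hn1).2 (by linarith))
      have h5 : μ.real (Set.Iic (q a)) + μ.real U ≤ 1 := by
        rw [← measureReal_union (s₁ := Set.Iic (q a))
          (Set.disjoint_left.2 fun s hs hs' => h1 (hU hs hs')) hU.ordConnected.measurableSet]
        exact measureReal_le_one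
      rw [div_le_iff₀ hn1] at h4
      rw [← add_div, le_div_iff₀ hn1]
      have h6 := mul_le_mul_of_nonneg_right h5 hn1.le
      simp only [q] at h6
      nlinarith
  refine ⟨fun a => q a + -(ε / 3), fun a b h => by simpa using hq h, fun p hp => ?_, ?_⟩
  · have hs : (muf fun a => q a + -(ε / 3))
        (Set.Icc (lo - ε / 3) (q (Fin.last n) + -(ε / 3))) = 1 :=
      muf_supp _ fun a => ⟨by linarith [(hqm a).1], by linarith [hq (Fin.le_last a)]⟩
    have hle' : lo - ε / 3 ≤ q (Fin.last n) + -(ε / 3) := by linarith [(hqm (Fin.last n)).1]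
    refine spectralPart_le_of μ hle hsupp hle' hs hε.le ?_ (fun x hx => ?_) hp
    · have := mean_le μ hle (muf q) hsupp (muf_supp q hqm) hdom
      rw [mean_muf_shift]
      linarith [hnn₀.2]
    · rw [← sub_le_iff_le_add]
      refine le_of_forall_gt_imp_ge_of_dense fun b hb => ?_
      have hb' := (resolventPoint_spec _ hle' hs hx).1.trans_lt hb
      have h1 := (stj_le _ hle' hs hb' (b' := b + 2 * (ε / 3) + -(ε / 3)) (by linarith)).trans
        (stj_le_of_lt _ hle' hs hx hb)
      rw [stj_muf_shift] at h1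
      have h2 := (stj_shift_le μ hle (muf q) hsupp (muf_supp q hqm) (by positivity) hε3
        hdom hnn₀.1 (b := b + 2 * (ε / 3)) (by linarith)).trans h1
      have h3 := ((resolventPoint_spec μ hle hsupp hx).2 _ (by linarith)).2 h2
      linarith
  · intro eig hw hb sp hsp
    have h1 : ∀ a : Fin (n + 1), ∀ᶠ N : ℕ in Filter.atTop,
        (univ.filter fun i => sp N i ∈ Ici a).card ≤
          (univ.filter fun i => q a + -(ε / 3) ≤ eig N i).card := by
      intro a
      by_cases ha : a = 0
      · filter_upwards [hb (ε / 3) hε3] with N hN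
        refine card_le_card fun i _ => mem_filter.2 ⟨mem_univ _, ?_⟩
        rw [ha, hq0]; exact (hN i).1
      · have ha' : (1 : ℝ) ≤ (a : ℕ) := by
          have := Fin.pos_iff_ne_zero.2 ha
          exact_mod_cast this
        have h2 := qtl_Ici μ hsupp (u := ((a : ℝ) - 1) / (n + 1))
          (div_nonneg (by linarith) hn1.le)
        have h3 := eventually_count μ eig hw (ψ := fun t => (t - (q a + -(ε / 3))) / (ε / 3))
          (by fun_prop) (m := ((n : ℝ) + 1 - a) / (n + 1)) (by
            refine lt_of_lt_of_le (b := 1 - ((a : ℝ) - 1) / (n + 1)) ?_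
              (h2.trans (measureReal_mono fun t ht => ?_))
            · rw [one_sub_div hn1.ne']
              gcongr
              linarith
            · have ht' : q a ≤ t := ht
              show 1 ≤ (t - (q a + -(ε / 3))) / (ε / 3)
              rw [one_le_div hε3]
              linarith) (n + 1)
        filter_upwards [h3] with N hN
        have h4 := card_species_le (sp N) (hsp N) (Ici a)
        rw [Fin.card_Ici] at h4
        have h5 : (univ.filter fun i => 0 ≤ (eig N i - (q a + -(ε / 3))) / (ε / 3)) =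
            univ.filter fun i => q a + -(ε / 3) ≤ eig N i := filter_congr fun i _ => by
          rw [le_div_iff₀ hε3, zero_mul, sub_nonneg]
        rw [h5] at hN
        have h6 : ((n : ℝ) + 1 - a) / (n + 1) * N = ((n + 1 - a : ℕ) : ℝ) * (N / (n + 1)) := by
          rw [Nat.cast_sub a.2.le]; push_cast; ring
        rw [h6] at hN
        exact_mod_cast h4.trans hN
    filter_upwards [Filter.eventually_all.2 h1] with N hN
    refine exists_perm_le (fun i => q (sp N i) + -(ε / 3)) (fun i => eig N i) fun t => ?_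
    rcases (univ.filter fun a => t ≤ q a + -(ε / 3)).eq_empty_or_nonempty with h | h
    · rw [filter_eq_empty_iff.2 fun i _ => filter_eq_empty_iff.1 h (mem_univ (sp N i))]
      exact Nat.zero_le _
    · set a := (univ.filter fun a => t ≤ q a + -(ε / 3)).min' h with ha
      have h2 : t ≤ q a + -(ε / 3) := (mem_filter.1 (min'_mem _ h)).2
      refine le_trans (card_le_card fun i hi => ?_) ((hN a).trans (card_le_card fun i hi => ?_))
      · exact mem_filter.2 ⟨mem_univ _, mem_Ici.2
          (min'_le (univ.filter fun a => t ≤ q a + -(ε / 3)) (sp N i)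
            (mem_filter.2 ⟨mem_univ _, (mem_filter.1 hi).2⟩))⟩
      · exact mem_filter.2 ⟨mem_univ _, h2.trans (mem_filter.1 hi).2⟩

end

end Crest.Agent.R164
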