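import Crest.Agent.R164.Conc
import Crest.Agent.R164.SpecApx
import Crest.Agent.R164.OneOp

/-! # Row 164: elementary facts on the pressure and on the variational values -/

set_option autoImplicit false

namespace Crest.Agent.R164

open MeasureTheory ProbabilityTheory Real Finset Crest.ProbabilityR.InvariantGlass

/-- The spectral hypotheses of the statements. -/
structure SpecHyp (μ : Measure ℝ) (lo hi : ℝ) (eig : (N : ℕ) → Fin N → ℝ) : Prop where
  le : lo ≤ hi
  supp : μ (Set.Icc lo hi) = 1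
  edge : ∀ ε : ℝ, 0 < ε → 0 < μ (Set.Icc (hi - ε) hi)
  weak : ∀ φ : ℝ → ℝ, Continuous φ → (∃ C : ℝ, ∀ x, |φ x| ≤ C) →
    Filter.Tendsto (fun N : ℕ => (1 / (N : ℝ)) * ∑ i : Fin N, φ (eig N i)) Filter.atTop
      (nhds (∫ x, φ x ∂μ))
  ext : ∀ ε : ℝ, 0 < ε → ∀ᶠ N : ℕ in Filter.atTop, ∀ i : Fin N,
    lo - ε ≤ eig N i ∧ eig N i ≤ hi + ε

/-- Exponentially fast convergence in probability of the pressure. -/
def ExpConv (h : ∀ N, Haar N) (eig c : (N : ℕ) → Fin N → ℝ) (F : ℝ) : Prop :=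
  ∀ ε : ℝ, 0 < ε → ∃ a : ℝ, 0 < a ∧ ∀ᶠ N : ℕ in Filter.atTop,
    (h N).κ.real {U | ε ≤ |pressureFieldN (eig N) U.1 (c N) - F|} ≤ exp (-a * N)

lemma MainA.pressure_le_add {N : ℕ} {eig eig' c c' : Fin N → ℝ} (h : ∀ i, eig i ≤ eig' i)
    (U : Matrix (Fin N) (Fin N) ℝ) :
    pressureFieldN eig U c ≤ pressureFieldN eig' U c' + (∑ r, |c r - c' r|) / N := by
  unfold pressureFieldN
  rw [div_eq_mul_one_div (∑ r, |c r - c' r|), mul_comm (∑ r, |c r - c' r|), ← mul_add]
  refine mul_le_mul_of_nonneg_left ?_ (by positivity)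
  rw [← log_exp (∑ r, |c r - c' r|), ← log_mul (by positivity) (exp_pos _).ne', mul_assoc, sum_mul]
  refine log_le_log (by positivity) (mul_le_mul_of_nonneg_left (sum_le_sum fun σ _ => ?_)
    (by positivity))
  rw [← exp_add, exp_le_exp, add_assoc, ← sum_add_distrib]
  refine add_le_add (mul_le_mul_of_nonneg_left (sum_le_sum fun i _ =>
    mul_le_mul_of_nonneg_right (h i) (sq_nonneg _)) (by norm_num)) (sum_le_sum fun r _ => ?_)
  unfold spinVec
  split_ifs
  · linarith [le_abs_self (c r - c' r)]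
  · linarith [neg_abs_le (c r - c' r)]

lemma pressure_mono_eig {N : ℕ} {eig eig' : Fin N → ℝ} (h : ∀ i, eig i ≤ eig' i)
    (U : Matrix (Fin N) (Fin N) ℝ) (c : Fin N → ℝ) :
    pressureFieldN eig U c ≤ pressureFieldN eig' U c := by
  simpa using MainA.pressure_le_add (c := c) (c' := c) h U

lemma abs_pressure_sub_le {N : ℕ} (eig : Fin N → ℝ) (U : Matrix (Fin N) (Fin N) ℝ) (c c' : Fin N → ℝ) :
    |pressureFieldN eig U c - pressureFieldN eig U c'| ≤ (∑ r, |c r - c' r|) / N := by
  have h1 := MainA.pressure_le_add (c := c) (c' := c') (fun i => le_refl (eig i)) U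
  have h2 := MainA.pressure_le_add (c := c') (c' := c) (fun i => le_refl (eig i)) U
  simp only [abs_sub_comm (c' _)] at h2
  exact abs_sub_le_iff.2 ⟨by linarith, by linarith⟩

lemma pressure_zero_field {N : ℕ} (eig : Fin N → ℝ) (U : Matrix (Fin N) (Fin N) ℝ) :
    pressureFieldN eig U (fun _ => 0) = pressureN eig U := by
  simp [pressureFieldN, pressureN]

/-- The law of the pressure is invariant under permutations of the eigenvalues and of the sites. -/
lemma law_perm {N : ℕ} (h : Haar N) (eig c : Fin N → ℝ) (σ τ : Equiv.Perm (Fin N)) {S : Set ℝ}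
    (hS : MeasurableSet S) :
    h.κ.real {U | pressureFieldN (eig ∘ σ) U.1 (c ∘ τ) ∈ S} =
      h.κ.real {U | pressureFieldN eig U.1 c ∈ S} := by
  obtain ⟨D, hD⟩ := exists_perm_O σ.symm
  obtain ⟨D', hD'⟩ := exists_perm_O τ
  have e : ∀ U : O N,
      pressureFieldN (eig ∘ σ) U.1 (c ∘ τ) = pressureFieldN eig (D * U * D').1 c := fun U => by
    unfold pressureFieldN
    rw [← (Equiv.arrowCongr τ.symm (Equiv.refl Bool)).sum_comp]
    congr 3
    refine sum_congr rfl fun s _ => ?_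
    rw [← Equiv.sum_comp σ fun i => eig i * _, ← Equiv.sum_comp τ fun r => c r * _]
    simp only [Submonoid.coe_mul, ← Matrix.mulVec_mulVec, hD, hD', Function.comp_apply,
      Equiv.symm_apply_apply]
    rfl
  simp only [e]
  exact ((h.right D').comp (h.left D)).measureReal_preimage
    (measurable_pressure eig c hS).nullMeasurableSet

theorem magneticValue_real (μ : Measure ℝ) [IsProbabilityMeasure μ] {lo hi : ℝ} (hle : lo ≤ hi)
    (hsupp : μ (Set.Icc lo hi) = 1) {J : ℕ} (cval : Fin J → ℝ) {γ : Fin J → ℚ} (hγ : ∀ j, 0 < γ j) :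
    ∃ F : ℝ, magneticValue μ hi cval γ = (F : EReal) := by
  have hγ' : ∀ j, (0 : EReal) ≤ ((γ j : ℝ) : EReal) := fun j => by exact_mod_cast (hγ j).le
  have h0 : IsTrialPath fun _ => 0 :=
    ⟨measurable_const, monotoneOn_const, fun _ _ => ⟨le_rfl, zero_le_one⟩⟩
  have h1 : magneticValue μ hi cval γ ≤ ((∑ j, (γ j : ℝ) * |cval j| + hi / 2 : ℝ) : EReal) := by
    refine iSup₂_le fun m hm => ?_
    rw [EReal.coe_add]
    refine add_le_add (EReal.coe_le_coe (sum_le_sum fun j _ => ?_)) (iInf₂_le_of_le _ h0 ?_)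
    · rw [mul_assoc]
      refine mul_le_mul_of_nonneg_left ((le_abs_self _).trans ?_) (by exact_mod_cast (hγ j).le)
      rw [abs_mul]
      exact mul_le_of_le_one_right (abs_nonneg _) (by exact_mod_cast (abs_lt.2 (hm j)).le)
    · rw [← zero_add ((hi / 2 : ℝ) : EReal)]
      refine add_le_add (iSup₂_le fun k w => iSup₂_le fun hv hw => ?_)
        (EReal.coe_le_coe (spectralPart_mem μ hle hsupp h0).2)
      simp only [zero_mul, integral_zero, mul_zero, EReal.coe_zero, add_zero]
      refine sum_nonpos fun j _ => EReal.mul_nonpos_iff.2 (Or.inl ⟨hγ' j, iInf_le_of_le 0 ?_⟩)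
      have := fieldValueAt_le hw 0
      exact EReal.coe_nonpos.2 (by simpa using this)
  have h2 : ((lo / 2 : ℝ) : EReal) ≤ magneticValue μ hi cval γ := by
    refine le_iSup₂_of_le 0 (fun j => by simp) ?_
    simp only [Pi.zero_apply, Rat.cast_zero, mul_zero, sum_const_zero, EReal.coe_zero, zero_add]
    refine le_iInf₂ fun p hp => ?_
    rw [← zero_add ((lo / 2 : ℝ) : EReal)]
    obtain ⟨h3, h4, h5⟩ := exists_trivial_field
    refine add_le_add (le_iSup₂_of_le 1 _ (le_iSup₂_of_le _ h3 ?_))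
      (EReal.coe_le_coe (spectralPart_mem μ hle hsupp hp).1)
    simp only [h5, mul_zero, integral_zero, EReal.coe_zero, add_zero]
    refine sum_nonneg fun j _ => mul_nonneg (hγ' j) (le_iInf fun b => EReal.coe_nonneg.2 ?_)
    simpa [h4] using log_nonneg (one_le_cosh b)
  exact ⟨_, (EReal.coe_toReal (h1.trans_lt (EReal.coe_lt_top _)).ne
    ((EReal.bot_lt_coe _).trans_le h2).ne').symm⟩

lemma magneticValue_le_add {μ μ' : Measure ℝ} {hi hi' ε : ℝ}
    (h : ∀ p, IsTrialPath p → spectralPart μ' hi' p ≤ spectralPart μ hi p + ε) {J : ℕ}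
    (cval : Fin J → ℝ) (γ : Fin J → ℚ) :
    magneticValue μ' hi' cval γ ≤ magneticValue μ hi cval γ + (ε : EReal) := by
  have e : ∀ {a b : EReal}, a - ε ≤ b ↔ a ≤ b + ε :=
    EReal.sub_le_iff_le_add (Or.inl (EReal.coe_ne_bot ε)) (Or.inl (EReal.coe_ne_top ε))
  refine iSup₂_le fun m hm => e.1 (le_iSup₂_of_le m hm (e.2 ?_))
  rw [add_assoc]
  refine add_le_add le_rfl (e.1 (le_iInf₂ fun p hp => e.2 (iInf₂_le_of_le p hp ?_)))
  rw [add_assoc, ← EReal.coe_add]
  exact add_le_add le_rfl (EReal.coe_le_coe (h p hp))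

theorem magneticValue_zero (μ : Measure ℝ) (hi : ℝ) :
    magneticValue μ hi (fun _ : Fin 1 => 0) (fun _ => 1) = variationalValue μ hi := by
  refine le_antisymm (iSup₂_le fun m _ => ?_) (le_iSup₂_of_le 0 (fun j => by simp) ?_)
  all_goals
    simp only [mul_zero, zero_mul, sum_const_zero, EReal.coe_zero, zero_add]
    refine iInf₂_mono fun p _ => add_le_add (iSup₂_mono fun k w => iSup₂_mono fun hv hw => ?_) le_rfl
    rw [EReal.coe_add]
    refine add_le_add ?_ le_rfl
    simp only [groupFieldValue, Fin.sum_univ_one, Rat.cast_one, EReal.coe_one, one_mul]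
  · exact iInf_le_of_le 0 (by simp [fieldValueAt_zero])
  · exact le_iInf fun b => EReal.coe_le_coe
      (by simpa [fieldValueAt_zero] using fieldValueAt_zero_le hw b)

end Crest.Agent.R164
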