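import Crest.Agent.R164.MainA

/-! # Row 164: from exponential convergence in probability to the statements -/

set_option autoImplicit false

namespace Crest.Agent.R164

open MeasureTheory ProbabilityTheory Real Finset Crest.ProbabilityR.InvariantGlass

lemma mB_measurable_pressure {N : ℕ} (eig c : Fin N → ℝ) :
    Measurable fun M : Fin N → Fin N → ℝ => pressureFieldN eig (Matrix.of M) c := by
  unfold pressureFieldN
  simp only [Matrix.mulVec, dotProduct, Matrix.of_apply]
  fun_prop

lemma mB_tendsto_exp {a : ℝ} (ha : 0 < a) :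
    Filter.Tendsto (fun N : ℕ => exp (-a * N)) Filter.atTop (nhds 0) := by
  have := tendsto_pow_atTop_nhds_zero_of_lt_one (exp_pos (-a)).le (exp_lt_one_iff.2 (by linarith : -a < 0))
  refine this.congr fun N => ?_
  rw [← exp_nat_mul, mul_comm]

lemma mB_summable_exp {a : ℝ} (ha : 0 < a) : Summable fun N : ℕ => exp (-a * N) := by
  have := summable_geometric_of_lt_one (exp_pos (-a)).le (exp_lt_one_iff.2 (by linarith : -a < 0))
  refine this.congr fun N => ?_
  rw [← exp_nat_mul, mul_comm]

lemma mB_abs_integral_sub_le {α : Type} [MeasurableSpace α] (κ : Measure α) [IsProbabilityMeasure κ]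
    {f : α → ℝ} (hf : Measurable f) {C F ε : ℝ} (hε : 0 ≤ ε) (hC : ∀ x, |f x| ≤ C) :
    |∫ x, f x ∂κ - F| ≤ ε + (C + |F|) * κ.real {x | ε ≤ |f x - F|} := by
  have hi : Integrable f κ :=
    Integrable.of_bound hf.aestronglyMeasurable C (Filter.Eventually.of_forall hC)
  have hS : MeasurableSet {x | ε ≤ |f x - F|} :=
    measurableSet_le measurable_const (by fun_prop)
  have e : ∫ x, f x ∂κ - F = ∫ x, (f x - F) ∂κ := by
    rw [integral_sub hi (integrable_const _)]
    simp
  have hi2 : Integrable (fun x => {x | ε ≤ |f x - F|}.indicator (fun _ => C + |F|) x) κ :=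
    (integrable_const _).indicator hS
  rw [e]
  calc _ ≤ ∫ x, |f x - F| ∂κ := abs_integral_le_integral_abs
    _ ≤ ∫ x, (ε + {x | ε ≤ |f x - F|}.indicator (fun _ => C + |F|) x) ∂κ := by
        refine integral_mono (hi.sub (integrable_const _)).abs ((integrable_const _).add hi2)
          fun x => ?_
        by_cases hx : ε ≤ |f x - F|
        · have h1 := hC x
          have h2 := abs_sub (f x) F
          simp only
          rw [Set.indicator_of_mem (show x ∈ {x | ε ≤ |f x - F|} from hx)]
          linarith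
        · simp only
          rw [Set.indicator_of_notMem (show x ∉ {x | ε ≤ |f x - F|} from hx)]
          linarith
    _ = _ := by
        rw [integral_add (integrable_const _) hi2, integral_indicator hS]
        simp [mul_comm]

theorem conv_of_expConv {Ω : Type} [MeasurableSpace Ω] (P : Measure Ω) [IsProbabilityMeasure P]
    (Us : (N : ℕ) → Ω → (Fin N → Fin N → ℝ)) (hmeas : ∀ N, Measurable (Us N)) (h : ∀ N, Haar N)
    (hh : ∀ N, (h N).κ.map (fun (V : O N) (i j : Fin N) => V.1 i j) = P.map (Us N))
    {eig c : (N : ℕ) → Fin N → ℝ} {A B : ℝ}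
    (hA : ∀ᶠ N : ℕ in Filter.atTop, ∀ i, |eig N i| ≤ A)
    (hB : ∀ᶠ N : ℕ in Filter.atTop, (∑ r, |c N r|) ≤ B * N) {F : ℝ} (hF : ExpConv h eig c F) :
    Filter.Tendsto (fun N : ℕ => ∫ ω, pressureFieldN (eig N) (Matrix.of (Us N ω)) (c N) ∂P)
        Filter.atTop (nhds F) ∧
      ∀ᵐ ω ∂P, Filter.Tendsto (fun N : ℕ => pressureFieldN (eig N) (Matrix.of (Us N ω)) (c N))
        Filter.atTop (nhds F) := by
  have hint : ∀ N, ∫ ω, pressureFieldN (eig N) (Matrix.of (Us N ω)) (c N) ∂P =
      ∫ U, pressureFieldN (eig N) U.1 (c N) ∂(h N).κ := by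
    intro N
    have hm := mB_measurable_pressure (eig N) (c N)
    rw [← integral_map (hmeas N).aemeasurable hm.aestronglyMeasurable, ← hh N,
      integral_map measurable_O_entries.aemeasurable hm.aestronglyMeasurable]
    rfl
  have hprob : ∀ N (ε : ℝ), P {ω | ε ≤ |pressureFieldN (eig N) (Matrix.of (Us N ω)) (c N) - F|} =
      (h N).κ {U | ε ≤ |pressureFieldN (eig N) U.1 (c N) - F|} := by
    intro N ε
    have hm := mB_measurable_pressure (eig N) (c N)
    have hS : MeasurableSet {M : Fin N → Fin N → ℝ |
        ε ≤ |pressureFieldN (eig N) (Matrix.of M) (c N) - F|} :=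
      measurableSet_le measurable_const (by fun_prop)
    have h1 := Measure.map_apply (μ := P) (hmeas N) hS
    have h2 := Measure.map_apply (μ := (h N).κ) (measurable_O_entries (N := N)) hS
    rw [hh N, h1] at h2
    exact h2
  constructor
  · simp only [hint]
    rw [Metric.tendsto_nhds]
    intro ε hε
    obtain ⟨a, ha, hN⟩ := hF (ε / 2) (by linarith)
    set C : ℝ := max A 0 / 2 + max B 0
    have hC : 0 ≤ C + |F| := by positivity
    have h1 := (mB_tendsto_exp ha).const_mul (C + |F|)
    rw [mul_zero] at h1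
    filter_upwards [hN, hA, hB, h1.eventually (gt_mem_nhds (show 0 < ε / 2 by linarith))]
      with N hN hA hB h1
    rw [Real.dist_eq]
    have h2 := mB_abs_integral_sub_le (h N).κ (measurable_pressure (eig N) (c N)) (C := C) (F := F)
      (ε := ε / 2) (by linarith) fun U => abs_pressure_le (le_max_right A 0) (le_max_right B 0)
        (fun i => (hA i).trans (le_max_left _ _))
        (hB.trans (mul_le_mul_of_nonneg_right (le_max_left _ _) (by positivity))) U
    have h3 := mul_le_mul_of_nonneg_left hN hC
    linarith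
  · have key : ∀ j : ℕ, ∀ᵐ ω ∂P, ∀ᶠ N : ℕ in Filter.atTop,
        ω ∉ {ω | 1 / ((j : ℝ) + 1) ≤ |pressureFieldN (eig N) (Matrix.of (Us N ω)) (c N) - F|} := by
      intro j
      obtain ⟨a, ha, hN⟩ := hF (1 / ((j : ℝ) + 1)) (by positivity)
      refine ae_eventually_notMem ?_
      have hs : Summable fun N : ℕ =>
          (h N).κ.real {U | 1 / ((j : ℝ) + 1) ≤ |pressureFieldN (eig N) U.1 (c N) - F|} := by
        refine Summable.of_norm_bounded_eventually_nat (mB_summable_exp ha) ?_
        filter_upwards [hN] with N hN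
        rwa [Real.norm_of_nonneg measureReal_nonneg]
      simp only [hprob]
      have e : ∀ N : ℕ, (h N).κ {U | 1 / ((j : ℝ) + 1) ≤ |pressureFieldN (eig N) U.1 (c N) - F|} =
          ENNReal.ofReal ((h N).κ.real
            {U | 1 / ((j : ℝ) + 1) ≤ |pressureFieldN (eig N) U.1 (c N) - F|}) := fun N => by
        rw [ofReal_measureReal]
      simp only [e]
      rw [← ENNReal.ofReal_tsum_of_nonneg (fun _ => measureReal_nonneg) hs]
      exact ENNReal.ofReal_ne_top
    filter_upwards [ae_all_iff.2 key] with ω hω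
    rw [Metric.tendsto_nhds]
    intro ε hε
    obtain ⟨j, hj⟩ := exists_nat_one_div_lt hε
    filter_upwards [hω j] with N hN
    rw [Real.dist_eq]
    simp only [not_le] at hN
    linarith

end Crest.Agent.R164
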