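import Crest.Agent.R164.Haar
import Crest.Agent.R164.GG

/-! # Row 164: basic facts on the model -/

set_option autoImplicit false

namespace Crest.Agent.R164

open MeasureTheory ProbabilityTheory Real Finset Crest.ProbabilityR.InvariantGlass

/-- Site overlap of level `e`. -/
noncomputable def qs {k N : ℕ} (L : Lev (k + 2) (Om N)) (H : Cfg (k + 2) (Om N) → ℝ) (r : Fin N)
    (e : ℕ) : ℝ := L.E0 H fun ω => L.E (e + 1) H (Sg r) ω ^ 2

/-- `∑_a ((P_a σ)_r)^2`. -/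
noncomputable def fr {k N : ℕ} {A : Type} [Fintype A] [DecidableEq A] (sp : Fin N → A) (r : Fin N)
    (ω : Cfg (k + 2) (Om N)) : ℝ := ∑ a, (∑ i ∈ blk sp a, (ω 0).1.1.1 i r * Y i ω) ^ 2

variable {k N : ℕ} (ex : Expo (k + 2)) (h : Haar N) (ν : Measure (Fin N → Bool))
  [IsProbabilityMeasure ν]

lemma measurable_spn : Measurable (spn : Cfg (k + 2) (Om N) → Fin N → Bool) := by
  unfold spn; fun_prop
lemma measurable_Y (i : Fin N) : Measurable (Y i : Cfg (k + 2) (Om N) → ℝ) :=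
  (measurable_yv i).comp (f := fun ω : Cfg (k + 2) (Om N) => ((ω 0).1.1, spn ω))
    ((by fun_prop : Measurable fun ω : Cfg (k + 2) (Om N) => (ω 0).1.1).prodMk measurable_spn)
lemma measurable_Sg (r : Fin N) : Measurable (Sg r : Cfg (k + 2) (Om N) → ℝ) :=
  (measurable_of_finite fun σ : Fin N → Bool => sg (σ r)).comp measurable_spn
lemma measurable_fr {A : Type} [Fintype A] [DecidableEq A] (sp : Fin N → A) (r : Fin N) :
    Measurable (fr sp r : Cfg (k + 2) (Om N) → ℝ) := by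
  refine Finset.measurable_sum _ fun a _ => (Finset.measurable_sum _ fun i _ => ?_).pow_const 2
  exact ((measurable_O_entry i r).comp
    (by fun_prop : Measurable fun ω : Cfg (k + 2) (Om N) => (ω 0).1.1)).mul (measurable_Y i)
lemma Sg_sq (r : Fin N) (ω : Cfg (k + 2) (Om N)) : Sg r ω ^ 2 = 1 := by
  unfold Sg sg; split_ifs <;> norm_num
lemma sum_Y_sq (ω : Cfg (k + 2) (Om N)) : ∑ i, Y i ω ^ 2 = N := sum_yv_sq _ _
lemma abs_Y_le (i : Fin N) (ω : Cfg (k + 2) (Om N)) : |Y i ω| ≤ N := by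
  have h1 := (single_le_sum (f := fun i => Y i ω ^ 2) (fun _ _ => sq_nonneg _)
    (mem_univ i)).trans_eq (sum_Y_sq ω)
  have h2 : (1 : ℝ) ≤ N := by exact_mod_cast i.pos
  exact abs_le_of_sq_le_sq (by nlinarith) (by linarith)
lemma fr_bounds {A : Type} [Fintype A] [DecidableEq A] (sp : Fin N → A) (r : Fin N)
    (ω : Cfg (k + 2) (Om N)) : 0 ≤ fr sp r ω ∧ fr sp r ω ≤ N := by
  refine ⟨sum_nonneg fun _ _ => sq_nonneg _, ?_⟩
  have h1 : ∑ i, (ω 0).1.1.1 i r ^ 2 = 1 := by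
    have := sum_sq_mulVec (ω 0).1.1 (Pi.single r 1)
    simpa [Pi.single_apply] using this
  rw [← sum_Y_sq ω, ← sum_blk sp]
  refine sum_le_sum fun a _ => (sum_mul_sq_le_sq_mul_sq _ _ _).trans
    (mul_le_of_le_one_left (sum_nonneg fun _ _ => sq_nonneg _) ?_)
  exact (sum_le_sum_of_subset_of_nonneg (subset_univ _) fun _ _ _ => sq_nonneg _).trans_eq h1
lemma nice_Y (i : Fin N) : (mLev ex h ν).Nice (Y i) :=
  Lev.nice_of_bdd (measurable_Y i) N (abs_Y_le i)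
lemma nice_Sg (r : Fin N) : (mLev ex h ν).Nice (Sg r) :=
  Lev.nice_of_bdd (measurable_Sg r) 1 fun ω => by
    unfold Sg sg; split_ifs <;> simp
lemma lin_spn (f : (Fin N → Bool) → ℝ) : (mLev ex h ν).Lin fun ω => f (spn ω) :=
  Lev.lin_of_bdd ((measurable_of_finite f).comp measurable_spn) (∑ σ, |f σ|) fun ω =>
    single_le_sum (f := fun σ => |f σ|) (fun _ _ => abs_nonneg _) (mem_univ _)
lemma lin_Y_sq (I : Finset (Fin N)) : (mLev ex h ν).Lin fun ω => ∑ i ∈ I, Y i ω ^ 2 :=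
  Lev.Lin.sum I fun i _ => Lev.lin_of_bdd ((measurable_Y i).pow_const 2) (N ^ 2) fun ω => by
    rw [abs_pow]; exact pow_le_pow_left₀ (abs_nonneg _) (abs_Y_le i ω) 2
lemma lin_field (I : Finset (Fin N)) (l : ℕ) :
    (mLev ex h ν).Lin fun ω => ∑ i ∈ I, gl l i ω * Y i ω :=
  Lev.Lin.sum I fun i _ => (lin_gl l i).mul_bdd (measurable_Y i) N (abs_Y_le i)
lemma Y_shift (l : ℕ) (i j : Fin N) (θ : ℝ) (ω : Cfg (k + 2) (Om N)) : Y j (shift l i θ ω) = Y j ω := by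
  simp only [Y, spn, shift_fst]
lemma spn_shift (l : ℕ) (i : Fin N) (θ : ℝ) (ω : Cfg (k + 2) (Om N)) : spn (shift l i θ ω) = spn ω := by
  simp only [spn, shift_fst]
lemma rr_Y_le (I : Finset (Fin N)) (ω : Cfg (k + 2) (Om N)) : Lev.rr I Y ω ≤ N / I.card :=
  div_le_div_of_nonneg_right ((sum_le_sum_of_subset_of_nonneg (subset_univ _)
    fun _ _ _ => sq_nonneg _).trans_eq (sum_Y_sq ω)) (Nat.cast_nonneg _)

variable (lam : Fin N → ℝ) (x : ℕ → Fin N → ℝ) (w : (Fin N → Bool) → ℝ)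

namespace MA

/-- The Hamiltonian without fields. -/
noncomputable def H0 (ω : Cfg (k + 2) (Om N)) : ℝ := ∑ i, lam i * Y i ω ^ 2 / 2 + w (spn ω)

lemma Hm_eq : (Hm lam x w : Cfg (k + 2) (Om N) → ℝ) = fun ω => H0 lam w ω +
    ∑ j ∈ Icc 1 k ×ˢ (univ : Finset (Fin N)), x j.1 j.2 * gl j.1 j.2 ω * Y j.2 ω := by
  funext ω
  rw [Hm, H0, sum_product, add_right_comm]

lemma lin_H0 : (mLev ex h ν).Lin (H0 lam w) := by
  refine (Lev.Lin.sum _ fun i _ => ?_).add (lin_spn ex h ν w)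
  simpa only [sum_singleton, div_eq_mul_inv, mul_right_comm] using
    (lin_Y_sq ex h ν {i}).const_mul (lam i * 2⁻¹)

lemma lv_lt : ∀ j ∈ Icc 1 k ×ˢ (univ : Finset (Fin N)), j.1 < k + 2 := fun j hj => by
  have := (mem_Icc.1 (mem_product.1 hj).1).2
  omega

lemma inv {t : Finset (ℕ × Fin N)} : ∀ j ∈ t, ∀ θ (ω : Cfg (k + 2) (Om N)),
    H0 lam w (shift j.1 j.2 θ ω) = H0 lam w ω ∧
      ∀ j' ∈ t, Y j'.2 (shift j.1 j.2 θ ω) = Y j'.2 ω := fun j _ θ ω =>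
  ⟨by simp only [H0, Y_shift, spn_shift], fun _ _ => Y_shift ..⟩

end MA

lemma lin_Hm : (mLev ex h ν).Lin (Hm lam x w) := by
  rw [MA.Hm_eq]
  exact (MA.lin_H0 ex h ν lam w).add (Lev.Lin.sum _ fun j _ =>
    ((lin_gl j.1 j.2).const_mul _).mul_bdd (measurable_Y _) N (abs_Y_le _))

lemma hasDL_Hm {l : ℕ} (hl : l ∈ Icc 1 k) (i : Fin N) :
    (mLev ex h ν).HasDL (shift l i) (Hm lam x w) fun ω => x l i * Y i ω := by
  rw [MA.Hm_eq]
  exact hasDL_amp (Icc 1 k ×ˢ univ) Prod.fst Prod.snd (c := fun j => Y j.2) MA.lv_lt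
    (fun _ _ _ _ => Prod.ext) (MA.lin_H0 ex h ν lam w) (fun j _ => measurable_Y _)
    (fun j _ => abs_Y_le _) (MA.inv lam w) (fun j => x j.1 j.2) (j := (l, i))
    (mem_product.2 ⟨hl, mem_univ _⟩)

lemma E0_field_Hm {l : ℕ} (hl : l ∈ Icc 1 k) (I : Finset (Fin N)) {a : ℝ} (ha : ∀ i ∈ I, x l i = a) :
    (mLev ex h ν).E0 (Hm lam x w) (fun ω => ∑ i ∈ I, gl l i ω * Y i ω) = a * I.card *
      ((mLev ex h ν).dd (Hm lam x w) I Y - tail ex k ((mLev ex h ν).qq (Hm lam x w) I Y) l) :=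
  E0_field (fun i _ => nice_Y ex h ν i) (by have := (mem_Icc.1 hl).2; omega)
    (fun i hi => ha i hi ▸ hasDL_Hm ex h ν lam x w hl i) fun i _ θ ω => Y_shift l i i θ ω

lemma E0_Y_sq (I : Finset (Fin N)) : (mLev ex h ν).E0 (Hm lam x w) (fun ω => ∑ i ∈ I, Y i ω ^ 2) =
    I.card * (mLev ex h ν).dd (Hm lam x w) I Y := by
  rcases I.eq_empty_or_nonempty with rfl | hI
  · simpa [Lev.E0] using Lev.E_const (lin_Hm ex h ν lam x w) 0 0 _
  · have hn : (I.card : ℝ) ≠ 0 := by exact_mod_cast hI.card_pos.ne'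
    unfold Lev.dd Lev.rr Lev.E0
    rw [Lev.E_div_const, mul_div_cancel₀ _ hn]

/-- Changing the parameters. -/
theorem X0_Hm_sub_le (lam' : Fin N → ℝ) (x' : ℕ → Fin N → ℝ) (w' : (Fin N → Bool) → ℝ) {d : ℝ}
    (hd : ∀ σ, w' σ - w σ ≤ d) :
    (mLev ex h ν).X0 (Hm lam' x' w') - (mLev ex h ν).X0 (Hm lam x w) ≤
      ∑ i, (|lam' i - lam i| / 2 + ∑ l ∈ Icc 1 k, |x' l i - x l i| * |x' l i|) *
        (mLev ex h ν).E0 (Hm lam' x' w') (fun ω => Y i ω ^ 2) + d := by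
  have hL := lin_Hm ex h ν lam' x' w'
  have n1 : ∀ i, (mLev ex h ν).Nice fun ω => Y i ω ^ 2 := fun i => (nice_Y ex h ν i).pow 2
  have n2 : ∀ l i, (mLev ex h ν).Nice fun ω => gl l i ω * Y i ω := fun l i =>
    (lin_gl l i).nice.mul (nice_Y ex h ν i)
  have n3 : ∀ i, (mLev ex h ν).Nice fun ω =>
      ∑ l ∈ Icc 1 k, (x' l i - x l i) * (gl l i ω * Y i ω) := fun i =>
    Lev.Nice.sum _ fun l _ => (n2 l i).const_mul _
  have n4 : ∀ i, (mLev ex h ν).Nice fun ω => |lam' i - lam i| / 2 * Y i ω ^ 2 +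
      ∑ l ∈ Icc 1 k, (x' l i - x l i) * (gl l i ω * Y i ω) := fun i =>
    ((n1 i).const_mul _).add (n3 i)
  have n5 := Lev.Nice.sum univ fun i _ => n4 i
  refine (Lev.X0_sub_le (lin_Hm ex h ν lam x w) hL).trans ((Lev.E_mono hL
    (hL.sub (lin_Hm ex h ν lam x w)).nice (n5.add (Lev.nice_const d)) (fun ω => ?_) _ _).trans ?_)
  · have h1 : ∑ i, (lam' i * Y i ω ^ 2 / 2 - lam i * Y i ω ^ 2 / 2) ≤
        ∑ i, |lam' i - lam i| / 2 * Y i ω ^ 2 := sum_le_sum fun i _ => by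
      nlinarith [mul_le_mul_of_nonneg_right (le_abs_self (lam' i - lam i)) (sq_nonneg (Y i ω))]
    have h2 := hd (spn ω)
    rw [sum_add_distrib, sum_comm]
    simp only [Hm, sum_sub_distrib, sub_mul, mul_assoc] at h1 ⊢
    linarith
  · rw [Lev.E_add hL n5 (Lev.nice_const d), Lev.E_const hL, Lev.E_sum hL _ fun i _ => n4 i]
    refine add_le_add_left (sum_le_sum fun i _ => ?_) _
    rw [Lev.E_add hL ((n1 i).const_mul _) (n3 i), Lev.E_const_mul,
      Lev.E_sum hL _ fun l _ => (n2 l i).const_mul _, add_mul, sum_mul]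
    refine add_le_add_right (sum_le_sum fun l hl => ?_) _
    have hl' : l < k + 2 := by have := (mem_Icc.1 hl).2; omega
    have h1 := E0_gl_mul hl' i (hasDL_Hm ex h ν lam' x' w' hl i) (nice_Y ex h ν i)
      (Y_shift l i i)
    have h2 := GA.sum_Δ_le hL (nice_Y ex h ν i) hl'
    have h3 : 0 ≤ ∑ e ∈ Ico l (k + 2 - 1), ex.Δ e * (mLev ex h ν).E0 (Hm lam' x' w')
        (fun ω => (mLev ex h ν).E (e + 1) (Hm lam' x' w') (Y i) ω ^ 2) :=
      sum_nonneg fun e _ => mul_nonneg (ex.Δ_nonneg e) (Lev.E_nonneg (fun _ => sq_nonneg _) _ _)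
    rw [Lev.E_const_mul]
    refine ((congrArg _ h1).trans (mul_assoc _ _ _).symm).trans_le ?_
    rw [← abs_mul]
    exact (mul_le_mul_of_nonneg_right (le_abs_self _) (sub_nonneg.2 h2)).trans
      (mul_le_mul_of_nonneg_left (sub_le_self _ h3) (abs_nonneg _))

theorem X0_Hm_sub_le' (lam' : Fin N → ℝ) (x' : ℕ → Fin N → ℝ) (w' : (Fin N → Bool) → ℝ) {d a : ℝ}
    (hd : ∀ σ, w' σ - w σ ≤ d)
    (ha : ∀ i, |lam' i - lam i| / 2 + ∑ l ∈ Icc 1 k, |x' l i - x l i| * |x' l i| ≤ a) :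
    (mLev ex h ν).X0 (Hm lam' x' w') - (mLev ex h ν).X0 (Hm lam x w) ≤ N * a + d := by
  refine (X0_Hm_sub_le ex h ν lam x w lam' x' w' hd).trans (add_le_add_left ?_ _)
  have hL := lin_Hm ex h ν lam' x' w'
  refine (sum_le_sum fun i _ => mul_le_mul_of_nonneg_right (ha i)
    (Lev.E_nonneg (fun _ => sq_nonneg _) _ _)).trans_eq ?_
  rw [← mul_sum, ← Lev.E_sum hL _ fun i _ => (nice_Y ex h ν i).pow 2]
  simp only [sum_Y_sq]
  rw [Lev.E_const hL, mul_comm]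

lemma X0_Hm_amp (hx : ∀ l ∈ Icc 1 k, ∀ i, 0 ≤ x l i) :
    (mLev ex h ν).X0 (Hm lam 0 w) ≤ (mLev ex h ν).X0 (Hm lam x w) := by
  rw [MA.Hm_eq, MA.Hm_eq]
  exact (amp_mono (Icc 1 k ×ˢ univ) Prod.fst Prod.snd (c := fun j => Y j.2) MA.lv_lt
    (fun _ _ _ _ => Prod.ext) (MA.lin_H0 ex h ν lam w) (fun j _ => measurable_Y _)
    (fun j _ => abs_Y_le _) (MA.inv lam w) (x := fun j => (0 : ℕ → Fin N → ℝ) j.1 j.2)
    (x' := fun j => x j.1 j.2) fun j hj => ⟨le_rfl, hx _ (mem_product.1 hj).1 _⟩).1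

/-- Without fields the value is a moment of the partition function. -/
theorem exp_X0_Hm_zero : exp (ex.ζ 0 * (mLev ex h ν).X0 (Hm lam 0 w)) =
    ∫ U, (∫ σ, exp (∑ i, lam i * yv U σ i ^ 2 / 2 + w σ) ∂ν) ^ ex.ζ 0 ∂h.κ := by
  let Z : O N → ℝ := fun U => ∫ σ, exp (∑ i, lam i * yv U σ i ^ 2 / 2 + w σ) ∂ν
  have hZ : ∀ U, 0 < Z U := fun U => integral_exp_pos Integrable.of_finite
  have hm : Measurable Z := by
    refine (StronglyMeasurable.integral_prod_right' (f := fun p : O N × (Fin N → Bool) =>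
      exp (∑ i, lam i * yv p.1 p.2 i ^ 2 / 2 + w p.2)) (Measurable.stronglyMeasurable ?_)).measurable
    exact ((Finset.measurable_sum _ fun i _ => (((measurable_yv i).pow_const 2).const_mul
      _).div_const 2).add ((measurable_of_finite w).comp measurable_snd)).exp
  have h0 : ∀ (ω : Cfg (k + 2) (Om N)) {l : ℕ} (z : Om N), 1 ≤ l → upd ω l z 0 = ω 0 :=
    fun ω l z hl => if_neg (by simp; omega)
  have h1 : ∀ j ≤ k, ∀ ω, (mLev ex h ν).X (k + 1 - j) (Hm lam 0 w) ω = log (Z (ω 0).1.1) := by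
    intro j hj
    induction j with
    | zero =>
      intro ω
      rw [Nat.sub_zero, Lev.X_of_lt _ (by omega), Lev.X_of_ge _ (by omega), Lev.T,
        show (mLev ex h ν).ζ (k + 1) = 1 from ex.top _ le_rfl, inv_one, one_mul]
      congr 1
      have h2 : ∀ z : Om N, exp (1 * Hm lam 0 w (upd ω (k + 1) z)) =
          exp (∑ i, lam i * yv (ω 0).1.1 z.1.2 i ^ 2 / 2 + w z.1.2) := fun z => by
        have : spn (upd ω (k + 1) z) = z.1.2 := by simp [spn, upd]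
        simp [Hm, Y, this, h0 ω z (Nat.succ_pos k)]
      simp only [h2]
      exact NI.integral_mp (measurePreserving_snd.comp measurePreserving_fst)
        (measurable_of_finite fun σ => exp (∑ i, lam i * yv (ω 0).1.1 σ i ^ 2 / 2 + w σ))
    | succ j ih =>
      intro ω
      rw [Lev.X_of_lt _ (by omega), show k + 1 - (j + 1) + 1 = k + 1 - j by omega,
        Lev.T_of_indep fun z => by rw [ih (by omega), ih (by omega), h0 ω z (by omega)],
        ih (by omega)]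
  have h2 := h1 k le_rfl
  rw [Nat.add_sub_cancel_left] at h2
  refine (Lev.exp_X0 (by omega) (lin_Hm ex h ν lam 0 w).int (mLev ex h ν).pt).trans ?_
  have h3 : ∀ z : Om N, exp ((mLev ex h ν).ζ 0 *
      (mLev ex h ν).X 1 (Hm lam 0 w) (upd (mLev ex h ν).pt 0 z)) = Z z.1.1 ^ ex.ζ 0 := fun z => by
    rw [h2, rpow_def_of_pos (hZ _), mul_comm]; rfl
  simp only [h3]
  exact NI.integral_mp (measurePreserving_fst.comp measurePreserving_fst) (hm.pow_const _)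

end Crest.Agent.R164
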