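import Crest.Agent.R164.ModelA

/-! # Row 164: symmetries of the model -/

set_option autoImplicit false

namespace Crest.Agent.R164

open MeasureTheory ProbabilityTheory Real Finset Crest.ProbabilityR.InvariantGlass

variable {k N : ℕ} (ex : Expo (k + 2)) (h : Haar N) (ν : Measure (Fin N → Bool))
  [IsProbabilityMeasure ν] (lam : Fin N → ℝ) (x : ℕ → Fin N → ℝ) (w : (Fin N → Bool) → ℝ)

namespace MB

/-- rotation of the eigenframe -/
noncomputable def lm (D : O N) (e : ℕ) (z : Om N) : Om N :=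
  ((if e = 0 then D * z.1.1 else z.1.1, z.1.2), D.1.mulVec z.2)

/-- permutation of the sites -/
noncomputable def rm (D : O N) (σ : Equiv.Perm (Fin N)) (e : ℕ) (z : Om N) : Om N :=
  ((if e = 0 then z.1.1 * D else z.1.1, z.1.2 ∘ σ), z.2)

lemma mp_lev_left (D : O N) (e : ℕ) :
    MeasurePreserving (fun U : O N => if e = 0 then D * U else U) (h.lev e) (h.lev e) := by
  by_cases he : e = 0
  · simpa [he, Haar.lev] using h.left D
  · simp only [he, if_false]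
    exact MeasurePreserving.id (h.lev e)

lemma mp_lev_right (D : O N) (e : ℕ) :
    MeasurePreserving (fun U : O N => if e = 0 then U * D else U) (h.lev e) (h.lev e) := by
  by_cases he : e = 0
  · simpa [he, Haar.lev] using h.right D
  · simp only [he, if_false]
    exact MeasurePreserving.id (h.lev e)

lemma mp_lm (D : O N) (e : ℕ) :
    MeasurePreserving (lm D e) ((mLev ex h ν).μ e) ((mLev ex h ν).μ e) :=
  ((mp_lev_left h D e).prod (MeasurePreserving.id ν)).prod (gam_mulVec D.2)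

lemma mp_unif {α : Type} [MeasurableSpace α] [Fintype α] [DiscreteMeasurableSpace α] (e : α ≃ α) :
    MeasurePreserving e (unif α) (unif α) := by
  refine ⟨Measurable.of_discrete, ?_⟩
  rw [unif, unifOn, Measure.map_smul, Measure.map_finset_sum Measurable.of_discrete.aemeasurable]
  simp only [Measure.map_dirac' Measurable.of_discrete]
  rw [Equiv.sum_comp e (fun a => Measure.dirac a)]

lemma mp_rm (D : O N) (σ : Equiv.Perm (Fin N)) (e : ℕ) :
    MeasurePreserving (rm D σ e) ((mLev ex h (unif _)).μ e) ((mLev ex h (unif _)).μ e) :=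
  ((mp_lev_right h D e).prod
    (mp_unif (σ.symm.arrowCongr (Equiv.refl Bool)))).prod (MeasurePreserving.id _)

lemma Y_lm (D : O N) (i : Fin N) (ω : Cfg (k + 2) (Om N)) :
    Y i (cmap (lm D) ω) = D.1.mulVec (fun m => Y m ω) i := by
  change yv (D * (ω 0).1.1) (spn ω) i = _
  rw [yv_mul]
  rfl

lemma gl_lm (D : O N) (l : ℕ) (i : Fin N) (ω : Cfg (k + 2) (Om N)) :
    gl l i (cmap (lm D) ω) = D.1.mulVec (fun m => gl l m ω) i := by
  unfold gl atl
  split_ifs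
  · rfl
  · simp [Matrix.mulVec, dotProduct]

lemma Hm_lm_perm {σ : Equiv.Perm (Fin N)} {P : O N} (hP : ∀ v, P.1.mulVec v = v ∘ σ.symm)
    (ω : Cfg (k + 2) (Om N)) :
    Hm lam x w (cmap (lm P) ω) = Hm (lam ∘ σ) (fun l => x l ∘ σ) w ω := by
  simp only [Hm, Y_lm, gl_lm, hP, Function.comp_apply]
  congr 2
  · rw [← Equiv.sum_comp σ]
    simp
  · refine Finset.sum_congr rfl fun l _ => ?_
    rw [← Equiv.sum_comp σ]
    simp

lemma Y_rm {σ : Equiv.Perm (Fin N)} {P : O N} (hP : ∀ v, P.1.mulVec v = v ∘ σ.symm) (i : Fin N)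
    (ω : Cfg (k + 2) (Om N)) : Y i (cmap (rm P σ) ω) = Y i ω := by
  change yv ((ω 0).1.1 * P) (spn ω ∘ σ) i = yv (ω 0).1.1 (spn ω) i
  simp only [yv, Submonoid.coe_mul, ← Matrix.mulVec_mulVec, hP]
  congr 1
  funext m
  simp [spinVec]

lemma Hm_rm {σ : Equiv.Perm (Fin N)} {P : O N} (hP : ∀ v, P.1.mulVec v = v ∘ σ.symm) :
    (fun ω : Cfg (k + 2) (Om N) => Hm lam x w (cmap (rm P σ) ω)) =
      Hm lam x fun s => w (s ∘ σ) := by
  funext ω
  simp only [Hm, Y_rm hP]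
  rfl

lemma fr_rm {A : Type} [Fintype A] [DecidableEq A] (sp : Fin N → A) {σ : Equiv.Perm (Fin N)}
    {P : O N} (hP : ∀ v, P.1.mulVec v = v ∘ σ.symm) (r : Fin N) (ω : Cfg (k + 2) (Om N)) :
    fr sp r (cmap (rm P σ) ω) = fr sp (σ r) ω := by
  have e : ∀ i, (cmap (rm P σ) ω 0).1.1.1 i r = (ω 0).1.1.1 i (σ r) := fun i => by
    change ((ω 0).1.1 * P).1 i r = _
    have h1 : ∀ m, P.1 m r = if m = σ r then 1 else 0 := fun m => by
      have := congrFun (hP (Pi.single r 1)) m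
      simpa [Pi.single_apply, Equiv.symm_apply_eq] using this
    simp [Matrix.mul_apply, h1]
  simp only [fr, Y_rm hP, e]

lemma sum_fr {A : Type} [Fintype A] [DecidableEq A] (sp : Fin N → A) (ω : Cfg (k + 2) (Om N)) :
    ∑ r, fr sp r ω = N := by
  simp only [fr]
  rw [Finset.sum_comm, ← sum_Y_sq ω, ← sum_blk sp]
  refine Finset.sum_congr rfl fun a _ => ?_
  have := sum_sq_mulVec (ω 0).1.1⁻¹ fun i => if i ∈ blk sp a then Y i ω else 0
  simp only [Matrix.mulVec, dotProduct, O_inv_apply, mul_ite, mul_zero, ite_pow,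
    Finset.sum_ite_mem, Finset.univ_inter, zero_pow two_ne_zero] at this
  exact this

lemma le_div_card {K : ℕ} {Ω ι : Type} [MeasurableSpace Ω] {L : Lev K Ω} {H : Cfg K Ω → ℝ}
    (hH : L.Lin H) {f : ι → Cfg K Ω → ℝ} {I : Finset ι} (hf : ∀ j ∈ I, L.Nice (f j)) {i : ι}
    (hi : i ∈ I) (he : ∀ j ∈ I, L.E0 H (f j) = L.E0 H (f i)) {c : ℝ}
    (hc : ∀ ω, ∑ j ∈ I, f j ω ≤ c) : L.E0 H (f i) ≤ c / I.card := by
  have hpos : (0 : ℝ) < I.card := by exact_mod_cast Finset.card_pos.2 ⟨i, hi⟩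
  have h1 := Lev.E_mono hH (Lev.Nice.sum I hf) (Lev.nice_const c) hc 0 L.pt
  rw [Lev.E_const hH, Lev.E_sum hH I hf] at h1
  have h2 : ∑ j ∈ I, L.E 0 H (f j) L.pt = I.card * L.E0 H (f i) := by
    rw [← nsmul_eq_mul, ← Finset.sum_const]
    exact Finset.sum_congr rfl he
  rw [le_div_iff₀ hpos, mul_comm, ← h2]
  exact h1

lemma hasDL_two {K : ℕ} {Ω : Type} [MeasurableSpace Ω] {L : Lev K Ω} {Φ : ℝ → Cfg K Ω → Cfg K Ω}
    {f H k₁ k₂ : Cfg K Ω → ℝ} (hH : L.Lin H) (h₁ : L.Lin k₁) (h₂ : L.Lin k₂)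
    {a₁ a₁' a₂ a₂' : ℝ → ℝ} (d₁ : ∀ θ, HasDerivAt a₁ (a₁' θ) θ) (d₂ : ∀ θ, HasDerivAt a₂ (a₂' θ) θ)
    (b₁ : ∀ θ, |a₁ θ| ≤ 2 ∧ |a₁' θ| ≤ 2) (b₂ : ∀ θ, |a₂ θ| ≤ 2 ∧ |a₂' θ| ≤ 2)
    (z₁ : a₁' 0 = 0) (z₂ : a₂' 0 = 1)
    (e : ∀ θ ω, f (Φ θ ω) = H ω + (a₁ θ * k₁ ω + a₂ θ * k₂ ω)) : L.HasDL Φ f k₂ := by
  have := Lev.lfam_comb (s := Set.univ) (univ : Finset (Fin 2)) hH (k := ![k₁, k₂])
    (fun j _ => by fin_cases j <;> assumption) (a := ![a₁, a₂]) (a' := ![a₁', a₂'])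
    (fun j _ θ _ => by
      fin_cases j
      · exact d₁ θ
      · exact d₂ θ) (R := 2)
    (fun j _ θ _ => by
      fin_cases j
      · exact b₁ θ
      · exact b₂ θ)
  simp only [Fin.sum_univ_two, Matrix.cons_val_zero, Matrix.cons_val_one] at this
  refine ⟨Set.univ, _, isOpen_univ, trivial, by simpa only [e] using this, ?_⟩
  funext ω
  simp [z₁, z₂]

lemma hasDL_quad {K : ℕ} {Ω : Type} [MeasurableSpace Ω] {L : Lev K Ω} {Φ : ℝ → Cfg K Ω → Cfg K Ω}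
    {i j : Fin N} (hij : i ≠ j) {R : ℝ → O N}
    (hR : ∀ (θ : ℝ) (v : Fin N → ℝ), (R θ).1.mulVec v i = cos θ * v i + sin θ * v j ∧
      (R θ).1.mulVec v j = -sin θ * v i + cos θ * v j ∧
      ∀ m, m ≠ i → m ≠ j → (R θ).1.mulVec v m = v m)
    {u v : Fin N → Cfg K Ω → ℝ} (hu : ∀ θ m ω, u m (Φ θ ω) = (R θ).1.mulVec (fun m => u m ω) m)
    (hv : ∀ θ m ω, v m (Φ θ ω) = (R θ).1.mulVec (fun m => v m ω) m)
    (hl : ∀ m m', L.Lin fun ω => u m ω * v m' ω) (c : Fin N → ℝ) :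
    L.HasDL Φ (fun ω => ∑ m, c m * (u m ω * v m ω))
      (fun ω => (c i - c j) * (u i ω * v j ω + u j ω * v i ω)) := by
  refine hasDL_two (H := fun ω => ∑ m, c m * (u m ω * v m ω))
    (k₁ := fun ω => (c i - c j) * (u j ω * v j ω - u i ω * v i ω))
    (Lev.Lin.sum _ fun m _ => (hl m m).const_mul _) (((hl j j).sub (hl i i)).const_mul _)
    (((hl i j).add (hl j i)).const_mul _) (a₁ := fun θ => sin θ * sin θ)
    (a₂ := fun θ => sin θ * cos θ) (fun θ => (hasDerivAt_sin θ).fun_mul (hasDerivAt_sin θ))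
    (fun θ => (hasDerivAt_sin θ).fun_mul (hasDerivAt_cos θ)) (fun θ => ?_) (fun θ => ?_)
    (by simp) (by simp) fun θ ω => ?_
  · simp only [abs_le]
    refine ⟨⟨?_, ?_⟩, ?_, ?_⟩ <;>
      nlinarith [sin_sq_add_cos_sq θ, sq_nonneg (sin θ + cos θ), sq_nonneg (sin θ - cos θ)]
  · simp only [abs_le]
    refine ⟨⟨?_, ?_⟩, ?_, ?_⟩ <;>
      nlinarith [sin_sq_add_cos_sq θ, sq_nonneg (sin θ + cos θ), sq_nonneg (sin θ - cos θ)]
  · rw [← sub_eq_iff_eq_add', ← Finset.sum_sub_distrib,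
      Finset.sum_eq_add i j hij (fun m _ hm => by
        rw [hu, hv, (hR θ _).2.2 m hm.1 hm.2, (hR θ _).2.2 m hm.1 hm.2, sub_self])
        (by simp) (by simp), hu, hv, hu, hv, (hR θ _).1, (hR θ _).1, (hR θ _).2.1, (hR θ _).2.1]
    linear_combination (c i * u i ω * v i ω + c j * u j ω * v j ω) * sin_sq_add_cos_sq θ

end MB

open MB

/-- Permuting the eigenvalues. -/
theorem X0_eig_perm (σ : Equiv.Perm (Fin N)) :
    (mLev ex h ν).X0 (Hm (lam ∘ σ) (fun l => x l ∘ σ) w) = (mLev ex h ν).X0 (Hm lam x w) := by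
  obtain ⟨P, hP⟩ := exists_perm_O σ.symm
  rw [← Lev.X0_cmap rfl (fun e _ => mp_lm ex h ν P e) (lin_Hm ex h ν lam x w).1]
  congr 1
  funext ω
  exact (Hm_lm_perm lam x w hP ω).symm

theorem E0_Y_sq_le {I : Finset (Fin N)}
    (hI : ∀ i ∈ I, ∀ j ∈ I, lam i = lam j ∧ ∀ l ∈ Icc 1 k, x l i = x l j) {i : Fin N} (hi : i ∈ I) :
    (mLev ex h ν).E0 (Hm lam x w) (fun ω => Y i ω ^ 2) ≤ N / I.card := by
  refine le_div_card (f := fun j ω => Y j ω ^ 2) (lin_Hm ex h ν lam x w)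
    (fun j _ => (nice_Y ex h ν j).pow 2) hi (fun j hj => ?_) fun ω => ?_
  · obtain ⟨P, hP⟩ := exists_perm_O (Equiv.swap i j).symm
    rw [← Lev.E0_cmap rfl (fun e _ => mp_lm ex h ν P e) (lin_Hm ex h ν lam x w).1
      ((measurable_Y i).pow_const 2)]
    have hs : ∀ y : Fin N → ℝ, y i = y j → y ∘ Equiv.swap i j = y := fun y hy =>
      funext (Equiv.apply_swap_eq_self hy)
    congr 1
    · funext ω
      rw [Hm_lm_perm lam x w hP, hs lam (hI i hi j hj).1]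
      simp only [Hm]
      congr 2
      exact Finset.sum_congr rfl fun l hl => by rw [hs (x l) ((hI i hi j hj).2 l hl)]
    · funext ω
      simp [Y_lm, hP]
  · rw [← sum_Y_sq ω]
    exact Finset.sum_le_sum_of_subset_of_nonneg (Finset.subset_univ I) fun _ _ _ => sq_nonneg _

/-- Permuting the sites. -/
theorem X0_site_perm (σ : Equiv.Perm (Fin N)) :
    (mLev ex h (unif _)).X0 (Hm lam x fun s => w (s ∘ σ)) = (mLev ex h (unif _)).X0 (Hm lam x w) := by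
  obtain ⟨P, hP⟩ := exists_perm_O σ.symm
  rw [← Hm_rm lam x w hP]
  exact Lev.X0_cmap rfl (fun e _ => mp_rm ex h P σ e) (lin_Hm ex h (unif _) lam x w).1

theorem site_perm (σ : Equiv.Perm (Fin N)) (r : Fin N) :
    (mLev ex h (unif _)).E0 (Hm lam x fun s => w (s ∘ σ)) (Sg (σ r)) =
        (mLev ex h (unif _)).E0 (Hm lam x w) (Sg r) ∧
      ∀ e, qs (mLev ex h (unif _)) (Hm lam x fun s => w (s ∘ σ)) (σ r) e =
        qs (mLev ex h (unif _)) (Hm lam x w) r e := by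
  obtain ⟨P, hP⟩ := exists_perm_O σ.symm
  have hH := (lin_Hm ex h (unif _) lam x w).1
  rw [← Hm_rm lam x w hP]
  refine ⟨Lev.E0_cmap rfl (fun e _ => mp_rm ex h P σ e) hH (measurable_Sg r), fun e => ?_⟩
  rw [qs, qs, ← Lev.E0_cmap rfl (fun e _ => mp_rm ex h P σ e) hH
    ((Lev.measurable_E hH (measurable_Sg r) (e + 1)).pow_const 2)]
  congr 1
  funext ω
  rw [← Lev.E_cmap rfl (fun e _ _ => mp_rm ex h P σ e) hH (measurable_Sg r)]
  rfl

theorem E0_fr_le {A : Type} [Fintype A] [DecidableEq A] (sp : Fin N → A) {I : Finset (Fin N)}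
    {r₀ : Fin N} (hr : r₀ ∈ I) (hw : ∀ r ∈ I, ∀ s, w (s ∘ Equiv.swap r₀ r) = w s) :
    (mLev ex h (unif _)).E0 (Hm lam x w) (fr sp r₀) ≤ N / I.card := by
  refine le_div_card (lin_Hm ex h (unif _) lam x w)
    (fun r _ => Lev.nice_of_bdd (measurable_fr sp r) N fun ω => ?_) hr (fun r hrI => ?_) fun ω => ?_
  · rw [abs_of_nonneg (fr_bounds sp r ω).1]
    exact (fr_bounds sp r ω).2
  · obtain ⟨P, hP⟩ := exists_perm_O (Equiv.swap r₀ r).symm
    rw [← Lev.E0_cmap rfl (fun e _ => mp_rm ex h P (Equiv.swap r₀ r) e)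
      (lin_Hm ex h (unif _) lam x w).1 (measurable_fr sp r₀), Hm_rm lam x w hP]
    simp only [hw r hrI, fr_rm sp hP, Equiv.swap_apply_left]
  · rw [← sum_fr sp ω]
    exact Finset.sum_le_sum_of_subset_of_nonneg (Finset.subset_univ I)
      fun r _ _ => (fr_bounds sp r ω).1

lemma dd_univ (hN : 0 < N) : (mLev ex h ν).dd (Hm lam x w) univ Y = 1 := by
  have e : Lev.rr univ (Y : Fin N → Cfg (k + 2) (Om N) → ℝ) = fun _ => 1 := by
    funext ω
    have : (N : ℝ) ≠ 0 := by exact_mod_cast hN.ne'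
    simp [Lev.rr, sum_Y_sq, this]
  rw [Lev.dd, e]
  exact Lev.E_const (lin_Hm ex h ν lam x w) _ _ _

lemma qq_univ_site (e : ℕ) : (mLev ex h ν).qq (Hm lam x w) univ Y e =
    (∑ r, qs (mLev ex h ν) (Hm lam x w) r e) / N := by
  have hH := lin_Hm ex h ν lam x w
  have e1 : ∀ ω, ∑ i, (mLev ex h ν).E (e + 1) (Hm lam x w) (Y i) ω ^ 2 =
      ∑ r, (mLev ex h ν).E (e + 1) (Hm lam x w) (Sg r) ω ^ 2 := fun ω => by
    rw [← sum_sq_mulVec (ω 0).1.1 fun r => (mLev ex h ν).E (e + 1) (Hm lam x w) (Sg r) ω]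
    refine Finset.sum_congr rfl fun i _ => ?_
    congr 1
    rw [Lev.E_congr_loc (H' := Hm lam x w) (f' := fun ω' => ∑ r, (ω 0).1.1.1 i r * Sg r ω') (e + 1)
      ω (fun _ _ => rfl) (fun ω' hω' => by rw [← hω' 0 (by simp)]; rfl),
      Lev.E_sum hH _ fun r _ => (nice_Sg ex h ν r).const_mul _]
    simp only [Lev.E_const_mul]
    rfl
  simp only [Lev.qq, e1, Finset.card_univ, Fintype.card_fin]
  congr 1
  exact Lev.E_sum hH _ (fun r _ => ((nice_Sg ex h ν r).E hH _).pow 2) _ _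

lemma qq_univ_blk {A : Type} [Fintype A] [DecidableEq A] (sp : Fin N → A) (e : ℕ) :
    (mLev ex h ν).qq (Hm lam x w) univ Y e =
      ∑ a, (blk sp a).card / (N : ℝ) * (mLev ex h ν).qq (Hm lam x w) (blk sp a) Y e := by
  have hH := lin_Hm ex h ν lam x w
  have hn := fun i => ((nice_Y ex h ν i).E hH (e + 1)).pow 2
  simp only [Lev.qq, Lev.E0, fun I => Lev.E_sum hH I fun i _ => hn i, Finset.card_univ,
    Fintype.card_fin]
  rw [← sum_blk sp, Finset.sum_div]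
  refine Finset.sum_congr rfl fun a _ => ?_
  rcases (blk sp a).eq_empty_or_nonempty with h0 | h0
  · simp [h0]
  · have : ((blk sp a).card : ℝ) ≠ 0 := by exact_mod_cast h0.card_pos.ne'
    field_simp

lemma sum_dd_blk {A : Type} [Fintype A] [DecidableEq A] (sp : Fin N → A) (hN : 0 < N) :
    ∑ a, (blk sp a).card / (N : ℝ) * (mLev ex h ν).dd (Hm lam x w) (blk sp a) Y = 1 := by
  have hH := lin_Hm ex h ν lam x w
  have hn := fun i => (nice_Y ex h ν i).pow 2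
  have h1 := E0_Y_sq ex h ν lam x w univ
  have hN' : (N : ℝ) ≠ 0 := by exact_mod_cast hN.ne'
  simp only [div_mul_eq_mul_div, ← E0_Y_sq]
  rw [dd_univ ex h ν lam x w hN, Finset.card_univ, Fintype.card_fin, mul_one] at h1
  simp only [Lev.E0, fun I => Lev.E_sum hH I fun i _ => hn i] at h1 ⊢
  rw [← Finset.sum_div, sum_blk sp, h1, div_self hN']

lemma isOv_qq (hN : 0 < N) : IsOv k ((mLev ex h ν).qq (Hm lam x w) univ Y) := by
  have hH := lin_Hm ex h ν lam x w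
  refine ⟨fun e _ => ⟨Lev.qq_nonneg e, ?_⟩, fun e _ _ =>
    Lev.qq_mono hH (fun i _ => nice_Y ex h ν i) (Nat.le_succ e)⟩
  rw [← dd_univ ex h ν lam x w hN]
  exact Lev.qq_le_dd hH (fun i _ => nice_Y ex h ν i) e

/-- The plane rotation flow. -/
theorem rot_flow {i j : Fin N} (hij : i ≠ j) : ∃ φ : ℝ → ℕ → Om N → Om N, (∀ e z, φ 0 e z = z) ∧
    (∀ t, ∀ e < k + 2, MeasurePreserving (φ t e) ((mLev ex h ν).μ e) ((mLev ex h ν).μ e)) ∧
    (mLev ex h ν).HasD (fun t => cmap (φ t)) (Y i) (Y j) ∧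
    (mLev ex h ν).HasD (fun t => cmap (φ t)) (Y j) (fun ω => -Y i ω) ∧
    (mLev ex h ν).HasDL (fun t => cmap (φ t)) (Hm lam x w) (fun ω => (lam i - lam j) * (Y i ω * Y j ω) +
      ∑ l ∈ Icc 1 k, (x l i - x l j) * (gl l i ω * Y j ω + gl l j ω * Y i ω)) := by
  obtain ⟨R, hR0, hR⟩ := exists_rot_O hij
  have lY : ∀ m, (mLev ex h ν).Lin (Y m) := fun m =>
    Lev.lin_of_bdd (measurable_Y m) N (abs_Y_le m)
  have bc : ∀ θ, |cos θ| ≤ 2 := fun θ => (abs_cos_le_one θ).trans one_le_two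
  have bs : ∀ θ, |sin θ| ≤ 2 := fun θ => (abs_sin_le_one θ).trans one_le_two
  refine ⟨fun t => lm (R t), fun e z => by simp [lm, hR0], fun t e _ => mp_lm ex h ν _ e,
    Lev.HasDL.hasD ?_, Lev.HasDL.hasD ?_, ?_⟩
  · refine hasDL_two (Lev.lin_const 0) (lY i) (lY j) hasDerivAt_cos hasDerivAt_sin
      (fun θ => ⟨bc θ, by simpa using bs θ⟩) (fun θ => ⟨bs θ, bc θ⟩) (by simp) (by simp)
      fun θ ω => ?_
    rw [Y_lm, (hR θ _).1, zero_add]
  · refine hasDL_two (Lev.lin_const 0) (lY j) (lY i).neg hasDerivAt_cos hasDerivAt_sin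
      (fun θ => ⟨bc θ, by simpa using bs θ⟩) (fun θ => ⟨bs θ, bc θ⟩) (by simp) (by simp)
      fun θ ω => ?_
    rw [Y_lm, (hR θ _).2.1]
    ring
  · have q1 := hasDL_quad (L := mLev ex h ν) (Φ := fun t => cmap (lm (R t))) hij hR
      (fun θ => Y_lm (R θ)) (fun θ => Y_lm (R θ))
      (fun m m' => (lY m).mul_bdd (measurable_Y m') N (abs_Y_le m')) fun m => lam m / 2
    have q2 := Lev.HasDL.sum (Icc 1 k) fun l _ =>
      hasDL_quad (L := mLev ex h ν) (Φ := fun t => cmap (lm (R t))) hij hR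
        (fun θ => gl_lm (R θ) l) (fun θ => Y_lm (R θ))
        (fun m m' => (lin_gl l m).mul_bdd (measurable_Y m') N (abs_Y_le m')) (x l)
    have q3 := Lev.hasDL_of_invariant (Φ := fun t => cmap (lm (R t))) (lin_spn ex h ν w)
      fun _ _ => rfl
    have q := ((q1.add q2).add q3).congr' (g' := fun ω => (lam i - lam j) * (Y i ω * Y j ω) +
      ∑ l ∈ Icc 1 k, (x l i - x l j) * (gl l i ω * Y j ω + gl l j ω * Y i ω)) fun ω => by ring
    convert q using 1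
    funext ω
    simp only [Hm, mul_assoc]
    congr 2
    exact Finset.sum_congr rfl fun m _ => by ring

end Crest.Agent.R164
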