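import Crest.Agent.R164.SpecDefs

/-! # Row 164: the orthogonal group, Haar measure, the model and the one-site system -/

set_option autoImplicit false

namespace Crest.Agent.R164

open MeasureTheory Real Finset Crest.ProbabilityR.InvariantGlass

/-- The orthogonal group. -/
abbrev O (N : ℕ) : Type := Matrix.orthogonalGroup (Fin N) ℝ

instance instMeasO (N : ℕ) : MeasurableSpace (O N) :=
  MeasurableSpace.comap (fun (U : O N) (i j : Fin N) => U.1 i j) inferInstance

lemma measurable_O_entries {N : ℕ} : Measurable (fun (U : O N) (i j : Fin N) => U.1 i j) :=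
  fun _ hs => ⟨_, hs, rfl⟩

lemma measurable_O_entry {N : ℕ} (i j : Fin N) : Measurable (fun U : O N => U.1 i j) :=
  (measurable_pi_apply j).comp ((measurable_pi_apply i).comp measurable_O_entries)

lemma measurable_to_O {N : ℕ} {α : Type} [MeasurableSpace α] {f : α → O N}
    (h : ∀ i j, Measurable fun x => (f x).1 i j) : Measurable f := by
  rintro _ ⟨s, hs, rfl⟩
  exact (measurable_pi_iff.2 fun i => measurable_pi_iff.2 fun j => h i j) hs

/-- A bi-invariant probability measure on the orthogonal group. -/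
structure Haar (N : ℕ) where
  κ : Measure (O N)
  prob : IsProbabilityMeasure κ
  left : ∀ D : O N, MeasurePreserving (fun U => D * U) κ κ
  right : ∀ D : O N, MeasurePreserving (fun U => U * D) κ κ

instance {N : ℕ} (h : Haar N) : IsProbabilityMeasure h.κ := h.prob

/-- Rotated spin configuration. -/
noncomputable def yv {N : ℕ} (U : O N) (σ : Fin N → Bool) : Fin N → ℝ := U.1.mulVec (spinVec σ)

/-- Level space of the model. -/
abbrev Zm (N : ℕ) : Type := O N × (Fin N → Bool)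
abbrev Om (N : ℕ) : Type := Zm N × (Fin N → ℝ)

/-- Haar measure at level `0`, a point mass at the other levels. -/
noncomputable def Haar.lev {N : ℕ} (h : Haar N) (l : ℕ) : Measure (O N) :=
  if l = 0 then h.κ else Measure.dirac 1

instance {N : ℕ} (h : Haar N) (l : ℕ) : IsProbabilityMeasure (h.lev l) := by
  unfold Haar.lev; split_ifs <;> infer_instance

/-- The scheme of the model with spin prior `ν`. -/
noncomputable def mLev {k N : ℕ} (ex : Expo (k + 2)) (h : Haar N) (ν : Measure (Fin N → Bool))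
    [IsProbabilityMeasure ν] : Lev (k + 2) (Om N) :=
  gLev ex (Fin N) (fun l => (h.lev l).prod ν) (fun _ => inferInstance)

/-- The spins (last level). -/
def spn {k N : ℕ} (ω : Cfg (k + 2) (Om N)) : Fin N → Bool := (ω (Fin.last (k + 1))).1.2

/-- The spin at site `r`. -/
def Sg {k N : ℕ} (r : Fin N) (ω : Cfg (k + 2) (Om N)) : ℝ := sg (spn ω r)

/-- The rotated spins. -/
noncomputable def Y {k N : ℕ} (i : Fin N) (ω : Cfg (k + 2) (Om N)) : ℝ := yv (ω 0).1.1 (spn ω) i

/-- The Hamiltonian: eigenvalues `lam`, Gaussian fields of amplitude `x l i` in the rotated frame at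
the levels `1, …, k`, deterministic weight `w`. -/
noncomputable def Hm {k N : ℕ} (lam : Fin N → ℝ) (x : ℕ → Fin N → ℝ) (w : (Fin N → Bool) → ℝ)
    (ω : Cfg (k + 2) (Om N)) : ℝ :=
  ∑ i, lam i * Y i ω ^ 2 / 2 + ∑ l ∈ Icc 1 k, ∑ i, x l i * gl l i ω * Y i ω + w (spn ω)

/-- Fibre of a labelling. -/
def blk {N : ℕ} {A : Type} [DecidableEq A] (sp : Fin N → A) (a : A) : Finset (Fin N) :=
  univ.filter fun i => sp i = a

/-- The labelling has balanced fibres up to `B`. -/
def Bal {N n : ℕ} (sp : Fin N → Fin (n + 1)) (B : ℝ) : Prop :=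
  ∀ a, |((blk sp a).card : ℝ) - N / (n + 1)| ≤ B

/-- Distance of the overlaps of all species to the reference values attached to `s`. -/
noncomputable def Pin {K : ℕ} {Ω : Type} [MeasurableSpace Ω] (L : Lev K Ω) (k : ℕ) (H : Cfg K Ω → ℝ)
    {N n : ℕ} (sp : Fin N → Fin (n + 1)) (y : Fin N → Cfg K Ω → ℝ) (lam : Fin (n + 1) → ℝ)
    (s : ℕ → ℝ) : ℝ :=
  ∑ a, (√(L.E0 H fun ω => (Lev.rr (blk sp a) y ω - qh lam L.toExpo s a (k + 1)) ^ 2) +
    ∑ e ∈ Icc 1 k, L.Δ e * √(L.VV H (blk sp a) y e (qh lam L.toExpo s a e)))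

/-- Periodic labelling; adding a new index `0` shifts the others. -/
def pat (n N : ℕ) (i : Fin N) : Fin (n + 1) := Fin.ofNat (n + 1) (N - 1 - i.val)

/-- Magnetisation of the group `j`. -/
noncomputable def mag {N : ℕ} {A : Type} [DecidableEq A] (lab : Fin N → A) (j : A)
    (σ : Fin N → Bool) : ℝ := ∑ r ∈ blk lab j, sg (σ r)

/-! The one-site system: a spin, a coin and a Gaussian variable at each level. -/

abbrev Oo : Type := (Bool × Bool) × (Unit → ℝ)

noncomputable def oLev {K : ℕ} (ex : Expo K) : Lev K Oo :=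
  gLev ex Unit (fun _ => unif (Bool × Bool)) (fun _ => inferInstance)

/-- The spin of the one-site system. -/
def oS {r : ℕ} (ω : Cfg (r + 1) Oo) : ℝ := sg (ω (Fin.last r)).1.1

/-- The field accumulated over the levels `< l`. -/
noncomputable def oF {K : ℕ} (b : ℝ) (x y : ℕ → ℝ) (l : ℕ) (ω : Cfg K Oo) : ℝ :=
  b + ∑ e ∈ range l, (x e * gl e () ω + y e * atl ω e fun z => sg z.1.2)

/-- One-site Hamiltonian. -/
noncomputable def One {r : ℕ} (b : ℝ) (x y : ℕ → ℝ) (ω : Cfg (r + 1) Oo) : ℝ := oF b x y r ω * oS ω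

/-- One-site value. -/
noncomputable def oX {r : ℕ} (ex : Expo (r + 1)) (b : ℝ) (x y : ℕ → ℝ) : ℝ := (oLev ex).X0 (One b x y)

/-- One-site magnetisation. -/
noncomputable def oM {r : ℕ} (ex : Expo (r + 1)) (b : ℝ) (x : ℕ → ℝ) : ℝ :=
  (oLev ex).E0 (One b x 0) oS

/-- One-site overlap of level `e`. -/
noncomputable def oQ {r : ℕ} (ex : Expo (r + 1)) (b : ℝ) (x : ℕ → ℝ) (e : ℕ) : ℝ :=
  (oLev ex).E0 (One b x 0) fun ω => (oLev ex).E (e + 1) (One b x 0) oS ω ^ 2

/-- One-site tail `∑_{l ≤ e < r} Δ_e Q_e`. -/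
noncomputable def oT {r : ℕ} (ex : Expo (r + 1)) (b : ℝ) (x : ℕ → ℝ) (l : ℕ) : ℝ :=
  ∑ e ∈ Ico l r, ex.Δ e * oQ ex b x e

/-- The Markov recursion of the one-site system: `ph m l` has `m` levels left, starting at `l`. -/
noncomputable def ph {K : ℕ} (ex : Expo K) (x y : ℕ → ℝ) : ℕ → ℕ → ℝ → ℝ
  | 0, _ => fun t => log (cosh t)
  | m + 1, l => fun t => (ex.ζ l)⁻¹ * log ((∑ c : Bool,
      ∫ g, exp (ex.ζ l * ph ex x y m (l + 1) (t + x l * g + y l * sg c))
        ∂ProbabilityTheory.gaussianReal 0 1) / 2)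

theorem anchor_ph : type_of% @ph.eq_def := @ph.eq_def

/-- The hypothesis "`S_m(p) ≤ s`" in real form. -/
def SLe {J : ℕ} (γ m : Fin J → ℝ) (p : ℝ → ℝ) (s : ℝ) : Prop :=
  ∀ (k : ℕ) (w hv : Fin k → ℝ), IsStepField w hv → ∀ η : ℝ, 0 < η → ∃ b : Fin J → ℝ,
    ∑ j, γ j * (fieldValueAt (b j) w hv - b j * m j) +
      1 / 2 * ∫ s in Set.Ioo (0 : ℝ) 1, p s * stepFn w hv s ≤ s + η

end Crest.Agent.R164
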