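import Mathlib

/-!
# Row 164, nested calculus: definitions

`K` levels, each with a probability measure `μ l` on `Ω` and an exponent `0 < ζ l ≤ 1` (monotone, the
last one is `1`).  `X l H` is the nested power mean over the levels `l, …, K-1`, `E l H f` the
expectation of `f` under the tilted measure, conditionally on the levels `< l`.
-/

set_option autoImplicit false

namespace Crest.Agent.R164

open MeasureTheory ProbabilityTheory Real Finset

/-- Exponents of a `K`-level scheme. -/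
structure Expo (K : ℕ) where
  ζ : ℕ → ℝ
  pos : ∀ l, 0 < ζ l
  mono : Monotone ζ
  top : ∀ l, K ≤ l + 1 → ζ l = 1

/-- `Δ e = ζ (e+1) - ζ e`. -/
def Expo.Δ {K : ℕ} (e : Expo K) (l : ℕ) : ℝ := e.ζ (l + 1) - e.ζ l

lemma Expo.le_one {K : ℕ} (e : Expo K) (l : ℕ) : e.ζ l ≤ 1 := by
  have h := e.mono (le_max_left l K)
  rwa [e.top (max l K) (by omega)] at h

lemma Expo.Δ_nonneg {K : ℕ} (e : Expo K) (l : ℕ) : 0 ≤ e.Δ l :=
  sub_nonneg.2 (e.mono (Nat.le_succ l))

/-- A `K`-level scheme on the level space `Ω`; `nrm` has all exponential moments. -/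
structure Lev (K : ℕ) (Ω : Type) [MeasurableSpace Ω] extends Expo K where
  μ : ℕ → Measure Ω
  nrm : Ω → ℝ
  prob : ∀ l, IsProbabilityMeasure (μ l)
  nrm_meas : Measurable nrm
  nrm_nonneg : ∀ x, 0 ≤ nrm x
  expInt : ∀ l (c : ℝ), Integrable (fun x => exp (c * nrm x)) (μ l)

/-- Configurations. -/
abbrev Cfg (K : ℕ) (Ω : Type) := Fin K → Ω

variable {K : ℕ} {Ω : Type}

/-- Replace the variable of level `l` (nothing happens if `K ≤ l`). -/
def upd (ω : Cfg K Ω) (l : ℕ) (x : Ω) : Cfg K Ω := fun i => if i.val = l then x else ω i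

/-- `f` depends only on the levels `< l`. -/
def Dep {α : Type} (l : ℕ) (f : Cfg K Ω → α) : Prop :=
  ∀ ω ω' : Cfg K Ω, (∀ i : Fin K, i.val < l → ω i = ω' i) → f ω = f ω'

/-- A real function of the variable of level `l` (zero if `K ≤ l`). -/
def atl (ω : Cfg K Ω) (l : ℕ) (f : Ω → ℝ) : ℝ := if h : l < K then f (ω ⟨l, h⟩) else 0

/-- Levelwise map of configurations. -/
def cmap {Ω' : Type} (φ : ℕ → Ω → Ω') (ω : Cfg K Ω) : Cfg K Ω' := fun i => φ i.val (ω i)

variable [MeasurableSpace Ω]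

instance (L : Lev K Ω) (l : ℕ) : IsProbabilityMeasure (L.μ l) := L.prob l

namespace Lev

variable (L : Lev K Ω)

/-- One power mean. -/
noncomputable def T (l : ℕ) (F : Cfg K Ω → ℝ) (ω : Cfg K Ω) : ℝ :=
  (L.ζ l)⁻¹ * log (∫ x, exp (L.ζ l * F (upd ω l x)) ∂L.μ l)

noncomputable def Xn : ℕ → ℕ → (Cfg K Ω → ℝ) → Cfg K Ω → ℝ
  | 0, _, H => H
  | n + 1, l, H => L.T l (Xn n (l + 1) H)

/-- Nested power mean over the levels `l, …, K-1`. -/
noncomputable def X (l : ℕ) (H : Cfg K Ω → ℝ) : Cfg K Ω → ℝ := L.Xn (K - l) l H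

noncomputable def En : ℕ → ℕ → (Cfg K Ω → ℝ) → (Cfg K Ω → ℝ) → Cfg K Ω → ℝ
  | 0, _, _, f => f
  | n + 1, l, H, f => fun ω => ∫ x, exp (L.ζ l * (L.Xn n (l + 1) H (upd ω l x) - L.Xn (n + 1) l H ω)) *
      En n (l + 1) H f (upd ω l x) ∂L.μ l

/-- Tilted expectation over the levels `l, …, K-1`. -/
noncomputable def E (l : ℕ) (H f : Cfg K Ω → ℝ) : Cfg K Ω → ℝ := L.En (K - l) l H f

lemma X_of_ge {l : ℕ} (h : K ≤ l) (H : Cfg K Ω → ℝ) : L.X l H = H := by
  simp [X, Nat.sub_eq_zero_of_le h, Xn]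

lemma X_of_lt {l : ℕ} (h : l < K) (H : Cfg K Ω → ℝ) : L.X l H = L.T l (L.X (l + 1) H) := by
  have : K - l = (K - (l + 1)) + 1 := by omega
  simp only [X, this, Xn]

lemma E_of_ge {l : ℕ} (h : K ≤ l) (H f : Cfg K Ω → ℝ) : L.E l H f = f := by
  simp [E, Nat.sub_eq_zero_of_le h, En]

lemma E_of_lt {l : ℕ} (h : l < K) (H f : Cfg K Ω → ℝ) (ω : Cfg K Ω) :
    L.E l H f ω = ∫ x, exp (L.ζ l * (L.X (l + 1) H (upd ω l x) - L.X l H ω)) *
      L.E (l + 1) H f (upd ω l x) ∂L.μ l := by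
  have : K - l = (K - (l + 1)) + 1 := by omega
  simp only [E, X, this, En]

/-- Total size of a configuration. -/
noncomputable def size (ω : Cfg K Ω) : ℝ := ∑ i, L.nrm (ω i)

/-- Measurable of linear growth. -/
def Lin (H : Cfg K Ω → ℝ) : Prop := Measurable H ∧ ∃ C : ℝ, ∀ ω, |H ω| ≤ C * (1 + L.size ω)

/-- Measurable of exponential growth. -/
def Nice (f : Cfg K Ω → ℝ) : Prop := Measurable f ∧ ∃ C : ℝ, ∀ ω, |f ω| ≤ exp (C * (1 + L.size ω))

/-- All the integrals in `X` converge. -/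
def Int (H : Cfg K Ω → ℝ) : Prop :=
  Measurable H ∧ ∀ l < K, ∀ ω, Integrable (fun x => exp (L.ζ l * L.X (l + 1) H (upd ω l x))) (L.μ l)

/-- The score `∑_{e ≥ l} ζ_e (E_{e+1} k - E_e k)`. -/
noncomputable def S (l : ℕ) (H k : Cfg K Ω → ℝ) (ω : Cfg K Ω) : ℝ :=
  ∑ e ∈ Ico l K, L.ζ e * (L.E (e + 1) H k ω - L.E e H k ω)

/-- The score seen from inside level `l`: `k - ∑_{l ≤ e < K-1} Δ_e E_{e+1} k`. -/
noncomputable def St (l : ℕ) (H k : Cfg K Ω → ℝ) (ω : Cfg K Ω) : ℝ :=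
  k ω - ∑ e ∈ Ico l (K - 1), L.Δ e * L.E (e + 1) H k ω

/-- A base point. -/
noncomputable def pt : Cfg K Ω := fun _ => Classical.choice (nonempty_of_isProbabilityMeasure (L.μ 0))

/-- The total nested power mean. -/
noncomputable def X0 (H : Cfg K Ω → ℝ) : ℝ := L.X 0 H L.pt

/-- The total tilted expectation. -/
noncomputable def E0 (H f : Cfg K Ω → ℝ) : ℝ := L.E 0 H f L.pt

/-- The variance under the tilted measure. -/
noncomputable def Var (H f : Cfg K Ω → ℝ) : ℝ := L.E0 H (fun ω => f ω ^ 2) - L.E0 H f ^ 2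

/-- A differentiable family of nice functions on the parameter set `s`. -/
structure DFam (s : Set ℝ) (F F' : ℝ → Cfg K Ω → ℝ) : Prop where
  meas : ∀ θ ∈ s, Measurable (F θ)
  meas' : ∀ θ ∈ s, Measurable (F' θ)
  deriv : ∀ ω, ∀ θ ∈ s, HasDerivAt (fun t => F t ω) (F' θ ω) θ
  bound : ∃ C : ℝ, ∀ θ ∈ s, ∀ ω, |F θ ω| ≤ exp (C * (1 + L.size ω)) ∧
    |F' θ ω| ≤ exp (C * (1 + L.size ω))

/-- A differentiable family of Hamiltonians of linear growth. -/
structure LFam (s : Set ℝ) (F F' : ℝ → Cfg K Ω → ℝ) : Prop extends L.DFam s F F' where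
  lin : ∃ C : ℝ, ∀ θ ∈ s, ∀ ω, |F θ ω| ≤ C * (1 + L.size ω)

/-- `f'` is the derivative of `f` along the flow `Φ` at time `0`. -/
def HasD (Φ : ℝ → Cfg K Ω → Cfg K Ω) (f f' : Cfg K Ω → ℝ) : Prop :=
  ∃ (s : Set ℝ) (F' : ℝ → Cfg K Ω → ℝ), IsOpen s ∧ (0 : ℝ) ∈ s ∧
    L.DFam s (fun θ ω => f (Φ θ ω)) F' ∧ F' 0 = f'

/-- The same for a Hamiltonian of linear growth. -/
def HasDL (Φ : ℝ → Cfg K Ω → Cfg K Ω) (f f' : Cfg K Ω → ℝ) : Prop :=
  ∃ (s : Set ℝ) (F' : ℝ → Cfg K Ω → ℝ), IsOpen s ∧ (0 : ℝ) ∈ s ∧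
    L.LFam s (fun θ ω => f (Φ θ ω)) F' ∧ F' 0 = f'

/-! Overlaps of a vector observable `y` on the index set `I`. -/

variable {ι : Type}

/-- Self-overlap `|y_I|^2 / |I|`. -/
noncomputable def rr (I : Finset ι) (y : ι → Cfg K Ω → ℝ) (ω : Cfg K Ω) : ℝ :=
  (∑ i ∈ I, y i ω ^ 2) / I.card

/-- Mean self-overlap. -/
noncomputable def dd (H : Cfg K Ω → ℝ) (I : Finset ι) (y : ι → Cfg K Ω → ℝ) : ℝ :=
  L.E0 H (rr I y)

/-- Mean overlap of two replicas sharing the levels `≤ e`. -/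
noncomputable def qq (H : Cfg K Ω → ℝ) (I : Finset ι) (y : ι → Cfg K Ω → ℝ) (e : ℕ) : ℝ :=
  L.E0 H (fun ω => ∑ i ∈ I, L.E (e + 1) H (y i) ω ^ 2) / I.card

/-- Mean square distance to `c` of the overlap of two replicas sharing the levels `≤ e`. -/
noncomputable def VV (H : Cfg K Ω → ℝ) (I : Finset ι) (y : ι → Cfg K Ω → ℝ) (e : ℕ) (c : ℝ) : ℝ :=
  L.E0 H (fun ω => ∑ i ∈ I, ∑ j ∈ I, y i ω * y j ω *
      L.E (e + 1) H (fun ω' => y i ω' * y j ω') ω) / (I.card : ℝ) ^ 2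
    - 2 * c * L.qq H I y e + c ^ 2

end Lev

/-- The "eigenvalues" of the ultrametric overlap matrix with diagonal `d` and entries `q 1 ≤ … ≤ q k`
(the entry `q 0` is not used). -/
noncomputable def Dev {K : ℕ} (ex : Expo K) (k : ℕ) (d : ℝ) (q : ℕ → ℝ) (e : ℕ) : ℝ :=
  d - (if e = 0 then 0 else ex.ζ (e + 1) * q e) - ∑ l ∈ Ioc e k, ex.Δ l * q l

/-- `∑_{l ≤ e ≤ k} Δ_e q_e`. -/
noncomputable def tail {K : ℕ} (ex : Expo K) (k : ℕ) (q : ℕ → ℝ) (l : ℕ) : ℝ :=
  ∑ e ∈ Icc l k, ex.Δ e * q e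

/-- The uniform grid of exponents: `ζ 0 = ζ 1 = η`, then `k` equal steps up to `1`. -/
def IsGrid {k : ℕ} (ex : Expo (k + 2)) (η : ℝ) : Prop :=
  ex.ζ 0 = η ∧ ex.ζ 1 = η ∧ ∀ l ∈ Icc 1 k, ex.Δ l = (1 - η) / k

/-! Gaussian schemes. -/

/-- Standard Gaussian measure on `ι → ℝ`. -/
noncomputable def gam (ι : Type) [Fintype ι] : Measure (ι → ℝ) := Measure.pi fun _ => gaussianReal 0 1

instance (ι : Type) [Fintype ι] : IsProbabilityMeasure (gam ι) := by unfold gam; infer_instance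

lemma integrable_exp_abs_gauss (c : ℝ) :
    Integrable (fun x : ℝ => exp (c * |x|)) (gaussianReal 0 1) := by
  refine ((integrable_exp_mul_gaussianReal (μ := 0) (v := 1) c).add
    (integrable_exp_mul_gaussianReal (μ := 0) (v := 1) (-c))).mono' (by fun_prop) ?_
  filter_upwards with x
  rw [Real.norm_eq_abs, abs_of_pos (exp_pos _)]
  rcases abs_cases x with h | h <;> rw [h.1] <;> simp only [Pi.add_apply]
  · linarith [exp_pos (-c * x)]
  · have : c * -x = -c * x := by ring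
    rw [this]; linarith [exp_pos (c * x)]

lemma integrable_exp_gam (ι : Type) [Fintype ι] (c : ℝ) :
    Integrable (fun g : ι → ℝ => exp (c * ∑ i, |g i|)) (gam ι) := by
  have h := Integrable.fintype_prod (μ := fun _ : ι => gaussianReal 0 1)
    (f := fun _ x => exp (c * |x|)) (fun _ => integrable_exp_abs_gauss c)
  refine h.congr (Filter.Eventually.of_forall fun g => ?_)
  simp only [Finset.mul_sum, exp_sum]

/-- Scheme with level space `Z × (ι → ℝ)`, the second factor standard Gaussian. -/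
noncomputable def gLev {K : ℕ} (ex : Expo K) {Z : Type} [MeasurableSpace Z] (ι : Type) [Fintype ι]
    (α : ℕ → Measure Z) (hα : ∀ l, IsProbabilityMeasure (α l)) : Lev K (Z × (ι → ℝ)) where
  toExpo := ex
  μ l := (α l).prod (gam ι)
  nrm x := ∑ i, |x.2 i|
  prob l := by have := hα l; infer_instance
  nrm_meas := by fun_prop
  nrm_nonneg x := Finset.sum_nonneg fun i _ => abs_nonneg _
  expInt l c := by
    have := hα l
    exact (integrable_exp_gam ι c).comp_snd (α l)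

/-- The Gaussian coordinate `i` of level `l`. -/
def gl {K : ℕ} {Z ι : Type} (l : ℕ) (i : ι) (ω : Cfg K (Z × (ι → ℝ))) : ℝ := atl ω l fun x => x.2 i

/-- Shift of the Gaussian coordinate `i` of level `l`. -/
def shift {K : ℕ} {Z ι : Type} [DecidableEq ι] (l : ℕ) (i : ι) (θ : ℝ) :
    Cfg K (Z × (ι → ℝ)) → Cfg K (Z × (ι → ℝ)) :=
  cmap fun e x => if e = l then (x.1, Function.update x.2 i (x.2 i + θ)) else x

/-- `±1`. -/
def sg (b : Bool) : ℝ := if b then 1 else -1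

/-- Uniform probability on a finite set. -/
noncomputable def unifOn {α : Type} [MeasurableSpace α] (A : Finset α) : Measure α :=
  (A.card : ENNReal)⁻¹ • ∑ a ∈ A, Measure.dirac a

lemma unifOn_prob {α : Type} [MeasurableSpace α] {A : Finset α} (hA : A.Nonempty) :
    IsProbabilityMeasure (unifOn A) := by
  constructor
  have h : (A.card : ENNReal) ≠ 0 := by simpa using hA.ne_empty
  simp [unifOn, Measure.finsetSum_apply, ENNReal.inv_mul_cancel h]

/-- Uniform probability on a finite type. -/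
noncomputable def unif (α : Type) [MeasurableSpace α] [Fintype α] : Measure α := unifOn Finset.univ

instance (α : Type) [MeasurableSpace α] [Fintype α] [Nonempty α] : IsProbabilityMeasure (unif α) :=
  unifOn_prob Finset.univ_nonempty

lemma integral_unifOn {α : Type} [MeasurableSpace α] [MeasurableSingletonClass α] [Finite α]
    (A : Finset α) (f : α → ℝ) : ∫ a, f a ∂unifOn A = (∑ a ∈ A, f a) / A.card := by
  rw [unifOn, integral_smul_measure, integral_finsetSum_measure (fun _ _ => Integrable.of_finite)]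
  simp [div_eq_inv_mul]

theorem anchor_Xn : type_of% @Lev.Xn.eq_def := @Lev.Xn.eq_def
theorem anchor_En : type_of% @Lev.En.eq_def := @Lev.En.eq_def

end Crest.Agent.R164
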