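import Crest.Agent.R164.Nest

/-! # Row 164: basic API of the nested calculus (classes, linearity, positivity, tower property) -/

set_option autoImplicit false

namespace Crest.Agent.R164

open MeasureTheory ProbabilityTheory Real Finset

variable {K : ℕ} {Ω : Type}

lemma upd_self (ω : Cfg K Ω) (l : Fin K) : upd ω l (ω l) = ω := by
  funext i
  unfold upd
  split_ifs with h
  · rw [Fin.ext h]
  · rfl

lemma upd_upd (ω : Cfg K Ω) (l : ℕ) (x x' : Ω) : upd (upd ω l x) l x' = upd ω l x' := by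
  funext i
  unfold upd
  split_ifs <;> rfl

lemma Dep.mono {α : Type} {l l' : ℕ} {f : Cfg K Ω → α} (h : Dep l f) (hl : l ≤ l') : Dep l' f :=
  fun ω ω' h' => h ω ω' fun i hi => h' i (hi.trans_le hl)

lemma Dep.upd {α : Type} {l l' : ℕ} {f : Cfg K Ω → α} (h : Dep l f) (hl : l ≤ l') (ω : Cfg K Ω) (x : Ω) :
    f (upd ω l' x) = f ω :=
  h _ _ fun i hi => if_neg (by omega)

lemma dep_of_ge {α : Type} {l : ℕ} (hl : K ≤ l) (f : Cfg K Ω → α) : Dep l f :=
  fun _ _ h => congrArg f (funext fun i => h i (i.2.trans_le hl))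

lemma dep_atl (l : ℕ) (f : Ω → ℝ) : Dep (l + 1) (fun ω : Cfg K Ω => atl ω l f) := by
  intro ω ω' h
  simp only [atl]
  split_ifs with hl
  · rw [h ⟨l, hl⟩ (Nat.lt_succ_self l)]
  · rfl

lemma cmap_upd {Ω' : Type} (φ : ℕ → Ω → Ω') (ω : Cfg K Ω) (l : ℕ) (x : Ω) :
    cmap φ (upd ω l x) = upd (cmap φ ω) l (φ l x) := by
  funext i
  simp only [cmap, upd]
  split_ifs with h
  · rw [h]
  · rfl

/-- Downward induction on the level. -/
lemma down_ind (K : ℕ) {P : ℕ → Prop} (h0 : ∀ l, K ≤ l → P l) (h1 : ∀ l, l < K → P (l + 1) → P l)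
    (l : ℕ) : P l := by
  induction h : K - l generalizing l with
  | zero => exact h0 l (by omega)
  | succ n ih => exact h1 l (by omega) (ih _ (by omega))

lemma upd_agree {ω ω' : Cfg K Ω} {l : ℕ} (h : ∀ i : Fin K, i.val < l → ω i = ω' i) (x : Ω)
    (i : Fin K) (hi : i.val < l + 1) : upd ω l x i = upd ω' l x i := by
  unfold upd
  split_ifs with h'
  · rfl
  · exact h i (by omega)

lemma agree_of_upd {ω ω' : Cfg K Ω} {l : ℕ} {x : Ω}
    (h : ∀ i : Fin K, i.val < l + 1 → ω' i = upd ω l x i) (i : Fin K) (hi : i.val < l) :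
    ω' i = ω i :=
  (h i (by omega)).trans (if_neg hi.ne)

variable [MeasurableSpace Ω]

lemma measurable_upd (l : ℕ) : Measurable (fun p : Cfg K Ω × Ω => upd p.1 l p.2) := by
  refine measurable_pi_iff.2 fun i => ?_
  unfold upd
  split_ifs
  · exact measurable_snd
  · exact (measurable_pi_apply i).comp measurable_fst

lemma measurable_atl (l : ℕ) {f : Ω → ℝ} (hf : Measurable f) :
    Measurable (fun ω : Cfg K Ω => atl ω l f) := by
  unfold atl
  split_ifs with h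
  · exact hf.comp (measurable_pi_apply _)
  · exact measurable_const

lemma measurable_cmap {Ω' : Type} [MeasurableSpace Ω'] {φ : ℕ → Ω → Ω'} (hφ : ∀ l, Measurable (φ l)) :
    Measurable (cmap φ : Cfg K Ω → Cfg K Ω') :=
  measurable_pi_iff.2 fun i => (hφ i).comp (measurable_pi_apply i)

namespace Lev

variable {L : Lev K Ω} {H f g k : Cfg K Ω → ℝ}

lemma size_nonneg (ω : Cfg K Ω) : 0 ≤ L.size ω := Finset.sum_nonneg fun _ _ => L.nrm_nonneg _

lemma size_upd_le (ω : Cfg K Ω) (l : ℕ) (x : Ω) : L.size (upd ω l x) ≤ L.size ω + L.nrm x := by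
  have h1 : ∑ i : Fin K, (if i.val = l then L.nrm x else 0) ≤ L.nrm x := by
    by_cases hl : l < K
    · rw [Finset.sum_eq_single (⟨l, hl⟩ : Fin K)]
      · simp
      · intro i _ hi
        exact if_neg fun h => hi (Fin.ext h)
      · simp
    · rw [Finset.sum_eq_zero fun i _ => if_neg (by have := i.2; omega)]
      exact L.nrm_nonneg x
  refine le_trans ?_ (add_le_add_right h1 _)
  rw [size, size, ← Finset.sum_add_distrib]
  refine Finset.sum_le_sum fun i _ => ?_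
  unfold upd
  split_ifs
  · linarith [L.nrm_nonneg (ω i)]
  · linarith

lemma measurable_size : Measurable L.size :=
  Finset.measurable_sum _ fun i _ => L.nrm_meas.comp (measurable_pi_apply i)

lemma one_le_size (ω : Cfg K Ω) : 1 ≤ 1 + L.size ω := by linarith [size_nonneg (L := L) ω]

lemma Lin.bound (h : L.Lin H) : ∃ C : ℝ, 0 ≤ C ∧ ∀ ω, |H ω| ≤ C * (1 + L.size ω) := by
  obtain ⟨C, hC⟩ := h.2
  exact ⟨max C 0, le_max_right _ _, fun ω => (hC ω).trans
    (mul_le_mul_of_nonneg_right (le_max_left _ _) (by linarith [one_le_size (L := L) ω]))⟩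

lemma Nice.bound (h : L.Nice f) : ∃ C : ℝ, 0 ≤ C ∧ ∀ ω, |f ω| ≤ exp (C * (1 + L.size ω)) := by
  obtain ⟨C, hC⟩ := h.2
  exact ⟨max C 0, le_max_right _ _, fun ω => (hC ω).trans (exp_le_exp.2
    (mul_le_mul_of_nonneg_right (le_max_left _ _) (by linarith [one_le_size (L := L) ω])))⟩

/-! Closure properties of the classes. -/

lemma Lin.nice (h : L.Lin H) : L.Nice H := by
  obtain ⟨C, hC⟩ := h.2
  exact ⟨h.1, C, fun ω => (hC ω).trans (by linarith [add_one_le_exp (C * (1 + L.size ω))])⟩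
lemma lin_const (c : ℝ) : L.Lin (fun _ => c) :=
  ⟨measurable_const, |c|, fun ω => le_mul_of_one_le_right (abs_nonneg c) (one_le_size ω)⟩
lemma lin_of_bdd (hf : Measurable f) (C : ℝ) (h : ∀ ω, |f ω| ≤ C) : L.Lin f :=
  ⟨hf, |C|, fun ω => ((h ω).trans (le_abs_self C)).trans
    (le_mul_of_one_le_right (abs_nonneg C) (one_le_size ω))⟩
lemma Lin.add (hf : L.Lin f) (hg : L.Lin g) : L.Lin (fun ω => f ω + g ω) := by
  obtain ⟨C, hC⟩ := hf.2
  obtain ⟨D, hD⟩ := hg.2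
  refine ⟨hf.1.add hg.1, C + D, fun ω => (abs_add_le _ _).trans ?_⟩
  rw [add_mul]
  exact add_le_add (hC ω) (hD ω)
lemma Lin.sub (hf : L.Lin f) (hg : L.Lin g) : L.Lin (fun ω => f ω - g ω) := by
  obtain ⟨C, hC⟩ := hf.2
  obtain ⟨D, hD⟩ := hg.2
  refine ⟨hf.1.sub hg.1, C + D, fun ω => (abs_sub _ _).trans ?_⟩
  rw [add_mul]
  exact add_le_add (hC ω) (hD ω)
lemma Lin.neg (hf : L.Lin f) : L.Lin (fun ω => -f ω) := by
  obtain ⟨C, hC⟩ := hf.2
  exact ⟨hf.1.neg, C, fun ω => by rw [abs_neg]; exact hC ω⟩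
lemma Lin.const_mul (c : ℝ) (hf : L.Lin f) : L.Lin (fun ω => c * f ω) := by
  obtain ⟨C, hC⟩ := hf.2
  refine ⟨hf.1.const_mul c, |c| * C, fun ω => ?_⟩
  rw [abs_mul, mul_assoc]
  exact mul_le_mul_of_nonneg_left (hC ω) (abs_nonneg c)
lemma Lin.abs (hf : L.Lin f) : L.Lin (fun ω => |f ω|) := by
  obtain ⟨C, hC⟩ := hf.2
  exact ⟨continuous_abs.measurable.comp hf.1, C, fun ω => by rw [abs_abs]; exact hC ω⟩
lemma Lin.mul_bdd (hf : L.Lin f) (hg : Measurable g) (C : ℝ) (h : ∀ ω, |g ω| ≤ C) :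
    L.Lin (fun ω => f ω * g ω) := by
  obtain ⟨D, hD⟩ := hf.2
  refine ⟨hf.1.mul hg, C * D, fun ω => ?_⟩
  rw [abs_mul, mul_comm, mul_assoc]
  exact mul_le_mul (h ω) (hD ω) (abs_nonneg _) ((abs_nonneg _).trans (h ω))
lemma Lin.sum {ι : Type} (s : Finset ι) {F : ι → Cfg K Ω → ℝ} (h : ∀ i ∈ s, L.Lin (F i)) :
    L.Lin (fun ω => ∑ i ∈ s, F i ω) := by
  classical
  induction s using Finset.induction_on with
  | empty => simpa using lin_const 0
  | insert a s ha ih =>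
    simp only [Finset.sum_insert ha]
    exact (h a (mem_insert_self _ _)).add (ih fun i hi => h i (mem_insert_of_mem hi))
lemma Lin.of_le (hf : Measurable f) (hg : L.Lin g) (h : ∀ ω, |f ω| ≤ |g ω|) : L.Lin f := by
  obtain ⟨C, hC⟩ := hg.2
  exact ⟨hf, C, fun ω => (h ω).trans (hC ω)⟩

lemma nice_const (c : ℝ) : L.Nice (fun _ => c) := (lin_const c).nice
lemma nice_of_bdd (hf : Measurable f) (C : ℝ) (h : ∀ ω, |f ω| ≤ C) : L.Nice f :=
  (lin_of_bdd hf C h).nice
lemma Nice.add (hf : L.Nice f) (hg : L.Nice g) : L.Nice (fun ω => f ω + g ω) := by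
  obtain ⟨C, hC0, hC⟩ := hf.bound
  obtain ⟨D, hD0, hD⟩ := hg.bound
  refine ⟨hf.1.add hg.1, C + D + 1, fun ω => (abs_add_le _ _).trans ?_⟩
  have ht := one_le_size (L := L) ω
  have h1 : exp (C * (1 + L.size ω)) ≤ exp ((C + D) * (1 + L.size ω)) :=
    exp_le_exp.2 (mul_le_mul_of_nonneg_right (by linarith) (by linarith))
  have h2 : exp (D * (1 + L.size ω)) ≤ exp ((C + D) * (1 + L.size ω)) :=
    exp_le_exp.2 (mul_le_mul_of_nonneg_right (by linarith) (by linarith))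
  have h3 : 2 ≤ exp (1 + L.size ω) := by linarith [add_one_le_exp (1 + L.size ω)]
  have h4 := mul_le_mul_of_nonneg_left h3 (exp_pos ((C + D) * (1 + L.size ω))).le
  rw [add_mul (C + D), one_mul, exp_add]
  linarith [hC ω, hD ω]
lemma Nice.sub (hf : L.Nice f) (hg : L.Nice g) : L.Nice (fun ω => f ω - g ω) := by
  obtain ⟨C, hC⟩ := hg.2
  have : L.Nice fun ω => -g ω := ⟨hg.1.neg, C, fun ω => by rw [abs_neg]; exact hC ω⟩
  simpa only [sub_eq_add_neg] using hf.add this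
lemma Nice.neg (hf : L.Nice f) : L.Nice (fun ω => -f ω) := by
  obtain ⟨C, hC⟩ := hf.2
  exact ⟨hf.1.neg, C, fun ω => by rw [abs_neg]; exact hC ω⟩
lemma Nice.mul (hf : L.Nice f) (hg : L.Nice g) : L.Nice (fun ω => f ω * g ω) := by
  obtain ⟨C, hC⟩ := hf.2
  obtain ⟨D, hD⟩ := hg.2
  refine ⟨hf.1.mul hg.1, C + D, fun ω => ?_⟩
  rw [abs_mul, add_mul, exp_add]
  exact mul_le_mul (hC ω) (hD ω) (abs_nonneg _) (exp_pos _).le
lemma Nice.const_mul (c : ℝ) (hf : L.Nice f) : L.Nice (fun ω => c * f ω) := (nice_const c).mul hf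
lemma Nice.div_const (c : ℝ) (hf : L.Nice f) : L.Nice (fun ω => f ω / c) := by
  simpa only [div_eq_mul_inv] using hf.mul (nice_const c⁻¹)
lemma Nice.pow (hf : L.Nice f) (n : ℕ) : L.Nice (fun ω => f ω ^ n) := by
  induction n with
  | zero => simpa using nice_const 1
  | succ n ih => simpa only [pow_succ] using ih.mul hf
lemma Nice.abs (hf : L.Nice f) : L.Nice (fun ω => |f ω|) := by
  obtain ⟨C, hC⟩ := hf.2
  exact ⟨continuous_abs.measurable.comp hf.1, C, fun ω => by rw [abs_abs]; exact hC ω⟩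
lemma Nice.sum {ι : Type} (s : Finset ι) {F : ι → Cfg K Ω → ℝ} (h : ∀ i ∈ s, L.Nice (F i)) :
    L.Nice (fun ω => ∑ i ∈ s, F i ω) := by
  classical
  induction s using Finset.induction_on with
  | empty => simpa using nice_const 0
  | insert a s ha ih =>
    simp only [Finset.sum_insert ha]
    exact (h a (mem_insert_self _ _)).add (ih fun i hi => h i (mem_insert_of_mem hi))
lemma Nice.of_le (hf : Measurable f) (hg : L.Nice g) (h : ∀ ω, |f ω| ≤ |g ω|) : L.Nice f := by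
  obtain ⟨C, hC⟩ := hg.2
  exact ⟨hf, C, fun ω => (h ω).trans (hC ω)⟩
lemma Lin.exp (hf : L.Lin f) : L.Nice (fun ω => Real.exp (f ω)) := by
  obtain ⟨C, hC⟩ := hf.2
  refine ⟨measurable_exp.comp hf.1, C, fun ω => ?_⟩
  rw [abs_of_pos (exp_pos _)]
  exact exp_le_exp.2 ((le_abs_self _).trans (hC ω))

lemma exp_size_upd_le {C : ℝ} (hC : 0 ≤ C) (ω : Cfg K Ω) (l : ℕ) (x : Ω) :
    exp (C * (1 + L.size (upd ω l x))) ≤ exp (C * (1 + L.size ω)) * exp (C * L.nrm x) := by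
  rw [← exp_add, ← mul_add]
  exact exp_le_exp.2 (mul_le_mul_of_nonneg_left (by linarith [size_upd_le (L := L) ω l x]) hC)

lemma Nice.integrable_upd (hf : L.Nice f) (l : ℕ) (ω : Cfg K Ω) :
    Integrable (fun x => f (upd ω l x)) (L.μ l) := by
  obtain ⟨C, hC0, hC⟩ := hf.bound
  have hm : Measurable fun x => f (upd ω l x) :=
    hf.1.comp ((measurable_upd l).comp measurable_prodMk_left)
  refine ((L.expInt l C).const_mul (exp (C * (1 + L.size ω)))).mono' hm.aestronglyMeasurable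
    (Filter.Eventually.of_forall fun x => ?_)
  exact (hC _).trans (exp_size_upd_le hC0 ω l x)

lemma measurable_integral_upd (hf : Measurable f) (l : ℕ) :
    Measurable fun ω => ∫ x, f (upd ω l x) ∂L.μ l :=
  (hf.comp (measurable_upd l)).stronglyMeasurable.integral_prod_right'.measurable

lemma Nice.integral_upd (hf : L.Nice f) (l : ℕ) : L.Nice fun ω => ∫ x, f (upd ω l x) ∂L.μ l := by
  obtain ⟨C, hC0, hC⟩ := hf.bound
  have h1 : L.Nice fun ω => exp (C * (1 + L.size ω)) * ∫ x, exp (C * L.nrm x) ∂L.μ l := by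
    refine Nice.mul ⟨measurable_exp.comp ((measurable_size.const_add 1).const_mul C), C,
      fun ω => (abs_of_pos (exp_pos _)).le⟩ (nice_const _)
  refine Nice.of_le (measurable_integral_upd hf.1 l) h1 fun ω => le_trans ?_ (le_abs_self _)
  rw [← integral_const_mul, ← Real.norm_eq_abs]
  exact norm_integral_le_of_norm_le ((L.expInt l C).const_mul _)
    (Filter.Eventually.of_forall fun x => (hC _).trans (exp_size_upd_le hC0 ω l x))

/-! `X` and `E`. -/

lemma E_of_lt' {l : ℕ} (h : l < K) (H f : Cfg K Ω → ℝ) (ω : Cfg K Ω) :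
    L.E l H f ω = exp (-L.ζ l * L.X l H ω) *
      ∫ x, exp (L.ζ l * L.X (l + 1) H (upd ω l x)) * L.E (l + 1) H f (upd ω l x) ∂L.μ l := by
  rw [E_of_lt L h, ← integral_const_mul]
  congr 1
  funext x
  rw [← mul_assoc, ← exp_add]
  congr 2
  ring

lemma measurable_X (hH : Measurable H) (l : ℕ) : Measurable (L.X l H) := by
  induction l using down_ind K with
  | h0 l hl => rwa [X_of_ge L hl]
  | h1 l hl ih =>
    rw [X_of_lt L hl]
    exact (measurable_log.comp (measurable_integral_upd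
      (f := fun ω => exp (L.ζ l * L.X (l + 1) H ω)) (measurable_exp.comp (ih.const_mul _)) l)).const_mul _
lemma measurable_E (hH : Measurable H) (hf : Measurable f) (l : ℕ) : Measurable (L.E l H f) := by
  induction l using down_ind K with
  | h0 l hl => rwa [E_of_ge L hl]
  | h1 l hl ih =>
    rw [funext (E_of_lt' hl H f)]
    exact (measurable_exp.comp ((measurable_X hH l).const_mul _)).mul (measurable_integral_upd
      (f := fun ω => exp (L.ζ l * L.X (l + 1) H ω) * L.E (l + 1) H f ω)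
      ((measurable_exp.comp ((measurable_X hH (l + 1)).const_mul _)).mul ih) l)
lemma dep_X (l : ℕ) (H : Cfg K Ω → ℝ) : Dep l (L.X l H) := by
  induction l using down_ind K with
  | h0 l hl => exact dep_of_ge hl _
  | h1 l hl ih =>
    intro ω ω' h
    rw [X_of_lt L hl, T, T]
    simp only [fun x => ih _ _ (upd_agree h x)]
lemma dep_E (l : ℕ) (H f : Cfg K Ω → ℝ) : Dep l (L.E l H f) := by
  induction l using down_ind K with
  | h0 l hl => exact dep_of_ge hl _
  | h1 l hl ih =>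
    intro ω ω' h
    rw [E_of_lt L hl, E_of_lt L hl, dep_X l H ω ω' h]
    simp only [fun x => ih _ _ (upd_agree h x), fun x => dep_X (L := L) (l + 1) H _ _ (upd_agree h x)]
lemma X_zero (H : Cfg K Ω → ℝ) (ω : Cfg K Ω) : L.X 0 H ω = L.X0 H :=
  dep_X 0 H _ _ fun _ h => absurd h (Nat.not_lt_zero _)
lemma E_zero (H f : Cfg K Ω → ℝ) (ω : Cfg K Ω) : L.E 0 H f ω = L.E0 H f :=
  dep_E 0 H f _ _ fun _ h => absurd h (Nat.not_lt_zero _)

lemma Lin.T (hf : L.Lin f) (l : ℕ) : L.Lin (L.T l f) := by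
  obtain ⟨C, hC0, hC⟩ := hf.bound
  have hζ := L.pos l
  have hn := (hf.const_mul (L.ζ l)).exp
  refine ⟨(measurable_log.comp (measurable_integral_upd hn.1 l)).const_mul _,
    C + (L.ζ l)⁻¹ * (|log (∫ x, Real.exp (L.ζ l * C * L.nrm x) ∂L.μ l)| +
      |log (∫ x, Real.exp (-(L.ζ l * C) * L.nrm x) ∂L.μ l)|), fun ω => ?_⟩
  set M := ∫ x, Real.exp (L.ζ l * C * L.nrm x) ∂L.μ l with hM
  set m := ∫ x, Real.exp (-(L.ζ l * C) * L.nrm x) ∂L.μ l with hm
  have hM0 : 0 < M := integral_exp_pos (L.expInt l _)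
  have hm0 : 0 < m := integral_exp_pos (L.expInt l _)
  have hI := hn.integrable_upd l ω
  have hI0 := integral_exp_pos hI
  have hb : ∀ x, |f (upd ω l x)| ≤ C * (1 + L.size ω) + C * L.nrm x := fun x => by
    refine (hC _).trans ?_
    rw [← mul_add]
    exact mul_le_mul_of_nonneg_left (by linarith [size_upd_le (L := L) ω l x]) hC0
  have h1 : ∫ x, Real.exp (L.ζ l * f (upd ω l x)) ∂L.μ l ≤
      Real.exp (L.ζ l * (C * (1 + L.size ω))) * M := by
    rw [hM, ← integral_const_mul]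
    refine integral_mono hI ((L.expInt l _).const_mul _) fun x => ?_
    simp only
    rw [← exp_add, mul_assoc, ← mul_add]
    exact exp_le_exp.2 (mul_le_mul_of_nonneg_left (abs_le.1 (hb x)).2 hζ.le)
  have h2 : Real.exp (-(L.ζ l * (C * (1 + L.size ω)))) * m ≤
      ∫ x, Real.exp (L.ζ l * f (upd ω l x)) ∂L.μ l := by
    rw [hm, ← integral_const_mul]
    refine integral_mono ((L.expInt l _).const_mul _) hI fun x => ?_
    simp only
    rw [← exp_add]
    have := mul_le_mul_of_nonneg_left (abs_le.1 (hb x)).1 hζ.le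
    exact exp_le_exp.2 (by linarith)
  have h3 := log_le_log hI0 h1
  have h4 := log_le_log (mul_pos (exp_pos _) hm0) h2
  rw [log_mul (exp_pos _).ne' hM0.ne', log_exp] at h3
  rw [log_mul (exp_pos _).ne' hm0.ne', log_exp] at h4
  have h5 : |log (∫ x, Real.exp (L.ζ l * f (upd ω l x)) ∂L.μ l)| ≤
      L.ζ l * (C * (1 + L.size ω)) + (|log M| + |log m|) := by
    rw [abs_le]
    constructor
    · linarith [neg_abs_le (log m), abs_nonneg (log M)]
    · linarith [le_abs_self (log M), abs_nonneg (log m)]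
  rw [Lev.T, abs_mul, abs_of_pos (inv_pos.2 hζ)]
  refine (mul_le_mul_of_nonneg_left h5 (inv_pos.2 hζ).le).trans ?_
  rw [mul_add, inv_mul_cancel_left₀ hζ.ne', add_mul]
  exact add_le_add_right (le_mul_of_one_le_right (by positivity) (one_le_size ω)) _

lemma Lin.X (hH : L.Lin H) (l : ℕ) : L.Lin (L.X l H) := by
  induction l using down_ind K with
  | h0 l hl => rwa [X_of_ge L hl]
  | h1 l hl ih =>
    rw [X_of_lt L hl]
    exact ih.T l
lemma Lin.int (hH : L.Lin H) : L.Int H :=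
  ⟨hH.1, fun l _ ω => (((hH.X (l + 1)).const_mul (L.ζ l)).exp).integrable_upd l ω⟩
lemma Nice.E (hH : L.Lin H) (hf : L.Nice f) (l : ℕ) : L.Nice (L.E l H f) := by
  induction l using down_ind K with
  | h0 l hl => rwa [E_of_ge L hl]
  | h1 l hl ih =>
    rw [funext (E_of_lt' hl H f)]
    exact ((hH.X l).const_mul _).exp.mul
      ((((hH.X (l + 1)).const_mul (L.ζ l)).exp.mul ih).integral_upd l)
lemma Nice.S (hH : L.Lin H) (hf : L.Nice f) (l : ℕ) : L.Nice (L.S l H f) :=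
  Nice.sum (Ico l K) fun e _ => ((Nice.E hH hf (e + 1)).sub (Nice.E hH hf e)).const_mul (L.ζ e)
lemma Nice.St (hH : L.Lin H) (hf : L.Nice f) (l : ℕ) : L.Nice (L.St l H f) :=
  hf.sub (Nice.sum (Ico l (K - 1)) fun e _ => (Nice.E hH hf (e + 1)).const_mul (L.Δ e))

lemma E_const (hH : L.Lin H) (l : ℕ) (c : ℝ) (ω : Cfg K Ω) : L.E l H (fun _ => c) ω = c := by
  induction l using down_ind K generalizing ω with
  | h0 l hl => rw [E_of_ge L hl]
  | h1 l hl ih =>
    have h0 := integral_exp_pos (hH.int.2 l hl ω)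
    rw [E_of_lt' hl]
    simp only [ih]
    rw [integral_mul_const, X_of_lt L hl, T, neg_mul, mul_inv_cancel_left₀ (L.pos l).ne', exp_neg,
      exp_log h0, inv_mul_cancel_left₀ h0.ne']
lemma E_const_mul (l : ℕ) (c : ℝ) (H f : Cfg K Ω → ℝ) (ω : Cfg K Ω) :
    L.E l H (fun ω => c * f ω) ω = c * L.E l H f ω := by
  induction l using down_ind K generalizing ω with
  | h0 l hl => rw [E_of_ge L hl, E_of_ge L hl]
  | h1 l hl ih =>
    rw [E_of_lt L hl, E_of_lt L hl, ← integral_const_mul]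
    simp only [ih, mul_left_comm]
lemma E_div_const (l : ℕ) (c : ℝ) (H f : Cfg K Ω → ℝ) (ω : Cfg K Ω) :
    L.E l H (fun ω => f ω / c) ω = L.E l H f ω / c := by
  simp only [div_eq_inv_mul, E_const_mul]
lemma E_neg (l : ℕ) (H f : Cfg K Ω → ℝ) (ω : Cfg K Ω) :
    L.E l H (fun ω => -f ω) ω = -L.E l H f ω := by
  simpa using E_const_mul (L := L) l (-1) H f ω
lemma E_add (hH : L.Lin H) (hf : L.Nice f) (hg : L.Nice g) (l : ℕ) (ω : Cfg K Ω) :
    L.E l H (fun ω => f ω + g ω) ω = L.E l H f ω + L.E l H g ω := by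
  induction l using down_ind K generalizing ω with
  | h0 l hl => rw [E_of_ge L hl, E_of_ge L hl, E_of_ge L hl]
  | h1 l hl ih =>
    have hw := ((hH.X (l + 1)).const_mul (L.ζ l)).exp
    rw [E_of_lt' hl, E_of_lt' hl, E_of_lt' hl, ← mul_add,
      ← integral_add ((hw.mul (Nice.E hH hf _)).integrable_upd l ω)
        ((hw.mul (Nice.E hH hg _)).integrable_upd l ω)]
    simp only [ih, mul_add]
lemma E_sub (hH : L.Lin H) (hf : L.Nice f) (hg : L.Nice g) (l : ℕ) (ω : Cfg K Ω) :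
    L.E l H (fun ω => f ω - g ω) ω = L.E l H f ω - L.E l H g ω := by
  simp only [sub_eq_add_neg]
  rw [E_add hH hf hg.neg, E_neg]
lemma E_sum {ι : Type} (hH : L.Lin H) (s : Finset ι) {F : ι → Cfg K Ω → ℝ}
    (h : ∀ i ∈ s, L.Nice (F i)) (l : ℕ) (ω : Cfg K Ω) :
    L.E l H (fun ω => ∑ i ∈ s, F i ω) ω = ∑ i ∈ s, L.E l H (F i) ω := by
  classical
  induction s using Finset.induction_on with
  | empty => simpa using E_const hH l 0 ω
  | insert a s ha ih =>
    have h' : ∀ i ∈ s, L.Nice (F i) := fun i hi => h i (mem_insert_of_mem hi)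
    simp only [Finset.sum_insert ha]
    rw [E_add hH (h a (mem_insert_self _ _)) (Nice.sum s h'), ih h']
lemma E_nonneg (h : ∀ ω, 0 ≤ f ω) (l : ℕ) (ω : Cfg K Ω) : 0 ≤ L.E l H f ω := by
  induction l using down_ind K generalizing ω with
  | h0 l hl => rw [E_of_ge L hl]; exact h ω
  | h1 l hl ih =>
    rw [E_of_lt L hl]
    exact integral_nonneg fun x => mul_nonneg (exp_pos _).le (ih _)
lemma E_mono (hH : L.Lin H) (hf : L.Nice f) (hg : L.Nice g) (h : ∀ ω, f ω ≤ g ω) (l : ℕ)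
    (ω : Cfg K Ω) : L.E l H f ω ≤ L.E l H g ω := by
  rw [← sub_nonneg, ← E_sub hH hg hf]
  exact E_nonneg (fun ω => sub_nonneg.2 (h ω)) l ω
lemma abs_E_le (hH : L.Lin H) (hf : L.Nice f) (hg : L.Nice g) (h : ∀ ω, |f ω| ≤ g ω) (l : ℕ)
    (ω : Cfg K Ω) : |L.E l H f ω| ≤ L.E l H g ω := by
  rw [abs_le, ← E_neg]
  exact ⟨E_mono hH hg.neg hf (fun ω => (abs_le.1 (h ω)).1) l ω,
    E_mono hH hf hg (fun ω => (abs_le.1 (h ω)).2) l ω⟩
lemma abs_E_le_const (hH : L.Lin H) (hf : Measurable f) {C : ℝ} (h : ∀ ω, |f ω| ≤ C) (l : ℕ)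
    (ω : Cfg K Ω) : |L.E l H f ω| ≤ C :=
  (abs_E_le hH (nice_of_bdd hf C h) (nice_const C) h l ω).trans_eq (E_const hH l C ω)
lemma X_congr_loc' {H' : Cfg K Ω → ℝ} (l : ℕ) (ω : Cfg K Ω)
    (hH : ∀ ω', (∀ i : Fin K, i.val < l → ω' i = ω i) → H ω' = H' ω') :
    L.X l H ω = L.X l H' ω := by
  induction l using down_ind K generalizing ω with
  | h0 l hl => rw [X_of_ge L hl, X_of_ge L hl]; exact hH ω fun _ _ => rfl
  | h1 l hl ih =>
    rw [X_of_lt L hl, X_of_lt L hl, T, T]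
    simp only [fun x => ih (upd ω l x) fun ω' h => hH ω' (agree_of_upd h)]
/-- `E l` at `ω` only sees the configurations that agree with `ω` below level `l`. -/
lemma E_congr_loc {H' f' : Cfg K Ω → ℝ} (l : ℕ) (ω : Cfg K Ω)
    (hH : ∀ ω', (∀ i : Fin K, i.val < l → ω' i = ω i) → H ω' = H' ω')
    (hf : ∀ ω', (∀ i : Fin K, i.val < l → ω' i = ω i) → f ω' = f' ω') :
    L.E l H f ω = L.E l H' f' ω := by
  induction l using down_ind K generalizing ω with
  | h0 l hl => rw [E_of_ge L hl, E_of_ge L hl]; exact hf ω fun _ _ => rfl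
  | h1 l hl ih =>
    rw [E_of_lt L hl, E_of_lt L hl, X_congr_loc' l ω hH]
    simp only [fun x => ih (upd ω l x) (fun ω' h => hH ω' (agree_of_upd h))
      (fun ω' h => hf ω' (agree_of_upd h)),
      fun x => X_congr_loc' (L := L) (l + 1) (upd ω l x) fun ω' h => hH ω' (agree_of_upd h)]
lemma X_congr_loc {H' : Cfg K Ω → ℝ} (l : ℕ) (ω : Cfg K Ω)
    (hH : ∀ ω', (∀ i : Fin K, i.val < l → ω' i = ω i) → H ω' = H' ω') :
    L.X l H ω = L.X l H' ω := X_congr_loc' l ω hH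
/-- Pull-out property. -/
lemma E_dep_mul {l : ℕ} (hf : Dep l f) (H g : Cfg K Ω → ℝ) (ω : Cfg K Ω) :
    L.E l H (fun ω => f ω * g ω) ω = f ω * L.E l H g ω := by
  rw [← E_const_mul]
  exact E_congr_loc l ω (fun _ _ => rfl) fun ω' h => by rw [hf ω' ω h]
lemma E_dep (hH : L.Lin H) {l : ℕ} (hf : Dep l f) (ω : Cfg K Ω) : L.E l H f ω = f ω :=
  (E_congr_loc l ω (fun _ _ => rfl) fun ω' h => hf ω' ω h).trans (E_const hH l (f ω) ω)
/-- Tower property. -/
lemma E_E (hH : L.Lin H) (hf : L.Nice f) {l l' : ℕ} (h : l ≤ l') (ω : Cfg K Ω) :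
    L.E l H (L.E l' H f) ω = L.E l H f ω := by
  have _ := hf
  induction l using down_ind K generalizing ω with
  | h0 l hl => rw [E_of_ge L (hl.trans h)]
  | h1 l hl ih =>
    rcases h.eq_or_lt with rfl | h'
    · exact E_dep hH (dep_E l H f) ω
    · rw [E_of_lt L hl, E_of_lt L hl]
      simp only [ih h']
lemma E_mul_E (hH : L.Lin H) (hf : L.Nice f) (hg : L.Nice g) {l l' : ℕ} (h : l ≤ l') (ω : Cfg K Ω) :
    L.E l H (fun ω => f ω * L.E l' H g ω) ω =
      L.E l H (fun ω => L.E l' H f ω * L.E l' H g ω) ω := by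
  rw [← E_E hH (hf.mul (Nice.E hH hg l')) h]
  congr 1
  funext ω'
  simp only [mul_comm (f _)]
  rw [E_dep_mul (dep_E l' H g), mul_comm]

lemma cs_aux (hH : L.Lin H) (hf : L.Nice f) (hg : L.Nice g) (hk : L.Nice k)
    (h : ∀ (t : ℝ) ω, 0 ≤ t * t * f ω + 2 * t * g ω + k ω) (l : ℕ) (ω : Cfg K Ω) :
    L.E l H g ω ^ 2 ≤ L.E l H f ω * L.E l H k ω := by
  have h1 := discrim_le_zero (a := L.E l H f ω) (b := 2 * L.E l H g ω) (c := L.E l H k ω) fun t => by
    have h2 := E_nonneg (L := L) (H := H) (h t) l ω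
    rw [E_add hH ((hf.const_mul _).add (hg.const_mul _)) hk, E_add hH (hf.const_mul _)
      (hg.const_mul _), E_const_mul, E_const_mul] at h2
    linarith
  rw [discrim] at h1
  linarith

/-- Cauchy-Schwarz. -/
lemma E_mul_sq_le (hH : L.Lin H) (hf : L.Nice f) (hg : L.Nice g) (l : ℕ) (ω : Cfg K Ω) :
    L.E l H (fun ω => f ω * g ω) ω ^ 2 ≤
      L.E l H (fun ω => f ω ^ 2) ω * L.E l H (fun ω => g ω ^ 2) ω :=
  cs_aux hH (hf.pow 2) (hf.mul hg) (hg.pow 2)
    (fun t ω => by linarith [sq_nonneg (t * f ω + g ω)]) l ω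
lemma sq_E_le (hH : L.Lin H) (hf : L.Nice f) (l : ℕ) (ω : Cfg K Ω) :
    L.E l H f ω ^ 2 ≤ L.E l H (fun ω => f ω ^ 2) ω := by
  have h := cs_aux hH (hf.pow 2) hf (nice_const 1)
    (fun t ω => by linarith [sq_nonneg (t * f ω + 1)]) l ω
  rwa [E_const hH, mul_one] at h
/-- Cauchy-Schwarz for vector observables. -/
lemma E_sum_mul_sq_le {ι : Type} (hH : L.Lin H) (s : Finset ι) {F G : ι → Cfg K Ω → ℝ}
    (hF : ∀ i ∈ s, L.Nice (F i)) (hG : ∀ i ∈ s, L.Nice (G i)) (l : ℕ) (ω : Cfg K Ω) :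
    L.E l H (fun ω => ∑ i ∈ s, F i ω * G i ω) ω ^ 2 ≤
      L.E l H (fun ω => ∑ i ∈ s, F i ω ^ 2) ω * L.E l H (fun ω => ∑ i ∈ s, G i ω ^ 2) ω := by
  refine cs_aux hH (Nice.sum s fun i hi => (hF i hi).pow 2)
    (Nice.sum s fun i hi => (hF i hi).mul (hG i hi)) (Nice.sum s fun i hi => (hG i hi).pow 2)
    (fun t ω => ?_) l ω
  rw [Finset.mul_sum, Finset.mul_sum, ← Finset.sum_add_distrib, ← Finset.sum_add_distrib]
  exact Finset.sum_nonneg fun i _ => by linarith [sq_nonneg (t * F i ω + G i ω)]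
lemma Var_nonneg (hH : L.Lin H) (hf : L.Nice f) : 0 ≤ L.Var H f :=
  sub_nonneg.2 (sq_E_le hH hf 0 L.pt)

lemma E_sub_mul_sub (hH : L.Lin H) (hf : L.Nice f) (hg : L.Nice g) (a b : ℝ) (l : ℕ)
    (ω : Cfg K Ω) : L.E l H (fun ω => (f ω - a) * (g ω - b)) ω =
      L.E l H (fun ω => f ω * g ω) ω - b * L.E l H f ω - a * L.E l H g ω + a * b := by
  have h1 : (fun ω => (f ω - a) * (g ω - b)) =
      fun ω => f ω * g ω - b * f ω - a * g ω + a * b := by
    funext ω; ring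
  rw [h1, E_add hH (((hf.mul hg).sub (hf.const_mul b)).sub (hg.const_mul a)) (nice_const _),
    E_sub hH ((hf.mul hg).sub (hf.const_mul b)) (hg.const_mul a),
    E_sub hH (hf.mul hg) (hf.const_mul b), E_const_mul, E_const_mul, E_const hH]

lemma E0_sub_sq (hH : L.Lin H) (hf : L.Nice f) (c : ℝ) :
    L.E0 H (fun ω => (f ω - c) ^ 2) = L.Var H f + (L.E0 H f - c) ^ 2 := by
  simp only [Var, E0, sq]
  rw [E_sub_mul_sub hH hf hf]
  ring
lemma cov_sq_le (hH : L.Lin H) (hf : L.Nice f) (hg : L.Nice g) :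
    (L.E0 H (fun ω => f ω * g ω) - L.E0 H f * L.E0 H g) ^ 2 ≤ L.Var H f * L.Var H g := by
  have h1 := E_mul_sq_le hH (hf.sub (nice_const (L.E0 H f))) (hg.sub (nice_const (L.E0 H g))) 0 L.pt
  have h2 := E0_sub_sq hH hf (L.E0 H f)
  have h3 := E0_sub_sq hH hg (L.E0 H g)
  rw [sub_self, zero_pow two_ne_zero, add_zero] at h2 h3
  rw [← h2, ← h3]
  rw [E_sub_mul_sub hH hf hg] at h1
  refine le_of_eq_of_le ?_ h1
  simp only [E0]
  ring

/-! The scores. -/

lemma abel_aux (a b : ℕ → ℝ) {l m : ℕ} (h : l ≤ m) :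
    ∑ e ∈ Ico l (m + 1), a e * (b (e + 1) - b e) =
      a m * b (m + 1) - ∑ e ∈ Ico l m, (a (e + 1) - a e) * b (e + 1) - a l * b l := by
  induction m, h using Nat.le_induction with
  | base => simp [mul_sub]
  | succ m h ih =>
    rw [Finset.sum_Ico_succ_top (by omega), ih, Finset.sum_Ico_succ_top h]
    ring

lemma S_eq_St (hH : L.Lin H) {l : ℕ} (hl : l < K) (k : Cfg K Ω → ℝ) (ω : Cfg K Ω) :
    L.S l H k ω = L.St l H k ω - L.ζ l * L.E l H k ω := by
  have _ := hH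
  have h1 := abel_aux L.ζ (fun e => L.E e H k ω) (show l ≤ K - 1 by omega)
  rw [show K - 1 + 1 = K by omega, L.top (K - 1) (by omega), one_mul] at h1
  simp only [E_of_ge L le_rfl] at h1
  exact h1
lemma E_S (hH : L.Lin H) (hk : L.Nice k) (l : ℕ) (ω : Cfg K Ω) : L.E l H (L.S l H k) ω = 0 := by
  have h1 := E_sum hH (Ico l K) (F := fun e ω => L.ζ e * (L.E (e + 1) H k ω - L.E e H k ω))
    (fun e _ => ((Nice.E hH hk (e + 1)).sub (Nice.E hH hk e)).const_mul (L.ζ e)) l ω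
  refine h1.trans (Finset.sum_eq_zero fun e he => ?_)
  have h2 := (Finset.mem_Ico.1 he).1
  rw [E_const_mul, E_sub hH (Nice.E hH hk _) (Nice.E hH hk _), E_E hH hk h2,
    E_E hH hk (h2.trans (Nat.le_succ e)), sub_self, mul_zero]

lemma E_d_mul_d (hH : L.Lin H) (hf : L.Nice f) (hk : L.Nice k) {l e : ℕ} (h : l ≤ e)
    (ω : Cfg K Ω) :
    L.E l H (fun ω => (L.E (e + 1) H f ω - L.E e H f ω) * (L.E (e + 1) H k ω - L.E e H k ω)) ω =
      L.E l H (fun ω => L.E (e + 1) H f ω * L.E (e + 1) H k ω) ω -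
        L.E l H (fun ω => L.E e H f ω * L.E e H k ω) ω := by
  have f1 := Nice.E hH hf (e + 1)
  have f0 := Nice.E hH hf e
  have k1 := Nice.E hH hk (e + 1)
  have k0 := Nice.E hH hk e
  have h1 : (fun ω => (L.E (e + 1) H f ω - L.E e H f ω) * (L.E (e + 1) H k ω - L.E e H k ω)) =
      fun ω => L.E (e + 1) H f ω * L.E (e + 1) H k ω - L.E (e + 1) H f ω * L.E e H k ω -
        L.E (e + 1) H k ω * L.E e H f ω + L.E e H f ω * L.E e H k ω := by
    funext ω; ring
  rw [h1, E_add hH (((f1.mul k1).sub (f1.mul k0)).sub (k1.mul f0)) (f0.mul k0),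
    E_sub hH ((f1.mul k1).sub (f1.mul k0)) (k1.mul f0), E_sub hH (f1.mul k1) (f1.mul k0),
    E_mul_E hH f1 hk h, E_mul_E hH k1 hf h]
  simp only [E_E hH hf (Nat.le_succ e), E_E hH hk (Nat.le_succ e), mul_comm (L.E e H k _)]
  ring

/-- `E_l [f S_l k] = ∑ ζ_e E_l[(E_{e+1} f - E_e f)(E_{e+1} k - E_e k)]`. -/
lemma E_mul_S (hH : L.Lin H) (hf : L.Nice f) (hk : L.Nice k) (l : ℕ) (ω : Cfg K Ω) :
    L.E l H (fun ω => f ω * L.S l H k ω) ω = ∑ e ∈ Ico l K, L.ζ e *
      L.E l H (fun ω => (L.E (e + 1) H f ω - L.E e H f ω) * (L.E (e + 1) H k ω - L.E e H k ω)) ω := by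
  have h1 : (fun ω => f ω * L.S l H k ω) = fun ω => ∑ e ∈ Ico l K,
      L.ζ e * (f ω * L.E (e + 1) H k ω - f ω * L.E e H k ω) := by
    funext ω
    rw [S, Finset.mul_sum]
    exact Finset.sum_congr rfl fun e _ => by ring
  rw [h1, E_sum hH _ fun e _ =>
    ((hf.mul (Nice.E hH hk (e + 1))).sub (hf.mul (Nice.E hH hk e))).const_mul (L.ζ e)]
  refine Finset.sum_congr rfl fun e he => ?_
  have h2 := (Finset.mem_Ico.1 he).1
  rw [E_const_mul, E_sub hH (hf.mul (Nice.E hH hk _)) (hf.mul (Nice.E hH hk _)),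
    E_mul_E hH hf hk h2, E_mul_E hH hf hk (h2.trans (Nat.le_succ e)), E_d_mul_d hH hf hk h2]
lemma E_mul_S_ge (hH : L.Lin H) (hk : L.Nice k) (l : ℕ) (ω : Cfg K Ω) :
    L.ζ l * (L.E l H (fun ω => k ω ^ 2) ω - L.E l H k ω ^ 2) ≤
      L.E l H (fun ω => k ω * L.S l H k ω) ω := by
  rw [E_mul_S hH hk hk]
  rcases le_or_gt K l with hl | hl
  · simp [E_of_ge L hl, Finset.Ico_eq_empty_of_le hl]
  · have h1 := Finset.sum_Ico_sub (fun e => L.E l H (fun ω => L.E e H k ω * L.E e H k ω) ω) hl.le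
    have h2 : Dep l fun ω => L.E l H k ω * L.E l H k ω := fun ω ω' h => by
      simp only [dep_E (L := L) l H k ω ω' h]
    simp only [E_of_ge L le_rfl] at h1
    rw [E_dep hH h2] at h1
    simp only [sq]
    rw [← h1, Finset.mul_sum]
    refine Finset.sum_le_sum fun e he => ?_
    have h3 := (Finset.mem_Ico.1 he).1
    rw [← E_d_mul_d hH hk hk h3]
    exact mul_le_mul_of_nonneg_right (L.mono h3) (E_nonneg (fun _ => mul_self_nonneg _) l ω)

lemma E_add_sq_dep (hH : L.Lin H) (hf : L.Nice f) (hg : L.Nice g) {l : ℕ} (hd : Dep l f)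
    (ω : Cfg K Ω) : L.E l H (fun ω => (f ω + g ω) ^ 2) ω =
      f ω ^ 2 + 2 * f ω * L.E l H g ω + L.E l H (fun ω => g ω ^ 2) ω := by
  have h1 : (fun ω => (f ω + g ω) ^ 2) = fun ω => f ω ^ 2 + 2 * (f ω * g ω) + g ω ^ 2 := by
    funext ω; ring
  have h2 : Dep l fun ω => f ω ^ 2 := fun ω ω' h => by simp only [hd ω ω' h]
  rw [h1, E_add hH ((hf.pow 2).add ((hf.mul hg).const_mul 2)) (hg.pow 2),
    E_add hH (hf.pow 2) ((hf.mul hg).const_mul 2), E_const_mul, E_dep_mul hd, E_dep hH h2]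
  ring

lemma E_S_sq_le' (hH : L.Lin H) (hk : L.Nice k) (l : ℕ) (ω : Cfg K Ω) :
    L.E l H (fun ω => L.S l H k ω ^ 2) ω ≤ L.E l H (fun ω => k ω ^ 2) ω - L.E l H k ω ^ 2 := by
  induction l using down_ind K generalizing ω with
  | h0 l hl => simp [E_of_ge L hl, S, Finset.Ico_eq_empty_of_le hl]
  | h1 l hl ih =>
    have k1 := Nice.E hH hk (l + 1)
    have k0 := Nice.E hH hk l
    have h1 : (fun ω => L.S l H k ω ^ 2) = fun ω =>
        (L.ζ l * (L.E (l + 1) H k ω - L.E l H k ω) + L.S (l + 1) H k ω) ^ 2 := by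
      funext ω
      rw [S, Finset.sum_eq_sum_Ico_succ_bot hl, S]
    have h2 : Dep (l + 1) fun ω => L.ζ l * (L.E (l + 1) H k ω - L.E l H k ω) := fun ω ω' h => by
      simp only [dep_E (L := L) (l + 1) H k ω ω' h,
        (dep_E (L := L) l H k).mono (Nat.le_succ l) ω ω' h]
    have h3 : Dep l fun ω => L.E l H k ω * L.E l H k ω := fun ω ω' h => by
      simp only [dep_E (L := L) l H k ω ω' h]
    have hS := (Nice.S hH hk l).pow 2
    have hd := (k1.sub k0).mul (k1.sub k0)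
    have hq := Nice.E hH (hk.pow 2) (l + 1)
    rw [← E_E hH hS (Nat.le_succ l)]
    refine (E_mono hH (Nice.E hH hS _) (hd.add (hq.sub (k1.mul k1))) (fun ω' => ?_) l ω).trans_eq ?_
    · rw [h1, E_add_sq_dep hH ((k1.sub k0).const_mul _) (Nice.S hH hk _) h2, E_S hH hk, mul_zero,
        add_zero, ← sq, ← sq, mul_pow]
      refine add_le_add (mul_le_of_le_one_left (sq_nonneg _) ?_) (ih ω')
      exact pow_le_one₀ (L.pos l).le (L.le_one l)
    · rw [E_add hH hd (hq.sub (k1.mul k1)), E_sub hH hq (k1.mul k1), E_d_mul_d hH hk hk le_rfl,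
        E_E hH (hk.pow 2) (Nat.le_succ l), E_dep hH h3]
      ring

lemma E_S_sq_le (hH : L.Lin H) (hk : L.Nice k) {l l' : ℕ} (h : l ≤ l') (ω : Cfg K Ω) :
    L.E l H (fun ω => L.S l' H k ω ^ 2) ω ≤ L.E l H (fun ω => k ω ^ 2) ω := by
  have hS := (Nice.S hH hk l').pow 2
  rw [← E_E hH hS h, ← E_E hH (hk.pow 2) h]
  exact E_mono hH (Nice.E hH hS _) (Nice.E hH (hk.pow 2) _)
    (fun ω' => (E_S_sq_le' hH hk l' ω').trans (sub_le_self _ (sq_nonneg _))) l ω
lemma E_St_sq_le (hH : L.Lin H) (hk : L.Nice k) {l l' : ℕ} (h : l ≤ l') (ω : Cfg K Ω) :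
    L.E l H (fun ω => L.St l' H k ω ^ 2) ω ≤ L.E l H (fun ω => k ω ^ 2) ω := by
  rcases le_or_gt K l' with hl | hl
  · simp [St, Finset.Ico_eq_empty_of_le (show K - 1 ≤ l' by omega)]
  have hS := (Nice.St hH hk l').pow 2
  rw [← E_E hH hS h, ← E_E hH (hk.pow 2) h]
  refine E_mono hH (Nice.E hH hS _) (Nice.E hH (hk.pow 2) _) (fun ω' => ?_) l ω
  have h1 : (fun ω => L.St l' H k ω ^ 2) = fun ω => (L.ζ l' * L.E l' H k ω + L.S l' H k ω) ^ 2 := by
    funext ω
    rw [S_eq_St hH hl]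
    ring
  have h2 : Dep l' fun ω => L.ζ l' * L.E l' H k ω := fun ω ω' h => by
    simp only [dep_E (L := L) l' H k ω ω' h]
  have h3 : (L.ζ l' * L.E l' H k ω') ^ 2 ≤ L.E l' H k ω' ^ 2 := by
    rw [mul_pow]
    exact mul_le_of_le_one_left (sq_nonneg _) (pow_le_one₀ (L.pos l').le (L.le_one l'))
  rw [h1, E_add_sq_dep hH ((Nice.E hH hk _).const_mul _) (Nice.S hH hk _) h2, E_S hH hk]
  linarith [E_S_sq_le' hH hk l' ω']
lemma E0_mul_St (hH : L.Lin H) (hf : L.Nice f) (hk : L.Nice k) (l : ℕ) :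
    L.E0 H (fun ω => f ω * L.St l H k ω) = L.E0 H (fun ω => f ω * k ω) -
      ∑ e ∈ Ico l (K - 1), L.Δ e * L.E0 H (fun ω => L.E (e + 1) H f ω * L.E (e + 1) H k ω) := by
  have h1 : (fun ω => f ω * L.St l H k ω) = fun ω => f ω * k ω - ∑ e ∈ Ico l (K - 1),
      L.Δ e * (f ω * L.E (e + 1) H k ω) := by
    funext ω
    rw [St, mul_sub, Finset.mul_sum]
    simp only [mul_left_comm]
  have h2 : ∀ e ∈ Ico l (K - 1), L.Nice fun ω => L.Δ e * (f ω * L.E (e + 1) H k ω) := fun e _ =>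
    (hf.mul (Nice.E hH hk (e + 1))).const_mul _
  simp only [E0]
  rw [h1, E_sub hH (hf.mul hk) (Nice.sum _ h2), E_sum hH _ h2]
  congr 1
  refine Finset.sum_congr rfl fun e _ => ?_
  rw [E_const_mul, E_mul_E hH hf hk (Nat.zero_le _)]
lemma sum_Δ (ex : Expo K) {l m : ℕ} (h : l ≤ m) : ∑ e ∈ Ico l m, ex.Δ e = ex.ζ m - ex.ζ l :=
  Finset.sum_Ico_sub ex.ζ h

end Lev

end Crest.Agent.R164
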