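import Crest.Agent.R164.NestDerAux

/-! # Row 164: differentiation of nested power means and tilted expectations -/

set_option autoImplicit false

namespace Crest.Agent.R164

open MeasureTheory ProbabilityTheory Real Finset

namespace Lev

variable {K : ℕ} {Ω : Type} [MeasurableSpace Ω] {L : Lev K Ω} {s : Set ℝ}
  {H H' F F' G G' : ℝ → Cfg K Ω → ℝ}

lemma DFam.nice (h : L.DFam s F F') {θ : ℝ} (hθ : θ ∈ s) : L.Nice (F θ) := h.ub.nice hθ (h.meas θ hθ)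
lemma DFam.nice' (h : L.DFam s F F') {θ : ℝ} (hθ : θ ∈ s) : L.Nice (F' θ) := h.ub'.nice hθ (h.meas' θ hθ)
lemma LFam.lin' (h : L.LFam s F F') {θ : ℝ} (hθ : θ ∈ s) : L.Lin (F θ) :=
  ⟨h.meas θ hθ, h.lin.imp fun _ hC => hC θ hθ⟩
lemma DFam.mono {t : Set ℝ} (h : L.DFam s F F') (ht : t ⊆ s) : L.DFam t F F' :=
  ⟨fun θ hθ => h.meas θ (ht hθ), fun θ hθ => h.meas' θ (ht hθ), fun ω θ hθ => h.deriv ω θ (ht hθ),
    h.bound.imp fun _ hC θ hθ => hC θ (ht hθ)⟩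
lemma LFam.mono {t : Set ℝ} (h : L.LFam s F F') (ht : t ⊆ s) : L.LFam t F F' :=
  ⟨h.toDFam.mono ht, h.lin.imp fun _ hC θ hθ => hC θ (ht hθ)⟩
lemma DFam.congr (hs : IsOpen s) (h : L.DFam s F F') (h₁ : ∀ θ ∈ s, G θ = F θ)
    (h₂ : ∀ θ ∈ s, G' θ = F' θ) : L.DFam s G G' := by
  refine ⟨fun θ hθ => h₁ θ hθ ▸ h.meas θ hθ, fun θ hθ => h₂ θ hθ ▸ h.meas' θ hθ,
    fun ω θ hθ => ?_, h.bound.imp fun _ hC θ hθ => by rw [h₁ θ hθ, h₂ θ hθ]; exact hC θ hθ⟩
  rw [h₂ θ hθ]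
  refine (h.deriv ω θ hθ).congr_of_eventuallyEq ?_
  filter_upwards [hs.mem_nhds hθ] with t ht
  rw [h₁ t ht]
lemma dfam_const {f : Cfg K Ω → ℝ} (hf : L.Nice f) : L.DFam s (fun _ => f) (fun _ _ => 0) :=
  DFam.of (fun _ _ => hf.1) (fun _ _ => measurable_const) (fun _ _ _ => hasDerivAt_const _ _) hf.ub
    (nice_const 0).ub
lemma DFam.add (hF : L.DFam s F F') (hG : L.DFam s G G') :
    L.DFam s (fun θ ω => F θ ω + G θ ω) (fun θ ω => F' θ ω + G' θ ω) :=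
  DFam.of (fun θ hθ => (hF.meas θ hθ).add (hG.meas θ hθ))
    (fun θ hθ => (hF.meas' θ hθ).add (hG.meas' θ hθ))
    (fun ω θ hθ => (hF.deriv ω θ hθ).add (hG.deriv ω θ hθ)) (hF.ub.add hG.ub) (hF.ub'.add hG.ub')
lemma DFam.mul (hF : L.DFam s F F') (hG : L.DFam s G G') :
    L.DFam s (fun θ ω => F θ ω * G θ ω) (fun θ ω => F' θ ω * G θ ω + F θ ω * G' θ ω) :=
  DFam.of (fun θ hθ => (hF.meas θ hθ).mul (hG.meas θ hθ))
    (fun θ hθ => ((hF.meas' θ hθ).mul (hG.meas θ hθ)).add ((hF.meas θ hθ).mul (hG.meas' θ hθ)))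
    (fun ω θ hθ => (hF.deriv ω θ hθ).mul (hG.deriv ω θ hθ)) (hF.ub.mul hG.ub)
    ((hF.ub'.mul hG.ub).add (hF.ub.mul hG.ub'))
lemma DFam.sum {ι : Type} (t : Finset ι) {F F' : ι → ℝ → Cfg K Ω → ℝ}
    (h : ∀ i ∈ t, L.DFam s (F i) (F' i)) :
    L.DFam s (fun θ ω => ∑ i ∈ t, F i θ ω) (fun θ ω => ∑ i ∈ t, F' i θ ω) := by
  classical
  induction t using Finset.induction_on with
  | empty => simpa using dfam_const (nice_const 0)
  | insert i t hi ih =>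
    simp only [sum_insert hi]
    exact (h i (mem_insert_self _ _)).add (ih fun j hj => h j (mem_insert_of_mem hj))
/-- The affine family `H + θ k` on a bounded parameter set. -/
lemma lfam_affine {H k : Cfg K Ω → ℝ} (hH : L.Lin H) (hk : L.Lin k) {R : ℝ} (hs : ∀ θ ∈ s, |θ| ≤ R) :
    L.LFam s (fun θ ω => H ω + θ * k ω) (fun _ => k) := by
  have h1 : L.UL s fun θ ω => H ω + θ * k ω :=
    hH.ul.add (hk.ul.bdd_mul (G := fun θ _ => θ) fun θ hθ _ => hs θ hθ)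
  refine LFam.of (DFam.of (fun θ _ => hH.1.add (hk.1.const_mul θ)) (fun _ _ => hk.1)
    (fun ω θ _ => ?_) h1.ub hk.nice.ub) h1
  simpa using ((hasDerivAt_id θ).mul_const (k ω)).const_add (H ω)
/-- The family `H + ∑ a_j(θ) k_j`. -/
lemma lfam_comb {ι : Type} (t : Finset ι) {H : Cfg K Ω → ℝ} {k : ι → Cfg K Ω → ℝ} (hH : L.Lin H)
    (hk : ∀ j ∈ t, L.Lin (k j)) {a a' : ι → ℝ → ℝ} (ha : ∀ j ∈ t, ∀ θ ∈ s, HasDerivAt (a j) (a' j θ) θ)
    {R : ℝ} (hR : ∀ j ∈ t, ∀ θ ∈ s, |a j θ| ≤ R ∧ |a' j θ| ≤ R) :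
    L.LFam s (fun θ ω => H ω + ∑ j ∈ t, a j θ * k j ω) (fun θ ω => ∑ j ∈ t, a' j θ * k j ω) := by
  have h1 : L.UL s fun θ ω => H ω + ∑ j ∈ t, a j θ * k j ω :=
    hH.ul.add (UL.sum t fun j hj =>
      (hk j hj).ul.bdd_mul (G := fun θ _ => a j θ) fun θ hθ _ => (hR j hj θ hθ).1)
  have h2 : L.UL s fun θ ω => ∑ j ∈ t, a' j θ * k j ω := UL.sum t fun j hj =>
      (hk j hj).ul.bdd_mul (G := fun θ _ => a' j θ) fun θ hθ _ => (hR j hj θ hθ).2
  exact LFam.of (DFam.of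
    (fun θ _ => hH.1.add (Finset.measurable_sum t fun j hj => (hk j hj).1.const_mul _))
    (fun θ _ => Finset.measurable_sum t fun j hj => (hk j hj).1.const_mul _)
    (fun ω θ hθ => (HasDerivAt.fun_sum fun j hj => (ha j hj θ hθ).mul_const (k j ω)).const_add _)
    h1.ub h2.ub) h1

/-- Derivative of the nested power mean. -/
theorem LFam.X (hs : IsOpen s) (hH : L.LFam s H H') (l : ℕ) :
    L.LFam s (fun θ => L.X l (H θ)) (fun θ => L.E l (H θ) (H' θ)) := by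
  induction l using down_ind (K := K) with
  | h0 l hl => simpa only [X_of_ge _ hl, E_of_ge _ hl] using hH
  | h1 l hl ih =>
    have e : ∀ θ, L.E l (H θ) (H' θ) = _ := fun θ => funext (L.E_of_lt hl (H θ) (H' θ))
    simp only [e, X_of_lt _ hl]
    exact ih.T hs l

/-- Linear response. -/
theorem DFam.E (hs : IsOpen s) (hH : L.LFam s H H') (hF : L.DFam s F F') (l : ℕ) :
    L.DFam s (fun θ => L.E l (H θ) (F θ))
      (fun θ => L.E l (H θ) (fun ω => F' θ ω + F θ ω * L.S l (H θ) (H' θ) ω)) := by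
  induction l using down_ind (K := K) with
  | h0 l hl =>
    simpa only [E_of_ge _ hl, Lev.S, Ico_eq_empty_of_le hl, sum_empty, mul_zero, add_zero] using hF
  | h1 l hl ih =>
    have h1 := ((hH.X hs l).exp_mul (-L.ζ l)).mul
      ((((hH.X hs (l + 1)).exp_mul (L.ζ l)).mul ih).int hs l)
    refine h1.congr hs (fun θ _ => funext fun ω => ?_) fun θ hθ => funext fun ω => ?_
    · rw [L.E_of_lt hl, weight_split _ _ _ _ _ _ rfl]
    · have hl' := hH.lin' hθ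
      have hk := hH.toDFam.nice' hθ
      have hf := hF.nice hθ
      have hf' := hF.nice' hθ
      have e1 : ∀ ω', L.E (l + 1) (H θ) (fun ω => F' θ ω + F θ ω * L.S l (H θ) (H' θ) ω) ω' =
          L.E (l + 1) (H θ) (fun ω => F' θ ω + F θ ω * L.S (l + 1) (H θ) (H' θ) ω) ω' +
            L.ζ l * (L.E (l + 1) (H θ) (H' θ) ω' - L.E l (H θ) (H' θ) ω') *
              L.E (l + 1) (H θ) (F θ) ω' := by
        intro ω'
        have hd : Dep (l + 1) fun ω =>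
            L.ζ l * (L.E (l + 1) (H θ) (H' θ) ω - L.E l (H θ) (H' θ) ω) := fun a b hab => by
          simp only [dep_E (l + 1) _ _ a b hab, (dep_E l _ _).mono (Nat.le_succ l) a b hab]
        rw [← E_dep_mul hd, ← E_add hl' (hf'.add (hf.mul (hk.S hl' _)))
          ((((hk.E hl' _).sub (hk.E hl' _)).const_mul _).mul hf)]
        congr 1
        ext ω
        simp only [Lev.S, sum_eq_sum_Ico_succ_bot hl]
        ring
      have i1 := ((((hH.X hs (l + 1)).exp_mul (L.ζ l)).mul ih).nice hθ).integrable_upd l ω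
      have i2 := ((((hH.X hs (l + 1)).exp_mul (L.ζ l)).mul ih).nice' hθ).integrable_upd l ω
      rw [L.E_of_lt hl, weight_split _ _ _ _ _ _ rfl, mul_assoc, ← mul_add,
        ← integral_const_mul (-L.ζ l * L.E l (H θ) (H' θ) ω), ← integral_add (i1.const_mul _) i2]
      congr 2
      ext x
      rw [e1, (dep_E l _ _).upd le_rfl]
      ring

lemma LFam.hasDerivAt_X0 (hs : IsOpen s) (hH : L.LFam s H H') {θ : ℝ} (hθ : θ ∈ s) :
    HasDerivAt (fun t => L.X0 (H t)) (L.E0 (H θ) (H' θ)) θ := (hH.X hs 0).deriv _ θ hθ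

lemma DFam.hasDerivAt_E0 (hs : IsOpen s) (hH : L.LFam s H H') (hF : L.DFam s F F') {θ : ℝ}
    (hθ : θ ∈ s) : HasDerivAt (fun t => L.E0 (H t) (F t))
      (L.E0 (H θ) (fun ω => F' θ ω + F θ ω * L.S 0 (H θ) (H' θ) ω)) θ :=
  (DFam.E hs hH hF 0).deriv _ θ hθ

section flow

variable {Φ : ℝ → Cfg K Ω → Cfg K Ω} {H k f f' g g' : Cfg K Ω → ℝ}

lemma HasDL.hasD (h : L.HasDL Φ f f') : L.HasD Φ f f' :=
  let ⟨s, F', h1, h2, h3, h4⟩ := h
  ⟨s, F', h1, h2, h3.toDFam, h4⟩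
lemma HasD.nice (h0 : ∀ ω, Φ 0 ω = ω) (h : L.HasD Φ f f') : L.Nice f := by
  obtain ⟨s, F', -, h2, h3, -⟩ := h
  simpa only [h0] using h3.nice h2
lemma HasD.nice' (h : L.HasD Φ f f') : L.Nice f' := by
  obtain ⟨s, F', -, h2, h3, rfl⟩ := h
  exact h3.nice' h2
lemma HasDL.lin (h0 : ∀ ω, Φ 0 ω = ω) (h : L.HasDL Φ f f') : L.Lin f := by
  obtain ⟨s, F', -, h2, h3, -⟩ := h
  simpa only [h0] using h3.lin' h2
lemma hasD_of_invariant (hf : L.Nice f) (h : ∀ θ ω, f (Φ θ ω) = f ω) : L.HasD Φ f (fun _ => 0) :=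
  ⟨Set.univ, fun _ _ => 0, isOpen_univ, trivial, by simpa only [h] using dfam_const hf, rfl⟩
lemma hasDL_of_invariant (hf : L.Lin f) (h : ∀ θ ω, f (Φ θ ω) = f ω) : L.HasDL Φ f (fun _ => 0) :=
  ⟨Set.univ, fun _ _ => 0, isOpen_univ, trivial, by
    simpa only [h] using LFam.of (dfam_const hf.nice) hf.ul, rfl⟩
lemma HasD.congr' (h : L.HasD Φ f f') (e : ∀ ω, f' ω = g' ω) : L.HasD Φ f g' :=
  (funext e : f' = g') ▸ h
lemma HasDL.congr' (h : L.HasDL Φ f f') (e : ∀ ω, f' ω = g' ω) : L.HasDL Φ f g' :=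
  (funext e : f' = g') ▸ h
lemma HasD.add (hf : L.HasD Φ f f') (hg : L.HasD Φ g g') :
    L.HasD Φ (fun ω => f ω + g ω) (fun ω => f' ω + g' ω) := by
  obtain ⟨s, F', h1, h2, h3, rfl⟩ := hf
  obtain ⟨t, G', k1, k2, k3, rfl⟩ := hg
  exact ⟨s ∩ t, _, h1.inter k1, ⟨h2, k2⟩,
    (h3.mono Set.inter_subset_left).add (k3.mono Set.inter_subset_right), rfl⟩
lemma HasDL.add (hf : L.HasDL Φ f f') (hg : L.HasDL Φ g g') :
    L.HasDL Φ (fun ω => f ω + g ω) (fun ω => f' ω + g' ω) := by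
  obtain ⟨s, F', h1, h2, h3, rfl⟩ := hf
  obtain ⟨t, G', k1, k2, k3, rfl⟩ := hg
  have h4 := h3.mono (Set.inter_subset_left (t := t))
  have k4 := k3.mono (Set.inter_subset_right (s := s))
  exact ⟨s ∩ t, _, h1.inter k1, ⟨h2, k2⟩, LFam.of (h4.toDFam.add k4.toDFam) (h4.ul.add k4.ul), rfl⟩
lemma HasD.const_mul (c : ℝ) (hf : L.HasD Φ f f') :
    L.HasD Φ (fun ω => c * f ω) (fun ω => c * f' ω) := by
  obtain ⟨s, F', h1, h2, h3, rfl⟩ := hf
  exact ⟨s, _, h1, h2, (dfam_const (nice_const c)).mul h3, by simp⟩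
lemma HasDL.const_mul (c : ℝ) (hf : L.HasDL Φ f f') :
    L.HasDL Φ (fun ω => c * f ω) (fun ω => c * f' ω) := by
  obtain ⟨s, F', h1, h2, h3, rfl⟩ := hf
  exact ⟨s, _, h1, h2, LFam.of ((dfam_const (nice_const c)).mul h3.toDFam)
    (h3.ul.bdd_mul (G := fun _ _ => c) fun _ _ _ => le_rfl), by simp⟩
lemma HasD.mul (h0 : ∀ ω, Φ 0 ω = ω) (hf : L.HasD Φ f f') (hg : L.HasD Φ g g') :
    L.HasD Φ (fun ω => f ω * g ω) (fun ω => f' ω * g ω + f ω * g' ω) := by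
  obtain ⟨s, F', h1, h2, h3, rfl⟩ := hf
  obtain ⟨t, G', k1, k2, k3, rfl⟩ := hg
  exact ⟨s ∩ t, _, h1.inter k1, ⟨h2, k2⟩,
    (h3.mono Set.inter_subset_left).mul (k3.mono Set.inter_subset_right), by simp only [h0]⟩
/-- Product of a Hamiltonian with a bounded invariant factor. -/
lemma HasDL.mul_invariant (hf : L.HasDL Φ f f') (hg : Measurable g) {C : ℝ} (hC : ∀ ω, |g ω| ≤ C)
    (h : ∀ θ ω, g (Φ θ ω) = g ω) : L.HasDL Φ (fun ω => f ω * g ω) (fun ω => f' ω * g ω) := by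
  obtain ⟨s, F', h1, h2, h3, rfl⟩ := hf
  refine ⟨s, fun θ ω => F' θ ω * g ω + f (Φ θ ω) * 0, h1, h2, ?_, by simp⟩
  simp only [h]
  exact LFam.of (h3.toDFam.mul (dfam_const (nice_of_bdd hg C hC)))
    (h3.ul.mul_bdd (G := fun _ => g) fun _ _ => hC)
lemma HasD.sum {ι : Type} (t : Finset ι) {f f' : ι → Cfg K Ω → ℝ} (h : ∀ i ∈ t, L.HasD Φ (f i) (f' i)) :
    L.HasD Φ (fun ω => ∑ i ∈ t, f i ω) (fun ω => ∑ i ∈ t, f' i ω) := by
  classical
  induction t using Finset.induction_on with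
  | empty => simpa using hasD_of_invariant (nice_const 0) fun _ _ => rfl
  | insert i t hi ih =>
    simp only [sum_insert hi]
    exact (h i (mem_insert_self _ _)).add (ih fun j hj => h j (mem_insert_of_mem hj))
lemma HasDL.sum {ι : Type} (t : Finset ι) {f f' : ι → Cfg K Ω → ℝ}
    (h : ∀ i ∈ t, L.HasDL Φ (f i) (f' i)) :
    L.HasDL Φ (fun ω => ∑ i ∈ t, f i ω) (fun ω => ∑ i ∈ t, f' i ω) := by
  classical
  induction t using Finset.induction_on with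
  | empty => simpa using hasDL_of_invariant (lin_const 0) fun _ _ => rfl
  | insert i t hi ih =>
    simp only [sum_insert hi]
    exact (h i (mem_insert_self _ _)).add (ih fun j hj => h j (mem_insert_of_mem hj))

variable {φ : ℝ → ℕ → Ω → Ω}

/-- Derivative of a conditional expectation along a levelwise flow that preserves the levels `≥ l`. -/
lemma HasD.E {l : ℕ} (h0 : ∀ e x, φ 0 e x = x)
    (hφ : ∀ θ e, l ≤ e → e < K → MeasurePreserving (φ θ e) (L.μ e) (L.μ e))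
    (hH : L.HasDL (fun θ => cmap (φ θ)) H k) (hf : L.HasD (fun θ => cmap (φ θ)) f f') :
    L.HasD (fun θ => cmap (φ θ)) (L.E l H f) (L.E l H (fun ω => f' ω + f ω * L.S l H k ω)) := by
  have e0 : ∀ ω : Cfg K Ω, cmap (φ 0) ω = ω := fun ω => funext fun i => h0 _ _
  have mH := (hH.lin e0).1
  have mf := (hf.nice e0).1
  obtain ⟨s, F', h1, h2, h3, rfl⟩ := hH
  obtain ⟨t, G', k1, k2, k3, rfl⟩ := hf
  refine ⟨s ∩ t, _, h1.inter k1, ⟨h2, k2⟩, (DFam.E (h1.inter k1) (h3.mono Set.inter_subset_left)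
    (k3.mono Set.inter_subset_right) l).congr (h1.inter k1) (fun θ _ => funext fun ω => ?_)
    fun _ _ => rfl, by simp only [e0]⟩
  exact (E_cmap rfl (hφ θ) mH mf ω).symm

/-- Ward identity for a flow preserving all levels. -/
theorem flow_identity (h0 : ∀ e x, φ 0 e x = x)
    (hφ : ∀ θ, ∀ e < K, MeasurePreserving (φ θ e) (L.μ e) (L.μ e))
    (hH : L.HasDL (fun θ => cmap (φ θ)) H k) (hf : L.HasD (fun θ => cmap (φ θ)) f f') :
    L.E0 H k = 0 ∧ L.E0 H (fun ω => f' ω + f ω * L.S 0 H k ω) = 0 := by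
  have e0 : ∀ ω : Cfg K Ω, cmap (φ 0) ω = ω := fun ω => funext fun i => h0 _ _
  have mH := (hH.lin e0).1
  have mf := (hf.nice e0).1
  obtain ⟨s, F', h1, h2, h3, rfl⟩ := hH
  obtain ⟨t, G', k1, k2, k3, rfl⟩ := hf
  have a1 := h3.hasDerivAt_X0 h1 h2
  have a2 := DFam.hasDerivAt_E0 (h1.inter k1) (h3.mono Set.inter_subset_left)
    (k3.mono Set.inter_subset_right) ⟨h2, k2⟩
  simp only [e0, fun θ => X0_cmap (L := L) rfl (hφ θ) mH] at a1
  simp only [e0, fun θ => E0_cmap (L := L) rfl (hφ θ) mH mf] at a2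
  exact ⟨a1.unique (hasDerivAt_const _ _), a2.unique (hasDerivAt_const _ _)⟩

end flow

section expansion

variable {H ε τ : Cfg K Ω → ℝ}

lemma abs_E_add_sub_le (hH : L.Lin H) {k f : Cfg K Ω → ℝ} (hk : Measurable k) (hf : Measurable f)
    {t B : ℝ} (ht : t ≤ 1) (h1 : ∀ ω, |k ω| ≤ t) (h2 : ∀ ω, |f ω| ≤ B) (l : ℕ) (ω : Cfg K Ω) :
    |L.E l (fun ω => H ω + k ω) f ω - L.E l H f ω| ≤ 8 * t * B := by
  have hkl : L.Lin k := lin_of_bdd hk t h1
  have hfn : L.Nice f := nice_of_bdd hf B h2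
  have hd := nice_dens hH hkl l
  have ht0 : 0 ≤ t := (abs_nonneg _).trans (h1 ω)
  rw [E_add_eq_dens hH hkl hfn, ← E_sub hH (hd.mul hfn) hfn]
  refine abs_E_le_const hH ((hd.mul hfn).sub hfn).1 (fun ω => ?_) l ω
  obtain ⟨a1, a2⟩ := dens_bounds hH hk (fun ω => abs_le.1 (h1 ω)) l ω
  have a3 := add_one_le_exp (-(t - -t))
  have a4 := le_of_abs_le (abs_exp_sub_one_le (x := t) (by rwa [abs_of_nonneg ht0]))
  rw [abs_of_nonneg ht0] at a4
  rw [sub_neg_eq_add, exp_add] at a2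
  have a5 : exp t * exp t ≤ (1 + 2 * t) * (1 + 2 * t) :=
    mul_self_le_mul_self (exp_pos _).le (by linarith)
  rw [← sub_one_mul, abs_mul]
  exact mul_le_mul (abs_le.2 ⟨by linarith, by nlinarith⟩) (h2 ω) (abs_nonneg _) (by positivity)

lemma abs_sq_sub_le {a b c : ℝ} (ha : |a| ≤ 1) (hb : |b| ≤ 1) (h : |a - b| ≤ c) :
    |a * a - b * b| ≤ 2 * c := by
  rw [mul_self_sub_mul_self, abs_mul]
  exact mul_le_mul ((abs_add_le _ _).trans (by linarith)) h (abs_nonneg _) zero_le_two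

/-- The second derivative of `y ↦ X0 (H + y k)` for `k = ±1`. -/
noncomputable def D2 (L : Lev K Ω) (G k : Cfg K Ω → ℝ) : ℝ :=
  1 - ∑ e ∈ Ico 0 (K - 1), L.Δ e * L.E0 G (fun ω => L.E (e + 1) G k ω * L.E (e + 1) G k ω) -
    L.ζ 0 * (L.E0 G k * L.E0 G k)

lemma E0_mul_S_zero {G k : Cfg K Ω → ℝ} (hK : 0 < K) (hG : L.Lin G) (hk : L.Nice k)
    (h1 : ∀ ω, k ω * k ω = 1) : L.E0 G (fun ω => 0 + k ω * L.S 0 G k ω) = L.D2 G k := by
  have e : (fun ω => 0 + k ω * L.S 0 G k ω) =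
      fun ω => k ω * L.St 0 G k ω - L.ζ 0 * L.E0 G k * k ω := by
    ext ω
    rw [S_eq_St hG hK, E_zero]
    ring
  rw [e, Lev.E0, E_sub hG (hk.mul (hk.St hG 0)) (hk.const_mul _), E_const_mul, E_zero, E_zero,
    E0_mul_St hG hk hk]
  simp only [h1]
  rw [Lev.E0, E_const hG, D2, mul_assoc]

lemma abs_D2_sub_le (hH : L.Lin H) {k u : Cfg K Ω → ℝ} (hk : Measurable k) (hu : Measurable u)
    (h1 : ∀ ω, |k ω| ≤ 1) {t : ℝ} (ht : t ≤ 1) (h2 : ∀ ω, |u ω| ≤ t) :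
    |L.D2 (fun ω => H ω + u ω) k - L.D2 H k| ≤ 24 * t := by
  have ht0 : 0 ≤ t := (abs_nonneg _).trans (h2 L.pt)
  have hG : L.Lin fun ω => H ω + u ω := hH.add (lin_of_bdd hu t h2)
  have hkn : L.Nice k := nice_of_bdd hk 1 h1
  have a1 : ∀ e ω, |L.E e (fun ω => H ω + u ω) k ω * L.E e (fun ω => H ω + u ω) k ω -
      L.E e H k ω * L.E e H k ω| ≤ 2 * (8 * t * 1) := fun e ω =>
    abs_sq_sub_le (abs_E_le_const hG hk h1 e ω) (abs_E_le_const hH hk h1 e ω)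
      (abs_E_add_sub_le hH hu hk ht h2 h1 e ω)
  have a2 : ∀ e, |L.E0 (fun ω => H ω + u ω) (fun ω => L.E e (fun ω => H ω + u ω) k ω *
      L.E e (fun ω => H ω + u ω) k ω) - L.E0 H (fun ω => L.E e H k ω * L.E e H k ω)| ≤ 24 * t := by
    intro e
    have n1 := (hkn.E hG e).mul (hkn.E hG e)
    have n2 := (hkn.E hH e).mul (hkn.E hH e)
    have b1 := abs_E_le_const hG (n1.sub n2).1 (a1 e) 0 L.pt
    rw [E_sub hG n1 n2] at b1
    have b2 := abs_E_add_sub_le hH hu n2.1 ht h2 (B := 1) (fun ω => by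
      rw [abs_mul]
      exact mul_le_one₀ (abs_E_le_const hH hk h1 e ω) (abs_nonneg _)
        (abs_E_le_const hH hk h1 e ω)) 0 L.pt
    refine (abs_sub_le _ _ _).trans ((add_le_add b1 b2).trans (le_of_eq (by ring)))
  have a3 := a1 0 L.pt
  have a4 := sum_Δ L.toExpo (Nat.zero_le (K - 1))
  have a5 := L.le_one (K - 1)
  have a6 := L.pos 0
  have e : L.D2 (fun ω => H ω + u ω) k - L.D2 H k = -(∑ e ∈ Ico 0 (K - 1), L.Δ e *
      (L.E0 (fun ω => H ω + u ω) (fun ω => L.E (e + 1) (fun ω => H ω + u ω) k ω *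
        L.E (e + 1) (fun ω => H ω + u ω) k ω) -
          L.E0 H (fun ω => L.E (e + 1) H k ω * L.E (e + 1) H k ω)) +
      L.ζ 0 * (L.E0 (fun ω => H ω + u ω) k * L.E0 (fun ω => H ω + u ω) k - L.E0 H k * L.E0 H k)) := by
    simp only [D2, mul_sub, sum_sub_distrib]
    ring
  rw [e, abs_neg]
  refine (abs_add_le _ _).trans ?_
  have a7 : |∑ e ∈ Ico 0 (K - 1), L.Δ e *
      (L.E0 (fun ω => H ω + u ω) (fun ω => L.E (e + 1) (fun ω => H ω + u ω) k ω *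
        L.E (e + 1) (fun ω => H ω + u ω) k ω) -
          L.E0 H (fun ω => L.E (e + 1) H k ω * L.E (e + 1) H k ω))| ≤
      (L.ζ (K - 1) - L.ζ 0) * (24 * t) := by
    rw [← a4, sum_mul]
    refine (abs_sum_le_sum_abs _ _).trans (sum_le_sum fun e _ => ?_)
    rw [abs_mul, abs_of_nonneg (L.Δ_nonneg e)]
    exact mul_le_mul_of_nonneg_left (a2 _) (L.Δ_nonneg e)
  have a8 := mul_le_mul_of_nonneg_left a3 a6.le
  rw [abs_mul, abs_of_pos a6]
  refine (add_le_add a7 a8).trans ?_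
  nlinarith [mul_nonneg a6.le ht0]

lemma E_odd {k : Cfg K Ω → ℝ} (hH : Measurable H) (hk : Measurable k) {l : ℕ} (hl : l < K)
    {φ : Ω → Ω} (hφ : MeasurePreserving φ (L.μ l) (L.μ l))
    (hHφ : ∀ ω x, H (upd ω l (φ x)) = H (upd ω l x))
    (hkφ : ∀ ω x, k (upd ω l (φ x)) = -k (upd ω l x)) {m : ℕ} (hm : m ≤ l) (ω : Cfg K Ω) :
    L.E m H k ω = 0 := by
  have e : ∀ ω : Cfg K Ω, cmap (fun e => if e = l then φ else id) ω = upd ω l (φ (ω ⟨l, hl⟩)) := by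
    intro ω
    ext i
    by_cases h : i.val = l
    · have : i = ⟨l, hl⟩ := Fin.ext h
      subst this
      simp [cmap, upd]
    · simp [cmap, upd, h]
  have h1 := E_cmap (L := L) (L' := L) (φ := fun e => if e = l then φ else id) rfl (l := m)
    (fun e _ _ => by
      by_cases h : e = l
      · subst h; simpa using hφ
      · simpa [h] using MeasurePreserving.id (L.μ e)) hH hk ω
  have h2 : ∀ ω : Cfg K Ω, upd ω l (ω ⟨l, hl⟩) = ω := fun ω => upd_self ω ⟨l, hl⟩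
  simp only [e, hHφ, hkφ, h2] at h1
  rw [E_neg, (dep_E m H k).upd hm] at h1
  linarith

/-- First-order expansion in a bounded direction. -/
lemma abs_X0_lin_le (hH : L.Lin H) (hε : Measurable ε) (h1 : ∀ ω, |ε ω| ≤ 1) {b : ℝ} (hb : |b| ≤ 1) :
    |L.X0 (fun ω => H ω + b * ε ω) - L.X0 H - b * L.E0 H ε| ≤ 100 * b ^ 2 := by
  have h2 : ∀ ω, |b * ε ω| ≤ |b| := fun ω => by
    rw [abs_mul]; exact mul_le_of_le_one_right (abs_nonneg _) (h1 ω)
  have hm : Measurable fun ω => b * ε ω := hε.const_mul b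
  have hk : L.Lin fun ω => b * ε ω := lin_of_bdd hm _ h2
  have a1 := X0_add_ge hH hk
  have a2 := X0_add_le hH hk
  have a3 := le_of_abs_le (abs_E_add_sub_le hH hm hm hb h2 h2 0 L.pt)
  have a4 : L.E0 H (fun ω => b * ε ω) = b * L.E0 H ε := E_const_mul 0 b H ε _
  have a5 : |b| * |b| = b ^ 2 := by rw [abs_mul_abs_self, sq]
  simp only [Lev.E0] at a1 a2 a4 ⊢
  exact abs_le.2 ⟨by nlinarith, by nlinarith⟩

/-- Second-order expansion in the direction `τ ε`, where `τ = ±1` is a fair coin of level `l`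
(flipped by `φ`) which neither `H` nor `ε = ±1` sees. -/
lemma abs_X0_coin_le (hH : L.Lin H) (hε : Measurable ε) (hτ : Measurable τ) (h1 : ∀ ω, ε ω ^ 2 = 1)
    (h2 : ∀ ω, τ ω ^ 2 = 1) {l : ℕ} (hl : l < K) (hdep : Dep (l + 1) τ) {φ : Ω → Ω}
    (hφ : MeasurePreserving φ (L.μ l) (L.μ l))
    (hHφ : ∀ ω x, H (upd ω l (φ x)) = H (upd ω l x)) (hεφ : ∀ ω x, ε (upd ω l (φ x)) = ε (upd ω l x))
    (hτφ : ∀ ω x, τ (upd ω l (φ x)) = -τ (upd ω l x)) {y : ℝ} (hy : |y| ≤ 1) :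
    |L.X0 (fun ω => H ω + y * (τ ω * ε ω)) - L.X0 H - y ^ 2 / 2 *
      (1 - ∑ e ∈ Ico l (K - 1), L.Δ e * L.E0 H (fun ω => L.E (e + 1) H ε ω ^ 2))| ≤ 100 * |y| ^ 3 := by
  set k : Cfg K Ω → ℝ := fun ω => τ ω * ε ω with hk
  have hkm : Measurable k := hτ.mul hε
  have hkk : ∀ ω, k ω * k ω = 1 := fun ω => by
    calc k ω * k ω = τ ω ^ 2 * ε ω ^ 2 := by simp only [hk]; ring
      _ = 1 := by rw [h1, h2, one_mul]
  have hk1 : ∀ ω, |k ω| ≤ 1 := fun ω => abs_le_one_iff_mul_self_le_one.2 (hkk ω).le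
  have hkl : L.Lin k := lin_of_bdd hkm 1 hk1
  have hodd : ∀ m ≤ l, ∀ ω, L.E m H k ω = 0 := fun m hm ω =>
    E_odd hH.1 hkm hl hφ hHφ (fun ω x => by simp only [hk, hεφ, hτφ, neg_mul]) hm ω
  have hD : L.D2 H k =
      1 - ∑ e ∈ Ico l (K - 1), L.Δ e * L.E0 H (fun ω => L.E (e + 1) H ε ω ^ 2) := by
    rw [D2, show L.E0 H k = 0 from hodd 0 (Nat.zero_le l) _, mul_zero, mul_zero, sub_zero,
      ← sum_Ico_consecutive _ (Nat.zero_le l) (show l ≤ K - 1 by omega), sum_eq_zero, zero_add]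
    · congr 1
      refine sum_congr rfl fun e he => ?_
      congr 2
      ext ω
      rw [hk, E_dep_mul (hdep.mono (Nat.succ_le_succ (mem_Ico.1 he).1))]
      calc _ = τ ω ^ 2 * L.E (e + 1) H ε ω ^ 2 := by ring
        _ = _ := by rw [h2, one_mul]
    · intro e he
      simp only [hodd (e + 1) (mem_Ico.1 he).2, mul_zero]
      rw [Lev.E0, E_const hH, mul_zero]
  rw [← hD]
  have hfam := lfam_affine (s := Set.Ioo (-2) 2) hH hkl (R := 2) fun θ hθ => (abs_lt.2 hθ).le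
  have hsub : ∀ u ∈ Set.Icc (-|y|) |y|, u ∈ Set.Ioo (-2 : ℝ) 2 := fun u hu =>
    ⟨by linarith [hu.1], by linarith [hu.2]⟩
  have h0 : (0 : ℝ) ∈ Set.Icc (-|y|) |y| := ⟨by simp, by simp⟩
  have d1 : ∀ u ∈ Set.Icc (-|y|) |y|,
      |L.E0 (fun ω => H ω + u * k ω) k - u * L.D2 H k| ≤ 24 * |y| * |y| := by
    intro u hu
    have := Convex.norm_image_sub_le_of_norm_hasDerivWithin_le
      (f := fun u => L.E0 (fun ω => H ω + u * k ω) k - u * L.D2 H k)
      (f' := fun u => L.D2 (fun ω => H ω + u * k ω) k - L.D2 H k) (C := 24 * |y|)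
      (fun v hv => by
        have a1 := DFam.hasDerivAt_E0 isOpen_Ioo hfam (dfam_const hkl.nice) (hsub v hv)
        rw [E0_mul_S_zero (by omega) (hfam.lin' (hsub v hv)) hkl.nice hkk] at a1
        exact (a1.sub (hasDerivAt_mul_const (L.D2 H k))).hasDerivWithinAt)
      (fun v hv => abs_D2_sub_le hH hkm (hkm.const_mul v) hk1 hy fun ω => by
        rw [abs_mul]
        exact (mul_le_of_le_one_right (abs_nonneg _) (hk1 ω)).trans (abs_le.2 hv))
      (convex_Icc _ _) h0 hu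
    simp only [zero_mul, add_zero, sub_zero, Real.norm_eq_abs,
      show L.E0 H k = 0 from hodd 0 (Nat.zero_le l) _] at this
    exact this.trans (mul_le_mul_of_nonneg_left (abs_le.2 hu) (by positivity))
  have d2 := Convex.norm_image_sub_le_of_norm_hasDerivWithin_le
    (f := fun u => L.X0 (fun ω => H ω + u * k ω) - u ^ 2 / 2 * L.D2 H k)
    (f' := fun u => L.E0 (fun ω => H ω + u * k ω) k - u * L.D2 H k)
    (fun v hv => by
      have a1 := hfam.hasDerivAt_X0 isOpen_Ioo (hsub v hv)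
      have a2 : HasDerivAt (fun u : ℝ => u ^ 2 / 2 * L.D2 H k) (v * L.D2 H k) v := by
        simpa using ((hasDerivAt_pow 2 v).div_const 2).mul_const (L.D2 H k)
      exact (a1.sub a2).hasDerivWithinAt)
    d1 (convex_Icc _ _) h0 (abs_le.1 (le_refl |y|))
  simp only [zero_mul, add_zero, sub_zero, Real.norm_eq_abs, ne_eq, OfNat.ofNat_ne_zero,
    not_false_eq_true, zero_pow, zero_div] at d2
  rw [sub_right_comm]
  refine d2.trans ?_
  nlinarith [pow_nonneg (abs_nonneg y) 3]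

end expansion

end Lev

end Crest.Agent.R164
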