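import Crest.Agent.R164.NestIneq

/-! # Row 164: uniform growth bounds for families and one-level differentiation -/

set_option autoImplicit false

namespace Crest.Agent.R164

open MeasureTheory ProbabilityTheory Real Finset Filter Topology

namespace Lev

variable {K : ℕ} {Ω : Type} [MeasurableSpace Ω] {L : Lev K Ω} {s : Set ℝ}
  {F F' G G' : ℝ → Cfg K Ω → ℝ}

/-- Uniform exponential growth. -/
def UB (L : Lev K Ω) (s : Set ℝ) (F : ℝ → Cfg K Ω → ℝ) : Prop :=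
  ∃ C : ℝ, 0 ≤ C ∧ ∀ θ ∈ s, ∀ ω, |F θ ω| ≤ exp (C * (1 + L.size ω))

/-- Uniform linear growth. -/
def UL (L : Lev K Ω) (s : Set ℝ) (F : ℝ → Cfg K Ω → ℝ) : Prop :=
  ∃ C : ℝ, 0 ≤ C ∧ ∀ θ ∈ s, ∀ ω, |F θ ω| ≤ C * (1 + L.size ω)

lemma one_le_sz (ω : Cfg K Ω) : 1 ≤ 1 + L.size ω := by linarith [size_nonneg (L := L) ω]

lemma sz_mono {C C' : ℝ} (h : C ≤ C') (ω : Cfg K Ω) :
    C * (1 + L.size ω) ≤ C' * (1 + L.size ω) :=
  mul_le_mul_of_nonneg_right h (by linarith [one_le_sz (L := L) ω])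

lemma UB.of {C : ℝ} (h : ∀ θ ∈ s, ∀ ω, |F θ ω| ≤ exp (C * (1 + L.size ω))) : L.UB s F :=
  ⟨max C 0, le_max_right _ _, fun θ hθ ω =>
    (h θ hθ ω).trans (exp_le_exp.2 (sz_mono (le_max_left _ _) ω))⟩

lemma UL.of {C : ℝ} (h : ∀ θ ∈ s, ∀ ω, |F θ ω| ≤ C * (1 + L.size ω)) : L.UL s F :=
  ⟨max C 0, le_max_right _ _, fun θ hθ ω => (h θ hθ ω).trans (sz_mono (le_max_left _ _) ω)⟩

lemma DFam.ub (h : L.DFam s F F') : L.UB s F :=
  h.bound.elim fun _ hC => UB.of fun θ hθ ω => (hC θ hθ ω).1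

lemma DFam.ub' (h : L.DFam s F F') : L.UB s F' :=
  h.bound.elim fun _ hC => UB.of fun θ hθ ω => (hC θ hθ ω).2

lemma LFam.ul (h : L.LFam s F F') : L.UL s F := h.lin.elim fun _ hC => UL.of hC

lemma DFam.of (h1 : ∀ θ ∈ s, Measurable (F θ)) (h2 : ∀ θ ∈ s, Measurable (F' θ))
    (h3 : ∀ ω, ∀ θ ∈ s, HasDerivAt (fun t => F t ω) (F' θ ω) θ) (h4 : L.UB s F)
    (h5 : L.UB s F') : L.DFam s F F' := by
  obtain ⟨C, -, hC⟩ := h4
  obtain ⟨C', -, hC'⟩ := h5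
  exact ⟨h1, h2, h3, max C C', fun θ hθ ω =>
    ⟨(hC θ hθ ω).trans (exp_le_exp.2 (sz_mono (le_max_left _ _) ω)),
      (hC' θ hθ ω).trans (exp_le_exp.2 (sz_mono (le_max_right _ _) ω))⟩⟩

lemma LFam.of (h : L.DFam s F F') (h' : L.UL s F) : L.LFam s F F' :=
  ⟨h, h'.imp fun _ hC => hC.2⟩

lemma UL.ub (h : L.UL s F) : L.UB s F :=
  h.imp fun C hC => ⟨hC.1, fun θ hθ ω => (hC.2 θ hθ ω).trans (by
    linarith [add_one_le_exp (C * (1 + L.size ω))])⟩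

lemma UL.rexp (h : L.UL s F) : L.UB s fun θ ω => exp (F θ ω) :=
  h.imp fun _ hC => ⟨hC.1, fun θ hθ ω => by
    rw [abs_of_pos (exp_pos _)]
    exact exp_le_exp.2 ((le_abs_self _).trans (hC.2 θ hθ ω))⟩

lemma UB.congr (h : L.UB s F) (e : ∀ θ ∈ s, ∀ ω, |G θ ω| ≤ |F θ ω|) : L.UB s G :=
  h.imp fun _ hC => ⟨hC.1, fun θ hθ ω => (e θ hθ ω).trans (hC.2 θ hθ ω)⟩

lemma UL.congr (h : L.UL s F) (e : ∀ θ ∈ s, ∀ ω, |G θ ω| ≤ |F θ ω|) : L.UL s G :=
  h.imp fun _ hC => ⟨hC.1, fun θ hθ ω => (e θ hθ ω).trans (hC.2 θ hθ ω)⟩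

lemma UB.add (hF : L.UB s F) (hG : L.UB s G) : L.UB s fun θ ω => F θ ω + G θ ω := by
  obtain ⟨C, h0, hC⟩ := hF
  obtain ⟨C', h0', hC'⟩ := hG
  refine UB.of (C := C + C' + 1) fun θ hθ ω => ?_
  have h1 := (hC θ hθ ω).trans (exp_le_exp.2 (sz_mono (show C ≤ C + C' by linarith) ω))
  have h2 := (hC' θ hθ ω).trans (exp_le_exp.2 (sz_mono (show C' ≤ C + C' by linarith) ω))
  have h3 : 2 ≤ exp (1 + L.size ω) := by
    linarith [add_one_le_exp (1 + L.size ω), one_le_sz (L := L) ω]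
  rw [add_mul _ 1, exp_add, one_mul]
  nlinarith [abs_add_le (F θ ω) (G θ ω), exp_pos ((C + C') * (1 + L.size ω))]

lemma UB.mul (hF : L.UB s F) (hG : L.UB s G) : L.UB s fun θ ω => F θ ω * G θ ω := by
  obtain ⟨C, -, hC⟩ := hF
  obtain ⟨C', -, hC'⟩ := hG
  refine UB.of (C := C + C') fun θ hθ ω => ?_
  rw [add_mul, exp_add, abs_mul]
  exact mul_le_mul (hC θ hθ ω) (hC' θ hθ ω) (abs_nonneg _) (exp_pos _).le

lemma UL.add (hF : L.UL s F) (hG : L.UL s G) : L.UL s fun θ ω => F θ ω + G θ ω := by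
  obtain ⟨C, -, hC⟩ := hF
  obtain ⟨C', -, hC'⟩ := hG
  refine UL.of (C := C + C') fun θ hθ ω => ?_
  rw [add_mul]
  exact (abs_add_le _ _).trans (add_le_add (hC θ hθ ω) (hC' θ hθ ω))

lemma UL.mul_bdd (hF : L.UL s F) {R : ℝ} (hG : ∀ θ ∈ s, ∀ ω, |G θ ω| ≤ R) :
    L.UL s fun θ ω => F θ ω * G θ ω := by
  obtain ⟨C, -, hC⟩ := hF
  refine UL.of (C := C * R) fun θ hθ ω => ?_
  rw [abs_mul, mul_right_comm]
  exact mul_le_mul (hC θ hθ ω) (hG θ hθ ω) (abs_nonneg _) ((abs_nonneg _).trans (hC θ hθ ω))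

lemma UL.bdd_mul (hF : L.UL s F) {R : ℝ} (hG : ∀ θ ∈ s, ∀ ω, |G θ ω| ≤ R) :
    L.UL s fun θ ω => G θ ω * F θ ω :=
  (hF.mul_bdd hG).congr fun θ _ ω => by rw [mul_comm]

lemma ul_of_bdd {R : ℝ} (hG : ∀ θ ∈ s, ∀ ω, |G θ ω| ≤ R) : L.UL s G :=
  UL.of (C := R) fun θ hθ ω => (hG θ hθ ω).trans
    (le_mul_of_one_le_right ((abs_nonneg _).trans (hG θ hθ ω)) (one_le_sz ω))

lemma Lin.ul {f : Cfg K Ω → ℝ} (h : L.Lin f) : L.UL s fun _ => f :=
  h.2.elim fun _ hC => UL.of fun _ _ => hC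

lemma Nice.ub {f : Cfg K Ω → ℝ} (h : L.Nice f) : L.UB s fun _ => f :=
  h.2.elim fun _ hC => UB.of fun _ _ => hC

lemma UL.sum {ι : Type} (t : Finset ι) {F : ι → ℝ → Cfg K Ω → ℝ} (h : ∀ i ∈ t, L.UL s (F i)) :
    L.UL s fun θ ω => ∑ i ∈ t, F i θ ω := by
  classical
  induction t using Finset.induction_on with
  | empty => exact ul_of_bdd (R := 0) fun _ _ _ => by simp
  | insert i t hi ih =>
    simp only [sum_insert hi]
    exact (h i (mem_insert_self _ _)).add (ih fun j hj => h j (mem_insert_of_mem hj))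

lemma exp_sz_upd {C : ℝ} (hC : 0 ≤ C) (ω : Cfg K Ω) (l : ℕ) (x : Ω) :
    exp (C * (1 + L.size (upd ω l x))) ≤ exp (C * (1 + L.size ω)) * exp (C * L.nrm x) := by
  rw [← exp_add, ← mul_add]
  exact exp_le_exp.2 (mul_le_mul_of_nonneg_left (by linarith [size_upd_le (L := L) ω l x]) hC)

lemma UB.int (hF : L.UB s F) (l : ℕ) : L.UB s fun θ ω => ∫ x, F θ (upd ω l x) ∂L.μ l := by
  obtain ⟨C, h0, hC⟩ := hF
  have hM : 0 ≤ ∫ x, exp (C * L.nrm x) ∂L.μ l := integral_nonneg fun _ => (exp_pos _).le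
  refine UB.of (C := C + ∫ x, exp (C * L.nrm x) ∂L.μ l) fun θ hθ ω => ?_
  have h1 := norm_integral_le_of_norm_le (f := fun x => F θ (upd ω l x))
    ((L.expInt l C).const_mul (exp (C * (1 + L.size ω))))
    (Eventually.of_forall fun x => (hC θ hθ _).trans (exp_sz_upd h0 ω l x))
  rw [integral_const_mul] at h1
  refine h1.trans ?_
  rw [add_mul, exp_add]
  refine mul_le_mul_of_nonneg_left ?_ (exp_pos _).le
  have h2 := le_mul_of_one_le_right hM (one_le_sz (L := L) ω)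
  linarith [add_one_le_exp ((∫ x, exp (C * L.nrm x) ∂L.μ l) * (1 + L.size ω))]

lemma measurable_int {f : Cfg K Ω → ℝ} (hf : Measurable f) (l : ℕ) :
    Measurable fun ω => ∫ x, f (upd ω l x) ∂L.μ l :=
  ((hf.comp (measurable_upd l)).stronglyMeasurable.integral_prod_right' (ν := L.μ l)).measurable

lemma measurable_upd_right {f : Cfg K Ω → ℝ} (hf : Measurable f) (l : ℕ) (ω : Cfg K Ω) :
    Measurable fun x => f (upd ω l x) :=
  hf.comp ((measurable_upd l).comp measurable_prodMk_left)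

lemma UB.nice (hF : L.UB s F) {θ : ℝ} (hθ : θ ∈ s) (hm : Measurable (F θ)) : L.Nice (F θ) :=
  ⟨hm, hF.imp fun _ hC => hC.2 θ hθ⟩

/-- Differentiation under one integral. -/
lemma DFam.int (hs : IsOpen s) (hF : L.DFam s F F') (l : ℕ) :
    L.DFam s (fun θ ω => ∫ x, F θ (upd ω l x) ∂L.μ l) (fun θ ω => ∫ x, F' θ (upd ω l x) ∂L.μ l) := by
  refine DFam.of (fun θ hθ => measurable_int (hF.meas θ hθ) l)
    (fun θ hθ => measurable_int (hF.meas' θ hθ) l) (fun ω θ hθ => ?_) (hF.ub.int l) (hF.ub'.int l)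
  obtain ⟨C, h0, hC⟩ := hF.ub'
  exact (hasDerivAt_integral_of_dominated_loc_of_deriv_le (hs.mem_nhds hθ)
    (F := fun t x => F t (upd ω l x)) (F' := fun t x => F' t (upd ω l x))
    (mem_of_superset (hs.mem_nhds hθ) fun t ht =>
      (measurable_upd_right (hF.meas t ht) l ω).aestronglyMeasurable)
    ((hF.ub.nice hθ (hF.meas θ hθ)).integrable_upd l ω)
    (measurable_upd_right (hF.meas' θ hθ) l ω).aestronglyMeasurable
    (Eventually.of_forall fun x t ht => (hC t ht _).trans (exp_sz_upd h0 ω l x))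
    ((L.expInt l C).const_mul (exp (C * (1 + L.size ω))))
    (Eventually.of_forall fun x t ht => hF.deriv _ t ht)).2

lemma LFam.exp_mul (hF : L.LFam s F F') (c : ℝ) :
    L.DFam s (fun θ ω => exp (c * F θ ω)) (fun θ ω => exp (c * F θ ω) * (c * F' θ ω)) := by
  have h1 : L.UB s fun θ ω => exp (c * F θ ω) :=
    (hF.ul.bdd_mul (G := fun _ _ => c) fun _ _ _ => le_rfl).rexp
  refine DFam.of (fun θ hθ => ?_) (fun θ hθ => ?_)
    (fun ω θ hθ => ((hF.deriv ω θ hθ).const_mul c).exp) h1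
    (h1.mul ((ul_of_bdd (G := fun _ _ => c) fun _ _ _ => le_rfl).ub.mul hF.toDFam.ub'))
  · have := hF.meas θ hθ
    fun_prop
  · have := hF.meas θ hθ
    have := hF.meas' θ hθ
    fun_prop

lemma int_exp_pos {f : Cfg K Ω → ℝ} (hf : L.Lin f) (c : ℝ) (l : ℕ) (ω : Cfg K Ω) :
    0 < ∫ x, exp (c * f (upd ω l x)) ∂L.μ l :=
  integral_exp_pos ((hf.const_mul c).exp.integrable_upd l ω)

lemma UL.T (hF : L.UL s F) (hm : ∀ θ ∈ s, Measurable (F θ)) (l : ℕ) :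
    L.UL s fun θ => L.T l (F θ) := by
  have hζ := L.pos l
  obtain ⟨C, h0, hC⟩ := hF.bdd_mul (G := fun _ _ => L.ζ l) fun _ _ _ => le_rfl
  have hM : ∀ c, 0 < ∫ x, exp (c * L.nrm x) ∂L.μ l := fun c => integral_exp_pos (L.expInt l c)
  refine (UL.of (F := fun θ ω => log (∫ x, exp (L.ζ l * F θ (upd ω l x)) ∂L.μ l))
    (C := C + (|log (∫ x, exp (C * L.nrm x) ∂L.μ l)| + |log (∫ x, exp (-C * L.nrm x) ∂L.μ l)|))
    fun θ hθ ω => ?_).bdd_mul (G := fun _ _ => (L.ζ l)⁻¹) fun _ _ _ => le_rfl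
  have hlin : L.Lin (F θ) := ⟨hm θ hθ, hF.imp fun _ h => h.2 θ hθ⟩
  have hI := (hlin.const_mul (L.ζ l)).exp.integrable_upd l ω
  have hb : ∀ x, |L.ζ l * F θ (upd ω l x)| ≤ C * (1 + L.size ω) + C * L.nrm x := fun x =>
    (hC θ hθ _).trans (by
      rw [← mul_add]
      exact mul_le_mul_of_nonneg_left (by linarith [size_upd_le (L := L) ω l x]) h0)
  have h1 : ∫ x, exp (L.ζ l * F θ (upd ω l x)) ∂L.μ l ≤
      exp (C * (1 + L.size ω)) * ∫ x, exp (C * L.nrm x) ∂L.μ l := by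
    rw [← integral_const_mul]
    refine integral_mono hI ((L.expInt l C).const_mul _) fun x => ?_
    simp only [← exp_add]
    exact exp_le_exp.2 (le_of_abs_le (hb x))
  have h2 : exp (-(C * (1 + L.size ω))) * ∫ x, exp (-C * L.nrm x) ∂L.μ l ≤
      ∫ x, exp (L.ζ l * F θ (upd ω l x)) ∂L.μ l := by
    rw [← integral_const_mul]
    refine integral_mono ((L.expInt l (-C)).const_mul _) hI fun x => ?_
    simp only [← exp_add]
    exact exp_le_exp.2 (by linarith [neg_le_of_abs_le (hb x)])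
  have h3 := log_le_log (int_exp_pos hlin _ l ω) h1
  have h4 := log_le_log (mul_pos (exp_pos _) (hM _)) h2
  rw [log_mul (exp_pos _).ne' (hM _).ne', log_exp] at h3 h4
  have h5 := le_mul_of_one_le_right (a := |log (∫ x, exp (C * L.nrm x) ∂L.μ l)| +
    |log (∫ x, exp (-C * L.nrm x) ∂L.μ l)|) (by positivity) (one_le_sz (L := L) ω)
  rw [add_mul]
  have a1 := le_abs_self (log (∫ x, exp (C * L.nrm x) ∂L.μ l))
  have a2 := neg_abs_le (log (∫ x, exp (-C * L.nrm x) ∂L.μ l))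
  have a3 := abs_nonneg (log (∫ x, exp (C * L.nrm x) ∂L.μ l))
  have a4 := abs_nonneg (log (∫ x, exp (-C * L.nrm x) ∂L.μ l))
  exact abs_le.2 ⟨by linarith, by linarith⟩

lemma exp_T {f : Cfg K Ω → ℝ} (hf : L.Lin f) (l : ℕ) (ω : Cfg K Ω) :
    exp (L.ζ l * L.T l f ω) = ∫ x, exp (L.ζ l * f (upd ω l x)) ∂L.μ l := by
  rw [T, ← mul_assoc, mul_inv_cancel₀ (L.pos l).ne', one_mul, exp_log (int_exp_pos hf _ l ω)]

lemma weight_split (a b c : ℝ) (g : Ω → ℝ) (Y : Ω → ℝ) (μ : Measure Ω) (h : c = -a) :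
    ∫ x, exp (a * (Y x - b)) * g x ∂μ = exp (c * b) * ∫ x, exp (a * Y x) * g x ∂μ := by
  rw [← integral_const_mul]
  congr 1
  ext x
  rw [← mul_assoc, ← exp_add, h]
  congr 2
  ring

/-- Differentiation of one power mean. -/
lemma LFam.T (hs : IsOpen s) (hF : L.LFam s F F') (l : ℕ) :
    L.LFam s (fun θ => L.T l (F θ)) (fun θ ω => ∫ x, exp (L.ζ l * (F θ (upd ω l x) -
      L.T l (F θ) ω)) * F' θ (upd ω l x) ∂L.μ l) := by
  have hζ := L.pos l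
  have hZ := (hF.exp_mul (L.ζ l)).int hs l
  have hT := hF.ul.T hF.meas l
  have hTm : ∀ θ ∈ s, Measurable (L.T l (F θ)) := fun θ hθ => by
    have := hZ.meas θ hθ
    exact (this.log).const_mul _
  have hlin : ∀ θ ∈ s, L.Lin (F θ) := fun θ hθ => ⟨hF.meas θ hθ, hF.lin.imp fun _ h => h θ hθ⟩
  simp only [weight_split _ _ _ _ _ _ (rfl : -L.ζ l = _)]
  refine LFam.of (DFam.of hTm (fun θ hθ => ?_) (fun ω θ hθ => ?_) hT.ub ?_) hT
  · have h1 := hTm θ hθ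
    have h2 := hF.meas θ hθ
    have h3 := hF.meas' θ hθ
    exact Measurable.mul (by fun_prop)
      (measurable_int (f := fun ω => exp (L.ζ l * F θ ω) * F' θ ω) (by fun_prop) l)
  · have h1 := int_exp_pos (hlin θ hθ) (L.ζ l) l ω
    refine (((hZ.deriv ω θ hθ).log h1.ne').const_mul (L.ζ l)⁻¹).congr_deriv ?_
    rw [neg_mul, exp_neg, exp_T (hlin θ hθ)]
    simp only [mul_left_comm _ (L.ζ l), integral_const_mul]
    field_simp
  · exact (hT.bdd_mul (G := fun _ _ => -L.ζ l) fun _ _ _ => le_rfl).rexp.mul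
      (((hF.exp_mul (L.ζ l)).ub.mul hF.toDFam.ub').int l)

lemma down_ind {P : ℕ → Prop} (h0 : ∀ l, K ≤ l → P l) (h1 : ∀ l, l < K → P (l + 1) → P l) (l : ℕ) :
    P l := by
  have : ∀ n l, K ≤ l + n → P l := by
    intro n
    induction n with
    | zero => exact h0
    | succ n ih =>
      intro l hl
      rcases le_or_gt K l with h | h
      · exact h0 l h
      · exact h1 l h (ih _ (by omega))
  exact this K l (by omega)

end Lev

end Crest.Agent.R164
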