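import Crest.Agent.R164.NestBasic

/-! # Row 164: monotonicity, Minkowski, push-forward and products for nested power means -/

set_option autoImplicit false

namespace Crest.Agent.R164

open MeasureTheory ProbabilityTheory Real Finset

namespace NI

lemma down {K : ℕ} {P : ℕ → Prop} (h1 : ∀ l, K ≤ l → P l) (h2 : ∀ l < K, P (l + 1) → P l) (l : ℕ) :
    P l := by
  rcases le_total K l with h | h
  · exact h1 l h
  · induction h using Nat.decreasingInduction with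
    | self => exact h1 _ le_rfl
    | of_succ k hk ih => exact h2 k hk ih

lemma integral_mp {α β : Type} [MeasurableSpace α] [MeasurableSpace β] {μ : Measure α}
    {ν : Measure β} {φ : α → β} (h : MeasurePreserving φ μ ν) {g : β → ℝ} (hg : Measurable g) :
    ∫ x, g (φ x) ∂μ = ∫ y, g y ∂ν := by
  rw [← h.map_eq, integral_map h.measurable.aemeasurable hg.aestronglyMeasurable]

lemma mink_pt {z ζ : ℝ} (hz : 0 < z) (hζ : z ≤ ζ) {F A B : ℝ} (a b : ℝ)
    (h : exp (z * F) ≤ exp (z * A) + exp (z * B)) :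
    exp (ζ * F) ≤ (exp (z * a) + exp (z * b)) ^ (ζ / z) *
      (exp (z * a) / (exp (z * a) + exp (z * b)) * (exp (ζ * A) / exp (ζ * a)) +
        exp (z * b) / (exp (z * a) + exp (z * b)) * (exp (ζ * B) / exp (ζ * b))) := by
  have hr : 1 ≤ ζ / z := (one_le_div hz).2 hζ
  have e : ∀ t : ℝ, exp (ζ * t) = exp (z * t) ^ (ζ / z) := fun t => by
    rw [← exp_mul]
    congr 1
    field_simp
  simp only [e]
  have hα := exp_pos (z * a)
  have hβ := exp_pos (z * b)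
  have hA := exp_pos (z * A)
  have hB := exp_pos (z * B)
  have hF := exp_pos (z * F)
  generalize exp (z * a) = α at *
  generalize exp (z * b) = β at *
  generalize exp (z * A) = u at *
  generalize exp (z * B) = v at *
  have h1 := (convexOn_rpow hr).2 (Set.mem_Ici.2 (div_pos hA hα).le)
    (Set.mem_Ici.2 (div_pos hB hβ).le) (div_pos hα (add_pos hα hβ)).le
    (div_pos hβ (add_pos hα hβ)).le (by field_simp)
  simp only [smul_eq_mul] at h1
  rw [← div_rpow hA.le hα.le, ← div_rpow hB.le hβ.le]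
  refine le_trans ?_ (mul_le_mul_of_nonneg_left h1 (by positivity))
  rw [← mul_rpow (by positivity) (by positivity)]
  refine rpow_le_rpow hF.le (h.trans (le_of_eq ?_)) (by positivity)
  field_simp

variable {K : ℕ} {Ω : Type} [MeasurableSpace Ω] {L : Lev K Ω} {F G A B : Cfg K Ω → ℝ} {l : ℕ}
  {ω : Cfg K Ω}

lemma meas_upd (hF : Measurable F) (ω : Cfg K Ω) (l : ℕ) : Measurable fun x => F (upd ω l x) :=
  hF.comp ((measurable_upd l).comp measurable_prodMk_left)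

lemma meas_exp (hF : Measurable F) (c : ℝ) (ω : Cfg K Ω) (l : ℕ) :
    Measurable fun x => exp (c * F (upd ω l x)) :=
  ((meas_upd hF ω l).const_mul c).exp

lemma exp_T (hF : Integrable (fun x => exp (L.ζ l * F (upd ω l x))) (L.μ l)) :
    exp (L.ζ l * L.T l F ω) = ∫ x, exp (L.ζ l * F (upd ω l x)) ∂L.μ l := by
  rw [Lev.T, mul_inv_cancel_left₀ (L.pos l).ne', exp_log (integral_exp_pos hF)]

lemma T_add_const (hF : Integrable (fun x => exp (L.ζ l * F (upd ω l x))) (L.μ l)) (c : ℝ) :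
    Integrable (fun x => exp (L.ζ l * (F (upd ω l x) + c))) (L.μ l) ∧
      L.T l (fun ω => F ω + c) ω = L.T l F ω + c := by
  have h := (L.pos l).ne'
  simp only [Lev.T, mul_add, exp_add]
  refine ⟨hF.mul_const _, ?_⟩
  rw [integral_mul_const, log_mul (integral_exp_pos hF).ne' (exp_pos _).ne', log_exp]
  field_simp

lemma T_mono (hF : Measurable F) (hG : Integrable (fun x => exp (L.ζ l * G (upd ω l x))) (L.μ l))
    (h : ∀ x, F (upd ω l x) ≤ G (upd ω l x)) :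
    Integrable (fun x => exp (L.ζ l * F (upd ω l x))) (L.μ l) ∧ L.T l F ω ≤ L.T l G ω := by
  have h1 : ∀ x, exp (L.ζ l * F (upd ω l x)) ≤ exp (L.ζ l * G (upd ω l x)) := fun x =>
    exp_le_exp.2 (mul_le_mul_of_nonneg_left (h x) (L.pos l).le)
  have h2 : Integrable (fun x => exp (L.ζ l * F (upd ω l x))) (L.μ l) :=
    hG.mono' (meas_exp hF _ ω l).aestronglyMeasurable (Filter.Eventually.of_forall fun x => by
      rw [Real.norm_of_nonneg (exp_pos _).le]
      exact h1 x)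
  exact ⟨h2, mul_le_mul_of_nonneg_left (log_le_log (integral_exp_pos h2) (integral_mono h2 hG h1))
    (inv_pos.2 (L.pos l)).le⟩

lemma T_mink (hF : Measurable F) (hA : Integrable (fun x => exp (L.ζ l * A (upd ω l x))) (L.μ l))
    (hB : Integrable (fun x => exp (L.ζ l * B (upd ω l x))) (L.μ l))
    (h : ∀ x, exp (L.ζ 0 * F (upd ω l x)) ≤
      exp (L.ζ 0 * A (upd ω l x)) + exp (L.ζ 0 * B (upd ω l x))) :
    Integrable (fun x => exp (L.ζ l * F (upd ω l x))) (L.μ l) ∧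
      exp (L.ζ 0 * L.T l F ω) ≤ exp (L.ζ 0 * L.T l A ω) + exp (L.ζ 0 * L.T l B ω) := by
  have h0 := L.pos 0
  have hl := L.pos l
  have h1 := fun x => mink_pt h0 (L.mono (Nat.zero_le l)) (L.T l A ω) (L.T l B ω) (h x)
  have hα := exp_pos (L.ζ 0 * L.T l A ω)
  have hβ := exp_pos (L.ζ 0 * L.T l B ω)
  have eA := exp_T hA
  have eB := exp_T hB
  have pA := exp_pos (L.ζ l * L.T l A ω)
  have pB := exp_pos (L.ζ l * L.T l B ω)
  generalize exp (L.ζ 0 * L.T l A ω) = α at *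
  generalize exp (L.ζ 0 * L.T l B ω) = β at *
  generalize exp (L.ζ l * L.T l A ω) = a at *
  generalize exp (L.ζ l * L.T l B ω) = b at *
  have iA := (hA.div_const a).const_mul (α / (α + β))
  have iB := (hB.div_const b).const_mul (β / (α + β))
  have i1 := (iA.add iB).const_mul ((α + β) ^ (L.ζ l / L.ζ 0))
  have h2 : Integrable (fun x => exp (L.ζ l * F (upd ω l x))) (L.μ l) :=
    i1.mono' (meas_exp hF _ ω l).aestronglyMeasurable (Filter.Eventually.of_forall fun x => by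
      rw [Real.norm_of_nonneg (exp_pos _).le]
      exact h1 x)
  refine ⟨h2, ?_⟩
  have h3 := integral_mono h2 i1 h1
  simp only [Pi.add_apply] at h3
  rw [integral_const_mul, integral_add iA iB, integral_const_mul, integral_const_mul,
    integral_div, integral_div, ← eA, ← eB, div_self pA.ne', div_self pB.ne', mul_one, mul_one,
    ← add_div, div_self (by positivity), mul_one] at h3
  have h4 := log_le_log (integral_exp_pos h2) h3
  rw [log_rpow (by positivity)] at h4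
  rw [← le_log_iff_exp_le (by positivity), Lev.T]
  calc _ ≤ L.ζ 0 * ((L.ζ l)⁻¹ * (L.ζ l / L.ζ 0 * log (α + β))) := by gcongr
    _ = _ := by field_simp

lemma meas_cmap {Ω' : Type} [MeasurableSpace Ω'] {φ : ℕ → Ω → Ω'}
    (hφ : ∀ e < K, Measurable (φ e)) : Measurable (cmap φ : Cfg K Ω → Cfg K Ω') :=
  measurable_pi_lambda _ fun i => (hφ i i.2).comp (measurable_pi_apply i)

lemma size_cmap {Ω' : Type} [MeasurableSpace Ω'] {L' : Lev K Ω'} {φ : ℕ → Ω → Ω'} {C : ℝ}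
    (hC : ∀ e x, L'.nrm (φ e x) ≤ C * (1 + L.nrm x)) (D : ℝ) (ω : Cfg K Ω) :
    D * (1 + L'.size (cmap φ ω)) ≤ |D| * (1 + |C| * (K + 1)) * (1 + L.size ω) := by
  have h0 : 0 ≤ L.size ω := Lev.size_nonneg ω
  have h0' : 0 ≤ L'.size (cmap φ ω) := Lev.size_nonneg _
  have h1 : L'.size (cmap φ ω) ≤ |C| * (K + L.size ω) := by
    calc _ ≤ ∑ i : Fin K, |C| * (1 + L.nrm (ω i)) := Finset.sum_le_sum fun i _ =>
          (hC _ _).trans (mul_le_mul_of_nonneg_right (le_abs_self C)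
            (by linarith [L.nrm_nonneg (ω i)]))
      _ = _ := by simp [← Finset.mul_sum, Finset.sum_add_distrib, Lev.size]
  have h2 : (K : ℝ) + L.size ω ≤ (K + 1) * (1 + L.size ω) := by
    nlinarith [mul_nonneg (Nat.cast_nonneg (α := ℝ) K) h0]
  have h3 := h1.trans (mul_le_mul_of_nonneg_left h2 (abs_nonneg C))
  calc _ ≤ |D| * (1 + L'.size (cmap φ ω)) :=
        mul_le_mul_of_nonneg_right (le_abs_self D) (by linarith)
    _ ≤ |D| * ((1 + |C| * (K + 1)) * (1 + L.size ω)) :=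
        mul_le_mul_of_nonneg_left (by nlinarith) (abs_nonneg D)
    _ = _ := by ring

end NI

namespace Lev

open NI

variable {K : ℕ} {Ω : Type} [MeasurableSpace Ω] {L : Lev K Ω} {H G f g k : Cfg K Ω → ℝ}

lemma Int.mono (hG : L.Int G) (hH : Measurable H) (h : ∀ ω, H ω ≤ G ω) :
    L.Int H ∧ ∀ l ω, L.X l H ω ≤ L.X l G ω := by
  have key : ∀ l ω, L.X l H ω ≤ L.X l G ω := down (K := K)
    (fun l hl ω => by rw [X_of_ge _ hl, X_of_ge _ hl]; exact h ω) fun l hl ih ω => by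
      rw [X_of_lt _ hl, X_of_lt _ hl]
      exact (T_mono (measurable_X hH _) (hG.2 l hl ω) fun x => ih _).2
  exact ⟨⟨hH, fun l hl ω => (T_mono (measurable_X hH _) (hG.2 l hl ω) fun x => key _ _).1⟩, key⟩

lemma X0_mono (hG : L.Int G) (hH : Measurable H) (h : ∀ ω, H ω ≤ G ω) : L.X0 H ≤ L.X0 G :=
  (hG.mono hH h).2 0 _

lemma Int.add_const (hH : L.Int H) (c : ℝ) :
    L.Int (fun ω => H ω + c) ∧ ∀ l ω, L.X l (fun ω => H ω + c) ω = L.X l H ω + c := by
  have key : ∀ l, L.X l (fun ω => H ω + c) = fun ω => L.X l H ω + c := down (K := K)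
    (fun l hl => by rw [X_of_ge _ hl, X_of_ge _ hl]) fun l hl ih => by
      funext ω
      rw [X_of_lt _ hl, X_of_lt _ hl, ih]
      exact (T_add_const (hH.2 l hl ω) c).2
  refine ⟨⟨hH.1.add_const c, fun l hl ω => ?_⟩, fun l ω => congrFun (key l) ω⟩
  rw [key]
  exact (T_add_const (hH.2 l hl ω) c).1

lemma X0_add_const (hH : L.Int H) (c : ℝ) : L.X0 (fun ω => H ω + c) = L.X0 H + c :=
  (hH.add_const c).2 0 _

lemma X0_const (c : ℝ) : L.X0 (fun _ => c) = c := by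
  have key : ∀ l, L.X l (fun _ => c) = fun _ => c := down (K := K)
    (fun l hl => X_of_ge _ hl _) fun l hl ih => by
      funext ω
      rw [X_of_lt _ hl, ih]
      simp [T, (L.pos l).ne']
  exact congrFun (key 0) _

/-- A summand depending only on the levels `< l` comes out. -/
lemma X_add_dep (hH : L.Int H) {l : ℕ} (hf : Dep l f) (ω : Cfg K Ω) :
    L.X l (fun ω => H ω + f ω) ω = L.X l H ω + f ω := by
  rw [← (hH.add_const (f ω)).2]
  exact X_congr_loc l ω fun ω' h => by rw [hf ω' ω h]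

lemma abs_X_sub_le (hH : L.Int H) (hG : Measurable G) {C : ℝ} (h : ∀ ω, |G ω - H ω| ≤ C) (l : ℕ)
    (ω : Cfg K Ω) : |L.X l G ω - L.X l H ω| ≤ C := by
  have h1 := (hH.add_const C).1.mono hG fun ω => by linarith [(abs_le.1 (h ω)).2]
  have h2 := (h1.1.add_const C).1.mono hH.1 fun ω => by linarith [(abs_le.1 (h ω)).1]
  have h3 := h1.2 l ω
  have h4 := h2.2 l ω
  rw [(hH.add_const C).2] at h3
  rw [(h1.1.add_const C).2] at h4
  exact abs_le.2 ⟨by linarith, by linarith⟩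

/-- Minkowski's inequality: the exponents are all at least `ζ 0`. -/
lemma minkowski (hf : L.Int f) (hg : L.Int g) (hH : Measurable H)
    (h : ∀ ω, exp (L.ζ 0 * H ω) ≤ exp (L.ζ 0 * f ω) + exp (L.ζ 0 * g ω)) :
    L.Int H ∧ exp (L.ζ 0 * L.X0 H) ≤ exp (L.ζ 0 * L.X0 f) + exp (L.ζ 0 * L.X0 g) := by
  have key : ∀ l ω, exp (L.ζ 0 * L.X l H ω) ≤ exp (L.ζ 0 * L.X l f ω) + exp (L.ζ 0 * L.X l g ω) :=
    down (K := K) (fun l hl ω => by simpa only [X_of_ge _ hl] using h ω) fun l hl ih ω => by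
      simp only [X_of_lt _ hl]
      exact (T_mink (measurable_X hH _) (hf.2 l hl ω) (hg.2 l hl ω) fun x => ih _).2
  exact ⟨⟨hH, fun l hl ω =>
    (T_mink (measurable_X hH _) (hf.2 l hl ω) (hg.2 l hl ω) fun x => key _ _).1⟩, key 0 _⟩

/-- The form in which `minkowski` is used. -/
lemma minkowski_exp (hf : L.Int f) (hg : L.Int g) (hH : Measurable H)
    (h : ∀ ω, exp (H ω) ≤ exp (f ω) + exp (g ω)) :
    L.Int H ∧ exp (L.ζ 0 * L.X0 H) ≤ exp (L.ζ 0 * L.X0 f) + exp (L.ζ 0 * L.X0 g) := by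
  refine minkowski hf hg hH fun ω => ?_
  simp only [mul_comm (L.ζ 0), exp_mul]
  exact (rpow_le_rpow (exp_pos _).le (h ω) (L.pos 0).le).trans
    (rpow_add_le_add_rpow (exp_pos _).le (exp_pos _).le (L.pos 0).le (L.le_one 0))

/-- A level on which the function does not depend is trivial. -/
lemma T_of_indep {l : ℕ} {F : Cfg K Ω → ℝ} {ω : Cfg K Ω} (h : ∀ x, F (upd ω l x) = F ω) :
    L.T l F ω = F ω := by
  simp [T, h, (L.pos l).ne']

/-- The top level. -/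
lemma exp_X0 (hK : 0 < K) (hH : L.Int H) (ω : Cfg K Ω) :
    exp (L.ζ 0 * L.X0 H) = ∫ x, exp (L.ζ 0 * L.X 1 H (upd ω 0 x)) ∂L.μ 0 := by
  rw [← X_zero H ω, X_of_lt _ hK]
  exact exp_T (hH.2 0 hK ω)

lemma exp_X0_mul_E0 (hK : 0 < K) (H f : Cfg K Ω → ℝ) (ω : Cfg K Ω) :
    exp (L.ζ 0 * L.X0 H) * L.E0 H f =
      ∫ x, exp (L.ζ 0 * L.X 1 H (upd ω 0 x)) * L.E 1 H f (upd ω 0 x) ∂L.μ 0 := by
  rw [← X_zero H ω, ← E_zero H f ω, E_of_lt _ hK, ← integral_const_mul]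
  congr 1
  funext x
  rw [← mul_assoc, ← exp_add]
  congr 2
  ring

/-- Two schemes that differ only from level `m` on. -/
lemma X_le_of_level {L' : Lev K Ω} (hζ : L'.ζ = L.ζ) {m : ℕ} (hμ : ∀ l < m, L'.μ l = L.μ l)
    (hH : Measurable H) (hG : L'.Int G) {c : ℝ} (h : ∀ ω, L.X m H ω + c ≤ L'.X m G ω) :
    ∀ l ≤ m, ∀ ω, L.X l H ω + c ≤ L'.X l G ω := by
  intro l hl
  induction hl using Nat.decreasingInduction with
  | self => exact h
  | of_succ l hl ih =>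
    intro ω
    rcases le_or_gt K l with hK | hK
    · simpa only [X_of_ge _ hK, X_of_ge _ (hK.trans (Nat.le_succ l))] using ih ω
    · have hT : L'.T l = L.T l := by
        funext F ω
        rw [T, T, hζ, hμ l hl]
      have h1 := hG.2 l hK ω
      rw [hζ, hμ l hl] at h1
      have h2 := T_add_const h1 (-c)
      have h3 := T_mono (G := fun ω => L'.X (l + 1) G ω + -c) (measurable_X (L := L) hH (l + 1))
        h2.1 fun x => by linarith [ih (upd ω l x)]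
      rw [X_of_lt _ hK, X_of_lt _ hK, hT]
      linarith [h2.2, h3.2]

section map

variable {Ω' : Type} [MeasurableSpace Ω'] {L' : Lev K Ω'} {φ : ℕ → Ω → Ω'}

lemma X_cmap (hζ : L.ζ = L'.ζ) {l : ℕ}
    (hφ : ∀ e, l ≤ e → e < K → MeasurePreserving (φ e) (L.μ e) (L'.μ e))
    {H : Cfg K Ω' → ℝ} (hH : Measurable H) (ω : Cfg K Ω) :
    L.X l (fun ω => H (cmap φ ω)) ω = L'.X l H (cmap φ ω) := by
  induction l using down (K := K) generalizing ω with
  | h1 l hl => rw [X_of_ge _ hl, X_of_ge _ hl]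
  | h2 l hl ih =>
    rw [X_of_lt _ hl, X_of_lt _ hl, T, T, ← hζ,
      ← integral_mp (hφ l le_rfl hl) (meas_exp (measurable_X hH _) _ _ _)]
    simp only [ih fun e he => hφ e (Nat.le_of_succ_le he), cmap_upd]

lemma E_cmap (hζ : L.ζ = L'.ζ) {l : ℕ}
    (hφ : ∀ e, l ≤ e → e < K → MeasurePreserving (φ e) (L.μ e) (L'.μ e))
    {H f : Cfg K Ω' → ℝ} (hH : Measurable H) (hf : Measurable f) (ω : Cfg K Ω) :
    L.E l (fun ω => H (cmap φ ω)) (fun ω => f (cmap φ ω)) ω = L'.E l H f (cmap φ ω) := by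
  induction l using down (K := K) generalizing ω with
  | h1 l hl => rw [E_of_ge _ hl, E_of_ge _ hl]
  | h2 l hl ih =>
    rw [E_of_lt _ hl, E_of_lt _ hl, ← hζ, ← integral_mp (hφ l le_rfl hl)
      ((((meas_upd (measurable_X hH _) _ _).sub_const _).const_mul _).exp.fun_mul
        (meas_upd (measurable_E hH hf _) _ _))]
    simp only [ih fun e he => hφ e (Nat.le_of_succ_le he), cmap_upd, X_cmap hζ hφ hH,
      X_cmap hζ (fun e he => hφ e (Nat.le_of_succ_le he)) hH]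

lemma X0_cmap (hζ : L.ζ = L'.ζ) (hφ : ∀ e < K, MeasurePreserving (φ e) (L.μ e) (L'.μ e))
    {H : Cfg K Ω' → ℝ} (hH : Measurable H) : L.X0 (fun ω => H (cmap φ ω)) = L'.X0 H :=
  (X_cmap hζ (fun e _ => hφ e) hH _).trans (X_zero _ _)

lemma E0_cmap (hζ : L.ζ = L'.ζ) (hφ : ∀ e < K, MeasurePreserving (φ e) (L.μ e) (L'.μ e))
    {H f : Cfg K Ω' → ℝ} (hH : Measurable H) (hf : Measurable f) :
    L.E0 (fun ω => H (cmap φ ω)) (fun ω => f (cmap φ ω)) = L'.E0 H f :=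
  (E_cmap hζ (fun e _ => hφ e) hH hf _).trans (E_zero _ _ _)

lemma Int.cmap (hζ : L.ζ = L'.ζ) (hφ : ∀ e < K, MeasurePreserving (φ e) (L.μ e) (L'.μ e))
    {H : Cfg K Ω' → ℝ} (hH : L'.Int H) : L.Int (fun ω => H (R164.cmap φ ω)) := by
  refine ⟨hH.1.comp (meas_cmap fun e he => (hφ e he).measurable), fun l hl ω => ?_⟩
  simp only [X_cmap hζ (fun e _ => hφ e) hH.1, cmap_upd, hζ]
  exact (hφ l hl).integrable_comp_of_integrable (hH.2 l hl (R164.cmap φ ω))

lemma Lin.cmap (hm : ∀ e, Measurable (φ e)) {C : ℝ} (hC : ∀ e x, L'.nrm (φ e x) ≤ C * (1 + L.nrm x))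
    {H : Cfg K Ω' → ℝ} (hH : L'.Lin H) : L.Lin (fun ω => H (R164.cmap φ ω)) := by
  obtain ⟨h1, D, h2⟩ := hH
  exact ⟨h1.comp (meas_cmap fun e _ => hm e), _, fun ω => (h2 _).trans (size_cmap hC D ω)⟩

lemma Nice.cmap (hm : ∀ e, Measurable (φ e)) {C : ℝ} (hC : ∀ e x, L'.nrm (φ e x) ≤ C * (1 + L.nrm x))
    {H : Cfg K Ω' → ℝ} (hH : L'.Nice H) : L.Nice (fun ω => H (R164.cmap φ ω)) := by
  obtain ⟨h1, D, h2⟩ := hH
  exact ⟨h1.comp (meas_cmap fun e _ => hm e), _, fun ω =>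
    (h2 _).trans (exp_le_exp.2 (size_cmap hC D ω))⟩

end map

section prod

variable {Ω₁ Ω₂ : Type} [MeasurableSpace Ω₁] [MeasurableSpace Ω₂] {L₁ : Lev K Ω₁} {L₂ : Lev K Ω₂}
  {π₁ : ℕ → Ω → Ω₁} {π₂ : ℕ → Ω → Ω₂} {H₁ f₁ : Cfg K Ω₁ → ℝ} {H₂ f₂ : Cfg K Ω₂ → ℝ}

/-- Independent systems: the power means add. -/
lemma X_prod (hζ₁ : L.ζ = L₁.ζ) (hζ₂ : L.ζ = L₂.ζ)
    (hπ : ∀ e < K, MeasurePreserving (fun x => (π₁ e x, π₂ e x)) (L.μ e) ((L₁.μ e).prod (L₂.μ e)))
    (h₁ : L₁.Int H₁) (h₂ : L₂.Int H₂) :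
    L.Int (fun ω => H₁ (cmap π₁ ω) + H₂ (cmap π₂ ω)) ∧ ∀ l ω,
      L.X l (fun ω => H₁ (cmap π₁ ω) + H₂ (cmap π₂ ω)) ω =
        L₁.X l H₁ (cmap π₁ ω) + L₂.X l H₂ (cmap π₂ ω) := by
  have key : ∀ l ω, L.X l (fun ω => H₁ (cmap π₁ ω) + H₂ (cmap π₂ ω)) ω =
      L₁.X l H₁ (cmap π₁ ω) + L₂.X l H₂ (cmap π₂ ω) := down (K := K)
    (fun l hl ω => by simp only [X_of_ge _ hl]) fun l hl ih ω => by
      have i1 := h₁.2 l hl (cmap π₁ ω)
      have i2 := h₂.2 l hl (cmap π₂ ω)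
      have e := integral_mp (hπ l hl)
        (((meas_exp (measurable_X (L := L₁) h₁.1 (l + 1)) (L₁.ζ l) (cmap π₁ ω) l).comp
          measurable_fst).fun_mul ((meas_exp (measurable_X (L := L₂) h₂.1 (l + 1)) (L₂.ζ l)
            (cmap π₂ ω) l).comp measurable_snd))
      simp only [Function.comp_apply] at e
      rw [integral_prod_mul (fun x => exp (L₁.ζ l * L₁.X (l + 1) H₁ (upd (cmap π₁ ω) l x)))
        (fun x => exp (L₂.ζ l * L₂.X (l + 1) H₂ (upd (cmap π₂ ω) l x)))] at e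
      simp only [X_of_lt _ hl, T, ih, cmap_upd, mul_add, exp_add]
      rw [← hζ₁] at e i1 ⊢
      rw [← hζ₂] at e i2 ⊢
      rw [e, log_mul (integral_exp_pos i1).ne' (integral_exp_pos i2).ne', mul_add]
  refine ⟨⟨(h₁.1.comp (meas_cmap fun e he => (hπ e he).measurable.fst)).add
    (h₂.1.comp (meas_cmap fun e he => (hπ e he).measurable.snd)), fun l hl ω => ?_⟩, key⟩
  have i := (hπ l hl).integrable_comp_of_integrable
    ((h₁.2 l hl (cmap π₁ ω)).mul_prod (h₂.2 l hl (cmap π₂ ω)))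
  rw [← hζ₁, ← hζ₂] at i
  simp only [key, cmap_upd, mul_add, exp_add]
  exact i

/-- Independent systems: the expectations factor. -/
lemma E_prod (hζ₁ : L.ζ = L₁.ζ) (hζ₂ : L.ζ = L₂.ζ)
    (hπ : ∀ e < K, MeasurePreserving (fun x => (π₁ e x, π₂ e x)) (L.μ e) ((L₁.μ e).prod (L₂.μ e)))
    (h₁ : L₁.Lin H₁) (h₂ : L₂.Lin H₂) (hf₁ : L₁.Nice f₁) (hf₂ : L₂.Nice f₂) (l : ℕ) (ω : Cfg K Ω) :
    L.E l (fun ω => H₁ (cmap π₁ ω) + H₂ (cmap π₂ ω))
        (fun ω => f₁ (cmap π₁ ω) * f₂ (cmap π₂ ω)) ω =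
      L₁.E l H₁ f₁ (cmap π₁ ω) * L₂.E l H₂ f₂ (cmap π₂ ω) := by
  induction l using down (K := K) generalizing ω with
  | h1 l hl => simp only [E_of_ge _ hl]
  | h2 l hl ih =>
    have m1 := (((meas_upd (measurable_X (L := L₁) h₁.1 (l + 1)) (cmap π₁ ω) l).sub_const
      (L₁.X l H₁ (cmap π₁ ω))).const_mul (L₁.ζ l)).exp.fun_mul
        (meas_upd (measurable_E (L := L₁) h₁.1 hf₁.1 (l + 1)) (cmap π₁ ω) l)
    have m2 := (((meas_upd (measurable_X (L := L₂) h₂.1 (l + 1)) (cmap π₂ ω) l).sub_const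
      (L₂.X l H₂ (cmap π₂ ω))).const_mul (L₂.ζ l)).exp.fun_mul
        (meas_upd (measurable_E (L := L₂) h₂.1 hf₂.1 (l + 1)) (cmap π₂ ω) l)
    rw [E_of_lt _ hl, E_of_lt _ hl, E_of_lt _ hl, ← integral_prod_mul]
    refine Eq.trans ?_ (integral_mp (hπ l hl)
      ((m1.comp measurable_fst).fun_mul (m2.comp measurable_snd)))
    congr 1
    funext x
    simp only [ih, (X_prod hζ₁ hζ₂ hπ h₁.int h₂.int).2, cmap_upd, ← hζ₁, ← hζ₂]
    rw [mul_mul_mul_comm, ← exp_add]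
    congr 2
    ring

lemma E_prod_left (hζ₁ : L.ζ = L₁.ζ) (hζ₂ : L.ζ = L₂.ζ)
    (hπ : ∀ e < K, MeasurePreserving (fun x => (π₁ e x, π₂ e x)) (L.μ e) ((L₁.μ e).prod (L₂.μ e)))
    (h₁ : L₁.Lin H₁) (h₂ : L₂.Lin H₂) (hf₁ : L₁.Nice f₁) (l : ℕ) (ω : Cfg K Ω) :
    L.E l (fun ω => H₁ (cmap π₁ ω) + H₂ (cmap π₂ ω)) (fun ω => f₁ (cmap π₁ ω)) ω =
      L₁.E l H₁ f₁ (cmap π₁ ω) := by
  simpa only [mul_one, E_const h₂] using E_prod hζ₁ hζ₂ hπ h₁ h₂ hf₁ (nice_const 1) l ω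

/-- A finite family of independent systems. -/
lemma X_pi {ι : Type} [Fintype ι] {pr : ι → ℕ → Ω → Ω₁} {F : ι → Cfg K Ω₁ → ℝ} (hζ : L.ζ = L₁.ζ)
    (hπ : ∀ e < K, MeasurePreserving (fun x r => pr r e x) (L.μ e) (Measure.pi fun _ : ι => L₁.μ e))
    (hF : ∀ r, L₁.Int (F r)) :
    L.Int (fun ω => ∑ r, F r (cmap (pr r) ω)) ∧ ∀ l ω,
      L.X l (fun ω => ∑ r, F r (cmap (pr r) ω)) ω = ∑ r, L₁.X l (F r) (cmap (pr r) ω) := by
  have key : ∀ l ω, L.X l (fun ω => ∑ r, F r (cmap (pr r) ω)) ω =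
      ∑ r, L₁.X l (F r) (cmap (pr r) ω) := down (K := K)
    (fun l hl ω => by simp only [X_of_ge _ hl]) fun l hl ih ω => by
      have e := integral_mp (hπ l hl) (Finset.measurable_fun_prod Finset.univ fun r _ =>
        (meas_exp (measurable_X (L := L₁) (hF r).1 (l + 1)) (L₁.ζ l) (cmap (pr r) ω) l).comp
          (measurable_pi_apply r))
      simp only [Function.comp_apply] at e
      rw [integral_fintype_prod_eq_prod
        (fun r x => exp (L₁.ζ l * L₁.X (l + 1) (F r) (upd (cmap (pr r) ω) l x)))] at e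
      simp only [X_of_lt _ hl, T, ih, cmap_upd, Finset.mul_sum, exp_sum, hζ]
      rw [e, log_prod fun r _ => (integral_exp_pos ((hF r).2 l hl _)).ne', Finset.mul_sum]
  refine ⟨⟨Finset.measurable_fun_sum _ fun r _ => (hF r).1.comp (meas_cmap fun e he =>
    (measurable_pi_apply r).comp (hπ e he).measurable), fun l hl ω => ?_⟩, key⟩
  have i := (hπ l hl).integrable_comp_of_integrable
    (Integrable.fintype_prod fun r => (hF r).2 l hl (cmap (pr r) ω))
  simp only [key, cmap_upd, Finset.mul_sum, exp_sum, hζ]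
  exact i

end prod

end Lev

end Crest.Agent.R164
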