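import Crest.Agent.R164.OneStep

/-! # Row 164: the key one-step correlation inequality -/

set_option autoImplicit false

namespace Crest.Agent.R164

open MeasureTheory ProbabilityTheory Real Finset Crest.ProbabilityR.InvariantGlass

variable {f f1 f2 F F1 G G1 : ℝ → ℝ} {ζ v : ℝ}

namespace OneB

lemma alg {ζ c l Xc Xl Xp Xm gp gm α β Vc Vl : ℝ} (hζ : 0 < ζ) (hc : 0 < c) (hl : 0 < l)
    (hgp : 0 ≤ gp) (hgm : 0 ≤ gm) (hα : 0 ≤ α) (hβ : 0 ≤ β) (hVc : 0 ≤ Vc) (hVl : 0 ≤ Vl)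
    (hcs : (c * l) ^ 2 ≤ Vc * Vl) (h1 : Xc = α + ζ * (Vc + c * l)) (h2 : Xl = β + ζ * (Vl + c * l))
    (h3 : Xc * gp ≤ Xp * c) (h4 : Xl * gm ≤ Xm * l) :
    ζ * gp * l * (Xc + Xl) + ζ * c * gm * (Xc + Xl) ≤ Xp * Xl + Xc * Xm := by
  have e1 : (ζ * (c * l)) ^ 2 ≤ (α + ζ * Vc) * (β + ζ * Vl) := by
    calc (ζ * (c * l)) ^ 2 = ζ ^ 2 * (c * l) ^ 2 := by ring
      _ ≤ ζ ^ 2 * (Vc * Vl) := by gcongr
      _ = (ζ * Vc) * (ζ * Vl) := by ring
      _ ≤ _ := by gcongr <;> linarith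
  have key : ζ * (c * l) * (Xc + Xl) ≤ Xc * Xl := by rw [h1, h2]; nlinarith
  have hXc : 0 ≤ Xc := by rw [h1]; positivity
  have hXl : 0 ≤ Xl := by rw [h2]; positivity
  have e2 : ζ * gp * l * (Xc + Xl) ≤ Xp * Xl := by
    refine le_of_mul_le_mul_left ?_ hc
    calc c * (ζ * gp * l * (Xc + Xl)) = gp * (ζ * (c * l) * (Xc + Xl)) := by ring
      _ ≤ gp * (Xc * Xl) := by gcongr
      _ = (Xc * gp) * Xl := by ring
      _ ≤ (Xp * c) * Xl := by gcongr
      _ = _ := by ring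
  have e3 : ζ * c * gm * (Xc + Xl) ≤ Xc * Xm := by
    refine le_of_mul_le_mul_left ?_ hl
    calc l * (ζ * c * gm * (Xc + Xl)) = gm * (ζ * (c * l) * (Xc + Xl)) := by ring
      _ ≤ gm * (Xc * Xl) := by gcongr
      _ = Xc * (Xl * gm) := by ring
      _ ≤ Xc * (Xm * l) := by gcongr
      _ = _ := by ring
  linarith

section abstract

variable {P : Measure ℝ} [IsProbabilityMeasure P] {A B : ℝ → ℝ}

omit [IsProbabilityMeasure P] in
lemma cov_self_nonneg (A : ℝ → ℝ) : 0 ≤ cov[A, A; P] :=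
  integral_nonneg fun _ => mul_self_nonneg _

lemma cov_sq_le (hA : MemLp A 2 P) (hB : MemLp B 2 P) :
    cov[A, B; P] ^ 2 ≤ cov[A, A; P] * cov[B, B; P] := by
  have h := discrim_le_zero (a := cov[A, A; P]) (b := 2 * cov[A, B; P]) (c := cov[B, B; P])
    fun t => by
      have h1 := cov_self_nonneg (P := P) (t • A + B)
      have hA' := hA.const_smul t
      rw [covariance_add_left hA' hB (hA'.add hB), covariance_add_right hA' hA' hB,
        covariance_add_right hB hA' hB, covariance_smul_left, covariance_smul_left,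
        covariance_smul_right, covariance_smul_right, covariance_comm B A] at h1
      linarith
  rw [discrim] at h
  linarith

lemma cov_eq (hA : MemLp A 2 P) (hB : MemLp B 2 P) :
    cov[A, B; P] = ∫ y, A y * B y ∂P - (∫ y, A y ∂P) * ∫ y, B y ∂P := covariance_eq_sub hA hB

lemma cov_disj (hA : MemLp A 2 P) (hB : MemLp B 2 P) (h : ∀ y, A y * B y = 0) :
    cov[A, B; P] = -((∫ y, A y ∂P) * ∫ y, B y ∂P) := by
  rw [cov_eq hA hB]
  simp [h]

/-- The likelihood ratio inequality. -/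
lemma lr (hid : MemLp id 2 P) (hA : MemLp A 2 P) (hB : MemLp B 2 P) (hB0 : 0 < ∫ y, B y ∂P)
    (h : ∀ t, ∃ ρ, ∀ y, 0 ≤ (A y - ρ * B y) * (y - t)) :
    cov[B, id; P] * ∫ y, A y ∂P ≤ cov[A, id; P] * ∫ y, B y ∂P := by
  obtain ⟨ρ, hρ⟩ := h ((∫ y, B y * y ∂P) / ∫ y, B y ∂P)
  set t := (∫ y, B y * y ∂P) / ∫ y, B y ∂P with ht
  have h1 : 0 ≤ ∫ y, (A y - ρ * B y) * (y - t) ∂P := integral_nonneg hρ
  have iA := hA.integrable one_le_two
  have iB := hB.integrable one_le_two
  have jA : Integrable (fun y => A y * y) P := hA.integrable_mul hid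
  have jB : Integrable (fun y => B y * y) P := hB.integrable_mul hid
  have h2 : ∫ y, (A y - ρ * B y) * (y - t) ∂P =
      (∫ y, A y * y ∂P - t * ∫ y, A y ∂P) - ρ * (∫ y, B y * y ∂P - t * ∫ y, B y ∂P) := by
    have kA : Integrable (fun y => A y * y - t * A y) P := jA.sub (iA.const_mul _)
    have kB : Integrable (fun y => B y * y - t * B y) P := jB.sub (iB.const_mul _)
    rw [← integral_const_mul, ← integral_const_mul, ← integral_sub jA (iA.const_mul _),
      ← integral_sub jB (iB.const_mul _), ← integral_const_mul, ← integral_sub kA (kB.const_mul _)]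
    congr 1
    funext y
    ring
  have h3 : t * ∫ y, B y ∂P = ∫ y, B y * y ∂P := div_mul_cancel₀ _ hB0.ne'
  rw [h2, h3, sub_self, mul_zero, sub_zero] at h1
  rw [cov_eq hA hid, cov_eq hB hid]
  simp only [id]
  rw [← h3]
  nlinarith [mul_nonneg h1 hB0.le]

omit [IsProbabilityMeasure P] in
lemma memLp_id (hP : ∀ c : ℝ, Integrable (fun y => exp (c * |y|)) P) : MemLp id 2 P := by
  refine (memLp_two_iff_integrable_sq (by fun_prop)).2 ((hP 2).mono' (by fun_prop) ?_)
  refine Filter.Eventually.of_forall fun y => ?_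
  have h1 : |y| ≤ exp |y| := by linarith [add_one_le_exp |y|]
  have h2 : exp (2 * |y|) = exp |y| ^ 2 := by rw [← exp_nat_mul]; norm_num
  rw [h2, Real.norm_eq_abs, id, abs_pow]
  gcongr

lemma memLp_lip (hid : MemLp id 2 P) {C : NNReal} (hA : LipschitzWith C A) : MemLp A 2 P := by
  have h1 : MemLp (fun y => A y - A 0) 2 P := by
    refine hid.of_le_mul (c := C) (hA.continuous.sub continuous_const).aestronglyMeasurable
      (Filter.Eventually.of_forall fun y => ?_)
    simpa [Real.dist_eq] using hA.dist_le_mul y 0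
  have h2 := h1.add (memLp_const (A 0))
  convert h2 using 1
  funext y
  simp

lemma integrable_bdd (hA : Measurable A) {C : ℝ} (h : ∀ y, |A y| ≤ C) : Integrable A P :=
  (integrable_const C).mono' hA.aestronglyMeasurable (Filter.Eventually.of_forall h)

end abstract

lemma f1_mono (h : Good f f1 f2) : StrictMono f1 := strictMono_of_hasDerivAt_pos h.d2 h.pos

lemma cvx_self (h : Good f f1 f2) : Cvx f2 f1 f2 where
  d := h.d2
  cont := h.cont
  bdd := ⟨1, fun x => by rw [abs_of_pos (h.pos x), one_mul]⟩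
  mono := fun x y _ => by simp only [div_self (h.pos _).ne', le_refl]

lemma slope (h : Good f f1 f2) (hG : Cvx f2 G G1) {a b : ℝ} (hab : a < b) :
    ∃ ξ, a < ξ ∧ ξ < b ∧ G b - G a = G1 ξ / f2 ξ * (f1 b - f1 a) := by
  obtain ⟨ξ, hξ, e⟩ := exists_ratio_hasDerivAt_eq_ratio_slope G G1 hab
    (fun x _ => (hG.d x).continuousAt.continuousWithinAt) (fun x _ => hG.d x) f1 f2
    (fun x _ => (h.d2 x).continuousAt.continuousWithinAt) (fun x _ => h.d2 x)
  refine ⟨ξ, hξ.1, hξ.2, ?_⟩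
  have := h.pos ξ
  field_simp
  linarith

lemma tangent (h : Good f f1 f2) (hG : Cvx f2 G G1) (y₀ y : ℝ) :
    G1 y₀ / f2 y₀ * (f1 y - f1 y₀) ≤ G y - G y₀ := by
  rcases lt_trichotomy y y₀ with hy | rfl | hy
  · obtain ⟨ξ, -, h2, e⟩ := slope h hG hy
    have h3 : G1 ξ / f2 ξ ≤ G1 y₀ / f2 y₀ := hG.mono h2.le
    have h4 := f1_mono h hy
    nlinarith
  · simp
  · obtain ⟨ξ, h1, -, e⟩ := slope h hG hy
    have h3 : G1 y₀ / f2 y₀ ≤ G1 ξ / f2 ξ := hG.mono h1.le
    have h4 := f1_mono h hy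
    nlinarith

lemma three (h : Good f f1 f2) (hG : Cvx f2 G G1) {a b c : ℝ} (hab : a < b) (hbc : b < c) :
    (G b - G a) * (f1 c - f1 b) ≤ (G c - G b) * (f1 b - f1 a) := by
  obtain ⟨ξ, -, h1, e1⟩ := slope h hG hab
  obtain ⟨η, h2, -, e2⟩ := slope h hG hbc
  have h3 : G1 ξ / f2 ξ ≤ G1 η / f2 η := hG.mono (h1.trans h2).le
  have h4 := sub_pos.2 (f1_mono h hab)
  have h5 := sub_pos.2 (f1_mono h hbc)
  rw [e1, e2]
  nlinarith [mul_nonneg (sub_nonneg.2 h3) (mul_pos h4 h5).le]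

/-- The part of `G` to the right of `y₀`. -/
noncomputable def up (G : ℝ → ℝ) (y₀ y : ℝ) : ℝ := G (max y y₀) - G y₀

/-- The part of `G` to the left of `y₀`. -/
noncomputable def dn (G : ℝ → ℝ) (y₀ y : ℝ) : ℝ := G (min y y₀) - G y₀

lemma up_of_le {y₀ y : ℝ} (hy : y ≤ y₀) : up G y₀ y = 0 := by simp [up, max_eq_right hy]
lemma up_of_ge {y₀ y : ℝ} (hy : y₀ ≤ y) : up G y₀ y = G y - G y₀ := by simp [up, max_eq_left hy]
lemma dn_of_le {y₀ y : ℝ} (hy : y ≤ y₀) : dn G y₀ y = G y - G y₀ := by simp [dn, min_eq_left hy]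
lemma dn_of_ge {y₀ y : ℝ} (hy : y₀ ≤ y) : dn G y₀ y = 0 := by simp [dn, min_eq_right hy]

lemma up_mul_dn (F G : ℝ → ℝ) (y₀ y : ℝ) : up F y₀ y * dn G y₀ y = 0 := by
  rcases le_total y y₀ with hy | hy
  · rw [up_of_le hy, zero_mul]
  · rw [dn_of_ge hy, mul_zero]

lemma split (G : ℝ → ℝ) (y₀ : ℝ) : G = fun y => (up G y₀ + dn G y₀) y + G y₀ := by
  funext y
  rcases le_total y y₀ with hy | hy
  · simp [up_of_le hy, dn_of_le hy]
  · simp [up_of_ge hy, dn_of_ge hy]

lemma up_lip {C : NNReal} (hG : LipschitzWith C G) (y₀ : ℝ) : LipschitzWith C (up G y₀) := by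
  have h := hG.comp (LipschitzWith.id.max_const y₀)
  rw [mul_one] at h
  refine LipschitzWith.of_dist_le_mul fun x y => ?_
  simpa [up, dist_sub_right] using h.dist_le_mul x y

lemma dn_lip {C : NNReal} (hG : LipschitzWith C G) (y₀ : ℝ) : LipschitzWith C (dn G y₀) := by
  have h := hG.comp (LipschitzWith.id.min_const y₀)
  rw [mul_one] at h
  refine LipschitzWith.of_dist_le_mul fun x y => ?_
  simpa [dn, dist_sub_right] using h.dist_le_mul x y

lemma up_deriv (hG : ∀ y, HasDerivAt G (G1 y) y) {y₀ y : ℝ} (hy : y ≠ y₀) :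
    HasDerivAt (up G y₀) (if y₀ < y then G1 y else 0) y := by
  rcases hy.lt_or_gt with hy | hy
  · rw [if_neg hy.not_gt]
    refine (hasDerivAt_const y (0 : ℝ)).congr_of_eventuallyEq ?_
    filter_upwards [Iio_mem_nhds hy] with z hz using up_of_le (le_of_lt hz)
  · rw [if_pos hy]
    refine ((hG y).sub_const (G y₀)).congr_of_eventuallyEq ?_
    filter_upwards [Ioi_mem_nhds hy] with z hz using up_of_ge (le_of_lt hz)

lemma call_eq (h : Good f f1 f2) (y₀ : ℝ) : (fun y => max (f1 y - f1 y₀) 0) = up f1 y₀ := by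
  funext y
  rcases le_total y y₀ with hy | hy
  · rw [up_of_le hy, max_eq_right (sub_nonpos.2 ((f1_mono h).monotone hy))]
  · rw [up_of_ge hy, max_eq_left (sub_nonneg.2 ((f1_mono h).monotone hy))]

lemma lr_up (h : Good f f1 f2) (hG : Cvx f2 G G1) (y₀ t : ℝ) :
    ∃ ρ, ∀ y, 0 ≤ (up G y₀ y - ρ * up f1 y₀ y) * (y - t) := by
  rcases le_or_gt t y₀ with ht | ht
  · refine ⟨G1 y₀ / f2 y₀, fun y => ?_⟩
    rcases le_total y y₀ with hy | hy
    · simp [up_of_le hy]
    · rw [up_of_ge hy, up_of_ge hy]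
      exact mul_nonneg (sub_nonneg.2 (tangent h hG y₀ y)) (by linarith)
  · have h1 := sub_pos.2 (f1_mono h ht)
    refine ⟨(G t - G y₀) / (f1 t - f1 y₀), fun y => ?_⟩
    rcases le_or_gt y y₀ with hy | hy
    · simp [up_of_le hy]
    · rw [up_of_ge hy.le, up_of_ge hy.le]
      rcases lt_trichotomy y t with hyt | rfl | hyt
      · refine mul_nonneg_of_nonpos_of_nonpos ?_ (by linarith)
        rw [sub_nonpos, div_mul_eq_mul_div, le_div_iff₀ h1]
        linarith [three h hG hy hyt]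
      · simp
      · refine mul_nonneg ?_ (by linarith)
        rw [sub_nonneg, div_mul_eq_mul_div, div_le_iff₀ h1]
        linarith [three h hG ht hyt]

lemma lr_dn (h : Good f f1 f2) (hG : Cvx f2 G G1) (y₀ t : ℝ) :
    ∃ ρ, ∀ y, 0 ≤ ((-dn G y₀) y - ρ * (-dn f1 y₀) y) * (y - t) := by
  simp only [Pi.neg_apply]
  rcases le_or_gt y₀ t with ht | ht
  · refine ⟨G1 y₀ / f2 y₀, fun y => ?_⟩
    rcases le_total y₀ y with hy | hy
    · simp [dn_of_ge hy]
    · rw [dn_of_le hy, dn_of_le hy]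
      exact mul_nonneg_of_nonpos_of_nonpos (by linarith [tangent h hG y₀ y]) (by linarith)
  · have h1 := sub_pos.2 (f1_mono h ht)
    refine ⟨(G y₀ - G t) / (f1 y₀ - f1 t), fun y => ?_⟩
    rcases le_or_gt y₀ y with hy | hy
    · simp [dn_of_ge hy]
    · rw [dn_of_le hy.le, dn_of_le hy.le]
      rcases lt_trichotomy y t with hyt | rfl | hyt
      · refine mul_nonneg_of_nonpos_of_nonpos ?_ (by linarith)
        rw [sub_nonpos, div_mul_eq_mul_div, le_div_iff₀ h1]
        linarith [three h hG hyt ht]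
      · simp
      · refine mul_nonneg ?_ (by linarith)
        rw [sub_nonneg, div_mul_eq_mul_div, div_le_iff₀ h1]
        linarith [three h hG hyt hy]

lemma Cv_eq {P : Measure ℝ} [IsProbabilityMeasure P] {x : ℝ}
    (hP : ∀ G : ℝ → ℝ, Measurable G → Ag ζ v f G x = ∫ y, G y ∂P) (hid : MemLp id 2 P)
    {A B : ℝ → ℝ} {C D : NNReal} (hA : LipschitzWith C A) (hB : LipschitzWith D B) :
    Cv ζ v f A B x = cov[A, B; P] := by
  have h1 := hA.continuous.measurable
  have h2 := hB.continuous.measurable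
  rw [cov_eq (memLp_lip hid hA) (memLp_lip hid hB), Cv, hP _ h1, hP _ h2,
    hP (fun y => A y * B y) (h1.mul h2)]

lemma integral_pos {P : Measure ℝ} (hP : ∀ s : Set ℝ, MeasurableSet s → (P s = 0 ↔ volume s = 0))
    {A : ℝ → ℝ} (hA : Integrable A P) (h0 : ∀ y, 0 ≤ A y) {a b : ℝ} (hab : a < b)
    (h1 : ∀ y ∈ Set.Ioo a b, 0 < A y) : 0 < ∫ y, A y ∂P := by
  refine (integral_pos_iff_support_of_nonneg h0 hA).2 (pos_iff_ne_zero.2 fun h => ?_)
  have h2 : P (Set.Ioo a b) = 0 := measure_mono_null (fun y hy => (h1 y hy).ne') h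
  rw [hP _ measurableSet_Ioo, Real.volume_Ioo, ENNReal.ofReal_eq_zero] at h2
  linarith

lemma measurable_cut (hG : Continuous G1) (y₀ : ℝ) :
    Measurable fun y => if y₀ < y then G1 y else 0 :=
  Measurable.ite measurableSet_Ioi hG.measurable measurable_const

end OneB

open OneB in
/-- The inequality for a call `(f1 - f1 y₀)₊` against a convex function. -/
theorem b_call (h : Good f f1 f2) (hζ : 0 < ζ) (hv : 0 < v) (hG : Cvx f2 G G1) (y₀ x : ℝ) :
    Cv ζ v f (fun y => max (f1 y - f1 y₀) 0) id x / v * (Cv ζ v f G id x / v) ≤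
      (Ag ζ v f (fun y => if y₀ < y then G1 y else 0) x +
        ζ * Cv ζ v f (fun y => max (f1 y - f1 y₀) 0) G x) * (Cv ζ v f f1 id x / v) := by
  obtain ⟨P, hP, hexp, hAg, hnull⟩ := exists_tilt h.lip ζ v x
  have hid := memLp_id hexp
  obtain ⟨CG, lG⟩ := hG.lip h
  obtain ⟨Cm, lm⟩ := (cvx_self h).lip h
  obtain ⟨C2, hC2⟩ := h.bdd
  have lu := up_lip lm y₀
  have ld := dn_lip lm y₀
  have luG := up_lip lG y₀
  have ldG := dn_lip lG y₀
  have mu := memLp_lip hid lu
  have md := memLp_lip hid ld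
  have muG := memLp_lip hid luG
  have mdG := memLp_lip hid ldG
  have mm := memLp_lip hid lm
  have s1 := stein_Ag (ζ := ζ) h hv lu (measurable_cut h.cont y₀) (Set.finite_singleton y₀)
    (fun y hy => up_deriv h.d2 hy) x
  have s2 := stein_Ag (ζ := ζ) h hv luG (measurable_cut hG.cont y₀) (Set.finite_singleton y₀)
    (fun y hy => up_deriv hG.d hy) x
  have s3 := stein_Ag (ζ := ζ) h hv lm h.cont.measurable Set.finite_empty (fun y _ => h.d2 y) x
  rw [call_eq h]
  rw [Cv_eq hAg hid lu lm, Cv_eq hAg hid lu LipschitzWith.id,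
    hAg _ (measurable_cut h.cont y₀)] at s1
  rw [Cv_eq hAg hid luG lm, Cv_eq hAg hid luG LipschitzWith.id] at s2
  rw [Cv_eq hAg hid lm lm, Cv_eq hAg hid lm LipschitzWith.id, hAg _ h.cont.measurable] at s3
  rw [Cv_eq hAg hid lu LipschitzWith.id, Cv_eq hAg hid lG LipschitzWith.id, Cv_eq hAg hid lu lG,
    Cv_eq hAg hid lm LipschitzWith.id]
  have sL : ∀ {A B : ℝ → ℝ}, MemLp (up A y₀) 2 P → MemLp (dn A y₀) 2 P → MemLp B 2 P →
      cov[A, B; P] = cov[up A y₀, B; P] + cov[dn A y₀, B; P] := fun {A B} h1 h2 h3 => by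
    rw [← covariance_add_left h1 h2 h3,
      ← covariance_add_const_left ((h1.add h2).integrable one_le_two) (A y₀), ← split]
  have sR : ∀ {A B : ℝ → ℝ}, MemLp (up A y₀) 2 P → MemLp (dn A y₀) 2 P → MemLp B 2 P →
      cov[B, A; P] = cov[B, up A y₀; P] + cov[B, dn A y₀; P] := fun {A B} h1 h2 h3 => by
    rw [covariance_comm, sL h1 h2 h3, covariance_comm, covariance_comm (dn A y₀)]
  have d1 := cov_disj mu md (up_mul_dn _ _ _)
  have d2 := cov_disj mu mdG (up_mul_dn _ _ _)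
  have d3 := cov_disj muG md (up_mul_dn _ _ _)
  have e1 := sL muG mdG hid
  have e2 := sL mu md hid
  have e3 := sR muG mdG mu
  have e4 := sR mu md muG
  have e5 := sR mu md mu
  have e6 := sR mu md md
  have e7 := sL mu md mm
  have hc : 0 < ∫ y, up f1 y₀ y ∂P := by
    refine integral_pos (hnull hv) (mu.integrable one_le_two) (fun y => ?_) (lt_add_one y₀)
      fun y hy => ?_
    · rw [← call_eq h]; exact le_max_right _ _
    · rw [up_of_ge hy.1.le]; exact sub_pos.2 (f1_mono h hy.1)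
  have hl : 0 < ∫ y, (-dn f1 y₀) y ∂P := by
    refine integral_pos (hnull hv) (md.neg.integrable one_le_two) (fun y => ?_) (sub_one_lt y₀)
      fun y hy => ?_
    · exact neg_nonneg.2 (sub_nonpos.2 ((f1_mono h).monotone (min_le_right _ _)))
    · rw [Pi.neg_apply, dn_of_le hy.2.le]; exact neg_pos.2 (sub_neg.2 (f1_mono h hy.2))
  have r1 := lr hid muG mu hc (lr_up h hG y₀)
  have r2 := lr hid mdG.neg md.neg hl (lr_dn h hG y₀)
  simp only [Pi.neg_apply, integral_neg, covariance_neg_left] at r2 hl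
  have gp : G1 y₀ / f2 y₀ * ∫ y, up f1 y₀ y ∂P ≤ ∫ y, up G y₀ y ∂P := by
    rw [← integral_const_mul]
    exact integral_mono ((mu.integrable one_le_two).const_mul _) (muG.integrable one_le_two)
      fun y => tangent h hG y₀ _
  have gm : G1 y₀ / f2 y₀ * ∫ y, dn f1 y₀ y ∂P ≤ ∫ y, dn G y₀ y ∂P := by
    rw [← integral_const_mul]
    exact integral_mono ((md.integrable one_le_two).const_mul _) (mdG.integrable one_le_two)
      fun y => tangent h hG y₀ _
  have hα : 0 ≤ ∫ y, (if y₀ < y then f2 y else 0) ∂P :=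
    integral_nonneg fun y => by dsimp only [Pi.zero_apply]; split_ifs; exacts [(h.pos y).le, le_rfl]
  have hβ : ∫ y, (if y₀ < y then f2 y else 0) ∂P ≤ ∫ y, f2 y ∂P :=
    integral_mono_of_nonneg (Filter.Eventually.of_forall fun y => by
      dsimp only [Pi.zero_apply]; split_ifs; exacts [(h.pos y).le, le_rfl])
      (integrable_bdd h.cont.measurable fun y => (abs_of_pos (h.pos y)).trans_le (hC2 y))
      (Filter.Eventually.of_forall fun y => by
        dsimp only; split_ifs; exacts [le_rfl, (h.pos y).le])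
  have cs := cov_sq_le mu md
  rw [covariance_comm (dn f1 y₀) (up f1 y₀)] at e6
  rw [covariance_comm (up G y₀) (up f1 y₀)] at e4
  have key := alg (ζ := ζ) (c := ∫ y, up f1 y₀ y ∂P) (l := -∫ y, dn f1 y₀ y ∂P)
    (Xc := cov[up f1 y₀, id; P] / v) (Xl := cov[dn f1 y₀, id; P] / v)
    (Xp := (cov[up G y₀, id; P] - G1 y₀ / f2 y₀ * cov[up f1 y₀, id; P]) / v)
    (Xm := -(cov[dn G y₀, id; P] - G1 y₀ / f2 y₀ * cov[dn f1 y₀, id; P]) / v)
    (Vc := cov[up f1 y₀, up f1 y₀; P]) (Vl := cov[dn f1 y₀, dn f1 y₀; P])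
    hζ hc hl (sub_nonneg.2 gp) (sub_nonneg.2 gm) hα (sub_nonneg.2 hβ) (cov_self_nonneg _)
    (cov_self_nonneg _) (by rw [d1] at cs; linarith) (by rw [← s1, e5, d1]; ring)
    (by
      rw [e2, add_div, ← s1, e7, e6, d1] at s3
      linarith)
    (by
      have := mul_le_mul_of_nonneg_right r1 (inv_nonneg.2 hv.le)
      simp only [div_eq_mul_inv]
      linarith)
    (by
      have := mul_le_mul_of_nonneg_right r2 (inv_nonneg.2 hv.le)
      simp only [div_eq_mul_inv]
      linarith)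
  have s4 : Ag ζ v f (fun y => if y₀ < y then G1 y else 0) x + ζ * cov[up f1 y₀, G; P] =
      cov[up G y₀, id; P] / v + ζ * ((∫ y, up G y₀ y ∂P) * ∫ y, dn f1 y₀ y ∂P) -
        ζ * ((∫ y, up f1 y₀ y ∂P) * ∫ y, dn G y₀ y ∂P) := by
    rw [← s2, e3, e4, d2, d3]; ring
  rw [s4, e1, e2]
  simp only [div_eq_mul_inv] at key ⊢
  linarith

namespace OneB

section cone

variable {P : Measure ℝ} [IsProbabilityMeasure P] {a Φ r R : ℝ → ℝ}

/-- `Φ` is a primitive of `a * f2`. -/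
structure Pair (P : Measure ℝ) (f2 a Φ : ℝ → ℝ) : Prop where
  meas : Measurable a
  bdd : ∃ C, ∀ y, |a y| ≤ C
  cont : Continuous Φ
  mem : MemLp Φ 2 P
  der : ∃ S : Set ℝ, S.Finite ∧ ∀ y ∉ S, HasDerivAt Φ (a y * f2 y) y

omit [IsProbabilityMeasure P] in
lemma Pair.add (h : Pair P f2 r R) (h' : Pair P f2 a Φ) (c : ℝ) :
    Pair P f2 (fun y => r y + c * a y) (R + c • Φ) where
  meas := h.meas.add (h'.meas.const_mul c)
  bdd := by
    obtain ⟨C, hC⟩ := h.bdd
    obtain ⟨D, hD⟩ := h'.bdd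
    refine ⟨C + |c| * D, fun y => (abs_add_le _ _).trans ?_⟩
    rw [abs_mul]
    gcongr
    exacts [hC y, hD y]
  cont := h.cont.add (h'.cont.const_smul c)
  mem := h.mem.add (h'.mem.const_smul c)
  der := by
    obtain ⟨S, hS, h1⟩ := h.der
    obtain ⟨T, hT, h2⟩ := h'.der
    refine ⟨S ∪ T, hS.union hT, fun y hy => ?_⟩
    refine ((h1 y fun h => hy (.inl h)).add ((h2 y fun h => hy (.inr h)).const_smul c)).congr_deriv ?_
    simp only [smul_eq_mul]
    ring

/-- The bilinear form. -/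
noncomputable def ip (P : Measure ℝ) (ζ : ℝ) (a Φ G G1 : ℝ → ℝ) : ℝ :=
  ∫ y, a y * G1 y ∂P + ζ * cov[Φ, G; P]

omit [IsProbabilityMeasure P] in
lemma Pair.integrable (h : Pair P f2 a Φ) (hG : Integrable G1 P) :
    Integrable (fun y => a y * G1 y) P := by
  obtain ⟨C, hC⟩ := h.bdd
  exact hG.bdd_mul h.meas.aestronglyMeasurable (Filter.Eventually.of_forall hC)

lemma ip_add (h : Pair P f2 r R) (h' : Pair P f2 a Φ) (c : ℝ) (hG : MemLp G 2 P)
    (hG1 : Integrable G1 P) :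
    ip P ζ (fun y => r y + c * a y) (R + c • Φ) G G1 = ip P ζ r R G G1 + c * ip P ζ a Φ G G1 := by
  have h1 : ∫ y, (r y + c * a y) * G1 y ∂P = ∫ y, r y * G1 y ∂P + c * ∫ y, a y * G1 y ∂P := by
    rw [← integral_const_mul, ← integral_add (h.integrable hG1) ((h'.integrable hG1).const_mul c)]
    congr 1
    funext y
    ring
  rw [ip, ip, ip, h1, covariance_add_left h.mem (h'.mem.const_smul c) hG, covariance_smul_left]
  ring

omit [IsProbabilityMeasure P] in
lemma Pair.osc (hf : Good f f1 f2) (h : Pair P f2 r R) {δ : ℝ} (hr : ∀ y, |r y| ≤ δ) (y : ℝ) :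
    |R y - R 0| ≤ 2 * δ := by
  obtain ⟨S, hS, hd⟩ := h.der
  have hδ : 0 ≤ δ := (abs_nonneg _).trans (hr 0)
  have i1 : IntervalIntegrable (fun t => δ * f2 t) volume 0 y :=
    (continuous_const.mul hf.cont).intervalIntegrable _ _
  have b1 : ∀ t, ‖r t * f2 t‖ ≤ δ * f2 t := fun t => by
    rw [Real.norm_eq_abs, abs_mul, abs_of_pos (hf.pos t)]
    exact mul_le_mul_of_nonneg_right (hr t) (hf.pos t).le
  have i2 : IntervalIntegrable (fun t => r t * f2 t) volume 0 y :=
    i1.mono_fun' (h.meas.mul hf.cont.measurable).aestronglyMeasurable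
      (Filter.Eventually.of_forall b1)
  have e1 := integral_eq_of_hasDerivAt_off_countable R (fun t => r t * f2 t) hS.countable
    h.cont.continuousOn (fun t ht => hd t ht.2) i2
  have e2 := intervalIntegral.integral_eq_sub_of_hasDerivAt (fun t _ => hf.d2 t)
    (hf.cont.intervalIntegrable 0 y)
  have e3 := intervalIntegral.norm_integral_le_abs_of_norm_le (Filter.Eventually.of_forall b1) i1
  rw [e1, intervalIntegral.integral_const_mul, e2, Real.norm_eq_abs, abs_mul,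
    abs_of_nonneg hδ] at e3
  have e4 : |f1 y - f1 0| ≤ 2 := (abs_sub _ _).trans (by linarith [hf.le_one y, hf.le_one 0])
  nlinarith

lemma abs_ip_le (hf : Good f f1 f2) (hζ : 0 < ζ) (h : Pair P f2 r R) {δ : ℝ} (hr : ∀ y, |r y| ≤ δ)
    (hG : MemLp G 2 P) (hG1 : Integrable G1 P) :
    |ip P ζ r R G G1| ≤ δ * (∫ y, |G1 y| ∂P + ζ * (4 * ∫ y, |G y - ∫ z, G z ∂P| ∂P)) := by
  have h1 : |∫ y, r y * G1 y ∂P| ≤ δ * ∫ y, |G1 y| ∂P := by
    rw [← integral_const_mul]
    refine norm_integral_le_of_norm_le (f := fun y => r y * G1 y) (hG1.abs.const_mul δ)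
      (Filter.Eventually.of_forall fun y => ?_)
    rw [Real.norm_eq_abs, abs_mul]
    exact mul_le_mul_of_nonneg_right (hr y) (abs_nonneg _)
  have h2 : |∫ z, R z ∂P - R 0| ≤ 2 * δ := by
    have := norm_integral_le_of_norm_le_const (μ := P) (f := fun z => R z - R 0)
      (Filter.Eventually.of_forall (h.osc hf hr))
    rwa [integral_sub (h.mem.integrable one_le_two) (integrable_const _), integral_const,
      probReal_univ, one_smul, mul_one] at this
  have h3 : |cov[R, G; P]| ≤ 4 * δ * ∫ y, |G y - ∫ z, G z ∂P| ∂P := by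
    rw [← integral_const_mul]
    have i1 : Integrable (fun y => 4 * δ * |G y - ∫ z, G z ∂P|) P :=
      ((hG.integrable one_le_two).sub (integrable_const _)).abs.const_mul _
    refine norm_integral_le_of_norm_le
      (f := fun y => (R y - ∫ z, R z ∂P) * (G y - ∫ z, G z ∂P)) i1
      (Filter.Eventually.of_forall fun y => ?_)
    rw [Real.norm_eq_abs, abs_mul]
    refine mul_le_mul_of_nonneg_right ?_ (abs_nonneg _)
    have h4 := h.osc hf hr y
    rw [abs_le] at h2 h4 ⊢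
    constructor <;> linarith [h2.1, h2.2, h4.1, h4.2]
  refine (abs_add_le _ _).trans ?_
  rw [abs_mul, abs_of_pos hζ]
  nlinarith [mul_le_mul_of_nonneg_left h3 hζ.le]

omit [IsProbabilityMeasure P] in
/-- The layer cake argument, by discretisation. -/
lemma cone (Λ : (ℝ → ℝ) → (ℝ → ℝ) → ℝ)
    (hadd : ∀ r R a Φ c, Pair P f2 r R → Pair P f2 a Φ →
      Λ (fun y => r y + c * a y) (R + c • Φ) = Λ r R + c * Λ a Φ)
    {K : ℝ} (hK : ∀ r R δ, Pair P f2 r R → (∀ y, |r y| ≤ δ) → |Λ r R| ≤ δ * K)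
    (h1 : Pair P f2 (fun _ => 1) f1) (h0 : Λ (fun _ => 1) f1 = 0)
    {κ : ℝ → ℝ} (hF : Pair P f2 κ F)
    (hs : ∀ s, ∃ Φ, Pair P f2 (fun y => if s < κ y then 1 else 0) Φ ∧
      0 ≤ Λ (fun y => if s < κ y then 1 else 0) Φ) : 0 ≤ Λ κ F := by
  obtain ⟨L, hL⟩ := hF.bdd
  have main : ∀ δ : ℝ, 0 < δ → -(δ * K) ≤ Λ κ F := fun δ hδ => by
    have step : ∀ n : ℕ, ∃ r R, Pair P f2 r R ∧ Λ r R ≤ Λ κ F ∧ ∀ y, 0 ≤ r y ∧
        (κ y ≤ -L + (n + 1) * δ → r y ≤ δ) ∧ (-L + (n + 1) * δ < κ y → r y = κ y + L - n * δ) := by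
      intro n
      induction n with
      | zero =>
        refine ⟨_, _, hF.add h1 L, by rw [hadd _ _ _ _ _ hF h1, h0]; simp, fun y => ?_⟩
        have := abs_le.1 (hL y)
        push_cast
        refine ⟨by linarith, fun _ => by linarith, fun _ => by ring⟩
      | succ n ih =>
        obtain ⟨r, R, hr, h2, h3⟩ := ih
        obtain ⟨Φ, hΦ, h4⟩ := hs (-L + (n + 1) * δ)
        refine ⟨_, _, hr.add hΦ (-δ), by rw [hadd _ _ _ _ _ hr hΦ]; nlinarith, fun y => ?_⟩
        obtain ⟨a1, a2, a3⟩ := h3 y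
        push_cast
        by_cases hy : -L + (n + 1) * δ < κ y
        · have := a3 hy
          simp only [if_pos hy]
          refine ⟨by linarith, fun _ => by linarith, fun _ => by linarith⟩
        · have := a2 (not_lt.1 hy)
          simp only [if_neg hy]
          refine ⟨by linarith, fun _ => by linarith, fun h => absurd (by linarith) hy⟩
    obtain ⟨n, hn⟩ := exists_nat_ge (2 * L / δ)
    rw [div_le_iff₀ hδ] at hn
    obtain ⟨r, R, hr, h2, h3⟩ := step n
    have h4 := hK r R δ hr fun y => by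
      rw [abs_of_nonneg (h3 y).1]
      exact (h3 y).2.1 (by linarith [(abs_le.1 (hL y)).2])
    linarith [(abs_le.1 h4).1]
  by_contra hneg
  have hK0 : 0 < |K| + 1 := by positivity
  have h5 := main (-Λ κ F / (|K| + 1)) (div_pos (by linarith) hK0)
  rw [neg_le, div_mul_eq_mul_div, le_div_iff₀ hK0] at h5
  nlinarith [le_abs_self K]

end cone

lemma level_set {κ : ℝ → ℝ} (hc : Continuous κ) (hm : Monotone κ) (s : ℝ) :
    (∀ y, s < κ y) ∨ (∀ y, ¬ s < κ y) ∨ ∃ y₀, ∀ y, s < κ y ↔ y₀ < y := by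
  by_cases h1 : ∀ y, s < κ y
  · exact .inl h1
  by_cases h2 : ∀ y, ¬ s < κ y
  · exact .inr (.inl h2)
  push Not at h1 h2
  obtain ⟨b, hb⟩ := h2
  have hcl : IsClosed {y | κ y ≤ s} := isClosed_le hc continuous_const
  have hbd : BddAbove {y | κ y ≤ s} := ⟨b, fun y hy => by
    by_contra h
    exact absurd (hb.trans_le (hm (not_le.1 h).le)) (not_lt.2 hy)⟩
  have h3 := hcl.csSup_mem h1 hbd
  refine .inr (.inr ⟨sSup {y | κ y ≤ s}, fun y => ⟨fun hy => ?_, fun hy => ?_⟩⟩)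
  · by_contra h
    exact absurd (hy.trans_le (hm (not_lt.1 h))) (not_lt.2 h3)
  · by_contra h
    exact absurd (le_csSup hbd (not_lt.1 h)) (not_le.2 hy)

end OneB

open OneB in
theorem b_step (h : Good f f1 f2) (hζ : 0 < ζ) (hv : 0 ≤ v) (hF : Cvx f2 F F1) (hG : Cvx f2 G G1)
    (x : ℝ) :
    (Ag ζ v f F1 x + ζ * Cv ζ v f F f1 x) * (Ag ζ v f G1 x + ζ * Cv ζ v f G f1 x) ≤
      (Ag ζ v f (fun y => F1 y * G1 y / f2 y) x + ζ * Cv ζ v f F G x) *
        (Ag ζ v f f2 x + ζ * Cv ζ v f f1 f1 x) := by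
  rcases hv.eq_or_lt with rfl | hv
  · simp only [Cv, Ag_zero_var, sub_self, mul_zero, add_zero]
    rw [div_mul_cancel₀ _ (h.pos x).ne']
  obtain ⟨P, hP, hexp, hAg, -⟩ := exists_tilt h.lip ζ v x
  have hid := memLp_id hexp
  obtain ⟨CF, lF⟩ := hF.lip h
  obtain ⟨CG, lG⟩ := hG.lip h
  obtain ⟨Cm, lm⟩ := (cvx_self h).lip h
  obtain ⟨C2, hC2⟩ := h.bdd
  obtain ⟨LF, hLF⟩ := hF.bdd
  obtain ⟨LG, hLG⟩ := hG.bdd
  have mG := memLp_lip hid lG
  have mm := memLp_lip hid lm
  have i2 : Integrable f2 P :=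
    integrable_bdd h.cont.measurable fun y => (abs_of_pos (h.pos y)).trans_le (hC2 y)
  have iG : Integrable G1 P := (i2.const_mul LG).mono' hG.cont.aestronglyMeasurable
    (Filter.Eventually.of_forall hLG)
  have cκ : Continuous fun y => F1 y / f2 y := hF.cont.div h.cont fun y => (h.pos y).ne'
  set M := Ag ζ v f f2 x + ζ * Cv ζ v f f1 f1 x with hM
  set N := Ag ζ v f G1 x + ζ * Cv ζ v f G f1 x with hN
  have p1 : Pair P f2 (fun _ => 1) f1 := ⟨measurable_const, ⟨1, fun _ => by simp⟩, lm.continuous, mm,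
    ∅, Set.finite_empty, fun y _ => by simpa using h.d2 y⟩
  have z1 : ip P ζ (fun _ => 1) f1 G G1 * M - ip P ζ (fun _ => 1) f1 f1 f2 * N = 0 := by
    rw [hM, hN, Cv_eq hAg hid lm lm, Cv_eq hAg hid lG lm, hAg _ h.cont.measurable,
      hAg _ hG.cont.measurable, covariance_comm G]
    simp only [ip, one_mul]
    ring
  have key := cone (P := P) (f2 := f2) (f1 := f1) (F := F)
    (fun a Φ => ip P ζ a Φ G G1 * M - ip P ζ a Φ f1 f2 * N)
    (fun r R a Φ c h1 h2 => by simp only [ip_add h1 h2 c mG iG, ip_add h1 h2 c mm i2]; ring)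
    (K := (∫ y, |G1 y| ∂P + ζ * (4 * ∫ y, |G y - ∫ z, G z ∂P| ∂P)) * |M| +
      (∫ y, |f2 y| ∂P + ζ * (4 * ∫ y, |f1 y - ∫ z, f1 z ∂P| ∂P)) * |N|)
    (fun r R δ h1 h2 => by
      refine (abs_sub _ _).trans ?_
      rw [abs_mul, abs_mul, mul_add, ← mul_assoc δ, ← mul_assoc δ]
      gcongr
      exacts [abs_ip_le h hζ h1 h2 mG iG, abs_ip_le h hζ h1 h2 mm i2])
    p1 z1 (κ := fun y => F1 y / f2 y)
    ⟨cκ.measurable, ⟨LF, fun y => by
      rw [abs_div, abs_of_pos (h.pos y), div_le_iff₀ (h.pos y)]; exact hLF y⟩, lF.continuous,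
      memLp_lip hid lF, ∅, Set.finite_empty, fun y _ => by
        rw [div_mul_cancel₀ _ (h.pos y).ne']; exact hF.d y⟩
    fun s => by
      rcases level_set cκ hF.mono s with hs | hs | ⟨y₀, hs⟩
      · simp only [hs, if_true]
        exact ⟨f1, p1, z1.ge⟩
      · simp only [hs, if_false]
        exact ⟨fun _ => 0, ⟨measurable_const, ⟨0, fun _ => by simp⟩, continuous_const,
          memLp_const _, ∅, Set.finite_empty, fun y _ => by simpa using hasDerivAt_const y 0⟩,
          by simp [ip]⟩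
      · simp only [hs]
        have lu := up_lip lm y₀
        refine ⟨up f1 y₀, ⟨measurable_cut continuous_const y₀, ⟨1, fun y => by
          split_ifs <;> simp⟩, lu.continuous, memLp_lip hid lu, {y₀}, Set.finite_singleton _,
          fun y hy => by simpa using up_deriv h.d2 hy⟩, ?_⟩
        have hb := b_call h hζ hv hG y₀ x
        rw [call_eq h, ← stein_Ag h hv lu (measurable_cut h.cont y₀) (Set.finite_singleton y₀)
          (fun y hy => up_deriv h.d2 hy) x,
          ← stein_Ag h hv lG hG.cont.measurable Set.finite_empty (fun y _ => hG.d y) x,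
          ← stein_Ag h hv lm h.cont.measurable Set.finite_empty (fun y _ => h.d2 y) x,
          ← hM, ← hN, Cv_eq hAg hid lu lm, Cv_eq hAg hid lu lG, hAg _ (measurable_cut h.cont y₀),
          hAg _ (measurable_cut hG.cont y₀)] at hb
        simpa [ip] using hb
  have e1 : (fun y => F1 y / f2 y * f2 y) = F1 := funext fun y => div_mul_cancel₀ _ (h.pos y).ne'
  have e2 : (fun y => F1 y / f2 y * G1 y) = fun y => F1 y * G1 y / f2 y :=
    funext fun y => div_mul_eq_mul_div _ _ _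
  simp only [ip, e1, e2] at key
  rw [Cv_eq hAg hid lF lm, Cv_eq hAg hid lF lG, hAg _ hF.cont.measurable,
    hAg (fun y => F1 y * G1 y / f2 y)
      ((hF.cont.measurable.mul hG.cont.measurable).div h.cont.measurable)]
  linarith

end Crest.Agent.R164
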