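import Crest.Agent.R164.ModelDefs

/-! # Row 164: one-dimensional Gaussian recursions (definitions) -/

set_option autoImplicit false

namespace Crest.Agent.R164

open MeasureTheory ProbabilityTheory Real Finset Crest.ProbabilityR.InvariantGlass

/-- Expectation of `F (x + √v g)` under the Gaussian measure tilted by `exp (ζ f)`. -/
noncomputable def Ag (ζ v : ℝ) (f F : ℝ → ℝ) (x : ℝ) : ℝ :=
  (∫ g, F (x + √v * g) * exp (ζ * f (x + √v * g)) ∂gaussianReal 0 1) /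
    ∫ g, exp (ζ * f (x + √v * g)) ∂gaussianReal 0 1

/-- Covariance under the tilted measure. -/
noncomputable def Cv (ζ v : ℝ) (f F G : ℝ → ℝ) (x : ℝ) : ℝ :=
  Ag ζ v f (fun y => F y * G y) x - Ag ζ v f F x * Ag ζ v f G x

/-- Derivative of `gaussOp ζ v f` in the exponent `ζ`. -/
noncomputable def Kf (ζ v : ℝ) (f : ℝ → ℝ) (x : ℝ) : ℝ := (Ag ζ v f f x - gaussOp ζ v f x) / ζ

/-- Strictly convex, `1`-Lipschitz, `C²` with bounded second derivative. -/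
structure Good (f f1 f2 : ℝ → ℝ) : Prop where
  d1 : ∀ x, HasDerivAt f (f1 x) x
  d2 : ∀ x, HasDerivAt f1 (f2 x) x
  cont : Continuous f2
  le_one : ∀ x, |f1 x| ≤ 1
  pos : ∀ x, 0 < f2 x
  bdd : ∃ C, ∀ x, f2 x ≤ C

/-- `F` is a convex Lipschitz function of `m = f'`, where `f2 = f''`. -/
structure Cvx (f2 F F1 : ℝ → ℝ) : Prop where
  d : ∀ x, HasDerivAt F (F1 x) x
  cont : Continuous F1
  bdd : ∃ L, ∀ x, |F1 x| ≤ L * f2 x
  mono : Monotone fun x => F1 x / f2 x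

/-- Recursion along a list of pairs (exponent, variance), ending with `log cosh`. -/
noncomputable def fl (L : List (ℝ × ℝ)) : ℝ → ℝ :=
  L.foldr (fun q acc => gaussOp q.1 q.2 acc) fun z => log (cosh z)

/-- Legendre transform at the mean spin `m`. -/
noncomputable def Wl (L : List (ℝ × ℝ)) (m : ℝ) : ℝ := ⨆ b : ℝ, (b * m - fl L b)

/-- A level with exponent `c + θ₁ u + θ₂ w` and variance `v`. -/
structure Q4 where
  c : ℝ
  u : ℝ
  w : ℝ
  v : ℝ

def Q4.dir (q : Q4) (e : ℝ × ℝ) : ℝ := e.1 * q.u + e.2 * q.w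
def Q4.ζ (q : Q4) (θ : ℝ × ℝ) : ℝ := q.c + q.dir θ

noncomputable def ff (θ : ℝ × ℝ) : List Q4 → ℝ → ℝ
  | [] => fun z => log (cosh z)
  | q :: L => gaussOp (q.ζ θ) q.v (ff θ L)

noncomputable def f1 (θ : ℝ × ℝ) : List Q4 → ℝ → ℝ
  | [] => fun z => tanh z
  | q :: L => Ag (q.ζ θ) q.v (ff θ L) (f1 θ L)

noncomputable def f2 (θ : ℝ × ℝ) : List Q4 → ℝ → ℝ
  | [] => fun z => 1 - tanh z ^ 2
  | q :: L => fun x => Ag (q.ζ θ) q.v (ff θ L) (f2 θ L) x +
      q.ζ θ * Cv (q.ζ θ) q.v (ff θ L) (f1 θ L) (f1 θ L) x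

/-- Derivative of `ff` in the direction `e` of the parameters. -/
noncomputable def Dr (θ e : ℝ × ℝ) : List Q4 → ℝ → ℝ
  | [] => fun _ => 0
  | q :: L => fun x => Ag (q.ζ θ) q.v (ff θ L) (Dr θ e L) x + q.dir e * Kf (q.ζ θ) q.v (ff θ L) x

/-- Its derivative in `x`. -/
noncomputable def Dr1 (θ e : ℝ × ℝ) : List Q4 → ℝ → ℝ
  | [] => fun _ => 0
  | q :: L => fun x => Ag (q.ζ θ) q.v (ff θ L) (Dr1 θ e L) x +
      q.ζ θ * Cv (q.ζ θ) q.v (ff θ L) (Dr θ e L) (f1 θ L) x +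
      q.dir e * Cv (q.ζ θ) q.v (ff θ L) (ff θ L) (f1 θ L) x

/-- The mixed second derivative (for directions with disjoint supports). -/
noncomputable def Xi (θ e e' : ℝ × ℝ) : List Q4 → ℝ → ℝ
  | [] => fun _ => 0
  | q :: L => fun x => Ag (q.ζ θ) q.v (ff θ L) (Xi θ e e' L) x +
      q.ζ θ * Cv (q.ζ θ) q.v (ff θ L) (Dr θ e L) (Dr θ e' L) x +
      q.dir e * Cv (q.ζ θ) q.v (ff θ L) (ff θ L) (Dr θ e' L) x +
      q.dir e' * Cv (q.ζ θ) q.v (ff θ L) (ff θ L) (Dr θ e L) x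

/-- Valid parameters. -/
def Val (θ : ℝ × ℝ) (L : List Q4) : Prop := ∀ q ∈ L, 0 < q.ζ θ ∧ 0 ≤ q.v

/-- Recursion along a list of pairs (exponent, jump time), started at time `τ`. -/
noncomputable def Ft : ℝ → List (ℝ × ℝ) → ℝ → ℝ
  | τ, [] => fun z => log (cosh z) - τ / 2
  | τ, q :: L => gaussOp q.1 (max q.2 τ - τ) (Ft (max q.2 τ) L)

/-- The overlap quantile attached to such a list. -/
noncomputable def ql : ℝ → List (ℝ × ℝ) → ℝ → ℝ → ℝ
  | _, [], _ => fun z => tanh z ^ 2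
  | τ, q :: L, s => fun z =>
      if q.1 < s then Ag q.1 (max q.2 τ - τ) (Ft (max q.2 τ) L) (ql (max q.2 τ) L s) z
      else deriv (Ft τ (q :: L)) z ^ 2

/-- The step function attached to such a list. -/
noncomputable def st : ℝ → List (ℝ × ℝ) → ℝ → ℝ
  | τ, [], _ => τ
  | τ, q :: L, s => if q.1 < s then st (max q.2 τ) L s else τ

/-- Legendre transform of `Ft`. -/
noncomputable def Wv {r : ℕ} (ζ : Fin r → ℝ) (τ : ℝ) (h : Fin r → ℝ) (m : ℝ) : ℝ :=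
  ⨆ b : ℝ, (b * m - Ft τ (List.ofFn fun i => (ζ i, h i)) b)

/-- The list of a scheme with amplitudes `x`. -/
noncomputable def lst {r : ℕ} (ex : Expo (r + 1)) (x : ℕ → ℝ) : List (ℝ × ℝ) :=
  List.ofFn fun i : Fin r => (ex.ζ i, ∑ l ∈ range (i + 1), x l ^ 2)

theorem anchor_ff : type_of% @ff.eq_def := @ff.eq_def
theorem anchor_f1 : type_of% @f1.eq_def := @f1.eq_def
theorem anchor_f2 : type_of% @f2.eq_def := @f2.eq_def
theorem anchor_Dr : type_of% @Dr.eq_def := @Dr.eq_def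
theorem anchor_Dr1 : type_of% @Dr1.eq_def := @Dr1.eq_def
theorem anchor_Xi : type_of% @Xi.eq_def := @Xi.eq_def
theorem anchor_Ft : type_of% @Ft.eq_def := @Ft.eq_def
theorem anchor_ql : type_of% @ql.eq_def := @ql.eq_def
theorem anchor_st : type_of% @st.eq_def := @st.eq_def

end Crest.Agent.R164
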