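import Crest.Agent.R164.OneDefs

/-! # Row 164: differentiable families of functions of exponential growth

A family `F t y` is considered for `t` in an open set `I`.  `EG` (exponential growth, uniformly in
`t ∈ I`) is stable under sums, products and tilted Gaussian means, and `Fam I F Fd` says that
`Fd` is the `t`-derivative of `F`, both being of exponential growth. -/

set_option autoImplicit false

namespace Crest.Agent.R164.OF

open MeasureTheory ProbabilityTheory Real Crest.ProbabilityR.InvariantGlass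

/-- Exponential growth, uniformly for `t ∈ I`. -/
structure EG (I : Set ℝ) (F : ℝ → ℝ → ℝ) : Prop where
  meas : ∀ t ∈ I, Measurable (F t)
  bd : ∃ C, 0 ≤ C ∧ ∀ t ∈ I, ∀ y, |F t y| ≤ exp (C * (1 + |y|))

/-- Linear growth, uniformly for `t ∈ I`. -/
structure LG (I : Set ℝ) (F : ℝ → ℝ → ℝ) : Prop where
  meas : ∀ t ∈ I, Measurable (F t)
  bd : ∃ C, 0 ≤ C ∧ ∀ t ∈ I, ∀ y, |F t y| ≤ C * (1 + |y|)

/-- A differentiable family with derivative `Fd`. -/
structure Fam (I : Set ℝ) (F Fd : ℝ → ℝ → ℝ) : Prop where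
  eg : EG I F
  egd : EG I Fd
  d : ∀ t ∈ I, ∀ y, HasDerivAt (fun s => F s y) (Fd t y) t

/-- Gaussian mean. -/
noncomputable def Gi (v : ℝ) (F : ℝ → ℝ) (x : ℝ) : ℝ := ∫ g, F (x + √v * g) ∂gaussianReal 0 1

variable {I : Set ℝ} {F G Fd Gd f fd : ℝ → ℝ → ℝ} {v : ℝ}

theorem one_le_s (y : ℝ) : 1 ≤ 1 + |y| := by linarith [abs_nonneg y]

theorem LG.eg (h : LG I F) : EG I F := by
  obtain ⟨C, hC, hb⟩ := h.bd
  exact ⟨h.meas, C, hC, fun t ht y => (hb t ht y).trans (by linarith [add_one_le_exp (C * (1 + |y|))])⟩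

theorem EG.congr (h : EG I F) (e : ∀ t ∈ I, ∀ y, G t y = F t y) : EG I G := by
  obtain ⟨C, hC, hb⟩ := h.bd
  refine ⟨fun t ht => ?_, C, hC, fun t ht y => by rw [e t ht]; exact hb t ht y⟩
  rw [show G t = F t from funext (e t ht)]; exact h.meas t ht

theorem LG.congr (h : LG I F) (e : ∀ t ∈ I, ∀ y, G t y = F t y) : LG I G := by
  obtain ⟨C, hC, hb⟩ := h.bd
  refine ⟨fun t ht => ?_, C, hC, fun t ht y => by rw [e t ht]; exact hb t ht y⟩
  rw [show G t = F t from funext (e t ht)]; exact h.meas t ht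

theorem LG.of_bdd (hm : ∀ t ∈ I, Measurable (F t)) {K : ℝ} (hK : ∀ t ∈ I, ∀ y, |F t y| ≤ K) :
    LG I F :=
  ⟨hm, |K|, abs_nonneg K, fun t ht y => (hK t ht y).trans ((le_abs_self K).trans
    (le_mul_of_one_le_right (abs_nonneg K) (one_le_s y)))⟩

theorem EG.scalar {k : ℝ → ℝ} {K : ℝ} (hK : ∀ t ∈ I, |k t| ≤ K) : EG I fun t _ => k t :=
  (LG.of_bdd (fun _ _ => measurable_const) fun t ht _ => hK t ht).eg

theorem EG.const (c : ℝ) : EG I fun _ _ => c := EG.scalar (K := |c|) fun _ _ => le_rfl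

theorem EG.of_le (h : EG I F) (hm : ∀ t ∈ I, Measurable (G t))
    (e : ∀ t ∈ I, ∀ y, |G t y| ≤ |F t y|) : EG I G := by
  obtain ⟨C, hC, hb⟩ := h.bd
  exact ⟨hm, C, hC, fun t ht y => (e t ht y).trans (hb t ht y)⟩

theorem EG.add (hF : EG I F) (hG : EG I G) : EG I fun t y => F t y + G t y := by
  obtain ⟨C, hC, hb⟩ := hF.bd
  obtain ⟨D, hD, hb'⟩ := hG.bd
  refine ⟨fun t ht => (hF.meas t ht).add (hG.meas t ht), C + D + 1, by positivity,
    fun t ht y => ?_⟩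
  have hs := one_le_s y
  have h1 : exp (C * (1 + |y|)) ≤ exp ((C + D) * (1 + |y|)) := exp_le_exp.2 (by nlinarith)
  have h2 : exp (D * (1 + |y|)) ≤ exp ((C + D) * (1 + |y|)) := exp_le_exp.2 (by nlinarith)
  have h3 : 2 ≤ exp (1 + |y|) := by linarith [add_one_le_exp (1 + |y|)]
  calc |F t y + G t y| ≤ |F t y| + |G t y| := abs_add_le _ _
    _ ≤ exp ((C + D) * (1 + |y|)) * 2 := by linarith [hb t ht y, hb' t ht y]
    _ ≤ exp ((C + D) * (1 + |y|)) * exp (1 + |y|) := mul_le_mul_of_nonneg_left h3 (exp_pos _).le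
    _ = _ := by rw [← exp_add]; congr 1; ring

theorem EG.mul (hF : EG I F) (hG : EG I G) : EG I fun t y => F t y * G t y := by
  obtain ⟨C, hC, hb⟩ := hF.bd
  obtain ⟨D, hD, hb'⟩ := hG.bd
  refine ⟨fun t ht => (hF.meas t ht).mul (hG.meas t ht), C + D, by positivity, fun t ht y => ?_⟩
  rw [abs_mul, add_mul, exp_add]
  exact mul_le_mul (hb t ht y) (hb' t ht y) (abs_nonneg _) (exp_pos _).le

theorem EG.neg (hF : EG I F) : EG I fun t y => -F t y :=
  hF.of_le (fun t ht => (hF.meas t ht).neg) fun _ _ _ => (abs_neg _).le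

theorem EG.sub (hF : EG I F) (hG : EG I G) : EG I fun t y => F t y - G t y :=
  (hF.add hG.neg).congr fun _ _ _ => sub_eq_add_neg _ _

theorem LG.smul (hf : LG I f) {k : ℝ → ℝ} {K : ℝ} (hK : ∀ t ∈ I, |k t| ≤ K) :
    LG I fun t y => k t * f t y := by
  obtain ⟨C, hC, hb⟩ := hf.bd
  refine ⟨fun t ht => (hf.meas t ht).const_mul _, |K| * C, by positivity, fun t ht y => ?_⟩
  rw [abs_mul, mul_assoc]
  exact mul_le_mul ((hK t ht).trans (le_abs_self K)) (hb t ht y) (abs_nonneg _) (abs_nonneg _)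

theorem LG.exp (hf : LG I f) : EG I fun t y => exp (f t y) := by
  obtain ⟨C, hC, hb⟩ := hf.bd
  refine ⟨fun t ht => (hf.meas t ht).exp, C, hC, fun t ht y => ?_⟩
  rw [abs_of_pos (exp_pos _)]
  exact exp_le_exp.2 ((le_abs_self _).trans (hb t ht y))

theorem LG.log (hF : EG I F) (hpos : ∀ t ∈ I, ∀ y, 0 < F t y) (hi : EG I fun t y => (F t y)⁻¹) :
    LG I fun t y => log (F t y) := by
  obtain ⟨C, hC, hb⟩ := hF.bd
  obtain ⟨D, hD, hb'⟩ := hi.bd
  refine ⟨fun t ht => (hF.meas t ht).log, C + D, by positivity, fun t ht y => ?_⟩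
  have hs := one_le_s y
  have hp := hpos t ht y
  have h1 : Real.log (F t y) ≤ C * (1 + |y|) :=
    (log_le_iff_le_exp hp).2 ((le_abs_self _).trans (hb t ht y))
  have h2 : Real.log (F t y)⁻¹ ≤ D * (1 + |y|) :=
    (log_le_iff_le_exp (inv_pos.2 hp)).2 ((le_abs_self _).trans (hb' t ht y))
  rw [log_inv] at h2
  rw [abs_le]; constructor <;> nlinarith

theorem integrable_exp_abs (k : ℝ) : Integrable (fun g : ℝ => exp (k * |g|)) (gaussianReal 0 1) :=
  integrable_exp_mul_abs (X := fun g : ℝ => g) (integrable_exp_mul_gaussianReal k)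
    (integrable_exp_mul_gaussianReal (-k))

theorem shift_bound {C : ℝ} (hC : 0 ≤ C) (v x g : ℝ) :
    exp (C * (1 + |x + √v * g|)) ≤ exp (C * (1 + |x|)) * exp (C * √v * |g|) := by
  rw [← exp_add]
  refine exp_le_exp.2 ?_
  have h := abs_add_le x (√v * g)
  rw [abs_mul, abs_of_nonneg (sqrt_nonneg v)] at h
  nlinarith

theorem meas_shift {F : ℝ → ℝ} (hF : Measurable F) (v x : ℝ) :
    Measurable fun g => F (x + √v * g) := hF.comp (by fun_prop)

theorem EG.integrable (hF : EG I F) {t : ℝ} (ht : t ∈ I) (v x : ℝ) :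
    Integrable (fun g => F t (x + √v * g)) (gaussianReal 0 1) := by
  obtain ⟨C, hC, hb⟩ := hF.bd
  refine ((integrable_exp_abs (C * √v)).const_mul (exp (C * (1 + |x|)))).mono'
    (meas_shift (hF.meas t ht) v x).aestronglyMeasurable (ae_of_all _ fun g => ?_)
  exact (hb t ht _).trans (shift_bound hC v x g)

theorem meas_Gi {F : ℝ → ℝ} (hF : Measurable F) (v : ℝ) : Measurable (Gi v F) := by
  have h : Measurable fun p : ℝ × ℝ => F (p.1 + √v * p.2) := hF.comp (by fun_prop)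
  exact (h.stronglyMeasurable.integral_prod_right' (ν := gaussianReal 0 1)).measurable

theorem EG.gi (hF : EG I F) (v : ℝ) : EG I fun t => Gi v (F t) := by
  obtain ⟨C, hC, hb⟩ := hF.bd
  set M : ℝ := ∫ g, exp (C * √v * |g|) ∂gaussianReal 0 1 with hM
  have hM0 : 0 ≤ M := integral_nonneg fun g => (exp_pos _).le
  refine ⟨fun t ht => meas_Gi (hF.meas t ht) v, C + M, by positivity, fun t ht x => ?_⟩
  have h1 : |Gi v (F t) x| ≤ exp (C * (1 + |x|)) * M := by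
    rw [hM, ← integral_const_mul, ← norm_eq_abs]
    exact norm_integral_le_of_norm_le ((integrable_exp_abs _).const_mul _)
      (ae_of_all _ fun g => (hb t ht _).trans (shift_bound hC v x g))
  have h2 : M ≤ exp (M * (1 + |x|)) := by
    have := one_le_s x
    nlinarith [add_one_le_exp (M * (1 + |x|))]
  rw [add_mul, exp_add]
  exact h1.trans (mul_le_mul_of_nonneg_left h2 (exp_pos _).le)

theorem Gi_exp_pos (hf : LG I f) {t : ℝ} (ht : t ∈ I) (v x : ℝ) :
    0 < Gi v (fun y => exp (f t y)) x :=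
  integral_exp_pos (hf.exp.integrable ht v x)

theorem EG.inv_Gi (hf : LG I f) (v : ℝ) : EG I fun t x => (Gi v (fun y => exp (f t y)) x)⁻¹ := by
  have hn : LG I fun t y => -1 * f t y := hf.smul (k := fun _ => -1) (K := 1) fun _ _ => by simp
  refine (hn.exp.gi v).of_le (fun t ht => ((hf.exp.gi v).meas t ht).inv) fun t ht x => ?_
  have hD := Gi_exp_pos hf ht v x
  have hD' := Gi_exp_pos hn ht v x
  rw [abs_of_pos (inv_pos.2 hD), abs_of_pos hD']
  set D := Gi v (fun y => exp (f t y)) x with hDdef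
  have i1 := hf.exp.integrable ht v x
  have i2 := hn.exp.integrable ht v x
  have key : ∫ _g, (2 : ℝ) ∂gaussianReal 0 1 ≤
      ∫ g, (D⁻¹ * exp (f t (x + √v * g)) + D * exp (-1 * f t (x + √v * g))) ∂gaussianReal 0 1 := by
    refine integral_mono (integrable_const _) ((i1.const_mul _).add (i2.const_mul _)) fun g => ?_
    have hE := exp_pos (f t (x + √v * g))
    have e : exp (-1 * f t (x + √v * g)) = (exp (f t (x + √v * g)))⁻¹ := by
      rw [neg_one_mul, exp_neg]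
    simp only [e]
    set E := exp (f t (x + √v * g))
    have : D⁻¹ * E + D * E⁻¹ - 2 = (E - D) ^ 2 / (D * E) := by field_simp; ring
    have h2 : 0 ≤ (E - D) ^ 2 / (D * E) := by positivity
    linarith
  rw [integral_add (i1.const_mul _) (i2.const_mul _), integral_const_mul, integral_const_mul] at key
  simp only [integral_const, probReal_univ, smul_eq_mul, one_mul] at key
  change 2 ≤ D⁻¹ * D + D * Gi v (fun y => exp (-1 * f t y)) x at key
  rw [inv_mul_cancel₀ hD.ne'] at key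
  rw [inv_le_iff_one_le_mul₀' hD]
  linarith

theorem Fam.congr (hI : IsOpen I) (h : Fam I F Fd) (e : ∀ t ∈ I, ∀ y, G t y = F t y)
    (ed : ∀ t ∈ I, ∀ y, Gd t y = Fd t y) : Fam I G Gd := by
  refine ⟨h.eg.congr e, h.egd.congr ed, fun t ht y => ?_⟩
  rw [ed t ht]
  refine (h.d t ht y).congr_of_eventuallyEq ?_
  filter_upwards [hI.mem_nhds ht] with s hs using e s hs y

theorem Fam.const (c : ℝ) : Fam I (fun _ _ => c) fun _ _ => 0 :=
  ⟨EG.const c, EG.const 0, fun t _ _ => hasDerivAt_const t c⟩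

theorem Fam.add (hF : Fam I F Fd) (hG : Fam I G Gd) :
    Fam I (fun t y => F t y + G t y) fun t y => Fd t y + Gd t y :=
  ⟨hF.eg.add hG.eg, hF.egd.add hG.egd, fun t ht y => (hF.d t ht y).add (hG.d t ht y)⟩

theorem Fam.sub (hF : Fam I F Fd) (hG : Fam I G Gd) :
    Fam I (fun t y => F t y - G t y) fun t y => Fd t y - Gd t y :=
  ⟨hF.eg.sub hG.eg, hF.egd.sub hG.egd, fun t ht y => (hF.d t ht y).sub (hG.d t ht y)⟩

theorem Fam.mul (hF : Fam I F Fd) (hG : Fam I G Gd) :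
    Fam I (fun t y => F t y * G t y) fun t y => Fd t y * G t y + F t y * Gd t y :=
  ⟨hF.eg.mul hG.eg, (hF.egd.mul hG.eg).add (hF.eg.mul hG.egd),
    fun t ht y => (hF.d t ht y).mul (hG.d t ht y)⟩

theorem Fam.inv (hF : Fam I F Fd) (hpos : ∀ t ∈ I, ∀ y, 0 < F t y)
    (hi : EG I fun t y => (F t y)⁻¹) :
    Fam I (fun t y => (F t y)⁻¹) fun t y => -Fd t y * (F t y)⁻¹ * (F t y)⁻¹ := by
  refine ⟨hi, (hF.egd.neg.mul hi).mul hi, fun t ht y => ?_⟩
  have hp := (hpos t ht y).ne'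
  refine ((hF.d t ht y).inv hp).congr_deriv ?_
  field_simp

theorem Fam.log (hF : Fam I F Fd) (hpos : ∀ t ∈ I, ∀ y, 0 < F t y)
    (hi : EG I fun t y => (F t y)⁻¹) :
    Fam I (fun t y => log (F t y)) fun t y => Fd t y * (F t y)⁻¹ :=
  ⟨(LG.log hF.eg hpos hi).eg, hF.egd.mul hi, fun t ht y => by
    simpa [div_eq_mul_inv] using (hF.d t ht y).log (hpos t ht y).ne'⟩

theorem Fam.exp (hf : Fam I f fd) (hl : LG I f) :
    Fam I (fun t y => exp (f t y)) fun t y => exp (f t y) * fd t y :=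
  ⟨hl.exp, hl.exp.mul hf.egd, fun t ht y => (hf.d t ht y).exp⟩

theorem Fam.gi (hI : IsOpen I) (hF : Fam I F Fd) (v : ℝ) :
    Fam I (fun t => Gi v (F t)) fun t => Gi v (Fd t) := by
  refine ⟨hF.eg.gi v, hF.egd.gi v, fun t ht x => ?_⟩
  obtain ⟨C, hC, hb⟩ := hF.egd.bd
  refine (hasDerivAt_integral_of_dominated_loc_of_deriv_le (μ := gaussianReal 0 1)
    (F := fun s g => F s (x + √v * g)) (F' := fun s g => Fd s (x + √v * g))
    (bound := fun g => Real.exp (C * (1 + |x|)) * Real.exp (C * √v * |g|)) (hI.mem_nhds ht) ?_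
    (hF.eg.integrable ht v x) (meas_shift (hF.egd.meas t ht) v x).aestronglyMeasurable
    (ae_of_all _ fun g s hs => (hb s hs _).trans (shift_bound hC v x g))
    ((integrable_exp_abs _).const_mul _) (ae_of_all _ fun g s hs => hF.d s hs _)).2
  filter_upwards [hI.mem_nhds ht] with s hs
  exact (meas_shift (hF.eg.meas s hs) v x).aestronglyMeasurable

/-- An exponent that is affine in `t`, bounded and bounded away from zero on `I`. -/
structure Zeta (I : Set ℝ) (ζ : ℝ → ℝ) (w : ℝ) : Prop where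
  d : ∀ t, HasDerivAt ζ w t
  bd : ∃ a b, 0 < a ∧ ∀ t ∈ I, a ≤ ζ t ∧ ζ t ≤ b

variable {ζ : ℝ → ℝ} {w : ℝ}

theorem Zeta.pos (h : Zeta I ζ w) {t : ℝ} (ht : t ∈ I) : 0 < ζ t := by
  obtain ⟨a, b, ha, hb⟩ := h.bd
  exact ha.trans_le (hb t ht).1

theorem Zeta.abs_le (h : Zeta I ζ w) : ∃ K, ∀ t ∈ I, |ζ t| ≤ K := by
  obtain ⟨a, b, ha, hb⟩ := h.bd
  exact ⟨b, fun t ht => by rw [abs_of_pos (h.pos ht)]; exact (hb t ht).2⟩

theorem Zeta.abs_inv_le (h : Zeta I ζ w) : ∃ K, ∀ t ∈ I, |(ζ t)⁻¹| ≤ K := by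
  obtain ⟨a, b, ha, hb⟩ := h.bd
  exact ⟨a⁻¹, fun t ht => by
    rw [abs_of_pos (inv_pos.2 (h.pos ht))]; exact inv_anti₀ ha (hb t ht).1⟩

theorem Zeta.eg (h : Zeta I ζ w) : EG I fun t _ => ζ t :=
  let ⟨_, hK⟩ := h.abs_le; EG.scalar hK

theorem Zeta.eg_inv (h : Zeta I ζ w) : EG I fun t _ => (ζ t)⁻¹ :=
  let ⟨_, hK⟩ := h.abs_inv_le; EG.scalar hK

theorem Zeta.fam (h : Zeta I ζ w) : Fam I (fun t _ => ζ t) fun _ _ => w :=
  ⟨h.eg, EG.const w, fun t _ _ => h.d t⟩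

theorem Zeta.lg (h : Zeta I ζ w) (hf : LG I f) : LG I fun t y => ζ t * f t y :=
  let ⟨_, hK⟩ := h.abs_le; hf.smul hK

theorem Ag_eq (ζ v : ℝ) (f F : ℝ → ℝ) (x : ℝ) :
    Ag ζ v f F x = Gi v (fun y => F y * exp (ζ * f y)) x * (Gi v (fun y => exp (ζ * f y)) x)⁻¹ :=
  div_eq_mul_inv _ _

theorem gaussOp_eq {ζ : ℝ} (h : ζ ≠ 0) (v : ℝ) (f : ℝ → ℝ) (x : ℝ) :
    gaussOp ζ v f x = ζ⁻¹ * log (Gi v (fun y => exp (ζ * f y)) x) := by
  unfold gaussOp; rw [if_neg h]; rfl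

theorem EG.ag (hζ : Zeta I ζ w) (hf : LG I f) (hF : EG I F) (v : ℝ) :
    EG I fun t => Ag (ζ t) v (f t) (F t) :=
  (((hF.mul (hζ.lg hf).exp).gi v).mul (EG.inv_Gi (hζ.lg hf) v)).congr fun _ _ _ => Ag_eq _ _ _ _ _

theorem EG.cv (hζ : Zeta I ζ w) (hf : LG I f) (hF : EG I F) (hG : EG I G) (v : ℝ) :
    EG I fun t => Cv (ζ t) v (f t) (F t) (G t) :=
  (EG.ag hζ hf (hF.mul hG) v).sub ((EG.ag hζ hf hF v).mul (EG.ag hζ hf hG v))

theorem LG.gaussOp (hζ : Zeta I ζ w) (hf : LG I f) (v : ℝ) :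
    LG I fun t => gaussOp (ζ t) v (f t) := by
  obtain ⟨K, hK⟩ := hζ.abs_inv_le
  exact ((LG.log ((hζ.lg hf).exp.gi v) (fun t ht x => Gi_exp_pos (hζ.lg hf) ht v x)
    (EG.inv_Gi (hζ.lg hf) v)).smul hK).congr fun t ht x => gaussOp_eq (hζ.pos ht).ne' v _ x

theorem EG.kf (hζ : Zeta I ζ w) (hf : LG I f) (v : ℝ) : EG I fun t => Kf (ζ t) v (f t) :=
  (((EG.ag hζ hf hf.eg v).sub (LG.gaussOp hζ hf v).eg).mul hζ.eg_inv).congr
    fun _ _ _ => div_eq_mul_inv _ _

theorem Gi_add (hF : EG I F) (hG : EG I G) {t : ℝ} (ht : t ∈ I) (v x : ℝ) :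
    Gi v (fun y => F t y + G t y) x = Gi v (F t) x + Gi v (G t) x :=
  integral_add (hF.integrable ht v x) (hG.integrable ht v x)

theorem Gi_const_mul (c v : ℝ) (F : ℝ → ℝ) (x : ℝ) : Gi v (fun y => c * F y) x = c * Gi v F x :=
  integral_const_mul _ _

theorem Ag_const_mul (c ζ v : ℝ) (f F : ℝ → ℝ) (x : ℝ) :
    Ag ζ v f (fun y => c * F y) x = c * Ag ζ v f F x := by
  simp only [Ag_eq, mul_assoc, Gi_const_mul]

theorem Ag_add (hζ : Zeta I ζ w) (hf : LG I f) (hF : EG I F) (hG : EG I G) {t : ℝ} (ht : t ∈ I)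
    (v x : ℝ) : Ag (ζ t) v (f t) (fun y => F t y + G t y) x =
      Ag (ζ t) v (f t) (F t) x + Ag (ζ t) v (f t) (G t) x := by
  simp only [Ag_eq, add_mul]
  rw [Gi_add (hF.mul (hζ.lg hf).exp) (hG.mul (hζ.lg hf).exp) ht, add_mul]

/-- Linearity in the form used below. -/
theorem Ag_lin (hζ : Zeta I ζ w) (hf : LG I f) (hF : EG I F) (hG : EG I G) {t : ℝ} (ht : t ∈ I)
    (c v x : ℝ) : Ag (ζ t) v (f t) (fun y => F t y + c * G t y) x =
      Ag (ζ t) v (f t) (F t) x + c * Ag (ζ t) v (f t) (G t) x := by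
  rw [Ag_add hζ hf hF ((EG.const c).mul hG) ht, Ag_const_mul]

theorem Cv_lin {H : ℝ → ℝ → ℝ} (hζ : Zeta I ζ w) (hf : LG I f) (hH : EG I H) (hF : EG I F)
    (hG : EG I G) {t : ℝ} (ht : t ∈ I) (c v x : ℝ) :
    Cv (ζ t) v (f t) (H t) (fun y => F t y + c * G t y) x =
      Cv (ζ t) v (f t) (H t) (F t) x + c * Cv (ζ t) v (f t) (H t) (G t) x := by
  unfold Cv
  have e : (fun y => H t y * (F t y + c * G t y)) = fun y => H t y * F t y + c * (H t y * G t y) :=
    funext fun y => by ring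
  rw [e, Ag_lin hζ hf (hH.mul hF) (hH.mul hG) ht, Ag_lin hζ hf hF hG ht]
  ring

theorem Cv_comm (ζ v : ℝ) (f F G : ℝ → ℝ) (x : ℝ) : Cv ζ v f F G x = Cv ζ v f G F x := by
  unfold Cv
  simp only [mul_comm]

/-- The partition function as a family. -/
theorem Fam.den (hI : IsOpen I) (hζ : Zeta I ζ w) (hf : Fam I f fd) (hl : LG I f) (v : ℝ) :
    Fam I (fun t => Gi v fun y => Real.exp (ζ t * f t y)) fun t x =>
      w * Gi v (fun y => f t y * Real.exp (ζ t * f t y)) x +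
        ζ t * Gi v (fun y => fd t y * Real.exp (ζ t * f t y)) x := by
  refine (((hζ.fam.mul hf).exp (hζ.lg hl)).gi hI v).congr hI (fun _ _ _ => rfl) fun t ht x => ?_
  have hE := (hζ.lg hl).exp
  rw [← Gi_const_mul, ← Gi_const_mul,
    ← Gi_add ((EG.const w).mul (hf.eg.mul hE)) (hζ.eg.mul (hf.egd.mul hE)) ht]
  congr 1
  funext y
  ring

/-- Derivative of a tilted mean. -/
theorem Fam.ag (hI : IsOpen I) (hζ : Zeta I ζ w) (hf : Fam I f fd) (hl : LG I f)
    (hF : Fam I F Fd) (v : ℝ) :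
    Fam I (fun t => Ag (ζ t) v (f t) (F t)) fun t x => Ag (ζ t) v (f t) (Fd t) x +
      ζ t * Cv (ζ t) v (f t) (F t) (fd t) x + w * Cv (ζ t) v (f t) (F t) (f t) x := by
  have hE := (hζ.lg hl).exp
  have hN := (hF.mul ((hζ.fam.mul hf).exp (hζ.lg hl))).gi hI v
  have hD := (Fam.den hI hζ hf hl v).inv (fun t ht x => Gi_exp_pos (hζ.lg hl) ht v x)
    (EG.inv_Gi (hζ.lg hl) v)
  refine (hN.mul hD).congr hI (fun _ _ _ => Ag_eq _ _ _ _ _) fun t ht x => ?_
  have e : Gi v (fun y => Fd t y * Real.exp (ζ t * f t y) +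
        F t y * (Real.exp (ζ t * f t y) * (w * f t y + ζ t * fd t y))) x =
      Gi v (fun y => Fd t y * Real.exp (ζ t * f t y)) x +
        ζ t * Gi v (fun y => F t y * fd t y * Real.exp (ζ t * f t y)) x +
        w * Gi v (fun y => F t y * f t y * Real.exp (ζ t * f t y)) x := by
    rw [← Gi_const_mul, ← Gi_const_mul,
      ← Gi_add (hF.egd.mul hE) (hζ.eg.mul ((hF.eg.mul hf.egd).mul hE)) ht,
      ← Gi_add ((hF.egd.mul hE).add (hζ.eg.mul ((hF.eg.mul hf.egd).mul hE)))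
        ((EG.const w).mul ((hF.eg.mul hf.eg).mul hE)) ht]
    congr 1
    funext y
    ring
  rw [e]
  simp only [Cv, Ag_eq]
  ring

/-- Derivative of the Gaussian operator. -/
theorem Fam.gaussOp (hI : IsOpen I) (hζ : Zeta I ζ w) (hf : Fam I f fd) (hl : LG I f) (v : ℝ) :
    Fam I (fun t => gaussOp (ζ t) v (f t)) fun t x =>
      Ag (ζ t) v (f t) (fd t) x + w * Kf (ζ t) v (f t) x := by
  have hL := (Fam.den hI hζ hf hl v).log (fun t ht x => Gi_exp_pos (hζ.lg hl) ht v x)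
    (EG.inv_Gi (hζ.lg hl) v)
  have hZ := hζ.fam.inv (fun t ht _ => hζ.pos ht) hζ.eg_inv
  refine (hZ.mul hL).congr hI (fun t ht x => gaussOp_eq (hζ.pos ht).ne' v _ x) fun t ht x => ?_
  have hz := (hζ.pos ht).ne'
  simp only [Kf, Ag_eq, gaussOp_eq hz]
  field_simp
  ring

/-- Derivative of `Kf`. -/
theorem Fam.kf (hI : IsOpen I) (hζ : Zeta I ζ w) (hf : Fam I f fd) (hl : LG I f) (v : ℝ) :
    Fam I (fun t => Kf (ζ t) v (f t)) fun t x => Cv (ζ t) v (f t) (f t) (fd t) x +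
      w * ((Cv (ζ t) v (f t) (f t) (f t) x - 2 * Kf (ζ t) v (f t) x) / ζ t) := by
  have hZ := hζ.fam.inv (fun t ht _ => hζ.pos ht) hζ.eg_inv
  refine (((Fam.ag hI hζ hf hl hf v).sub (Fam.gaussOp hI hζ hf hl v)).mul hZ).congr hI
    (fun _ _ _ => div_eq_mul_inv _ _) fun t ht x => ?_
  have hz := (hζ.pos ht).ne'
  simp only [Kf]
  field_simp
  ring

theorem Ag_shift (ζ v : ℝ) (f F : ℝ → ℝ) (x d : ℝ) :
    Ag ζ v f F (x + d) = Ag ζ v (fun y => f (y + d)) (fun y => F (y + d)) x := by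
  simp only [Ag, add_right_comm x d]

theorem gaussOp_shift (ζ v : ℝ) (f : ℝ → ℝ) (x d : ℝ) :
    gaussOp ζ v f (x + d) = gaussOp ζ v (fun y => f (y + d)) x := by
  simp only [gaussOp, add_right_comm x d]

theorem Cv_shift (ζ v : ℝ) (f F G : ℝ → ℝ) (x d : ℝ) :
    Cv ζ v f F G (x + d) =
      Cv ζ v (fun y => f (y + d)) (fun y => F (y + d)) (fun y => G (y + d)) x := by
  simp only [Cv, Ag_shift]

theorem Kf_shift (ζ v : ℝ) (f : ℝ → ℝ) (x d : ℝ) :
    Kf ζ v f (x + d) = Kf ζ v (fun y => f (y + d)) x := by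
  simp only [Kf, Ag_shift, gaussOp_shift]

theorem hasDerivAt_tanh' (x : ℝ) : HasDerivAt tanh (1 - tanh x ^ 2) x := by
  have h := (hasDerivAt_sinh x).div (hasDerivAt_cosh x) (cosh_pos x).ne'
  have e : tanh = fun x => sinh x / cosh x := funext tanh_eq_sinh_div_cosh
  rw [tanh_eq_sinh_div_cosh, e]
  refine h.congr_deriv ?_
  have := (cosh_pos x).ne'
  field_simp

theorem hasDerivAt_logcosh (x : ℝ) : HasDerivAt (fun z => log (cosh z)) (tanh x) x := by
  rw [tanh_eq_sinh_div_cosh]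
  exact (hasDerivAt_cosh x).log (cosh_pos x).ne'

theorem meas_tanh : Measurable tanh :=
  (continuous_iff_continuousAt.2 fun x => (hasDerivAt_tanh' x).continuousAt).measurable

theorem abs_logcosh_le (z : ℝ) : |log (cosh z)| ≤ |z| := by
  rw [abs_of_nonneg (log_nonneg (one_le_cosh z)), log_le_iff_le_exp (cosh_pos z), cosh_eq]
  have h1 := exp_le_exp.2 (le_abs_self z)
  have h2 := exp_le_exp.2 (neg_le_abs z)
  linarith

end Crest.Agent.R164.OF
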