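import Crest.Agent.R164.OneRec
import Crest.Agent.R164.OneFamAux

/-! # Row 164: differentiation of the recursion in the exponents -/

set_option autoImplicit false

namespace Crest.Agent.R164

open MeasureTheory ProbabilityTheory Real Finset Crest.ProbabilityR.InvariantGlass

namespace OF

/-- A parameter interval on which all exponents stay in a compact subset of `(0, ∞)`. -/
structure Ctx (I : Set ℝ) (θ d : ℝ × ℝ) (L : List Q4) : Prop where
  isOpen : IsOpen I
  le_one : ∀ t ∈ I, |t| ≤ 1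
  zeta : ∀ q ∈ L, Zeta I (fun t => q.ζ (θ + t • d)) (q.dir d)

variable {I : Set ℝ} {θ d : ℝ × ℝ} {L : List Q4} {q : Q4}

theorem zeta_line (q : Q4) (θ d : ℝ × ℝ) (t : ℝ) : q.ζ (θ + t • d) = q.ζ θ + t * q.dir d := by
  simp only [Q4.ζ, Q4.dir, Prod.fst_add, Prod.snd_add, Prod.smul_fst, Prod.smul_snd, smul_eq_mul]
  ring

theorem exists_ctx (h : Val θ L) (d : ℝ × ℝ) : ∃ I, (0 : ℝ) ∈ I ∧ Ctx I θ d L := by
  induction L with
  | nil =>
    exact ⟨Set.Ioo (-1) 1, by norm_num, isOpen_Ioo, fun t ht => (abs_lt.2 ht).le, by simp⟩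
  | cons q L ih =>
    obtain ⟨I, h0, hI⟩ := ih fun p hp => h p (List.mem_cons_of_mem _ hp)
    have hq := (h q List.mem_cons_self).1
    refine ⟨I ∩ {t | q.ζ θ / 2 < q.ζ θ + t * q.dir d}, ⟨h0, by simp; linarith⟩,
      hI.isOpen.inter (isOpen_lt continuous_const (by fun_prop)), fun t ht => hI.le_one t ht.1,
      fun p hp => ?_⟩
    rcases List.mem_cons.1 hp with rfl | hp
    · refine ⟨fun t => ?_, p.ζ θ / 2, p.ζ θ + |p.dir d|, by positivity, fun t ht => ?_⟩
      · simp only [zeta_line]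
        simpa using ((hasDerivAt_id t).mul_const (p.dir d)).const_add (p.ζ θ)
      · rw [zeta_line]
        refine ⟨le_of_lt ht.2, ?_⟩
        have h1 : t * p.dir d ≤ |t| * |p.dir d| := by rw [← abs_mul]; exact le_abs_self _
        have h2 := mul_le_mul_of_nonneg_right (hI.le_one t ht.1) (abs_nonneg (p.dir d))
        linarith
    · obtain ⟨hd, a, b, ha, hb⟩ := hI.zeta p hp
      exact ⟨hd, a, b, ha, fun t ht => hb t ht.1⟩

theorem Ctx.tail (h : Ctx I θ d (q :: L)) : Ctx I θ d L :=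
  ⟨h.isOpen, h.le_one, fun p hp => h.zeta p (List.mem_cons_of_mem _ hp)⟩

theorem Ctx.head (h : Ctx I θ d (q :: L)) : Zeta I (fun t => q.ζ (θ + t • d)) (q.dir d) :=
  h.zeta q List.mem_cons_self

theorem lg_ff (h : Ctx I θ d L) (c : ℝ) : LG I fun t y => ff (θ + t • d) L (y + c * t) := by
  induction L with
  | nil =>
    refine ⟨fun t _ => ?_, |c| + 1, by positivity, fun t ht y => ?_⟩
    · simp only [ff]
      exact (continuous_cosh.measurable.comp (measurable_id.add_const _)).log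
    · simp only [ff]
      refine (abs_logcosh_le _).trans ((abs_add_le _ _).trans ?_)
      rw [abs_mul]
      have h2 := mul_le_mul_of_nonneg_left (h.le_one t ht) (abs_nonneg c)
      nlinarith [abs_nonneg y, abs_nonneg c, mul_nonneg (abs_nonneg c) (abs_nonneg y)]
  | cons q L ih =>
    exact (LG.gaussOp h.head (ih h.tail) q.v).congr fun t _ y => gaussOp_shift _ _ _ _ _

theorem eg_f1 (h : Ctx I θ d L) (c : ℝ) : EG I fun t y => f1 (θ + t • d) L (y + c * t) := by
  induction L with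
  | nil =>
    exact (LG.of_bdd (K := 1) (fun t _ => meas_tanh.comp (measurable_id.add_const _))
      fun t _ y => (abs_tanh_lt_one _).le).eg
  | cons q L ih =>
    exact (EG.ag h.head (lg_ff h.tail c) (ih h.tail) q.v).congr fun t _ y => Ag_shift _ _ _ _ _ _

theorem eg_f2 (h : Ctx I θ d L) (c : ℝ) : EG I fun t y => f2 (θ + t • d) L (y + c * t) := by
  induction L with
  | nil =>
    exact ((EG.const 1).sub ((eg_f1 h c).mul (eg_f1 h c))).congr fun t _ y => by
      simp only [f2, f1]; ring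
  | cons q L ih =>
    have hf := lg_ff h.tail c
    have h1 := eg_f1 h.tail c
    exact ((EG.ag h.head hf (ih h.tail) q.v).add (h.head.eg.mul (EG.cv h.head hf h1 h1 q.v))).congr
      fun t _ y => by simp only [f2, Ag_shift, Cv_shift]

theorem eg_Dr (h : Ctx I θ d L) (e : ℝ × ℝ) (c : ℝ) :
    EG I fun t y => Dr (θ + t • d) e L (y + c * t) := by
  induction L with
  | nil => exact EG.const 0
  | cons q L ih =>
    have hf := lg_ff h.tail c
    exact ((EG.ag h.head hf (ih h.tail) q.v).add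
      ((EG.const (q.dir e)).mul (EG.kf h.head hf q.v))).congr
      fun t _ y => by simp only [Dr, Ag_shift, Kf_shift]

theorem eg_Dr1 (h : Ctx I θ d L) (e : ℝ × ℝ) (c : ℝ) :
    EG I fun t y => Dr1 (θ + t • d) e L (y + c * t) := by
  induction L with
  | nil => exact EG.const 0
  | cons q L ih =>
    have hf := lg_ff h.tail c
    have h1 := eg_f1 h.tail c
    exact (((EG.ag h.head hf (ih h.tail) q.v).add
      (h.head.eg.mul (EG.cv h.head hf (eg_Dr h.tail e c) h1 q.v))).add
      ((EG.const (q.dir e)).mul (EG.cv h.head hf hf.eg h1 q.v))).congr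
      fun t _ y => by simp only [Dr1, Ag_shift, Cv_shift]

theorem eg_Xi (h : Ctx I θ d L) (e e' : ℝ × ℝ) (c : ℝ) :
    EG I fun t y => Xi (θ + t • d) e e' L (y + c * t) := by
  induction L with
  | nil => exact EG.const 0
  | cons q L ih =>
    have hf := lg_ff h.tail c
    have h1 := eg_Dr h.tail e c
    have h2 := eg_Dr h.tail e' c
    exact ((((EG.ag h.head hf (ih h.tail) q.v).add
      (h.head.eg.mul (EG.cv h.head hf h1 h2 q.v))).add
      ((EG.const (q.dir e)).mul (EG.cv h.head hf hf.eg h2 q.v))).add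
      ((EG.const (q.dir e')).mul (EG.cv h.head hf hf.eg h1 q.v))).congr
      fun t _ y => by simp only [Xi, Ag_shift, Cv_shift]

theorem hasDerivAt_line (y c t : ℝ) : HasDerivAt (fun s : ℝ => y + c * s) c t := by
  simpa using ((hasDerivAt_id t).const_mul c).const_add y

theorem fam_ff (h : Ctx I θ d L) (c : ℝ) : Fam I (fun t y => ff (θ + t • d) L (y + c * t))
    fun t y => Dr (θ + t • d) d L (y + c * t) + c * f1 (θ + t • d) L (y + c * t) := by
  induction L with
  | nil =>
    refine ⟨(lg_ff h c).eg, (eg_Dr h d c).add ((EG.const c).mul (eg_f1 h c)), fun t _ y => ?_⟩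
    refine ((hasDerivAt_logcosh (y + c * t)).comp t (hasDerivAt_line y c t)).congr_deriv ?_
    simp only [Dr, f1]; ring
  | cons q L ih =>
    have hf := lg_ff h.tail c
    refine (Fam.gaussOp h.isOpen h.head (ih h.tail) hf q.v).congr h.isOpen
      (fun t _ y => gaussOp_shift _ _ _ _ _) fun t ht y => ?_
    rw [Ag_lin h.head hf (eg_Dr h.tail d c) (eg_f1 h.tail c) ht]
    simp only [Dr, f1, Ag_shift, Kf_shift]
    ring

theorem fam_f1 (h : Ctx I θ d L) (c : ℝ) : Fam I (fun t y => f1 (θ + t • d) L (y + c * t))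
    fun t y => Dr1 (θ + t • d) d L (y + c * t) + c * f2 (θ + t • d) L (y + c * t) := by
  induction L with
  | nil =>
    refine ⟨eg_f1 h c, (eg_Dr1 h d c).add ((EG.const c).mul (eg_f2 h c)), fun t _ y => ?_⟩
    refine ((hasDerivAt_tanh' (y + c * t)).comp t (hasDerivAt_line y c t)).congr_deriv ?_
    simp only [Dr1, f2]; ring
  | cons q L ih =>
    have hf := lg_ff h.tail c
    have h1 := eg_f1 h.tail c
    refine (Fam.ag h.isOpen h.head (fam_ff h.tail c) hf (ih h.tail) q.v).congr h.isOpen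
      (fun t _ y => Ag_shift _ _ _ _ _ _) fun t ht y => ?_
    rw [Ag_lin h.head hf (eg_Dr1 h.tail d c) (eg_f2 h.tail c) ht,
      Cv_lin h.head hf h1 (eg_Dr h.tail d c) h1 ht,
      Cv_comm _ _ _ (fun y => f1 (θ + t • d) L (y + c * t))
        (fun y => Dr (θ + t • d) d L (y + c * t)),
      Cv_comm _ _ _ (fun y => f1 (θ + t • d) L (y + c * t))
        (fun y => ff (θ + t • d) L (y + c * t))]
    simp only [Dr1, f2, Ag_shift, Cv_shift]
    ring

theorem fam_Dr (h : Ctx I θ d L) {e : ℝ × ℝ} (he : ∀ q ∈ L, q.dir e * q.dir d = 0) (c : ℝ) :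
    Fam I (fun t y => Dr (θ + t • d) e L (y + c * t))
      fun t y => Xi (θ + t • d) e d L (y + c * t) + c * Dr1 (θ + t • d) e L (y + c * t) := by
  induction L with
  | nil => exact (Fam.const 0).congr h.isOpen (fun _ _ _ => rfl) fun _ _ _ => by simp [Xi, Dr1]
  | cons q L ih =>
    have hf := lg_ff h.tail c
    have h1 := eg_f1 h.tail c
    have hq := he q List.mem_cons_self
    refine ((Fam.ag h.isOpen h.head (fam_ff h.tail c) hf
      (ih h.tail fun p hp => he p (List.mem_cons_of_mem _ hp)) q.v).add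
      ((Fam.const (q.dir e)).mul (Fam.kf h.isOpen h.head (fam_ff h.tail c) hf q.v))).congr h.isOpen
      (fun t _ y => by simp only [Dr, Ag_shift, Kf_shift]) fun t ht y => ?_
    rw [Ag_lin h.head hf (eg_Xi h.tail e d c) (eg_Dr1 h.tail e c) ht,
      Cv_lin h.head hf (eg_Dr h.tail e c) (eg_Dr h.tail d c) h1 ht,
      Cv_lin h.head hf hf.eg (eg_Dr h.tail d c) h1 ht,
      Cv_comm _ _ _ (fun y => Dr (θ + t • d) e L (y + c * t))
        (fun y => ff (θ + t • d) L (y + c * t)), mul_add (q.dir e), ← mul_assoc (q.dir e) (q.dir d),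
      hq]
    simp only [Xi, Dr1, Ag_shift, Cv_shift]
    ring

theorem exists_fam_Dr (h : Ctx I θ d L) (e : ℝ × ℝ) (c : ℝ) :
    ∃ Fd, Fam I (fun t y => Dr (θ + t • d) e L (y + c * t)) Fd := by
  induction L with
  | nil => exact ⟨_, Fam.const 0⟩
  | cons q L ih =>
    have hf := lg_ff h.tail c
    obtain ⟨Fd, hF⟩ := ih h.tail
    exact ⟨_, ((Fam.ag h.isOpen h.head (fam_ff h.tail c) hf hF q.v).add
      ((Fam.const (q.dir e)).mul (Fam.kf h.isOpen h.head (fam_ff h.tail c) hf q.v))).congr h.isOpen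
      (fun t _ y => by simp only [Dr, Ag_shift, Kf_shift]) fun _ _ _ => rfl⟩

end OF

variable {θ e e' : ℝ × ℝ} {L : List Q4}

set_option linter.unusedVariables false in
theorem hasDerivAt_ff (h : Val θ L) (he : ∀ q ∈ L, 0 ≤ q.dir e) (x : ℝ) :
    HasDerivAt (fun t : ℝ => ff (θ + t • e) L x) (Dr θ e L x) 0 := by
  obtain ⟨I, h0, hI⟩ := OF.exists_ctx h e
  simpa using (OF.fam_ff hI 0).d 0 h0 x

set_option linter.unusedVariables false in
theorem hasDerivAt_f1 (h : Val θ L) (he : ∀ q ∈ L, 0 ≤ q.dir e) (x c : ℝ) :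
    HasDerivAt (fun t : ℝ => f1 (θ + t • e) L (x + c * t)) (Dr1 θ e L x + c * f2 θ L x) 0 := by
  obtain ⟨I, h0, hI⟩ := OF.exists_ctx h e
  simpa using (OF.fam_f1 hI c).d 0 h0 x

theorem hasDerivAt_Dr (h : Val θ L)
    (he : ∀ q ∈ L, 0 ≤ q.dir e ∧ 0 ≤ q.dir e' ∧ q.dir e * q.dir e' = 0) (x c : ℝ) :
    HasDerivAt (fun t : ℝ => Dr (θ + t • e') e L (x + c * t)) (Xi θ e e' L x + c * Dr1 θ e L x) 0 := by
  obtain ⟨I, h0, hI⟩ := OF.exists_ctx h e'
  simpa using (OF.fam_Dr hI (fun q hq => (he q hq).2.2) c).d 0 h0 x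

set_option linter.unusedVariables false in
theorem continuousAt_Dr (h : Val θ L) (he : ∀ q ∈ L, 0 ≤ q.dir e) (x : ℝ) :
    ContinuousAt (fun t : ℝ => Dr (θ + t • e) e L x) 0 := by
  obtain ⟨I, h0, hI⟩ := OF.exists_ctx h e
  obtain ⟨Fd, hF⟩ := OF.exists_fam_Dr hI e 0
  simpa using (hF.d 0 h0 x).continuousAt

end Crest.Agent.R164
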