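import Crest.Agent.R164.OneSub

/-! # Row 164: convexity of the Legendre transform in the jump times -/

set_option autoImplicit false
set_option linter.unusedVariables false

namespace Crest.Agent.R164

open MeasureTheory ProbabilityTheory Real Finset Crest.ProbabilityR.InvariantGlass

variable {r : ℕ} {ζ : Fin r → ℝ} {m : ℝ}

namespace Lat

/-- The exponent active just before time `t`. -/
noncomputable def prof (t : ℝ) : List (ℝ × ℝ) → ℝ
  | [] => 1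
  | q :: L => if t ≤ q.2 then q.1 else prof t L

/-- Cut times with the widths of the intervals they end. -/
def seg : ℝ → List ℝ → List (ℝ × ℝ)
  | _, [] => []
  | t, c :: cs => (c, c - t) :: seg c cs

/-- The last cut time. -/
def lastc : ℝ → List ℝ → ℝ
  | t, [] => t
  | _, c :: cs => lastc c cs

lemma seg_append (t : ℝ) (P M : List ℝ) : seg t (P ++ M) = seg t P ++ seg (lastc t P) M := by
  induction P generalizing t with
  | nil => rfl
  | cons c P ih => simp only [List.cons_append, seg, lastc, ih]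

lemma lastc_append (t : ℝ) (P M : List ℝ) : lastc t (P ++ M) = lastc (lastc t P) M := by
  induction P generalizing t with
  | nil => rfl
  | cons c P ih => simp only [List.cons_append, lastc, ih]

lemma mem_seg {t : ℝ} {cs : List ℝ} (h : (t :: cs).Pairwise (· ≤ ·)) {s : ℝ × ℝ}
    (hs : s ∈ seg t cs) : s.1 ∈ cs ∧ 0 ≤ s.2 := by
  induction cs generalizing t with
  | nil => simp [seg] at hs
  | cons c cs ih =>
    rw [List.pairwise_cons] at h
    rcases List.mem_cons.1 hs with rfl | hs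
    · exact ⟨List.mem_cons_self, sub_nonneg.2 (h.1 c List.mem_cons_self)⟩
    · exact ⟨List.mem_cons_of_mem _ (ih h.2 hs).1, (ih h.2 hs).2⟩

lemma prof_pos {L : List (ℝ × ℝ)} (hL : ∀ q ∈ L, 0 < q.1) (t : ℝ) : 0 < prof t L := by
  induction L with
  | nil => exact one_pos
  | cons q L ih =>
    rw [prof]
    split_ifs
    · exact hL q List.mem_cons_self
    · exact ih fun q hq => hL q (List.mem_cons_of_mem _ hq)

lemma prof_le_iff {L : List (ℝ × ℝ)} (hL : L.Pairwise fun q q' => q.1 ≤ q'.1)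
    (h1 : ∀ q ∈ L, q.1 ≤ 1) (t x : ℝ) : prof t L ≤ x ↔ 1 ≤ x ∨ ∃ q ∈ L, t ≤ q.2 ∧ q.1 ≤ x := by
  induction L with
  | nil => simp [prof]
  | cons q L ih =>
    rw [List.pairwise_cons] at hL
    rw [prof]
    split_ifs with h
    · refine ⟨fun hx => .inr ⟨q, List.mem_cons_self, h, hx⟩, ?_⟩
      rintro (hx | ⟨q', hq', -, hx⟩)
      · exact (h1 q List.mem_cons_self).trans hx
      · rcases List.mem_cons.1 hq' with rfl | hq'
        · exact hx
        · exact (hL.1 q' hq').trans hx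
    · rw [ih hL.2 fun q hq => h1 q (List.mem_cons_of_mem _ hq)]
      simp [h]

lemma prof_ofFn_le_iff (hζ : Monotone ζ) (h1 : ∀ i, ζ i ≤ 1) (h : Fin r → ℝ) (t x : ℝ) :
    prof t (List.ofFn fun i => (ζ i, h i)) ≤ x ↔ 1 ≤ x ∨ ∃ i, t ≤ h i ∧ ζ i ≤ x := by
  rw [prof_le_iff]
  · simp [List.mem_ofFn']
  · exact List.pairwise_ofFn.2 fun i j hij => hζ hij.le
  · intro q hq
    obtain ⟨i, rfl⟩ := List.mem_ofFn.1 hq
    exact h1 i

lemma Ft_step {L : List (ℝ × ℝ)} (hL : ∀ q ∈ L, 0 < q.1) {t₀ t₁ : ℝ} (ht : t₀ ≤ t₁)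
    (hj : ∀ q ∈ L, q.2 ≤ t₀ ∨ t₁ ≤ q.2) :
    Ft t₀ L = gaussOp (prof t₁ L) (t₁ - t₀) (Ft t₁ L) := by
  induction L with
  | nil =>
    change _ = gaussOp 1 (t₁ - t₀) fun z => log (cosh z) + -(t₁ / 2)
    rw [Ft, gaussOp_add_const zero_le_one lip_logcosh, gaussOp_one_logcosh (sub_nonneg.2 ht)]
    funext z; ring
  | cons q L ih =>
    have hL' : ∀ q ∈ L, 0 < q.1 := fun q hq => hL q (List.mem_cons_of_mem _ hq)
    rw [Ft, Ft, prof]
    split_ifs with h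
    · rw [max_eq_left h, max_eq_left (ht.trans h), gaussOp_semigroup (hL q List.mem_cons_self)
        (sub_nonneg.2 ht) (sub_nonneg.2 h) (Ft_lip (fun q hq => (hL' q hq).le) _)]
      congr 1; ring
    · have h' : q.2 ≤ t₀ := (hj q List.mem_cons_self).resolve_right h
      rw [max_eq_right h', max_eq_right (h'.trans ht), sub_self, sub_self, gaussOp_zero_var,
        gaussOp_zero_var]
      exact ih hL' fun q hq => hj q (List.mem_cons_of_mem _ hq)

lemma Ft_of_le {L : List (ℝ × ℝ)} {t : ℝ} (hj : ∀ q ∈ L, q.2 ≤ t) :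
    Ft t L = fun z => log (cosh z) - t / 2 := by
  induction L with
  | nil => rfl
  | cons q L ih =>
    rw [Ft, max_eq_right (hj q List.mem_cons_self), sub_self, gaussOp_zero_var]
    exact ih fun q hq => hj q (List.mem_cons_of_mem _ hq)

lemma prof_seg_nonneg {L : List (ℝ × ℝ)} (hL : ∀ q ∈ L, 0 < q.1) (S : List (ℝ × ℝ)) :
    ∀ q ∈ S.map fun s => (prof s.1 L, s.2), 0 ≤ q.1 := by
  intro q hq
  obtain ⟨s, -, rfl⟩ := List.mem_map.1 hq
  exact (prof_pos hL _).le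

lemma Ft_cuts {L : List (ℝ × ℝ)} (hL : ∀ q ∈ L, 0 < q.1) {t : ℝ} {cs : List ℝ}
    (h : (t :: cs).Pairwise (· ≤ ·)) (hj : ∀ q ∈ L, q.2 ≤ t ∨ q.2 ∈ cs) :
    Ft t L = fun z => fl ((seg t cs).map fun s => (prof s.1 L, s.2)) z + -(lastc t cs / 2) := by
  induction cs generalizing t with
  | nil => exact Ft_of_le fun q hq => (hj q hq).resolve_right (by simp)
  | cons c cs ih =>
    rw [List.pairwise_cons] at h
    have htc := h.1 c List.mem_cons_self
    rw [Ft_step hL htc, ih h.2, gaussOp_add_const (prof_pos hL _).le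
      (fl_lip (prof_seg_nonneg hL _))]
    · rfl
    · intro q hq
      rcases hj q hq with h1 | h1
      · exact .inl (h1.trans htc)
      · rcases List.mem_cons.1 h1 with h2 | h2
        · exact .inl h2.le
        · exact .inr h2
    · intro q hq
      refine (hj q hq).imp_right fun h1 => ?_
      rcases List.mem_cons.1 h1 with h2 | h2
      · exact h2.ge
      · exact (List.pairwise_cons.1 h.2).1 _ h2

lemma ofFn_pos (hζ0 : ∀ i, 0 < ζ i) (h : Fin r → ℝ) :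
    ∀ q ∈ List.ofFn fun i => (ζ i, h i), 0 < q.1 := by
  intro q hq
  obtain ⟨i, rfl⟩ := List.mem_ofFn.1 hq
  exact hζ0 i

lemma Wv_cuts (hζ0 : ∀ i, 0 < ζ i) (hm : |m| < 1) {h : Fin r → ℝ} {t : ℝ} {cs : List ℝ}
    (hs : (t :: cs).Pairwise (· ≤ ·)) (hj : ∀ i, h i ≤ t ∨ h i ∈ cs) :
    Wv ζ t h m = Wl ((seg t cs).map fun s => (prof s.1 (List.ofFn fun i => (ζ i, h i)), s.2)) m +
      lastc t cs / 2 := by
  rw [Wv, Wl, Ft_cuts (ofFn_pos hζ0 h) hs, ciSup_add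
    (bddAbove_Wl (prof_seg_nonneg (ofFn_pos hζ0 h) _) hm.le)]
  · congr 1; funext b; ring
  · intro q hq
    obtain ⟨i, rfl⟩ := List.mem_ofFn.1 hq
    exact hj i

lemma exists_fl {L : List (ℝ × ℝ)} (hL : ∀ q ∈ L, 0 < q.1) (τ : ℝ) :
    ∃ (L' : List (ℝ × ℝ)) (c : ℝ), (∀ q ∈ L', 0 ≤ q.1) ∧ Ft τ L = fun z => fl L' z + c := by
  induction L generalizing τ with
  | nil => exact ⟨[], -(τ / 2), by simp, rfl⟩
  | cons q L ih =>
    obtain ⟨L', c, h1, h2⟩ := ih (fun q hq => hL q (List.mem_cons_of_mem _ hq)) (max q.2 τ)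
    have hq := (hL q List.mem_cons_self).le
    refine ⟨(q.1, max q.2 τ - τ) :: L', c, ?_, ?_⟩
    · intro q' hq'
      rcases List.mem_cons.1 hq' with rfl | hq'
      · exact hq
      · exact h1 q' hq'
    · rw [Ft, h2, gaussOp_add_const hq (fl_lip h1)]
      rfl

lemma bdd_Wv (hζ0 : ∀ i, 0 < ζ i) (hm : |m| < 1) (τ : ℝ) (h : Fin r → ℝ) :
    BddAbove (Set.range fun b : ℝ => b * m - Ft τ (List.ofFn fun i => (ζ i, h i)) b) := by
  obtain ⟨L', c, h1, h2⟩ := exists_fl (ofFn_pos hζ0 h) τ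
  obtain ⟨B, hB⟩ := bddAbove_Wl h1 hm.le
  refine ⟨B - c, ?_⟩
  rintro _ ⟨b, rfl⟩
  have := hB ⟨b, rfl⟩
  simp only [h2] at this ⊢
  linarith

lemma Ft_shift : ∀ {r : ℕ} {ζ : Fin r → ℝ} (_ : ∀ i, 0 < ζ i) (τ c : ℝ) (h : Fin r → ℝ),
    Ft (τ + c) (List.ofFn fun i => (ζ i, h i + c)) =
      fun z => Ft τ (List.ofFn fun i => (ζ i, h i)) z + -(c / 2)
  | 0, _, _, τ, c, h => by
    funext z
    simp only [List.ofFn_zero, Ft]
    ring
  | r + 1, ζ, hζ0, τ, c, h => by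
    simp only [List.ofFn_succ, Ft]
    rw [max_add_add_right, add_sub_add_right_eq_sub,
      Ft_shift (fun i => hζ0 i.succ) _ c fun i => h i.succ,
      gaussOp_add_const (hζ0 0).le
        (Ft_lip (fun q hq => (ofFn_pos (fun i => hζ0 i.succ) _ q hq).le) _)]

lemma abs_gaussOp_var {a v v' ε : ℝ} {f : ℝ → ℝ} (ha : 0 < a) (ha1 : a ≤ 1) (hv : 0 ≤ v)
    (hvv : v ≤ v') (hε : v' - v ≤ ε) (hf : LipschitzWith 1 f) (x : ℝ) :
    |gaussOp a v' f x - gaussOp a v f x| ≤ 2 * √ε + ε := by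
  have h := abs_gaussOp_sub_le ha.le ha1 (sub_nonneg.2 hvv) (gaussOp_lip ha.le hf v) x
  rw [gaussOp_semigroup ha (sub_nonneg.2 hvv) hv hf, sub_add_cancel] at h
  linarith [Real.sqrt_le_sqrt hε]

lemma Ft_cont {ε : ℝ} : ∀ {r : ℕ} {ζ : Fin r → ℝ} (_ : ∀ i, 0 < ζ i ∧ ζ i ≤ 1) {τ τ' : ℝ}
    {h h' : Fin r → ℝ} (_ : |τ - τ'| ≤ ε) (_ : ∀ i, |h i - h' i| ≤ ε) (z : ℝ),
    Ft τ (List.ofFn fun i => (ζ i, h i)) z ≤ Ft τ' (List.ofFn fun i => (ζ i, h' i)) z +
      (r * (2 * √(2 * ε) + 2 * ε) + ε)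
  | 0, _, _, τ, τ', h, h', h0, _, z => by
    simp only [List.ofFn_zero, Ft]
    have := abs_le.1 h0
    push_cast
    linarith [this.1, this.2]
  | r + 1, ζ, hζ0, τ, τ', h, h', h0, h1, z => by
    simp only [List.ofFn_succ, Ft]
    have hmax : |max (h 0) τ - max (h' 0) τ'| ≤ ε :=
      (abs_max_sub_max_le_max _ _ _ _).trans (max_le (h1 0) h0)
    have hl : ∀ (g : Fin (r + 1) → ℝ) t,
        LipschitzWith 1 (Ft t (List.ofFn fun i : Fin r => (ζ i.succ, g i.succ))) := fun g t =>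
      Ft_lip (fun q hq => (ofFn_pos (fun i => (hζ0 i.succ).1) _ q hq).le) _
    have h2 := gaussOp_le (hζ0 0).1.le (hl h _) (hl h' _)
      (Ft_cont (fun i => hζ0 i.succ) hmax fun i => h1 i.succ) (max (h 0) τ - τ) z
    have hv : 0 ≤ max (h 0) τ - τ := sub_nonneg.2 (le_max_right _ _)
    have hv' : 0 ≤ max (h' 0) τ' - τ' := sub_nonneg.2 (le_max_right _ _)
    have h3 := abs_le.1 hmax
    have h4 := abs_le.1 h0
    push_cast
    rcases le_total (max (h 0) τ - τ) (max (h' 0) τ' - τ') with hle | hle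
    · have := abs_le.1 (abs_gaussOp_var (ε := 2 * ε) (hζ0 0).1 (hζ0 0).2 hv hle
        (by linarith [h3.1, h4.2]) (hl h' (max (h' 0) τ')) z)
      linarith [this.1]
    · have := abs_le.1 (abs_gaussOp_var (ε := 2 * ε) (hζ0 0).1 (hζ0 0).2 hv' hle
        (by linarith [h3.2, h4.1]) (hl h' (max (h' 0) τ')) z)
      linarith [this.2]

lemma Wv_le (hζ0 : ∀ i, 0 < ζ i ∧ ζ i ≤ 1) (hm : |m| < 1) {τ τ' ε : ℝ} {h h' : Fin r → ℝ}
    (h0 : |τ - τ'| ≤ ε) (h1 : ∀ i, |h i - h' i| ≤ ε) :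
    Wv ζ τ' h' m ≤ Wv ζ τ h m + (r * (2 * √(2 * ε) + 2 * ε) + ε) := by
  refine ciSup_le fun b => ?_
  have h2 := le_ciSup (bdd_Wv (fun i => (hζ0 i).1) hm τ h) b
  have h3 := Ft_cont hζ0 h0 h1 b
  rw [Wv]
  linarith

theorem submod (hζ : Monotone ζ) (hζ0 : ∀ i, 0 < ζ i ∧ ζ i ≤ 1) (hm : |m| < 1) {τ τ' : ℝ}
    {h h' : Fin r → ℝ} (hh : Monotone h) (hh' : Monotone h') (hτ : ∀ i, τ ≤ h i)
    (hτ' : ∀ i, τ' ≤ h' i) (hle : τ ≤ τ') :
    Wv ζ τ' (fun i => max (h i) (h' i)) m + Wv ζ τ (fun i => min (h i) (h' i)) m ≤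
      Wv ζ τ h m + Wv ζ τ' h' m := by
  classical
  have hp : ∀ i, 0 < ζ i := fun i => (hζ0 i).1
  have h1 : ∀ i, ζ i ≤ 1 := fun i => (hζ0 i).2
  let A : Finset ℝ := univ.image h ∪ univ.image h'
  have hA : ∀ c ∈ A, τ ≤ c := by
    intro c hc
    rcases mem_union.1 hc with hc | hc <;> obtain ⟨i, -, rfl⟩ := mem_image.1 hc
    · exact hτ i
    · exact hle.trans (hτ' i)
  have hAh : ∀ i, h i ∈ A := fun i => mem_union_left _ (mem_image_of_mem _ (mem_univ i))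
  have hAh' : ∀ i, h' i ∈ A := fun i => mem_union_right _ (mem_image_of_mem _ (mem_univ i))
  let P : List ℝ := (A.filter (· ≤ τ')).sort (· ≤ ·) ++ [τ']
  let M : List ℝ := (A.filter (τ' < ·)).sort (· ≤ ·)
  have hP : ∀ c ∈ P, τ ≤ c ∧ c ≤ τ' := by
    intro c hc
    rcases List.mem_append.1 hc with hc | hc
    · rw [mem_sort, mem_filter] at hc
      exact ⟨hA c hc.1, hc.2⟩
    · rw [List.mem_singleton.1 hc]; exact ⟨hle, le_rfl⟩
  have hM : ∀ c ∈ M, τ' ≤ c := fun c hc => by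
    rw [mem_sort, mem_filter] at hc
    exact hc.2.le
  have hsM : (τ' :: M).Pairwise (· ≤ ·) := List.pairwise_cons.2 ⟨hM, pairwise_sort _ _⟩
  have hsP : (τ :: P).Pairwise (· ≤ ·) := by
    refine List.pairwise_cons.2 ⟨fun c hc => (hP c hc).1, List.pairwise_append.2
      ⟨pairwise_sort _ _, List.pairwise_singleton _ _, fun a ha b hb => ?_⟩⟩
    rw [List.mem_singleton.1 hb]
    exact (hP a (List.mem_append_left _ ha)).2
  have hsPM : (τ :: (P ++ M)).Pairwise (· ≤ ·) := by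
    refine List.pairwise_cons.2 ⟨fun c hc => ?_, List.pairwise_append.2
      ⟨(List.pairwise_cons.1 hsP).2, pairwise_sort _ _, fun a ha b hb => (hP a ha).2.trans (hM b hb)⟩⟩
    rcases List.mem_append.1 hc with hc | hc
    · exact (hP c hc).1
    · exact hle.trans (hM c hc)
  have hjM : ∀ c ∈ A, c ≤ τ' ∨ c ∈ M := fun c hc =>
    (le_or_gt c τ').imp_right fun h => (mem_sort _).2 (mem_filter.2 ⟨hc, h⟩)
  have hjPM : ∀ c ∈ A, c ≤ τ ∨ c ∈ P ++ M := fun c hc => .inr <| by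
    rcases hjM c hc with h | h
    · exact List.mem_append_left _ (List.mem_append_left _ ((mem_sort _).2 (mem_filter.2 ⟨hc, h⟩)))
    · exact List.mem_append_right _ h
  have hlast : lastc τ P = τ' := by simp only [P, lastc_append, lastc]
  let a : ℝ → ℝ := fun t => prof t (List.ofFn fun i => (ζ i, h i))
  let a' : ℝ → ℝ := fun t => prof t (List.ofFn fun i => (ζ i, h' i))
  have ha : ∀ t, 0 < a t := prof_pos (ofFn_pos hp h)
  have ha' : ∀ t, 0 < a' t := prof_pos (ofFn_pos hp h')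
  have hmax : ∀ t, prof t (List.ofFn fun i => (ζ i, max (h i) (h' i))) = min (a t) (a' t) := by
    intro t
    refine eq_of_forall_ge_iff fun x => ?_
    simp only [a, a', min_le_iff, prof_ofFn_le_iff hζ h1, le_max_iff, or_and_right, exists_or]
    exact or_or_distrib_left
  have hmin : ∀ t, prof t (List.ofFn fun i => (ζ i, min (h i) (h' i))) = max (a t) (a' t) := by
    intro t
    refine eq_of_forall_ge_iff fun x => ?_
    simp only [a, a', max_le_iff, prof_ofFn_le_iff hζ h1, le_min_iff]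
    constructor
    · rintro (hx | ⟨i, ⟨h2, h3⟩, h4⟩)
      · exact ⟨.inl hx, .inl hx⟩
      · exact ⟨.inr ⟨i, h2, h4⟩, .inr ⟨i, h3, h4⟩⟩
    · rintro ⟨hx | ⟨i, h2, h3⟩, hx' | ⟨j, h4, h5⟩⟩
      · exact .inl hx
      · exact .inl hx
      · exact .inl hx'
      · rcases le_total i j with hij | hij
        · exact .inr ⟨j, ⟨h2.trans (hh hij), h4⟩, h5⟩
        · exact .inr ⟨i, ⟨h2, h4.trans (hh' hij)⟩, h3⟩
  have hpre : ∀ t, t ≤ τ' → max (a t) (a' t) = a t := by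
    intro t ht
    refine max_eq_left ((prof_ofFn_le_iff hζ h1 h' t _).2 ?_)
    exact ((prof_ofFn_le_iff hζ h1 h t _).1 le_rfl).imp_right
      fun ⟨i, _, h3⟩ => ⟨i, ht.trans (hτ' i), h3⟩
  rw [Wv_cuts hp hm hsM fun i => hjM _ (by rcases max_choice (h i) (h' i) with e | e <;> simp [*]),
    Wv_cuts hp hm hsPM fun i => hjPM _ (by rcases min_choice (h i) (h' i) with e | e <;> simp [*]),
    Wv_cuts hp hm hsPM fun i => hjPM _ (hAh i), Wv_cuts hp hm hsM fun i => hjM _ (hAh' i),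
    seg_append τ P M, lastc_append τ P M, hlast, List.map_append, List.map_append]
  simp only [hmax, hmin]
  rw [List.map_congr_left (l := seg τ P) (f := fun s => (max (a s.1) (a' s.1), s.2))
    (g := fun s => (a s.1, s.2)) fun s hs => by rw [hpre _ (hP _ (mem_seg hsP hs).1).2]]
  have h2 := Wl_prefix ((seg τ P).map fun s => (a s.1, s.2)) (fun q hq => by
      obtain ⟨s, hs, rfl⟩ := List.mem_map.1 hq
      exact ⟨ha _, (mem_seg hsP hs).2⟩)
    ((seg τ' M).map fun s => (a s.1, max (a s.1) (a' s.1), s.2)) (fun q hq => by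
      obtain ⟨s, hs, rfl⟩ := List.mem_map.1 hq
      exact ⟨ha _, le_max_left _ _, (mem_seg hsM hs).2⟩) hm
  have h3 := Wl_submod ((seg τ' M).map fun s => (a s.1, a' s.1, s.2)) (fun q hq => by
      obtain ⟨s, hs, rfl⟩ := List.mem_map.1 hq
      exact ⟨ha _, ha' _, (mem_seg hsM hs).2⟩) hm
  simp only [List.map_map, Function.comp_def] at h2 h3
  simp only [a, a'] at h2 h3 ⊢
  linarith

end Lat

lemma Wv_shift (hζ0 : ∀ i, 0 < ζ i) (hm : |m| < 1) (τ c : ℝ) (h : Fin r → ℝ) :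
    Wv ζ (τ + c) (fun i => h i + c) m = Wv ζ τ h m + c / 2 := by
  rw [Wv, Wv, Lat.Ft_shift hζ0, ciSup_add (Lat.bdd_Wv hζ0 hm τ h)]
  congr 1; funext b; ring

/-- Submodularity on the cone of monotone jump times (start time included). -/
theorem Wv_submod (hζ : Monotone ζ) (hζ0 : ∀ i, 0 < ζ i ∧ ζ i ≤ 1) (hm : |m| < 1) {τ τ' : ℝ}
    {h h' : Fin r → ℝ} (hh : Monotone h) (hh' : Monotone h') (hτ : ∀ i, τ ≤ h i) (hτ' : ∀ i, τ' ≤ h' i) :
    Wv ζ (max τ τ') (fun i => max (h i) (h' i)) m + Wv ζ (min τ τ') (fun i => min (h i) (h' i)) m ≤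
      Wv ζ τ h m + Wv ζ τ' h' m := by
  rcases le_total τ τ' with hle | hle
  · rw [max_eq_right hle, min_eq_left hle]
    exact Lat.submod hζ hζ0 hm hh hh' hτ hτ' hle
  · rw [max_eq_left hle, min_eq_right hle, add_comm (Wv ζ τ h m)]
    simpa only [max_comm, min_comm] using Lat.submod hζ hζ0 hm hh' hh hτ' hτ hle

lemma Wv_cont (hζ0 : ∀ i, 0 < ζ i ∧ ζ i ≤ 1) (hm : |m| < 1) {τ τ' ε : ℝ} {h h' : Fin r → ℝ}
    (hh : Monotone h) (hh' : Monotone h') (hτ : ∀ i, τ ≤ h i) (hτ' : ∀ i, τ' ≤ h' i)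
    (h0 : |τ - τ'| ≤ ε) (h1 : ∀ i, |h i - h' i| ≤ ε) :
    |Wv ζ τ h m - Wv ζ τ' h' m| ≤ r * (2 * √(2 * ε) + 2 * ε) + ε := by
  have h2 := Lat.Wv_le hζ0 hm h0 h1
  have h3 := Lat.Wv_le (τ := τ') (τ' := τ) (h := h') (h' := h) (ε := ε) hζ0 hm (by rwa [abs_sub_comm])
    fun i => by rw [abs_sub_comm]; exact h1 i
  rw [abs_le]
  constructor <;> linarith

/-- Reflection of the difference of two points at the level `a`. -/
lemma Wv_reflect (hζ : Monotone ζ) (hζ0 : ∀ i, 0 < ζ i ∧ ζ i ≤ 1) (hm : |m| < 1) {τ τ' : ℝ}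
    {h h' : Fin r → ℝ} (hh : Monotone h) (hh' : Monotone h') (hτ : ∀ i, τ ≤ h i) (hτ' : ∀ i, τ' ≤ h' i)
    (a : ℝ) : Wv ζ (min τ (τ' + a)) (fun i => min (h i) (h' i + a)) m +
      Wv ζ (max (τ - a) τ') (fun i => max (h i - a) (h' i)) m ≤ Wv ζ τ h m + Wv ζ τ' h' m := by
  have h1 := Wv_submod hζ hζ0 hm (τ' := τ' + a) (h' := fun i => h' i + a) hh (hh'.add_const a) hτ
    fun i => by linarith [hτ' i]
  have h2 := Wv_shift (fun i => (hζ0 i).1) hm (max (τ - a) τ') a fun i => max (h i - a) (h' i)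
  simp only [← max_add_add_right, sub_add_cancel] at h2
  rw [Wv_shift (fun i => (hζ0 i).1) hm, h2] at h1
  linarith

theorem Wv_midpoint (hζ : Monotone ζ) (hζ0 : ∀ i, 0 < ζ i ∧ ζ i ≤ 1) (hm : |m| < 1)
    {h h' : Fin r → ℝ} (hh : Monotone h) (hh' : Monotone h') (h0 : ∀ i, 0 ≤ h i) (h0' : ∀ i, 0 ≤ h' i) :
    2 * Wv ζ 0 (fun i => (h i + h' i) / 2) m ≤ Wv ζ 0 h m + Wv ζ 0 h' m := by
  obtain ⟨M, hM0, hM⟩ : ∃ M : ℝ, 0 ≤ M ∧ ∀ i, |h i - h' i| ≤ M :=
    ⟨∑ i, |h i - h' i|, sum_nonneg fun i _ => abs_nonneg _,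
      fun i => single_le_sum (f := fun i => |h i - h' i|) (fun i _ => abs_nonneg _) (mem_univ i)⟩
  have key : ∀ j : ℕ, ∃ (σ σ' : ℝ) (g g' : Fin r → ℝ), Monotone g ∧ Monotone g' ∧ (∀ i, σ ≤ g i) ∧
      (∀ i, σ' ≤ g' i) ∧ (σ + σ' = 0 ∧ 0 ≤ σ - σ' ∧ σ - σ' ≤ M * (1 / 2) ^ j) ∧
      (∀ i, g i + g' i = h i + h' i ∧ 0 ≤ g i - g' i ∧ g i - g' i ≤ M * (1 / 2) ^ j) ∧
      Wv ζ σ g m + Wv ζ σ' g' m ≤ Wv ζ 0 h m + Wv ζ 0 h' m := by
    intro j
    induction j with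
    | zero =>
      refine ⟨0, 0, fun i => max (h i) (h' i), fun i => min (h i) (h' i), hh.max hh', hh.min hh',
        fun i => le_max_of_le_left (h0 i), fun i => le_min (h0 i) (h0' i), by simpa using hM0,
        fun i => ⟨max_add_min _ _, sub_nonneg.2 min_le_max, ?_⟩, ?_⟩
      · rw [max_sub_min_eq_abs', pow_zero, mul_one]; exact hM i
      · simpa using Wv_submod hζ hζ0 hm hh hh' h0 h0'
    | succ j ih =>
      obtain ⟨σ, σ', g, g', hg, hg', hσ, hσ', h1, h2, h3⟩ := ih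
      set a : ℝ := M * (1 / 2) ^ (j + 1) with ha
      have ha2 : M * (1 / 2) ^ j = 2 * a := by rw [ha, pow_succ]; ring
      have aux : ∀ x y s : ℝ, (x + y = s ∧ 0 ≤ x - y ∧ x - y ≤ M * (1 / 2) ^ j) →
          min x (y + a) + max (x - a) y = s ∧ 0 ≤ min x (y + a) - max (x - a) y ∧
            min x (y + a) - max (x - a) y ≤ a := by
        intro x y s ⟨e1, e2, e3⟩
        rw [ha2] at e3
        rcases le_total x (y + a) with h | h
        · rw [min_eq_left h, max_eq_right (by linarith)]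
          exact ⟨e1, e2, by linarith⟩
        · rw [min_eq_right h, max_eq_left (by linarith)]
          exact ⟨by linarith, by linarith, by linarith⟩
      refine ⟨min σ (σ' + a), max (σ - a) σ', fun i => min (g i) (g' i + a),
        fun i => max (g i - a) (g' i), hg.min (hg'.add_const a),
        Monotone.max (fun i j hij => sub_le_sub_right (hg hij) a) hg',
        fun i => min_le_min (hσ i) (by linarith [hσ' i]),
        fun i => max_le_max (by linarith [hσ i]) (hσ' i), aux _ _ _ h1, fun i => aux _ _ _ (h2 i),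
        (Wv_reflect hζ hζ0 hm hg hg' hσ hσ' a).trans h3⟩
  have hlim : Filter.Tendsto (fun j : ℕ => Wv ζ 0 h m + Wv ζ 0 h' m +
      2 * (r * (2 * √(2 * (M * (1 / 2) ^ j)) + 2 * (M * (1 / 2) ^ j)) + M * (1 / 2) ^ j))
      Filter.atTop (nhds (Wv ζ 0 h m + Wv ζ 0 h' m)) := by
    have h1 : Filter.Tendsto (fun j : ℕ => (1 / 2 : ℝ) ^ j) Filter.atTop (nhds 0) :=
      tendsto_pow_atTop_nhds_zero_of_lt_one (by norm_num) (by norm_num)
    have h2 : Continuous fun x : ℝ => Wv ζ 0 h m + Wv ζ 0 h' m +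
        2 * (r * (2 * √(2 * (M * x)) + 2 * (M * x)) + M * x) := by fun_prop
    exact (h2.tendsto' 0 _ (by simp)).comp h1
  refine ge_of_tendsto' hlim fun j => ?_
  obtain ⟨σ, σ', g, g', -, -, -, -, h1, h2, h3⟩ := key j
  have h4 := Lat.Wv_le (τ := σ) (τ' := 0) (h := g) (h' := fun i => (h i + h' i) / 2)
    (ε := M * (1 / 2) ^ j) hζ0 hm
    (abs_le.2 ⟨by linarith [h1.1, h1.2.1, h1.2.2], by linarith [h1.1, h1.2.1, h1.2.2]⟩) fun i =>
    abs_le.2 ⟨by linarith [(h2 i).1, (h2 i).2.1, (h2 i).2.2],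
      by linarith [(h2 i).1, (h2 i).2.1, (h2 i).2.2]⟩
  have h5 := Lat.Wv_le (τ := σ') (τ' := 0) (h := g') (h' := fun i => (h i + h' i) / 2)
    (ε := M * (1 / 2) ^ j) hζ0 hm
    (abs_le.2 ⟨by linarith [h1.1, h1.2.1, h1.2.2], by linarith [h1.1, h1.2.1, h1.2.2]⟩) fun i =>
    abs_le.2 ⟨by linarith [(h2 i).1, (h2 i).2.1, (h2 i).2.2],
      by linarith [(h2 i).1, (h2 i).2.1, (h2 i).2.2]⟩
  linarith

theorem Wv_dyadic (hζ : Monotone ζ) (hζ0 : ∀ i, 0 < ζ i ∧ ζ i ≤ 1) (hm : |m| < 1)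
    {h h' : Fin r → ℝ} (hh : Monotone h) (hh' : Monotone h') (h0 : ∀ i, 0 ≤ h i) (h0' : ∀ i, 0 ≤ h' i)
    (j : ℕ) : Wv ζ 0 (fun i => (1 - 1 / 2 ^ j) * h i + 1 / 2 ^ j * h' i) m ≤
      (1 - 1 / 2 ^ j) * Wv ζ 0 h m + 1 / 2 ^ j * Wv ζ 0 h' m := by
  induction j with
  | zero => simp
  | succ j ih =>
    have hc0 : (0 : ℝ) ≤ 1 / 2 ^ j := by positivity
    have hc1 : (0 : ℝ) ≤ 1 - 1 / 2 ^ j := by
      rw [sub_nonneg, div_le_one (by positivity)]
      exact one_le_pow₀ (by norm_num)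
    have h1 := Wv_midpoint hζ hζ0 hm hh ((hh.const_mul hc1).add (hh'.const_mul hc0)) h0
      fun i => add_nonneg (mul_nonneg hc1 (h0 i)) (mul_nonneg hc0 (h0' i))
    have e1 : (1 : ℝ) / 2 ^ (j + 1) = 1 / 2 ^ j / 2 := by rw [pow_succ, div_div]
    have e2 : (fun i => (1 - 1 / 2 ^ (j + 1)) * h i + 1 / 2 ^ (j + 1) * h' i) =
        fun i => (h i + ((1 - 1 / 2 ^ j) * h i + 1 / 2 ^ j * h' i)) / 2 := by
      funext i; rw [e1]; ring
    rw [e2, e1]
    linarith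

end Crest.Agent.R164
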