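import Crest.Agent.R164.OneB

/-! # Row 164: invariants of the recursion with variable exponents -/

set_option autoImplicit false

namespace Crest.Agent.R164

open MeasureTheory ProbabilityTheory Real Finset Crest.ProbabilityR.InvariantGlass

section aux

variable {f f1 f2 F G F1 G1 : ℝ → ℝ} {ζ v : ℝ}

/-- Exponential growth on the line. -/
def RGr (G : ℝ → ℝ) : Prop := ∃ C, ∀ y, |G y| ≤ exp (C * (1 + |y|))

lemma RGr.mul (hF : RGr F) (hG : RGr G) : RGr fun y => F y * G y := by
  obtain ⟨C, hC⟩ := hF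
  obtain ⟨C', hC'⟩ := hG
  refine ⟨C + C', fun y => ?_⟩
  rw [add_mul, exp_add, abs_mul]
  exact mul_le_mul (hC y) (hC' y) (abs_nonneg _) (exp_pos _).le

lemma rgr_of_lin {C : ℝ} (h : ∀ y, |G y| ≤ C * (1 + |y|)) : RGr G :=
  ⟨C, fun y => (h y).trans (by linarith [add_one_le_exp (C * (1 + |y|))])⟩

lemma rgr_of_bdd {C : ℝ} (h : ∀ y, |G y| ≤ C) : RGr G :=
  rgr_of_lin (C := C) fun y => (h y).trans
    (le_mul_of_one_le_right ((abs_nonneg _).trans (h y)) (by linarith [abs_nonneg y]))

lemma rec_lip_abs {C : NNReal} (h : LipschitzWith C G) (y z : ℝ) : |G y - G z| ≤ C * |y - z| := by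
  simpa only [Real.dist_eq] using h.dist_le_mul y z

lemma rgr_of_lip {C : NNReal} (h : LipschitzWith C G) : RGr G :=
  rgr_of_lin (C := C + |G 0|) fun y => by
    have h1 := rec_lip_abs h y 0
    have h2 := abs_sub_abs_le_abs_sub (G y) (G 0)
    rw [sub_zero] at h1
    nlinarith [abs_nonneg y, abs_nonneg (G 0), C.2]

lemma RGr.integrable (hG : RGr G) (hm : Measurable G) {P : Measure ℝ}
    (hP : ∀ c : ℝ, Integrable (fun y => exp (c * |y|)) P) : Integrable G P := by
  obtain ⟨C, hC⟩ := hG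
  refine ((hP C).const_mul (exp C)).mono' hm.aestronglyMeasurable
    (Filter.Eventually.of_forall fun y => ?_)
  rw [← exp_add, ← mul_one_add]
  exact hC y

lemma rec_Ag_mono (hf : LipschitzWith 1 f) (hF : RGr F) (hG : RGr G) (mF : Measurable F)
    (mG : Measurable G) (h : ∀ y, F y ≤ G y) (ζ v x : ℝ) : Ag ζ v f F x ≤ Ag ζ v f G x := by
  obtain ⟨P, _, h1, h2, -⟩ := exists_tilt hf ζ v x
  rw [h2 F mF, h2 G mG]
  exact integral_mono (hF.integrable mF h1) (hG.integrable mG h1) h

lemma rec_Ag_const (hf : LipschitzWith 1 f) (c ζ v x : ℝ) : Ag ζ v f (fun _ => c) x = c := by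
  obtain ⟨P, _, -, h2, -⟩ := exists_tilt hf ζ v x
  rw [h2 _ measurable_const]
  simp

lemma rec_abs_Ag_le (hf : LipschitzWith 1 f) (mF : Measurable F) {C : ℝ} (h : ∀ y, |F y| ≤ C)
    (ζ v x : ℝ) : |Ag ζ v f F x| ≤ C := by
  have h1 := rec_Ag_mono hf (rgr_of_bdd h) (rgr_of_bdd fun _ => le_refl |C|) mF measurable_const
    (fun y => le_of_abs_le (h y)) ζ v x
  have h2 := rec_Ag_mono hf (rgr_of_bdd fun _ => le_refl |-C|) (rgr_of_bdd h) measurable_const mF
    (fun y => neg_le_of_abs_le (h y)) ζ v x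
  rw [rec_Ag_const hf] at h1 h2
  exact abs_le.2 ⟨h2, h1⟩

lemma rec_continuous_Cv (hf : LipschitzWith 1 f) {C C' : NNReal} (hF : LipschitzWith C F)
    (hG : LipschitzWith C' G) (ζ v : ℝ) : Continuous (Cv ζ v f F G) :=
  (continuous_Ag hf (hF.continuous.mul hG.continuous) ((rgr_of_lip hF).mul (rgr_of_lip hG)) ζ v).sub
    ((continuous_Ag hf hF.continuous (rgr_of_lip hF) ζ v).mul
      (continuous_Ag hf hG.continuous (rgr_of_lip hG) ζ v))

lemma rec_cov_shift {P : Measure ℝ} [IsProbabilityMeasure P] (hF : Integrable F P) (hG : Integrable G P)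
    (hFG : Integrable (fun y => F y * G y) P) (a b : ℝ) :
    ∫ y, F y * G y ∂P - (∫ y, F y ∂P) * ∫ y, G y ∂P =
      ∫ y, (F y - a) * (G y - b) ∂P - (∫ y, (F y - a) ∂P) * ∫ y, (G y - b) ∂P := by
  have e : (fun y => (F y - a) * (G y - b)) =
      fun y => (F y * G y - F y * b) - (a * G y - a * b) := by
    ext y; ring
  rw [e, integral_sub (f := fun y => F y * G y - F y * b) (g := fun y => a * G y - a * b)
      (hFG.sub (hF.mul_const b)) ((hG.const_mul a).sub (integrable_const _)),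
    integral_sub hFG (hF.mul_const b), integral_sub (hG.const_mul a) (integrable_const _),
    integral_sub hF (integrable_const _), integral_sub hG (integrable_const _),
    integral_mul_const, integral_const_mul]
  simp only [integral_const, probReal_univ, one_smul]
  ring

lemma Good.rec_lip1 (h : Good f f1 f2) : ∃ C : NNReal, LipschitzWith C f1 := by
  obtain ⟨C, hC⟩ := h.bdd
  refine ⟨C.toNNReal, lipschitzWith_of_nnnorm_deriv_le (𝕜 := ℝ) (fun x => (h.d2 x).differentiableAt)
    fun x => ?_⟩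
  rw [(h.d2 x).deriv, ← NNReal.coe_le_coe, coe_nnnorm, Real.norm_of_nonneg (h.pos x).le]
  exact (hC x).trans (Real.le_coe_toNNReal C)

lemma rec_Cv_bound (h : Good f f1 f2) (hv : 0 ≤ v) {C C' : NNReal} (hF : LipschitzWith C F)
    (hG : LipschitzWith C' G) : ∃ B, ∀ x, |Cv ζ v f F G x| ≤ B := by
  rcases hv.eq_or_lt with rfl | hv
  · exact ⟨0, fun x => by simp [Cv, Ag_zero_var]⟩
  obtain ⟨V, hV⟩ : ∃ V, V = 2 * v + ζ ^ 2 * v ^ 2 := ⟨_, rfl⟩
  refine ⟨C * C' * V + C * (1 + V) * (C' * (1 + V)), fun x => ?_⟩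
  obtain ⟨P, _, h1, h2, -⟩ := exists_tilt h.lip ζ v x
  obtain ⟨C1, hf1⟩ := h.rec_lip1
  have hI : ∀ {F : ℝ → ℝ} {C : NNReal}, LipschitzWith C F → Integrable F P := fun hF =>
    (rgr_of_lip hF).integrable hF.continuous.measurable h1
  have hI2 : ∀ {F G : ℝ → ℝ} {C C' : NNReal}, LipschitzWith C F → LipschitzWith C' G →
      Integrable (fun y => F y * G y) P := fun hF hG =>
    ((rgr_of_lip hF).mul (rgr_of_lip hG)).integrable (hF.continuous.mul hG.continuous).measurable h1
  have hC : ∀ {F G : ℝ → ℝ} {C C' : NNReal}, LipschitzWith C F → LipschitzWith C' G → ∀ a b,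
      Cv ζ v f F G x =
        ∫ y, (F y - a) * (G y - b) ∂P - (∫ y, (F y - a) ∂P) * ∫ y, (G y - b) ∂P := by
    intro F G C C' hF hG a b
    rw [Cv, h2 (fun y => F y * G y) (hF.continuous.mul hG.continuous).measurable,
      h2 _ hF.continuous.measurable,
      h2 _ hG.continuous.measurable]
    exact rec_cov_shift (hI hF) (hI hG) (hI2 hF hG) a b
  obtain ⟨m, hm⟩ : ∃ m, m = ∫ y, y ∂P := ⟨_, rfl⟩
  have hm0 : ∫ y, (id y - m) ∂P = 0 := by
    rw [integral_sub (hI LipschitzWith.id) (integrable_const _), hm]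
    simp
  have hl : LipschitzWith 1 fun y : ℝ => y - m := by
    simpa using LipschitzWith.id.sub (LipschitzWith.const m)
  have hQ := hI2 hl hl
  have hvar : ∫ y, (y - m) * (y - m) ∂P ≤ V := by
    have a1 := stein_Ag (ζ := ζ) h hv LipschitzWith.id (G1 := fun _ => 1) measurable_const
      Set.finite_empty (fun y _ => hasDerivAt_id y) x
    rw [rec_Ag_const h.lip, hC LipschitzWith.id LipschitzWith.id m m,
      hC LipschitzWith.id hf1 m 0, hm0, zero_mul, zero_mul, sub_zero, sub_zero, eq_div_iff hv.ne',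
      ← integral_const_mul] at a1
    simp only [id, sub_zero] at a1
    have a2 : ∫ y, ζ * ((y - m) * f1 y) ∂P ≤
        ∫ y, ((y - m) * (y - m) / (2 * v) + ζ ^ 2 * v / 2) ∂P := by
      refine integral_mono ((hI2 hl hf1).const_mul ζ) ((hQ.div_const _).add (integrable_const _))
        fun y => ?_
      have b1 : f1 y ^ 2 ≤ 1 := (sq_le_one_iff_abs_le_one _).2 (h.le_one y)
      have b2 : ζ * ((y - m) * f1 y) * (2 * v) ≤ (y - m) * (y - m) + ζ ^ 2 * v ^ 2 := by
        nlinarith [sq_nonneg (y - m - ζ * v * f1 y), mul_nonneg (sq_nonneg (ζ * v)) (sub_nonneg.2 b1)]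
      have b3 : (y - m) * (y - m) / (2 * v) + ζ ^ 2 * v / 2 =
          ((y - m) * (y - m) + ζ ^ 2 * v ^ 2) / (2 * v) := by field_simp
      simp only [b3]
      rwa [le_div_iff₀ (by positivity)]
    rw [integral_add (hQ.div_const _) (integrable_const _), integral_div] at a2
    simp only [integral_const, probReal_univ, one_smul] at a2
    have a3 := mul_le_mul_of_nonneg_right a2 hv.le
    have a4 : (∫ y, (y - m) * (y - m) ∂P) / (2 * v) * v = (∫ y, (y - m) * (y - m) ∂P) / 2 := by
      field_simp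
    rw [add_mul, a4] at a3
    nlinarith
  have hone : ∀ {F : ℝ → ℝ} {C : NNReal}, LipschitzWith C F →
      |∫ y, (F y - F m) ∂P| ≤ C * (1 + V) := by
    intro F C hF
    have a1 := norm_integral_le_of_norm_le (f := fun y => F y - F m)
      (((integrable_const (1 : ℝ)).add hQ).const_mul C) (Filter.Eventually.of_forall fun y =>
        (rec_lip_abs hF y m).trans (mul_le_mul_of_nonneg_left (by
          simp only [Pi.add_apply]
          nlinarith [abs_mul_abs_self (y - m), sq_nonneg (|y - m| - 1)]) C.2))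
    rw [integral_const_mul, integral_add' (integrable_const _) hQ] at a1
    simp only [integral_const, probReal_univ, one_smul] at a1
    exact a1.trans (mul_le_mul_of_nonneg_left (by linarith) C.2)
  have htwo : |∫ y, (F y - F m) * (G y - G m) ∂P| ≤ C * C' * V := by
    have a1 := norm_integral_le_of_norm_le (f := fun y => (F y - F m) * (G y - G m))
      (hQ.const_mul (C * C')) (Filter.Eventually.of_forall fun y => by
        rw [Real.norm_eq_abs, abs_mul, ← abs_mul_abs_self (y - m), mul_mul_mul_comm]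
        exact mul_le_mul (rec_lip_abs hF y m) (rec_lip_abs hG y m) (abs_nonneg _) (by positivity))
    rw [integral_const_mul] at a1
    exact a1.trans (mul_le_mul_of_nonneg_left hvar (by positivity))
  rw [hC hF hG (F m) (G m)]
  refine (abs_sub _ _).trans (add_le_add htwo ?_)
  rw [abs_mul]
  exact mul_le_mul (hone hF) (hone hG) (abs_nonneg _) ((abs_nonneg _).trans (hone hF))

lemma Cvx.rec_add (hF : Cvx f2 F F1) (hG : Cvx f2 G G1) {u : ℝ} (hu : 0 ≤ u) :
    Cvx f2 (fun x => F x + u * G x) (fun x => F1 x + u * G1 x) where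
  d x := (hF.d x).add ((hG.d x).const_mul u)
  cont := hF.cont.add (hG.cont.const_mul u)
  bdd := by
    obtain ⟨L, hL⟩ := hF.bdd
    obtain ⟨L', hL'⟩ := hG.bdd
    refine ⟨L + u * L', fun x => (abs_add_le _ _).trans ?_⟩
    rw [abs_mul, abs_of_nonneg hu, _root_.add_mul, mul_assoc]
    exact add_le_add (hL x) (mul_le_mul_of_nonneg_left (hL' x) hu)
  mono := by
    simp only [add_div, mul_div_assoc]
    exact hF.mono.add (hG.mono.const_mul hu)

lemma Good.rec_smono (h : Good f f1 f2) : StrictMono f1 :=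
  strictMono_of_hasDerivAt_pos h.d2 h.pos

end aux

variable {θ e e' : ℝ × ℝ} {L : List Q4}

lemma Val.rhead {q : Q4} (h : Val θ (q :: L)) : 0 < q.ζ θ ∧ 0 ≤ q.v := h q List.mem_cons_self

lemma Val.rtail {q : Q4} (h : Val θ (q :: L)) : Val θ L := fun r hr => h r (List.mem_cons_of_mem _ hr)

lemma Val.rnonneg (h : Val θ L) : ∀ q ∈ L.map fun q => (q.ζ θ, q.v), 0 ≤ q.1 := by
  intro q hq
  obtain ⟨r, hr, rfl⟩ := List.mem_map.1 hq
  exact (h r hr).1.le

lemma ff_eq_fl (θ : ℝ × ℝ) (L : List Q4) : ff θ L = fl (L.map fun q => (q.ζ θ, q.v)) := by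
  induction L with
  | nil => rfl
  | cons q L ih => rw [ff, ih]; rfl

theorem rec_good (h : Val θ L) : Good (ff θ L) (f1 θ L) (f2 θ L) := by
  induction L with
  | nil => exact good_logcosh
  | cons q L ih => exact good_step (ih h.rtail) h.rhead.1 h.rhead.2

lemma f2_le (h : Val θ L) (x : ℝ) : f2 θ L x ≤ 1 + (L.map fun q => q.ζ θ).sum := by
  induction L generalizing x with
  | nil => simp only [f2, List.map_nil, List.sum_nil]; nlinarith [sq_nonneg (tanh x)]
  | cons q L ih =>
    have hg := rec_good h.rtail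
    have m1 : Measurable (f1 θ L) := hg.rec_smono.monotone.measurable
    have h1 := le_of_abs_le (rec_abs_Ag_le hg.lip hg.cont.measurable
      (fun y => (abs_of_pos (hg.pos y)).trans_le (ih h.rtail y)) (q.ζ θ) q.v x)
    have h2 := le_of_abs_le (rec_abs_Ag_le hg.lip (F := fun y => f1 θ L y * f1 θ L y) (m1.mul m1)
      (C := 1) (fun y => by
        rw [abs_mul]; exact mul_le_one₀ (hg.le_one y) (abs_nonneg _) (hg.le_one y)) (q.ζ θ) q.v x)
    have h3 : Cv (q.ζ θ) q.v (ff θ L) (f1 θ L) (f1 θ L) x ≤ 1 := by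
      rw [Cv]; linarith [mul_self_nonneg (Ag (q.ζ θ) q.v (ff θ L) (f1 θ L) x)]
    have h4 := mul_le_mul_of_nonneg_left h3 h.rhead.1.le
    simp only [f2, List.map_cons, List.sum_cons]
    linarith

theorem rec_cvx (h : Val θ L) (he : ∀ q ∈ L, 0 ≤ q.dir e) : Cvx (f2 θ L) (Dr θ e L) (Dr1 θ e L) := by
  induction L with
  | nil =>
    exact ⟨fun x => hasDerivAt_const _ _, continuous_const, ⟨0, fun x => by simp [Dr1]⟩,
      fun x y _ => by simp [Dr1]⟩
  | cons q L ih =>
    have hg := rec_good h.rtail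
    exact (cvx_step hg h.rhead.1 h.rhead.2 (ih h.rtail fun r hr => he r (List.mem_cons_of_mem _ hr))).rec_add
      (cvx_K hg h.rhead.1 h.rhead.2) (he q List.mem_cons_self)

lemma Dr1_bound (h : Val θ L) (he : ∀ q ∈ L, 0 ≤ q.dir e) (x : ℝ) :
    |Dr1 θ e L x| ≤ (L.map fun q => q.dir e * q.v).sum * f2 θ L x := by
  induction L generalizing x with
  | nil => simp [Dr1]
  | cons q L ih =>
    have hg := rec_good h.rtail
    have he' : ∀ r ∈ L, 0 ≤ r.dir e := fun r hr => he r (List.mem_cons_of_mem _ hr)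
    have hu := he q List.mem_cons_self
    have h1 := step_bound hg h.rhead.1 h.rhead.2 (rec_cvx h.rtail he') (ih h.rtail he') x
    have h2 := mul_le_mul_of_nonneg_left (K_bound hg h.rhead.1 h.rhead.2 x) hu
    simp only [Dr1, f2, List.map_cons, List.sum_cons]
    refine (abs_add_le _ _).trans ?_
    rw [abs_mul, abs_of_nonneg hu]
    linarith

theorem rec_xi (h : Val θ L) (he : ∀ q ∈ L, 0 ≤ q.dir e ∧ 0 ≤ q.dir e' ∧ q.dir e * q.dir e' = 0) :
    Continuous (Xi θ e e' L) ∧ (∃ C, ∀ x, |Xi θ e e' L x| ≤ C) ∧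
      ∀ x, Dr1 θ e L x * Dr1 θ e' L x ≤ Xi θ e e' L x * f2 θ L x := by
  induction L with
  | nil => exact ⟨continuous_const, ⟨0, fun x => by simp [Xi]⟩, fun x => by simp [Xi, Dr1]⟩
  | cons q L ih =>
    have hg := rec_good h.rtail
    obtain ⟨hζ, hv⟩ := h.rhead
    obtain ⟨hu, hw, huw⟩ := he q List.mem_cons_self
    have he' := fun r hr => he r (List.mem_cons_of_mem q hr)
    obtain ⟨i1, ⟨C, i2⟩, i3⟩ := ih h.rtail he'
    have c1 := rec_cvx h.rtail fun r hr => (he' r hr).1
    have c2 := rec_cvx h.rtail fun r hr => (he' r hr).2.1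
    obtain ⟨L1, l1⟩ := c1.lip hg
    obtain ⟨L2, l2⟩ := c2.lip hg
    refine ⟨?_, ?_, fun x => ?_⟩
    · exact (((continuous_Ag hg.lip i1 (rgr_of_bdd i2) _ _).add
        ((rec_continuous_Cv hg.lip l1 l2 _ _).const_mul _)).add
        ((rec_continuous_Cv hg.lip hg.lip l2 _ _).const_mul _)).add
        ((rec_continuous_Cv hg.lip hg.lip l1 _ _).const_mul _)
    · obtain ⟨B1, b1⟩ := rec_Cv_bound (ζ := q.ζ θ) hg hv l1 l2
      obtain ⟨B2, b2⟩ := rec_Cv_bound (ζ := q.ζ θ) hg hv hg.lip l2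
      obtain ⟨B3, b3⟩ := rec_Cv_bound (ζ := q.ζ θ) hg hv hg.lip l1
      refine ⟨C + q.ζ θ * B1 + q.dir e * B2 + q.dir e' * B3, fun x => ?_⟩
      have hm : ∀ {a b c : ℝ}, 0 ≤ a → |b| ≤ c → |a * b| ≤ a * c := fun ha hb => by
        rw [abs_mul, abs_of_nonneg ha]; exact mul_le_mul_of_nonneg_left hb ha
      exact (abs_add_le _ _).trans (add_le_add ((abs_add_le _ _).trans (add_le_add
        ((abs_add_le _ _).trans (add_le_add (rec_abs_Ag_le hg.lip i1.measurable i2 _ _ x)
          (hm hζ.le (b1 x)))) (hm hu (b2 x)))) (hm hw (b3 x)))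
    · obtain ⟨M1, m1⟩ := c1.bdd
      obtain ⟨M2, m2⟩ := c2.bdd
      obtain ⟨M3, m3⟩ := hg.bdd
      have a0 := rec_Ag_mono hg.lip (F := fun y => Dr1 θ e L y * Dr1 θ e' L y / f2 θ L y)
        (rgr_of_bdd (C := |M1| * (|M2| * M3)) fun y => by
          have hp := hg.pos y
          rw [mul_div_right_comm, abs_mul, abs_div, abs_of_pos hp]
          refine mul_le_mul ?_ ((m2 y).trans (mul_le_mul (le_abs_self _) (m3 y) hp.le
            (abs_nonneg _))) (abs_nonneg _) (abs_nonneg _)
          rw [div_le_iff₀ hp]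
          exact (m1 y).trans (mul_le_mul_of_nonneg_right (le_abs_self _) hp.le))
        (rgr_of_bdd i2) ((c1.cont.measurable.mul c2.cont.measurable).div hg.cont.measurable)
        i1.measurable (fun y => (div_le_iff₀ (hg.pos y)).2 (i3 y)) (q.ζ θ) q.v x
      have a1 := b_step hg hζ hv c1 c2 x
      have a2 := mul_le_mul_of_nonneg_left (k_step hg hζ hv c1 x) hw
      have a3 := mul_le_mul_of_nonneg_left (k_step hg hζ hv c2 x) hu
      have a4 := mul_le_mul_of_nonneg_right a0 ((good_step hg hζ hv).pos x).le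
      have a5 : q.dir e * q.dir e' * Cv (q.ζ θ) q.v (ff θ L) (ff θ L) (f1 θ L) x ^ 2 = 0 := by
        rw [huw, zero_mul]
      simp only [Dr1, Xi, f2]
      linarith

lemma exists_f1_eq (h : Val θ L) {m : ℝ} (hm : |m| < 1) : ∃ b, f1 θ L b = m := by
  have hg := rec_good h
  have hd : ∀ b, HasDerivAt (fun b => b * m - ff θ L b) (m - f1 θ L b) b := fun b =>
    (hasDerivAt_mul_const m).sub (hg.d1 b)
  have hm' : 0 < 1 - |m| := by linarith
  obtain ⟨b, hb⟩ := Continuous.exists_forall_ge' (f := fun b => b * m - ff θ L b)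
    (continuous_iff_continuousAt.2 fun b => (hd b).continuousAt) 0 (by
      filter_upwards [(isCompact_Icc (a := -((log 2 + ff θ L 0) / (1 - |m|)))
        (b := (log 2 + ff θ L 0) / (1 - |m|))).compl_mem_cocompact] with y hy
      have h1 : (log 2 + ff θ L 0) / (1 - |m|) < |y| := by
        by_contra hc
        exact hy (abs_le.1 (not_lt.1 hc))
      rw [div_lt_iff₀ hm'] at h1
      have h2 := logcosh_le_fl h.rnonneg y
      rw [← ff_eq_fl] at h2
      have h3 := (logcosh_bounds y).1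
      have h4 := le_abs_self (y * m)
      rw [abs_mul] at h4
      nlinarith)
  have := IsLocalMax.hasDerivAt_eq_zero (Filter.Eventually.of_forall hb) (hd b)
  exact ⟨b, by linarith⟩

lemma Wl_eq (h : Val θ L) {m b : ℝ} (hb : f1 θ L b = m) :
    Wl (L.map fun q => (q.ζ θ, q.v)) m = b * m - ff θ L b := by
  have hg := rec_good h
  have h1 : ∀ y, y * m - ff θ L y ≤ b * m - ff θ L b := by
    intro y
    rcases lt_trichotomy y b with hy | rfl | hy
    · obtain ⟨c, hc, hc'⟩ := exists_hasDerivAt_eq_slope (ff θ L) (f1 θ L) hy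
        hg.lip.continuous.continuousOn fun x _ => hg.d1 x
      have := (hg.rec_smono hc.2).le
      rw [hc', hb, div_le_iff₀ (by linarith)] at this
      linarith
    · exact le_rfl
    · obtain ⟨c, hc, hc'⟩ := exists_hasDerivAt_eq_slope (ff θ L) (f1 θ L) hy
        hg.lip.continuous.continuousOn fun x _ => hg.d1 x
      have := (hg.rec_smono hc.1).le
      rw [hc', hb, le_div_iff₀ (by linarith)] at this
      linarith
  rw [Wl, ← ff_eq_fl]
  exact le_antisymm (ciSup_le h1)
    (le_ciSup (f := fun y => y * m - ff θ L y) ⟨_, Set.forall_mem_range.2 h1⟩ b)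

/-- Extra diffusion at the start increases a convex function of the mean spin. -/
theorem Dr_prefix {P : List Q4} (hP : Val θ P) (h : Val θ L) (hP0 : ∀ q ∈ P, q.dir e = 0)
    (he : ∀ q ∈ L, 0 ≤ q.dir e) {x x' : ℝ} (hx : f1 θ (P ++ L) x = f1 θ L x') :
    Dr θ e L x' ≤ Dr θ e (P ++ L) x := by
  induction P generalizing x with
  | nil => rw [(rec_good h).rec_smono.injective hx]; exact le_rfl
  | cons q P ih =>
    have hv : Val θ (P ++ L) := fun r hr =>
      (List.mem_append.1 hr).elim (hP.rtail r) (h r)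
    have hP0' : ∀ r ∈ P, r.dir e = 0 := fun r hr => hP0 r (List.mem_cons_of_mem _ hr)
    obtain ⟨y, hy⟩ := exists_f1_eq hv ((rec_good h).abs_lt_one x')
    have h1 := jensen_step (ζ := q.ζ θ) (v := q.v) (x := x) (x' := y) (rec_good hv)
      (rec_cvx (e := e) hv fun r hr =>
        (List.mem_append.1 hr).elim (fun hr => (hP0' r hr).ge) (he r)) (hx.trans hy.symm)
    refine (ih hP.rtail hP0' hy).trans (h1.trans (le_of_eq ?_))
    simp only [List.cons_append, Dr, hP0 q List.mem_cons_self, zero_mul, add_zero]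

end Crest.Agent.R164
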