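import Crest.Agent.R164.OneStepAux2

/-! # Row 164: three correlation inequalities from the key sign lemma -/

set_option autoImplicit false

namespace Crest.Agent.R164.OS

open MeasureTheory ProbabilityTheory Real Filter Topology

/-- Covariance. -/
noncomputable def cov (P : Measure ℝ) (A B : ℝ → ℝ) : ℝ :=
  ∫ y, A y * B y ∂P - (∫ y, A y ∂P) * ∫ y, B y ∂P

/-- Third cumulant with the identity. -/
noncomputable def kap (P : Measure ℝ) (A B : ℝ → ℝ) : ℝ :=
  cov P (fun y => A y * B y) id - cov P A id * ∫ y, B y ∂P - (∫ y, A y ∂P) * cov P B id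

variable {P : Measure ℝ} [IsProbabilityMeasure P]

theorem ineq1 (hE : ∀ c : ℝ, Integrable (fun y => exp (c * |y|)) P) (hP : ∀ y : ℝ, P {y} = 0)
    {F F1 n n1 : ℝ → ℝ} (hF : ∀ y, HasDerivAt F (F1 y) y) (hn : ∀ y, HasDerivAt n (n1 y) y)
    (hn1 : ∀ y, 0 < n1 y) (hm : Monotone fun y => F1 y / n1 y) (eF : EB F) (en : EB n)
    (hpos : 0 < cov P n id) : 0 ≤ kap P F id * cov P n id - cov P F id * kap P n id := by
  set m := ∫ y, y ∂P with hm0
  set V := ∫ y, y * y ∂P - m * m with hV
  set c := kap P n id / cov P n id with hc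
  set φ : ℝ → ℝ := fun y => (y - m) ^ 2 - V - c * (y - m) with hφ
  have eφ : ∀ G, EB G → Integrable (fun y => G y * φ y) P ∧
      ∫ y, G y * φ y ∂P = kap P G id - c * cov P G id := by
    intro G hG
    have e : (fun y => G y * φ y) = fun y => 1 * (G y * y * y) + (-2 * m - c) * (G y * y) +
        (m ^ 2 - V + c * m) * G y := by
      funext y; simp only [hφ]; ring
    have i2 := ((hG.mul EB.id).mul EB.id).integrable hE
    have i1 := (hG.mul EB.id).integrable hE
    have i0 := hG.integrable hE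
    rw [e]
    refine ⟨((i2.const_mul _).add (i1.const_mul _)).add (i0.const_mul _), ?_⟩
    rw [int3 i2 i1 i0]
    simp only [kap, cov, id, ← hm0, hV]
    ring
  have h0 := eφ _ (EB.const 1)
  simp only [one_mul] at h0
  have hk := key hP hF hn hn1 hm (φ := φ) (by simp only [hφ]; fun_prop) ?_ h0.1 (eφ n en).1
    (eφ F eF).1 ?_ ?_
  · rw [(eφ F eF).2, hc] at hk
    have := mul_nonneg hk hpos.le
    rw [sub_mul, mul_right_comm, div_mul_cancel₀ _ hpos.ne'] at this
    linarith
  · intro a b d hab hbd ha hd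
    simp only [hφ] at ha hd ⊢
    by_contra hb
    push Not at hb
    have e : (d - a) * ((b - m) ^ 2 - V - c * (b - m)) =
        (d - b) * ((a - m) ^ 2 - V - c * (a - m)) + (b - a) * ((d - m) ^ 2 - V - c * (d - m)) -
          (d - a) * ((b - a) * (d - b)) := by ring
    have h1 := mul_pos (sub_pos.2 (hab.trans hbd)) hb
    have h2 := mul_nonpos_of_nonneg_of_nonpos (sub_pos.2 hbd).le ha
    have h3 := mul_nonpos_of_nonneg_of_nonpos (sub_pos.2 hab).le hd
    have h4 := mul_pos (sub_pos.2 (hab.trans hbd)) (mul_pos (sub_pos.2 hab) (sub_pos.2 hbd))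
    linarith
  · rw [h0.2]
    simp [kap, cov]
  · rw [(eφ n en).2, hc, div_mul_cancel₀ _ hpos.ne', sub_self]

theorem ineq2 (hE : ∀ c : ℝ, Integrable (fun y => exp (c * |y|)) P) (hP : ∀ y : ℝ, P {y} = 0)
    {f f1 : ℝ → ℝ} (hf : ∀ y, HasDerivAt f (f1 y) y) (hm : Monotone f1) (hc1 : Continuous f1)
    (ef : EB f) (e1 : EB f1) (hpos : 0 < cov P f1 id) :
    0 ≤ kap P f f1 * cov P f1 id - cov P f f1 * kap P f1 id := by
  set m := ∫ y, y ∂P with hm0
  set a := ∫ y, f1 y ∂P with ha0
  set K := cov P f1 id with hK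
  set c := kap P f1 id / K with hc
  set φ : ℝ → ℝ := fun y => (f1 y - a) * (y - m - c) - K with hφ
  have eφ : ∀ G, EB G → Integrable (fun y => G y * φ y) P ∧
      ∫ y, G y * φ y ∂P = kap P G f1 - c * cov P G f1 := by
    intro G hG
    have e : (fun y => G y * φ y) = fun y => 1 * (G y * f1 y * y) + (-m - c) * (G y * f1 y) +
        (-a) * (G y * y) + (a * (m + c) - K) * G y := by
      funext y; simp only [hφ]; ring
    have i3 := ((hG.mul e1).mul EB.id).integrable hE
    have i2 := (hG.mul e1).integrable hE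
    have i1 := (hG.mul EB.id).integrable hE
    have i0 := hG.integrable hE
    rw [e]
    refine ⟨(((i3.const_mul _).add (i2.const_mul _)).add (i1.const_mul _)).add (i0.const_mul _), ?_⟩
    rw [int4 i3 i2 i1 i0]
    simp only [kap, hK, cov, id, ← hm0, ← ha0]
    ring
  have h0 := eφ _ (EB.const 1)
  simp only [one_mul] at h0
  have hsym : kap P (fun y => y) f1 = kap P f1 id := by
    simp only [kap, cov, id, mul_comm]
    ring
  have hsym' : cov P (fun y => y) f1 = K := by
    simp only [hK, cov, id, mul_comm]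
  have hk := key hP hf (n := fun y => y) (n1 := fun _ => 1) (fun y => hasDerivAt_id y)
    (fun _ => one_pos) (by simpa using hm) (φ := φ) (by simp only [hφ]; fun_prop) ?_ h0.1
    (eφ _ EB.id).1 (eφ f ef).1 ?_ ?_
  · rw [(eφ f ef).2, hc] at hk
    have := mul_nonneg hk hpos.le
    rw [sub_mul, mul_right_comm, div_mul_cancel₀ _ hpos.ne'] at this
    linarith
  · intro p q r hpq hqr hp hr
    simp only [hφ] at hp hr ⊢
    by_contra hq
    push Not at hq
    have h1 := hm hpq.le
    have h2 := hm hqr.le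
    rcases lt_trichotomy (q - m - c) 0 with h | h | h
    · have h3 : f1 q - a < 0 := by
        by_contra h3
        push Not at h3
        nlinarith
      nlinarith
    · rw [h] at hq
      linarith
    · have h3 : 0 < f1 q - a := by
        by_contra h3
        push Not at h3
        nlinarith
      nlinarith
  · rw [h0.2]
    simp [kap, cov]
  · rw [(eφ _ EB.id).2, hsym, hsym', hc, div_mul_cancel₀ _ hpos.ne', sub_self]

theorem ineq3 (hE : ∀ c : ℝ, Integrable (fun y => exp (c * |y|)) P) (hP : ∀ y : ℝ, P {y} = 0)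
    {f f1 f2 F F1 : ℝ → ℝ} (hf : ∀ y, HasDerivAt f (f1 y) y) (hf1 : ∀ y, HasDerivAt f1 (f2 y) y)
    (hf2 : ∀ y, 0 < f2 y) (hF : ∀ y, HasDerivAt F (F1 y) y) (hm : Monotone fun y => F1 y / f2 y)
    (ef : EB f) (e1 : EB f1) (eF : EB F) (hpos : 0 < cov P f1 id) :
    cov P f f1 * cov P F id ≤ cov P f F * cov P f1 id := by
  set a := cov P F id / cov P f1 id with ha
  set b := ∫ y, F y ∂P - a * ∫ y, f1 y ∂P with hb
  set φ : ℝ → ℝ := fun y => F y - a * f1 y - b with hφ
  have eφ : ∀ G, EB G → Integrable (fun y => G y * φ y) P ∧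
      ∫ y, G y * φ y ∂P = cov P G F - a * cov P G f1 := by
    intro G hG
    have e : (fun y => G y * φ y) = fun y => 1 * (G y * F y) + (-a) * (G y * f1 y) +
        (-b) * G y := by
      funext y; simp only [hφ]; ring
    have i2 := (hG.mul eF).integrable hE
    have i1 := (hG.mul e1).integrable hE
    have i0 := hG.integrable hE
    rw [e]
    refine ⟨((i2.const_mul _).add (i1.const_mul _)).add (i0.const_mul _), ?_⟩
    rw [int3 i2 i1 i0]
    simp only [cov, hb]
    ring
  have h0 := eφ _ (EB.const 1)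
  simp only [one_mul] at h0
  have hsym : ∀ G : ℝ → ℝ, cov P (fun y => y) G = cov P G id := fun G => by
    simp only [cov, id, mul_comm]
  have hψ : ∀ y, HasDerivAt (fun y => F y - a * f1 y) (F1 y - a * f2 y) y := fun y =>
    (hF y).sub ((hf1 y).const_mul a)
  have hcF : Continuous F := continuous_iff_continuousAt.2 fun y => (hF y).continuousAt
  have hc1 : Continuous f1 := continuous_iff_continuousAt.2 fun y => (hf1 y).continuousAt
  have hk := key hP hf (n := fun y => y) (n1 := fun _ => 1) (fun y => hasDerivAt_id y)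
    (fun _ => one_pos) (by simpa using (strictMono_of_pos hf1 hf2).monotone) (φ := φ)
    (by simp only [hφ]; fun_prop) ?_ h0.1 (eφ _ EB.id).1 (eφ f ef).1 ?_ ?_
  · rw [(eφ f ef).2, ha] at hk
    have := mul_nonneg hk hpos.le
    rw [sub_mul, mul_right_comm, div_mul_cancel₀ _ hpos.ne'] at this
    linarith
  · intro p q r hpq hqr hp hr
    simp only [hφ] at hp hr ⊢
    have := (valley_of_mono hf2 hm a).quasi hψ hpq hqr (t := b) (by linarith) (by linarith)
    linarith
  · rw [h0.2]
    simp [cov]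
  · rw [(eφ _ EB.id).2, hsym, hsym, ha, div_mul_cancel₀ _ hpos.ne', sub_self]

end Crest.Agent.R164.OS
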