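import Crest.Agent.R164.OneOp
import Crest.Agent.R164.OneStepAux3

/-! # Row 164: one step of the recursion preserves strict convexity and convexity in the mean spin -/

set_option autoImplicit false
set_option linter.unusedVariables false

namespace Crest.Agent.R164

open MeasureTheory ProbabilityTheory Real Finset Crest.ProbabilityR.InvariantGlass

variable {f f1 f2 F F1 : ℝ → ℝ} {ζ v : ℝ}

lemma lip_of_deriv_le {G G1 : ℝ → ℝ} (hd : ∀ x, HasDerivAt G (G1 x) x) {C : NNReal}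
    (hb : ∀ x, |G1 x| ≤ C) : LipschitzWith C G :=
  lipschitzWith_of_nnnorm_deriv_le (fun x => (hd x).differentiableAt) fun x => by
    rw [(hd x).deriv, ← NNReal.coe_le_coe, coe_nnnorm, Real.norm_eq_abs]
    exact hb x

lemma Good.lip (h : Good f f1 f2) : LipschitzWith 1 f :=
  lip_of_deriv_le h.d1 fun x => by simpa using h.le_one x

lemma good_logcosh : Good (fun z => log (cosh z)) (fun z => tanh z) (fun z => 1 - tanh z ^ 2) := by
  have hsq : ∀ z : ℝ, 1 - tanh z ^ 2 = 1 / cosh z ^ 2 := fun z => by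
    have h1 := Real.cosh_sq z
    have h2 := Real.cosh_pos z
    rw [Real.tanh_eq_sinh_div_cosh]
    field_simp
    linarith
  have hpos : ∀ z : ℝ, 0 < 1 - tanh z ^ 2 := fun z => by
    rw [hsq]
    have := Real.cosh_pos z
    positivity
  have ht : (fun z : ℝ => tanh z) = fun z => sinh z / cosh z :=
    funext Real.tanh_eq_sinh_div_cosh
  have hd2 : ∀ x : ℝ, HasDerivAt (fun z => tanh z) (1 - tanh x ^ 2) x := fun x => by
    rw [ht, hsq]
    refine ((Real.hasDerivAt_sinh x).fun_div (Real.hasDerivAt_cosh x)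
      (Real.cosh_pos x).ne').congr_deriv ?_
    congr 1
    have h1 := Real.cosh_sq x
    nlinarith
  refine ⟨fun x => ?_, hd2, ?_, fun x => ?_, hpos, ⟨1, fun x => ?_⟩⟩
  · refine ((Real.hasDerivAt_cosh x).log (Real.cosh_pos x).ne').congr_deriv ?_
    exact (Real.tanh_eq_sinh_div_cosh x).symm
  · have : Continuous fun z : ℝ => tanh z :=
      continuous_iff_continuousAt.2 fun z => (hd2 z).continuousAt
    fun_prop
  · exact abs_le_one_iff_mul_self_le_one.2 (by nlinarith [hpos x])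
  · nlinarith [sq_nonneg (tanh x)]

lemma Good.strictMono (h : Good f f1 f2) : StrictMono f1 := OS.strictMono_of_pos h.d2 h.pos

lemma Good.abs_lt_one (h : Good f f1 f2) (x : ℝ) : |f1 x| < 1 := by
  have h1 := h.strictMono (show x < x + 1 by linarith)
  have h2 := h.strictMono (show x - 1 < x by linarith)
  have h3 := abs_le.1 (h.le_one (x + 1))
  have h4 := abs_le.1 (h.le_one (x - 1))
  exact abs_lt.2 ⟨by linarith [h4.1], by linarith [h3.2]⟩

lemma Ag_zero_var (ζ : ℝ) (f F : ℝ → ℝ) (x : ℝ) : Ag ζ 0 f F x = F x :=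
  OS.Ag_of_sqrt Real.sqrt_zero ζ f F x

lemma Cv_zero_var (ζ : ℝ) (f F G : ℝ → ℝ) (x : ℝ) : Cv ζ 0 f F G x = 0 := by
  simp [Cv, Ag_zero_var]

/-- The tilted law as a probability measure on the line (`v ≥ 0`). -/
lemma exists_tilt (hf : LipschitzWith 1 f) (ζ v x : ℝ) : ∃ P : Measure ℝ, IsProbabilityMeasure P ∧
    (∀ c : ℝ, Integrable (fun y => exp (c * |y|)) P) ∧
    (∀ G : ℝ → ℝ, Measurable G → Ag ζ v f G x = ∫ y, G y ∂P) ∧
    (0 < v → ∀ s : Set ℝ, MeasurableSet s → (P s = 0 ↔ volume s = 0)) :=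
  OS.exists_tilt' hf ζ v x

/-- Derivative in `x` through the Gaussian kernel. -/
lemma hasDerivAt_Ag_cov (hf : LipschitzWith 1 f) (hv : 0 < v) {G : ℝ → ℝ} (hG : Measurable G)
    (hb : ∃ C, ∀ y, |G y| ≤ exp (C * (1 + |y|))) (x : ℝ) :
    HasDerivAt (Ag ζ v f G) (Cv ζ v f G id x / v) x :=
  OS.hasDerivAt_Ag_cov' hf hv ⟨hG, hb⟩ x

lemma Good.cont1 (h : Good f f1 f2) : Continuous f1 :=
  continuous_iff_continuousAt.2 fun y => (h.d2 y).continuousAt

lemma Good.eb0 (h : Good f f1 f2) : OS.EB f := OS.EB.of_lip h.lip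

lemma Good.eb1 (h : Good f f1 f2) : OS.EB f1 := OS.EB.of_bdd h.cont1.measurable h.le_one

lemma Good.eb2 (h : Good f f1 f2) : OS.EB f2 := by
  obtain ⟨C, hC⟩ := h.bdd
  exact OS.EB.of_bdd h.cont.measurable (A := C) fun y => by rw [abs_of_pos (h.pos y)]; exact hC y

lemma Good.lip1 (h : Good f f1 f2) : ∃ C : NNReal, LipschitzWith C f1 := by
  obtain ⟨C, hC⟩ := h.bdd
  refine ⟨⟨|C|, abs_nonneg _⟩, lip_of_deriv_le h.d2 fun y => ?_⟩
  rw [abs_of_pos (h.pos y)]
  exact (hC y).trans (le_abs_self C)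

lemma hasDerivAt_den (h : Good f f1 f2) (hv : 0 < v) (x : ℝ) :
    HasDerivAt (fun z => ∫ g, exp (ζ * f (z + √v * g)) ∂gaussianReal 0 1)
      (ζ * ∫ g, f1 (x + √v * g) * exp (ζ * f (x + √v * g)) ∂gaussianReal 0 1) x := by
  have h1 := (OS.hasDerivAt_num (ζ := ζ) h.lip h.d1 h.cont1.measurable hv (G := fun _ => 1)
    (G1 := fun _ => 0) (C := 0) (LipschitzWith.const 1) measurable_const Set.finite_empty
    (fun y _ => hasDerivAt_const y 1) x).2
  simp only [one_mul, zero_mul, zero_add] at h1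
  refine h1.congr_deriv ?_
  rw [← integral_const_mul]
  refine integral_congr_ae (ae_of_all _ fun g => ?_)
  simp only
  ring

/-- Derivative in `x` through the functions; `G` is Lipschitz and differentiable off a finite set. -/
lemma hasDerivAt_Ag (h : Good f f1 f2) (hv : 0 < v) {G G1 : ℝ → ℝ} {C : NNReal}
    (hG : LipschitzWith C G) (hG1 : Measurable G1) {S : Set ℝ} (hS : S.Finite)
    (hd : ∀ y ∉ S, HasDerivAt G (G1 y) y) (x : ℝ) :
    HasDerivAt (Ag ζ v f G) (Ag ζ v f G1 x + ζ * Cv ζ v f G f1 x) x := by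
  obtain ⟨hi, hN⟩ := OS.hasDerivAt_num (ζ := ζ) h.lip h.d1 h.cont1.measurable hv hG hG1 hS hd x
  have hD := hasDerivAt_den (ζ := ζ) h hv x
  have hpos := OS.den_pos h.lip ζ x (√v)
  have i2 : Integrable (fun g => ζ * (G (x + √v * g) * f1 (x + √v * g) *
      exp (ζ * f (x + √v * g)))) (gaussianReal 0 1) :=
    ((((OS.EB.of_lip hG).mul h.eb1).mul (OS.EB.exp_lip h.lip ζ)).gauss x _).const_mul ζ
  have e2 : ∀ g, G (x + √v * g) * (exp (ζ * f (x + √v * g)) * (ζ * f1 (x + √v * g))) =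
      ζ * (G (x + √v * g) * f1 (x + √v * g) * exp (ζ * f (x + √v * g))) := fun g => by ring
  simp only [e2] at hi hN
  have i1 : Integrable (fun g => G1 (x + √v * g) * exp (ζ * f (x + √v * g))) (gaussianReal 0 1) :=
    (hi.sub i2).congr (ae_of_all _ fun g => by simp)
  rw [integral_add i1 i2, integral_const_mul] at hN
  refine (hN.fun_div hD hpos.ne').congr_deriv ?_
  unfold Cv Ag
  field_simp
  ring

/-- Stein's identity for the tilted law. -/
lemma stein_Ag (h : Good f f1 f2) (hv : 0 < v) {G G1 : ℝ → ℝ} {C : NNReal}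
    (hG : LipschitzWith C G) (hG1 : Measurable G1) {S : Set ℝ} (hS : S.Finite)
    (hd : ∀ y ∉ S, HasDerivAt G (G1 y) y) (x : ℝ) :
    Ag ζ v f G1 x + ζ * Cv ζ v f G f1 x = Cv ζ v f G id x / v :=
  (hasDerivAt_Ag h hv hG hG1 hS hd x).unique (OS.hasDerivAt_Ag_cov' h.lip hv (OS.EB.of_lip hG) x)

lemma continuous_Ag (hf : LipschitzWith 1 f) {G : ℝ → ℝ} (hG : Continuous G)
    (hb : ∃ C, ∀ y, |G y| ≤ exp (C * (1 + |y|))) (ζ v : ℝ) : Continuous (Ag ζ v f G) := by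
  rcases lt_or_ge 0 v with hv | hv
  · exact continuous_iff_continuousAt.2 fun x =>
      (hasDerivAt_Ag_cov hf hv hG.measurable hb x).continuousAt
  · have : Ag ζ v f G = G := funext fun x => OS.Ag_of_sqrt (Real.sqrt_eq_zero'.2 hv) ζ f G x
    rwa [this]

lemma continuous_Cv (hf : LipschitzWith 1 f) {G H : ℝ → ℝ} (hG : Continuous G) (hH : Continuous H)
    (eG : OS.EB G) (eH : OS.EB H) (ζ v : ℝ) : Continuous (Cv ζ v f G H) :=
  (continuous_Ag hf (hG.mul hH) (eG.mul eH).bd ζ v).sub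
    ((continuous_Ag hf hG eG.bd ζ v).mul (continuous_Ag hf hH eH.bd ζ v))

lemma Cv_eq_cov {P : Measure ℝ} {x : ℝ}
    (hA : ∀ G : ℝ → ℝ, Measurable G → Ag ζ v f G x = ∫ y, G y ∂P) {G H : ℝ → ℝ}
    (hG : Measurable G) (hH : Measurable H) : Cv ζ v f G H x = OS.cov P G H := by
  unfold Cv OS.cov
  rw [hA (fun y => G y * H y) (hG.mul hH), hA _ hG, hA _ hH]

lemma Cv_nonneg (hf : LipschitzWith 1 f) {G H : ℝ → ℝ} (hG : Monotone G) (hH : Monotone H)
    (eG : OS.EB G) (eH : OS.EB H) (ζ v x : ℝ) : 0 ≤ Cv ζ v f G H x := by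
  obtain ⟨P, hP, hE, hA, -⟩ := exists_tilt hf ζ v x
  rw [Cv_eq_cov hA eG.meas eH.meas]
  exact sub_nonneg.2 (OS.cheb hG hH (eG.integrable hE) (eH.integrable hE)
    ((eG.mul eH).integrable hE))

lemma step_pos (h : Good f f1 f2) (hζ : 0 < ζ) (v x : ℝ) :
    0 < Ag ζ v f f2 x + ζ * Cv ζ v f f1 f1 x := by
  have h1 := Cv_nonneg h.lip h.strictMono.monotone h.strictMono.monotone h.eb1 h.eb1 ζ v x
  have h2 : 0 < Ag ζ v f f2 x := by
    obtain ⟨P, hP, hE, hA, -⟩ := exists_tilt h.lip ζ v x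
    rw [hA _ h.eb2.meas, integral_pos_iff_support_of_nonneg (fun y => (h.pos y).le)
      (h.eb2.integrable hE)]
    have : Function.support f2 = Set.univ := Set.eq_univ_of_forall fun y => (h.pos y).ne'
    rw [this]
    simp
  positivity

lemma stein_f1 (h : Good f f1 f2) (hv : 0 < v) (x : ℝ) :
    Ag ζ v f f2 x + ζ * Cv ζ v f f1 f1 x = Cv ζ v f f1 id x / v := by
  obtain ⟨C, hC⟩ := h.lip1
  exact stein_Ag h hv hC h.cont.measurable Set.finite_empty (fun y _ => h.d2 y) x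

lemma Cv_f1_pos (h : Good f f1 f2) (hζ : 0 < ζ) (hv : 0 < v) (x : ℝ) : 0 < Cv ζ v f f1 id x := by
  have := step_pos h hζ v x
  rw [stein_f1 h hv] at this
  exact (div_pos_iff_of_pos_right hv).1 this

lemma hasDerivAt_gaussOp (h : Good f f1 f2) (hζ : 0 < ζ) (hv : 0 < v) (x : ℝ) :
    HasDerivAt (gaussOp ζ v f) (Ag ζ v f f1 x) x := by
  have e : gaussOp ζ v f =
      fun z => ζ⁻¹ * log (∫ g, exp (ζ * f (z + √v * g)) ∂gaussianReal 0 1) :=
    funext fun z => by unfold gaussOp; rw [if_neg hζ.ne']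
  have hpos := OS.den_pos h.lip ζ x (√v)
  rw [e]
  refine (((hasDerivAt_den (ζ := ζ) h hv x).log hpos.ne').const_mul ζ⁻¹).congr_deriv ?_
  unfold Ag
  field_simp

lemma gaussOp_zero_var' (hζ : 0 < ζ) (f : ℝ → ℝ) : gaussOp ζ 0 f = f := by
  funext z
  unfold gaussOp
  rw [if_neg hζ.ne']
  simp only [Real.sqrt_zero, zero_mul, add_zero, integral_const, probReal_univ, one_smul, log_exp]
  field_simp

theorem good_step (h : Good f f1 f2) (hζ : 0 < ζ) (hv : 0 ≤ v) :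
    Good (gaussOp ζ v f) (Ag ζ v f f1) (fun x => Ag ζ v f f2 x + ζ * Cv ζ v f f1 f1 x) := by
  rcases hv.eq_or_lt with rfl | hv
  · have e1 : Ag ζ 0 f f1 = f1 := funext (Ag_zero_var ζ f f1)
    simp only [gaussOp_zero_var' hζ, e1, Ag_zero_var, Cv_zero_var, mul_zero, add_zero]
    exact h
  obtain ⟨C, hC⟩ := h.lip1
  refine ⟨hasDerivAt_gaussOp h hζ hv, fun x => ?_, ?_, fun x => ?_, step_pos h hζ v, ?_⟩
  · exact hasDerivAt_Ag h hv hC h.cont.measurable Set.finite_empty (fun y _ => h.d2 y) x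
  · exact (continuous_Ag h.lip h.cont h.eb2.bd ζ v).add
      (continuous_const.mul (continuous_Cv h.lip h.cont1 h.cont1 h.eb1 h.eb1 ζ v))
  · obtain ⟨P, hP, hE, hA, -⟩ := exists_tilt h.lip ζ v x
    rw [hA _ h.eb1.meas]
    have := norm_integral_le_of_norm_le_const (μ := P) (f := f1) (C := 1)
      (ae_of_all _ fun y => h.le_one y)
    simpa using this
  · obtain ⟨D, hD⟩ := h.bdd
    refine ⟨D + ζ, fun x => ?_⟩
    obtain ⟨P, hP, hE, hA, -⟩ := exists_tilt h.lip ζ v x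
    have h1 : Ag ζ v f f2 x ≤ D := by
      rw [hA _ h.eb2.meas]
      have := integral_mono (h.eb2.integrable hE) (integrable_const D) hD
      simpa using this
    have h2 : Cv ζ v f f1 f1 x ≤ 1 := by
      rw [Cv_eq_cov hA h.eb1.meas h.eb1.meas]
      have := integral_mono ((h.eb1.mul h.eb1).integrable hE) (integrable_const (1 : ℝ))
        (fun y => abs_le_one_iff_mul_self_le_one.1 (h.le_one y))
      simp only [integral_const, probReal_univ, one_smul] at this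
      unfold OS.cov
      nlinarith [mul_self_nonneg (∫ y, f1 y ∂P)]
    nlinarith

lemma Cvx.abs_le (h : Good f f1 f2) (hF : Cvx f2 F F1) : ∃ C : NNReal, ∀ y, |F1 y| ≤ C := by
  obtain ⟨D, hD⟩ := h.bdd
  obtain ⟨L, hL⟩ := hF.bdd
  refine ⟨⟨|L| * |D|, by positivity⟩, fun y => (hL y).trans ?_⟩
  show L * f2 y ≤ |L| * |D|
  exact (mul_le_mul_of_nonneg_right (le_abs_self L) (h.pos y).le).trans
    (mul_le_mul_of_nonneg_left ((hD y).trans (le_abs_self D)) (abs_nonneg _))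

lemma Cvx.lip (h : Good f f1 f2) (hF : Cvx f2 F F1) : ∃ C : NNReal, LipschitzWith C F := by
  obtain ⟨C, hC⟩ := hF.abs_le h
  exact ⟨C, lip_of_deriv_le hF.d hC⟩

lemma Cvx.eb0 (h : Good f f1 f2) (hF : Cvx f2 F F1) : OS.EB F := by
  obtain ⟨C, hC⟩ := hF.lip h
  exact OS.EB.of_lip hC

lemma Cvx.eb1 (h : Good f f1 f2) (hF : Cvx f2 F F1) : OS.EB F1 := by
  obtain ⟨C, hC⟩ := hF.abs_le h
  exact OS.EB.of_bdd hF.cont.measurable hC

lemma Cvx.cont0 (hF : Cvx f2 F F1) : Continuous F :=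
  continuous_iff_continuousAt.2 fun y => (hF.d y).continuousAt

lemma stein_F (h : Good f f1 f2) (hv : 0 < v) (hF : Cvx f2 F F1) (x : ℝ) :
    Ag ζ v f F1 x + ζ * Cv ζ v f F f1 x = Cv ζ v f F id x / v := by
  obtain ⟨C, hC⟩ := hF.lip h
  exact stein_Ag h hv hC hF.cont.measurable Set.finite_empty (fun y _ => hF.d y) x

/-- A two-sided Chebyshev bound. -/
lemma abs_Cv_le (hf : LipschitzWith 1 f) {G N H : ℝ → ℝ} (h1 : Monotone fun y => N y + G y)
    (h2 : Monotone fun y => N y - G y) (hH : Monotone H) (eG : OS.EB G) (eN : OS.EB N)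
    (eH : OS.EB H) (ζ v x : ℝ) : |Cv ζ v f G H x| ≤ Cv ζ v f N H x := by
  obtain ⟨P, hP, hE, hA, -⟩ := exists_tilt hf ζ v x
  rw [Cv_eq_cov hA eG.meas eH.meas, Cv_eq_cov hA eN.meas eH.meas]
  have iG := eG.integrable hE
  have iN := eN.integrable hE
  have iH := eH.integrable hE
  have iGH := (eG.mul eH).integrable hE
  have iNH := (eN.mul eH).integrable hE
  have c1 := OS.cheb h1 hH (iN.add iG) iH
    ((iNH.add iGH).congr (ae_of_all _ fun y => by simp only [Pi.add_apply]; ring))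
  have c2 := OS.cheb h2 hH (iN.sub iG) iH
    ((iNH.sub iGH).congr (ae_of_all _ fun y => by simp only [Pi.sub_apply]; ring))
  simp only [add_mul, sub_mul] at c1 c2
  rw [integral_add iN iG, integral_add iNH iGH] at c1
  rw [integral_sub iN iG, integral_sub iNH iGH] at c2
  unfold OS.cov
  exact abs_le.2 ⟨by linarith, by linarith⟩

lemma Cv_const_mul (c : ℝ) (G H : ℝ → ℝ) (x : ℝ) :
    Cv ζ v f (fun y => c * G y) H x = c * Cv ζ v f G H x := by
  unfold Cv Ag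
  simp only [mul_assoc, integral_const_mul]
  ring

lemma Cv_comm (G H : ℝ → ℝ) (x : ℝ) : Cv ζ v f G H x = Cv ζ v f H G x := by
  unfold Cv
  simp only [mul_comm]

lemma step_bound (h : Good f f1 f2) (hζ : 0 < ζ) (hv : 0 ≤ v) (hF : Cvx f2 F F1) {L : ℝ}
    (hL : ∀ x, |F1 x| ≤ L * f2 x) (x : ℝ) :
    |Ag ζ v f F1 x + ζ * Cv ζ v f F f1 x| ≤ L * (Ag ζ v f f2 x + ζ * Cv ζ v f f1 f1 x) := by
  rcases hv.eq_or_lt with rfl | hv
  · simpa only [Ag_zero_var, Cv_zero_var, mul_zero, add_zero] using hL x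
  rw [stein_F h hv hF, stein_f1 h hv, abs_div, abs_of_pos hv, ← mul_div_assoc, ← Cv_const_mul]
  refine div_le_div_of_nonneg_right ?_ hv.le
  refine abs_Cv_le h.lip ?_ ?_ monotone_id (hF.eb0 h) ((OS.EB.const L).mul h.eb1) OS.EB.id ζ v x
  · exact OS.mono_of_nonneg (fun y => ((h.d2 y).const_mul L).add (hF.d y))
      fun y => by linarith [(abs_le.1 (hL y)).1]
  · exact OS.mono_of_nonneg (fun y => ((h.d2 y).const_mul L).sub (hF.d y))
      fun y => by linarith [(abs_le.1 (hL y)).2]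

lemma hasDerivAt_Cv (hf : LipschitzWith 1 f) (hv : 0 < v) {A B : ℝ → ℝ} (eA : OS.EB A)
    (eB : OS.EB B) (x : ℝ) {P : Measure ℝ}
    (hA : ∀ G : ℝ → ℝ, Measurable G → Ag ζ v f G x = ∫ y, G y ∂P) :
    HasDerivAt (Cv ζ v f A B) (OS.kap P A B / v) x := by
  have h1 := OS.hasDerivAt_Ag_cov' (ζ := ζ) hf hv (eA.mul eB) x
  have h2 := OS.hasDerivAt_Ag_cov' (ζ := ζ) hf hv eA x
  have h3 := OS.hasDerivAt_Ag_cov' (ζ := ζ) hf hv eB x
  refine (h1.sub (h2.mul h3)).congr_deriv ?_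
  rw [Cv_eq_cov hA (eA.mul eB).meas measurable_id, Cv_eq_cov hA eA.meas measurable_id,
    Cv_eq_cov hA eB.meas measurable_id, hA _ eA.meas, hA _ eB.meas]
  unfold OS.kap
  ring

lemma mono_ratio (h : Good f f1 f2) (hζ : 0 < ζ) (hv : 0 < v) {A B : ℝ → ℝ} (eA : OS.EB A)
    (eB : OS.EB B) (hin : ∀ (P : Measure ℝ) [IsProbabilityMeasure P],
      (∀ c : ℝ, Integrable (fun y => exp (c * |y|)) P) → (∀ y : ℝ, P {y} = 0) →
      0 < OS.cov P f1 id → 0 ≤ OS.kap P A B * OS.cov P f1 id - OS.cov P A B * OS.kap P f1 id) :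
    Monotone fun x => Cv ζ v f A B x / Cv ζ v f f1 id x := by
  have : ∀ x, ∃ d, HasDerivAt (fun x => Cv ζ v f A B x / Cv ζ v f f1 id x) d x ∧ 0 ≤ d := by
    intro x
    obtain ⟨P, hP, hE, hA, hN⟩ := exists_tilt h.lip ζ v x
    have hat : ∀ y : ℝ, P {y} = 0 := fun y => (hN hv _ (measurableSet_singleton y)).2 (by simp)
    have hpos := Cv_f1_pos h hζ hv x
    refine ⟨_, (hasDerivAt_Cv h.lip hv eA eB x hA).fun_div
      (hasDerivAt_Cv h.lip hv h.eb1 OS.EB.id x hA) hpos.ne', div_nonneg ?_ (sq_nonneg _)⟩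
    have e1 : Cv ζ v f f1 id x = OS.cov P f1 id := Cv_eq_cov hA h.eb1.meas measurable_id
    have e2 : Cv ζ v f A B x = OS.cov P A B := Cv_eq_cov hA eA.meas eB.meas
    have := div_nonneg (hin P hE hat (e1 ▸ hpos)) hv.le
    rw [← e1, ← e2] at this
    refine this.trans (le_of_eq ?_)
    show _ = OS.kap P A B / v * Cv ζ v f f1 id x - Cv ζ v f A B x * (OS.kap P f1 id / v)
    ring
  choose d hd hd0 using this
  exact OS.mono_of_nonneg hd hd0

theorem cvx_step (h : Good f f1 f2) (hζ : 0 < ζ) (hv : 0 ≤ v) (hF : Cvx f2 F F1) :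
    Cvx (fun x => Ag ζ v f f2 x + ζ * Cv ζ v f f1 f1 x) (Ag ζ v f F)
      (fun x => Ag ζ v f F1 x + ζ * Cv ζ v f F f1 x) := by
  rcases hv.eq_or_lt with rfl | hv
  · have e1 : Ag ζ 0 f F = F := funext (Ag_zero_var ζ f F)
    simp only [e1, Ag_zero_var, Cv_zero_var, mul_zero, add_zero]
    exact hF
  obtain ⟨C, hC⟩ := hF.lip h
  obtain ⟨L, hL⟩ := hF.bdd
  refine ⟨fun x => ?_, ?_, ⟨L, step_bound h hζ hv.le hF hL⟩, ?_⟩
  · exact hasDerivAt_Ag h hv hC hF.cont.measurable Set.finite_empty (fun y _ => hF.d y) x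
  · exact (continuous_Ag h.lip hF.cont (hF.eb1 h).bd ζ v).add
      (continuous_const.mul (continuous_Cv h.lip hF.cont0 h.cont1 (hF.eb0 h) h.eb1 ζ v))
  · simp only [stein_F h hv hF, stein_f1 h hv, div_div_div_cancel_right₀ hv.ne']
    exact mono_ratio h hζ hv (hF.eb0 h) OS.EB.id fun P _ hE hat hpos =>
      OS.ineq1 hE hat hF.d h.d2 h.pos hF.mono (hF.eb0 h) h.eb1 hpos

lemma K_bound (h : Good f f1 f2) (hζ : 0 < ζ) (hv : 0 ≤ v) (x : ℝ) :
    |Cv ζ v f f f1 x| ≤ v * (Ag ζ v f f2 x + ζ * Cv ζ v f f1 f1 x) := by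
  rcases hv.eq_or_lt with rfl | hv
  · simp [Cv_zero_var]
  rw [stein_f1 h hv, mul_div_cancel₀ _ hv.ne', Cv_comm f1 id]
  refine abs_Cv_le h.lip ?_ ?_ h.strictMono.monotone h.eb0 OS.EB.id h.eb1 ζ v x
  · exact OS.mono_of_nonneg (fun y => (hasDerivAt_id y).add (h.d1 y))
      fun y => by linarith [(abs_le.1 (h.le_one y)).1]
  · exact OS.mono_of_nonneg (fun y => (hasDerivAt_id y).sub (h.d1 y))
      fun y => by linarith [(abs_le.1 (h.le_one y)).2]

theorem cvx_K (h : Good f f1 f2) (hζ : 0 < ζ) (hv : 0 ≤ v) :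
    Cvx (fun x => Ag ζ v f f2 x + ζ * Cv ζ v f f1 f1 x) (Kf ζ v f) (Cv ζ v f f f1) := by
  refine ⟨fun x => ?_, continuous_Cv h.lip h.lip.continuous h.cont1 h.eb0 h.eb1 ζ v,
    ⟨v, K_bound h hζ hv⟩, ?_⟩
  · rcases hv.eq_or_lt with rfl | hv
    · have e : Kf ζ 0 f = fun _ => 0 := funext fun z => by
        simp [Kf, Ag_zero_var, gaussOp_zero_var' hζ]
      rw [e, Cv_zero_var]
      exact hasDerivAt_const x 0
    · have h1 := hasDerivAt_Ag (ζ := ζ) h hv h.lip h.cont1.measurable Set.finite_empty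
        (fun y _ => h.d1 y) x
      refine ((h1.sub (hasDerivAt_gaussOp h hζ hv x)).div_const ζ).congr_deriv ?_
      field_simp
      ring
  · rcases hv.eq_or_lt with rfl | hv
    · simp only [Cv_zero_var, zero_div]
      exact monotone_const
    · simp only [stein_f1 h hv, div_div_eq_mul_div, mul_div_right_comm]
      refine Monotone.mul_const ?_ hv.le
      exact mono_ratio h hζ hv h.eb0 h.eb1 fun P _ hE hat hpos =>
        OS.ineq2 hE hat h.d1 h.strictMono.monotone h.cont1 h.eb0 h.eb1 hpos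

theorem k_step (h : Good f f1 f2) (hζ : 0 < ζ) (hv : 0 ≤ v) (hF : Cvx f2 F F1) (x : ℝ) :
    Cv ζ v f f f1 x * (Ag ζ v f F1 x + ζ * Cv ζ v f F f1 x) ≤
      Cv ζ v f f F x * (Ag ζ v f f2 x + ζ * Cv ζ v f f1 f1 x) := by
  rcases hv.eq_or_lt with rfl | hv
  · simp [Cv_zero_var]
  rw [stein_F h hv hF, stein_f1 h hv, ← mul_div_assoc, ← mul_div_assoc]
  refine div_le_div_of_nonneg_right ?_ hv.le
  obtain ⟨P, hP, hE, hA, hN⟩ := exists_tilt h.lip ζ v x
  have hat : ∀ y : ℝ, P {y} = 0 := fun y => (hN hv _ (measurableSet_singleton y)).2 (by simp)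
  have hpos := Cv_f1_pos h hζ hv x
  rw [Cv_eq_cov hA h.eb1.meas measurable_id] at hpos ⊢
  rw [Cv_eq_cov hA h.eb0.meas h.eb1.meas, Cv_eq_cov hA (hF.eb0 h).meas measurable_id,
    Cv_eq_cov hA h.eb0.meas (hF.eb0 h).meas]
  exact OS.ineq3 hE hat h.d1 h.d2 h.pos hF.d hF.mono h.eb0 h.eb1 (hF.eb0 h) hpos

theorem jensen_step (h : Good f f1 f2) (hF : Cvx f2 F F1) {x x' : ℝ} (hx : Ag ζ v f f1 x = f1 x') :
    F x' ≤ Ag ζ v f F x := by
  obtain ⟨P, hP, hE, hA, -⟩ := exists_tilt h.lip ζ v x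
  set s := F1 x' / f2 x' with hs
  have hψ : ∀ y, HasDerivAt (fun y => F y - s * f1 y) (F1 y - s * f2 y) y := fun y =>
    (hF.d y).sub ((h.d2 y).const_mul s)
  have htan : ∀ y, F x' - s * f1 x' ≤ 1 * F y + (-s) * f1 y := by
    intro y
    rcases lt_trichotomy y x' with hy | hy | hy
    · obtain ⟨c, -, hc, e⟩ := OS.mvt hψ hy
      have h1 : F1 c / f2 c ≤ s := hF.mono hc.le
      rw [div_le_iff₀ (h.pos c)] at h1
      nlinarith [sub_pos.2 hy]
    · rw [hy]; linarith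
    · obtain ⟨c, hc, -, e⟩ := OS.mvt hψ hy
      have h1 : s ≤ F1 c / f2 c := hF.mono hc.le
      rw [le_div_iff₀ (h.pos c)] at h1
      nlinarith [sub_pos.2 hy]
  have iF := (hF.eb0 h).integrable hE
  have i1 := h.eb1.integrable hE
  have h2 : ∫ _y, (F x' - s * f1 x') ∂P ≤ ∫ y, (1 * F y + (-s) * f1 y) ∂P :=
    integral_mono (integrable_const _) ((iF.const_mul _).add (i1.const_mul _)) htan
  rw [OS.int2 iF i1, ← hA _ h.eb1.meas, hx, ← hA _ (hF.eb0 h).meas] at h2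
  simp only [integral_const, probReal_univ, one_smul] at h2
  linarith

end Crest.Agent.R164
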