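import Mathlib

/-! # Row 164: abstract sign lemmas for probability measures on the line -/

set_option autoImplicit false
set_option linter.unusedSectionVars false

namespace Crest.Agent.R164.OS

open MeasureTheory ProbabilityTheory Real Filter Topology

/-- Measurable functions of exponential growth. -/
structure EB (G : ℝ → ℝ) : Prop where
  meas : Measurable G
  bd : ∃ C, ∀ y, |G y| ≤ exp (C * (1 + |y|))

namespace EB

variable {G H : ℝ → ℝ}

theorem mul (hG : EB G) (hH : EB H) : EB fun y => G y * H y := by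
  obtain ⟨C, hC⟩ := hG.bd
  obtain ⟨D, hD⟩ := hH.bd
  refine ⟨hG.meas.mul hH.meas, C + D, fun y => ?_⟩
  rw [abs_mul, add_mul, exp_add]
  exact mul_le_mul (hC y) (hD y) (abs_nonneg _) (exp_pos _).le

theorem of_le_lin (hm : Measurable G) {A : ℝ} (h : ∀ y, |G y| ≤ A * (1 + |y|)) : EB G :=
  ⟨hm, A, fun y => (h y).trans (by linarith [add_one_le_exp (A * (1 + |y|))])⟩

theorem of_bdd (hm : Measurable G) {A : ℝ} (h : ∀ y, |G y| ≤ A) : EB G :=
  of_le_lin hm (A := A) fun y => by
    have h0 : 0 ≤ A := (abs_nonneg _).trans (h y)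
    nlinarith [h y, abs_nonneg y]

theorem const (c : ℝ) : EB fun _ => c := of_bdd measurable_const (A := |c|) fun _ => le_rfl

theorem id : EB fun y => y :=
  of_le_lin measurable_id (A := 1) fun y => by linarith

theorem of_lip {C : NNReal} (h : LipschitzWith C G) : EB G := by
  refine of_le_lin h.continuous.measurable (A := |G 0| + C) fun y => ?_
  have h1 := h.dist_le_mul y 0
  rw [Real.dist_eq, Real.dist_eq, sub_zero] at h1
  have h2 : |G y| ≤ |G 0| + |G y - G 0| := by
    have := abs_add_le (G 0) (G y - G 0)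
    simpa using this
  have h3 : (0 : ℝ) ≤ C := C.2
  nlinarith [abs_nonneg (G 0), abs_nonneg y]

theorem exp_mul (t : ℝ) : EB fun y => exp (t * y) := by
  refine ⟨by fun_prop, |t|, fun y => ?_⟩
  rw [abs_of_pos (exp_pos _)]
  refine exp_le_exp.2 ?_
  have : t * y ≤ |t| * |y| := by rw [← abs_mul]; exact le_abs_self _
  nlinarith [abs_nonneg t]

theorem exp_abs : EB fun y => exp |y| := by
  refine ⟨by fun_prop, 1, fun y => ?_⟩
  rw [abs_of_pos (exp_pos _)]
  exact exp_le_exp.2 (by linarith)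

theorem abs (hG : EB G) : EB fun y => |G y| :=
  ⟨hG.meas.abs, by simpa only [abs_abs] using hG.bd⟩

theorem integrable {P : Measure ℝ} (hP : ∀ c : ℝ, Integrable (fun y => exp (c * |y|)) P)
    (hG : EB G) : Integrable G P := by
  obtain ⟨C, hC⟩ := hG.bd
  refine Integrable.mono' ((hP C).const_mul (exp C)) hG.meas.aestronglyMeasurable
    (ae_of_all _ fun y => ?_)
  rw [Real.norm_eq_abs, ← exp_add]
  refine (hC y).trans (le_of_eq ?_)
  congr 1
  ring

end EB

section Prob

variable {P : Measure ℝ} [IsProbabilityMeasure P]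

theorem int2 {A B : ℝ → ℝ} (hA : Integrable A P) (hB : Integrable B P) (a b : ℝ) :
    ∫ y, (a * A y + b * B y) ∂P = a * ∫ y, A y ∂P + b * ∫ y, B y ∂P := by
  rw [integral_add (hA.const_mul a) (hB.const_mul b), integral_const_mul, integral_const_mul]

theorem int3 {A B C : ℝ → ℝ} (hA : Integrable A P) (hB : Integrable B P) (hC : Integrable C P)
    (a b c : ℝ) : ∫ y, (a * A y + b * B y + c * C y) ∂P =
      a * ∫ y, A y ∂P + b * ∫ y, B y ∂P + c * ∫ y, C y ∂P := by
  have h : Integrable (fun y => a * A y + b * B y) P := (hA.const_mul a).add (hB.const_mul b)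
  rw [integral_add h (hC.const_mul c), int2 hA hB, integral_const_mul]

theorem int4 {A B C D : ℝ → ℝ} (hA : Integrable A P) (hB : Integrable B P) (hC : Integrable C P)
    (hD : Integrable D P) (a b c d : ℝ) : ∫ y, (a * A y + b * B y + c * C y + d * D y) ∂P =
      a * ∫ y, A y ∂P + b * ∫ y, B y ∂P + c * ∫ y, C y ∂P + d * ∫ y, D y ∂P := by
  have h : Integrable (fun y => a * A y + b * B y + c * C y) P :=
    ((hA.const_mul a).add (hB.const_mul b)).add (hC.const_mul c)
  rw [integral_add h (hD.const_mul d), int3 hA hB hC, integral_const_mul]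

theorem int_one : ∫ _y, (1 : ℝ) ∂P = 1 := by simp

/-- Chebyshev's covariance inequality. -/
theorem cheb {G H : ℝ → ℝ} (hG : Monotone G) (hH : Monotone H) (iG : Integrable G P)
    (iH : Integrable H P) (iGH : Integrable (fun y => G y * H y) P) :
    (∫ y, G y ∂P) * ∫ y, H y ∂P ≤ ∫ y, G y * H y ∂P := by
  have i1 : Integrable (fun _ : ℝ => (1 : ℝ)) P := integrable_const _
  have h1 : ∀ x, 0 ≤ 1 * (G x * H x) + (-(∫ y, H y ∂P)) * G x + (-(∫ y, G y ∂P)) * H x +
      (∫ y, G y * H y ∂P) * 1 := by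
    intro x
    have h2 : 0 ≤ ∫ y, (1 * (G y * H y) + (-H x) * G y + (-G x) * H y + (G x * H x) * 1) ∂P := by
      refine integral_nonneg fun y => ?_
      have : 0 ≤ (G x - G y) * (H x - H y) := by
        rcases le_total x y with h | h
        · exact mul_nonneg_of_nonpos_of_nonpos (sub_nonpos.2 (hG h)) (sub_nonpos.2 (hH h))
        · exact mul_nonneg (sub_nonneg.2 (hG h)) (sub_nonneg.2 (hH h))
      show (0 : ℝ) ≤ _
      linarith
    rw [int4 iGH iG iH i1, int_one] at h2
    linarith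
  have h3 : 0 ≤ ∫ x, (1 * (G x * H x) + (-(∫ y, H y ∂P)) * G x + (-(∫ y, G y ∂P)) * H x +
      (∫ y, G y * H y ∂P) * 1) ∂P := integral_nonneg h1
  rw [int4 iGH iG iH i1, int_one] at h3
  linarith

theorem var_nonneg {G : ℝ → ℝ} (iG : Integrable G P) (iGG : Integrable (fun y => G y * G y) P) :
    (∫ y, G y ∂P) * ∫ y, G y ∂P ≤ ∫ y, G y * G y ∂P := by
  have i1 : Integrable (fun _ : ℝ => (1 : ℝ)) P := integrable_const _
  have h : 0 ≤ ∫ y, (1 * (G y * G y) + (-2 * ∫ y, G y ∂P) * G y + (∫ y, G y ∂P) ^ 2 * 1) ∂P := by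
    refine integral_nonneg fun y => ?_
    show (0 : ℝ) ≤ _
    nlinarith [sq_nonneg (G y - ∫ y, G y ∂P)]
  rw [int3 iGG iG i1, int_one] at h
  nlinarith

/-- The derivative of an exponentially tilted integral. -/
theorem hasDerivAt_exp_int (hP : ∀ c : ℝ, Integrable (fun y => exp (c * |y|)) P) {G : ℝ → ℝ}
    (hG : EB G) : HasDerivAt (fun t => ∫ y, G y * exp (t * y) ∂P) (∫ y, G y * y ∂P) 0 := by
  have h := (hasDerivAt_integral_of_dominated_loc_of_deriv_le (μ := P) (x₀ := (0 : ℝ))
    (F := fun t y => G y * exp (t * y)) (F' := fun t y => G y * (exp (t * y) * y))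
    (s := Metric.ball 0 1) (bound := fun y => |G y| * (exp |y| * |y|))
    (Metric.ball_mem_nhds _ one_pos)
    (Eventually.of_forall fun t => (hG.mul (EB.exp_mul t)).meas.aestronglyMeasurable)
    ((hG.mul (EB.exp_mul 0)).integrable hP)
    (hG.mul ((EB.exp_mul 0).mul EB.id)).meas.aestronglyMeasurable
    (ae_of_all _ fun y t ht => ?_)
    ((hG.abs.mul (EB.exp_abs.mul EB.id.abs)).integrable hP)
    (ae_of_all _ fun y t _ => ?_)).2
  · simpa using h
  · rw [Real.norm_eq_abs, abs_mul, abs_mul, abs_of_pos (exp_pos _)]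
    refine mul_le_mul_of_nonneg_left (mul_le_mul_of_nonneg_right (exp_le_exp.2 ?_)
      (abs_nonneg _)) (abs_nonneg _)
    rw [Metric.mem_ball, Real.dist_eq, sub_zero] at ht
    have : t * y ≤ |t| * |y| := by rw [← abs_mul]; exact le_abs_self _
    nlinarith [abs_nonneg y]
  · have := ((hasDerivAt_mul_const y (x := t)).exp).const_mul (G y)
    simpa using this

theorem hasDerivAt_exp_ratio (hP : ∀ c : ℝ, Integrable (fun y => exp (c * |y|)) P) {G : ℝ → ℝ}
    (hG : EB G) : HasDerivAt (fun t => (∫ y, G y * exp (t * y) ∂P) / ∫ y, exp (t * y) ∂P)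
      (∫ y, G y * y ∂P - (∫ y, G y ∂P) * ∫ y, y ∂P) 0 := by
  have h1 := hasDerivAt_exp_int hP hG
  have h2 := hasDerivAt_exp_int hP (EB.const 1)
  simp only [one_mul] at h2
  have h3 := h1.fun_div h2 (by simp)
  refine h3.congr_deriv ?_
  simp

end Prob

/-! ### Valleys -/

/-- Negative first, positive later. -/
structure Valley (d : ℝ → ℝ) : Prop where
  pos : ∀ a b, a ≤ b → 0 < d a → 0 < d b
  neg : ∀ a b, a ≤ b → d b < 0 → d a < 0

theorem valley_of_mono {F1 n1 : ℝ → ℝ} (hn1 : ∀ y, 0 < n1 y) (hm : Monotone fun y => F1 y / n1 y)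
    (s : ℝ) : Valley fun y => F1 y - s * n1 y := by
  constructor
  · intro a b hab h
    have h1 : s < F1 a / n1 a := by rw [lt_div_iff₀ (hn1 a)]; linarith
    have h2 : s < F1 b / n1 b := h1.trans_le (hm hab)
    rw [lt_div_iff₀ (hn1 b)] at h2
    linarith
  · intro a b hab h
    have h1 : F1 b / n1 b < s := by rw [div_lt_iff₀ (hn1 b)]; linarith
    have h2 : F1 a / n1 a < s := lt_of_le_of_lt (hm hab) h1
    rw [div_lt_iff₀ (hn1 a)] at h2
    linarith

theorem mvt {ψ d : ℝ → ℝ} (h : ∀ y, HasDerivAt ψ (d y) y) {a b : ℝ} (hab : a < b) :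
    ∃ c, a < c ∧ c < b ∧ ψ b - ψ a = d c * (b - a) := by
  obtain ⟨c, hc, h1⟩ := exists_hasDerivAt_eq_slope ψ d hab
    (fun y _ => (h y).continuousAt.continuousWithinAt) (fun y _ => h y)
  refine ⟨c, hc.1, hc.2, ?_⟩
  rw [h1, div_mul_cancel₀ _ (sub_pos.2 hab).ne']

theorem Valley.quasi {ψ d : ℝ → ℝ} (hv : Valley d) (h : ∀ y, HasDerivAt ψ (d y) y) {a b c t : ℝ}
    (hab : a < b) (hbc : b < c) (ha : ψ a ≤ t) (hc : ψ c ≤ t) : ψ b ≤ t := by
  by_contra hb
  push Not at hb
  obtain ⟨p, -, hp, e1⟩ := mvt h hab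
  obtain ⟨q, hq, -, e2⟩ := mvt h hbc
  have h1 : 0 < d p := by
    by_contra h1
    push Not at h1
    nlinarith [sub_pos.2 hab]
  have h2 := hv.pos p q (by linarith) h1
  nlinarith [sub_pos.2 hbc]

theorem Valley.right {ψ d : ℝ → ℝ} (hv : Valley d) (h : ∀ y, HasDerivAt ψ (d y) y) {a b c : ℝ}
    (hab : a < b) (hbc : b < c) (he : ψ a ≤ ψ b) : ψ b ≤ ψ c := by
  by_contra hb
  push Not at hb
  obtain ⟨p, -, hp, e1⟩ := mvt h hab
  obtain ⟨q, hq, -, e2⟩ := mvt h hbc
  have h1 : d q < 0 := by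
    by_contra h1
    push Not at h1
    nlinarith [sub_pos.2 hbc]
  have h2 := hv.neg p q (by linarith) h1
  nlinarith [sub_pos.2 hab]

theorem Valley.left {ψ d : ℝ → ℝ} (hv : Valley d) (h : ∀ y, HasDerivAt ψ (d y) y) {a b c : ℝ}
    (hab : a < b) (hbc : b < c) (he : ψ c ≤ ψ b) : ψ b ≤ ψ a := by
  by_contra hb
  push Not at hb
  obtain ⟨p, -, hp, e1⟩ := mvt h hab
  obtain ⟨q, hq, -, e2⟩ := mvt h hbc
  have h1 : 0 < d p := by
    by_contra h1
    push Not at h1
    nlinarith [sub_pos.2 hab]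
  have h2 := hv.pos p q (by linarith) h1
  nlinarith [sub_pos.2 hbc]

theorem strictMono_of_pos {n n1 : ℝ → ℝ} (hn : ∀ y, HasDerivAt n (n1 y) y) (hn1 : ∀ y, 0 < n1 y) :
    StrictMono n := fun a b hab => by
  obtain ⟨c, -, -, e⟩ := mvt hn hab
  nlinarith [hn1 c, sub_pos.2 hab]

theorem mono_of_nonneg {n n1 : ℝ → ℝ} (hn : ∀ y, HasDerivAt n (n1 y) y) (hn1 : ∀ y, 0 ≤ n1 y) :
    Monotone n := fun a b hab => by
  rcases hab.eq_or_lt with rfl | hab
  · exact le_rfl
  obtain ⟨c, -, -, e⟩ := mvt hn hab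
  nlinarith [hn1 c, sub_pos.2 hab]

/-- The key sign lemma. -/
theorem key {P : Measure ℝ} [IsProbabilityMeasure P] (hP : ∀ y : ℝ, P {y} = 0)
    {F F1 n n1 φ : ℝ → ℝ} (hF : ∀ y, HasDerivAt F (F1 y) y) (hn : ∀ y, HasDerivAt n (n1 y) y)
    (hn1 : ∀ y, 0 < n1 y) (hm : Monotone fun y => F1 y / n1 y) (hφ : Continuous φ)
    (hq : ∀ a b c, a < b → b < c → φ a ≤ 0 → φ c ≤ 0 → φ b ≤ 0)
    (i0 : Integrable φ P) (i1 : Integrable (fun y => n y * φ y) P)
    (i2 : Integrable (fun y => F y * φ y) P) (h0 : ∫ y, φ y ∂P = 0)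
    (h1 : ∫ y, n y * φ y ∂P = 0) : 0 ≤ ∫ y, F y * φ y ∂P := by
  have hsm := strictMono_of_pos hn hn1
  have hne : ∀ y₀ : ℝ, ∀ᵐ y ∂P, y ≠ y₀ := fun y₀ => by
    rw [ae_iff]
    simpa using hP y₀
  have zero_of : φ =ᵐ[P] 0 → 0 ≤ ∫ y, F y * φ y ∂P := fun h => by
    have : (fun y => F y * φ y) =ᵐ[P] fun _ => 0 := h.mono fun y hy => by simp [hy]
    rw [integral_congr_ae this]
    simp
  -- a signed combination with mean zero vanishes
  have sgn : ∀ a b : ℝ, (∀ᵐ y ∂P, 0 ≤ a * (n y * φ y) + b * φ y) →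
      (∀ᵐ y ∂P, a * n y + b ≠ 0) → φ =ᵐ[P] 0 := by
    intro a b hab hne'
    have e : ∫ y, (a * (n y * φ y) + b * φ y) ∂P = 0 := by rw [int2 i1 i0, h0, h1]; ring
    have := (integral_eq_zero_iff_of_nonneg_ae hab ((i1.const_mul a).add (i0.const_mul b))).1 e
    filter_upwards [this, hne'] with y hy hy'
    have h2 : (a * n y + b) * φ y = 0 := by
      have : a * (n y * φ y) + b * φ y = 0 := hy
      linarith
    exact (mul_eq_zero.1 h2).resolve_left hy'
  set I : Set ℝ := {y | φ y ≤ 0} with hI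
  have hcl : IsClosed I := isClosed_le hφ continuous_const
  have hord : ∀ a b c, a ≤ b → b ≤ c → a ∈ I → c ∈ I → b ∈ I := by
    intro a b c hab hbc ha hc
    rcases hab.eq_or_lt with rfl | hab
    · exact ha
    rcases hbc.eq_or_lt with rfl | hbc
    · exact hc
    exact hq a b c hab hbc ha hc
  have hout : ∀ y, y ∉ I → 0 ≤ φ y := fun y hy => (not_le.1 hy).le
  rcases I.eq_empty_or_nonempty with he | hne0
  · refine zero_of (sgn 0 1 (ae_of_all _ fun y => ?_) (ae_of_all _ fun y => by simp))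
    have := hout y (by rw [he]; simp)
    linarith
  by_cases hb : BddBelow I
  · have m1 : sInf I ∈ I := hcl.csInf_mem hne0 hb
    have l1 : ∀ y, y < sInf I → y ∉ I := fun y hy h => absurd (csInf_le hb h) (not_le.2 hy)
    by_cases ha : BddAbove I
    · have m2 : sSup I ∈ I := hcl.csSup_mem hne0 ha
      have l2 : ∀ y, sSup I < y → y ∉ I := fun y hy h => absurd (le_csSup ha h) (not_le.2 hy)
      rcases (csInf_le_csSup hne0 hb ha).eq_or_lt with he | hlt
      · refine zero_of (sgn 0 1 ?_ (ae_of_all _ fun y => by simp))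
        filter_upwards [hne (sInf I)] with y hy
        rcases lt_or_gt_of_ne hy with h | h
        · have := hout y (l1 y h); linarith
        · have := hout y (l2 y (he ▸ h)); linarith
      · set y1 := sInf I
        set y2 := sSup I
        set s := (F y2 - F y1) / (n y2 - n y1) with hs
        have hd : 0 < n y2 - n y1 := sub_pos.2 (hsm hlt)
        have hv := valley_of_mono hn1 hm s
        have hψ : ∀ y, HasDerivAt (fun y => F y - s * n y) (F1 y - s * n1 y) y := fun y =>
          (hF y).sub ((hn y).const_mul s)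
        have e12 : F y1 - s * n y1 = F y2 - s * n y2 := by
          have : s * (n y2 - n y1) = F y2 - F y1 := div_mul_cancel₀ _ hd.ne'
          linarith
        have hpt : ∀ y, 0 ≤ 1 * (F y * φ y) + (-s) * (n y * φ y) + (-(F y1 - s * n y1)) * φ y := by
          intro y
          have e : 1 * (F y * φ y) + (-s) * (n y * φ y) + (-(F y1 - s * n y1)) * φ y =
              ((F y - s * n y) - (F y1 - s * n y1)) * φ y := by ring
          rw [e]
          rcases lt_trichotomy y y1 with h | h | h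
          · exact mul_nonneg (sub_nonneg.2 (hv.left hψ h hlt e12.ge)) (hout y (l1 y h))
          · rw [h]; simp
          · rcases lt_trichotomy y y2 with h' | h' | h'
            · exact mul_nonneg_of_nonpos_of_nonpos
                (sub_nonpos.2 (hv.quasi hψ h h' le_rfl e12.ge)) (hord y1 y y2 h.le h'.le m1 m2)
            · rw [h', e12]; simp
            · refine mul_nonneg ?_ (hout y (l2 y h'))
              rw [e12]
              exact sub_nonneg.2 (hv.right hψ hlt h' e12.le)
        have : 0 ≤ ∫ y, (1 * (F y * φ y) + (-s) * (n y * φ y) + (-(F y1 - s * n y1)) * φ y) ∂P :=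
          integral_nonneg hpt
        rw [int3 i2 i1 i0, h0, h1] at this
        linarith
    · refine zero_of (sgn (-1) (n (sInf I)) (ae_of_all _ fun y => ?_) ?_)
      · have e : -1 * (n y * φ y) + n (sInf I) * φ y = (n (sInf I) - n y) * φ y := by ring
        rw [e]
        rcases lt_or_ge y (sInf I) with h | h
        · exact mul_nonneg (sub_nonneg.2 (hsm.monotone h.le)) (hout y (l1 y h))
        · obtain ⟨c, hc, hyc⟩ := not_bddAbove_iff.1 ha y
          exact mul_nonneg_of_nonpos_of_nonpos (sub_nonpos.2 (hsm.monotone h))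
            (hord _ y c h hyc.le m1 hc)
      · filter_upwards [hne (sInf I)] with y hy h
        exact hy (hsm.injective (by linarith))
  · by_cases ha : BddAbove I
    · have m2 : sSup I ∈ I := hcl.csSup_mem hne0 ha
      have l2 : ∀ y, sSup I < y → y ∉ I := fun y hy h => absurd (le_csSup ha h) (not_le.2 hy)
      refine zero_of (sgn 1 (-n (sSup I)) (ae_of_all _ fun y => ?_) ?_)
      · have e : 1 * (n y * φ y) + -n (sSup I) * φ y = (n y - n (sSup I)) * φ y := by ring
        rw [e]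
        rcases lt_or_ge (sSup I) y with h | h
        · exact mul_nonneg (sub_nonneg.2 (hsm.monotone h.le)) (hout y (l2 y h))
        · obtain ⟨c, hc, hyc⟩ := not_bddBelow_iff.1 hb y
          exact mul_nonneg_of_nonpos_of_nonpos (sub_nonpos.2 (hsm.monotone h))
            (hord c y _ hyc.le h hc m2)
      · filter_upwards [hne (sSup I)] with y hy h
        exact hy (hsm.injective (by linarith))
    · refine zero_of (sgn 0 (-1) (ae_of_all _ fun y => ?_) (ae_of_all _ fun y => by simp))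
      obtain ⟨c, hc, hyc⟩ := not_bddAbove_iff.1 ha y
      obtain ⟨a, ha', hya⟩ := not_bddBelow_iff.1 hb y
      have : φ y ≤ 0 := hord a y c hya.le hyc.le ha' hc
      linarith

end Crest.Agent.R164.OS
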