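import Crest.Agent.R164.OneDefs
import Crest.Agent.R164.OneStepAux1

/-! # Row 164: the tilted Gaussian law and derivatives of tilted averages -/

set_option autoImplicit false

namespace Crest.Agent.R164.OS

open MeasureTheory ProbabilityTheory Real Filter Topology

variable {f : ℝ → ℝ} {ζ v : ℝ}

theorem gauss_exp_abs (c : ℝ) : Integrable (fun g => exp (c * |g|)) (gaussianReal 0 1) := by
  refine Integrable.mono' ((integrable_exp_mul_gaussianReal (μ := 0) (v := 1) c).add
    (integrable_exp_mul_gaussianReal (μ := 0) (v := 1) (-c))) (by fun_prop)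
    (ae_of_all _ fun g => ?_)
  rw [Real.norm_eq_abs, abs_of_pos (exp_pos _), Pi.add_apply]
  rcases abs_cases g with h | h
  · rw [h.1]; linarith [exp_pos (-c * g)]
  · rw [h.1, show c * -g = -c * g by ring]; linarith [exp_pos (c * g)]

theorem EB.comp_affine {G : ℝ → ℝ} (hG : EB G) (x c : ℝ) : EB fun g => G (x + c * g) := by
  obtain ⟨C, hC⟩ := hG.bd
  refine ⟨hG.meas.comp (by fun_prop), |C| * (1 + |x| + |c|), fun g => (hC _).trans ?_⟩
  refine exp_le_exp.2 ?_
  have h1 : |x + c * g| ≤ |x| + |c| * |g| := by rw [← abs_mul]; exact abs_add_le _ _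
  have h2 : C * (1 + |x + c * g|) ≤ |C| * (1 + |x + c * g|) :=
    mul_le_mul_of_nonneg_right (le_abs_self _) (by positivity)
  have h3 : 1 + |x + c * g| ≤ (1 + |x| + |c|) * (1 + |g|) := by
    nlinarith [abs_nonneg x, abs_nonneg c, abs_nonneg g]
  calc _ ≤ |C| * (1 + |x + c * g|) := h2
    _ ≤ |C| * ((1 + |x| + |c|) * (1 + |g|)) := mul_le_mul_of_nonneg_left h3 (abs_nonneg _)
    _ = _ := by ring

theorem EB.exp_lip (hf : LipschitzWith 1 f) (ζ : ℝ) : EB fun y => exp (ζ * f y) := by
  have hm := hf.continuous.measurable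
  refine ⟨by fun_prop, |ζ| * (|f 0| + 1), fun y => ?_⟩
  rw [abs_of_pos (exp_pos _)]
  refine exp_le_exp.2 ?_
  have h1 := hf.dist_le_mul y 0
  rw [Real.dist_eq, Real.dist_eq, sub_zero] at h1
  have h2 : |f y| ≤ |f 0| + |f y - f 0| := by
    have := abs_add_le (f 0) (f y - f 0)
    simpa using this
  have h3 : ζ * f y ≤ |ζ| * |f y| := by rw [← abs_mul]; exact le_abs_self _
  have h4 : |f y| ≤ (|f 0| + 1) * (1 + |y|) := by
    push_cast at h1
    nlinarith [abs_nonneg (f 0), abs_nonneg y]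
  calc _ ≤ |ζ| * |f y| := h3
    _ ≤ |ζ| * ((|f 0| + 1) * (1 + |y|)) := mul_le_mul_of_nonneg_left h4 (abs_nonneg _)
    _ = _ := by ring

theorem EB.gauss {G : ℝ → ℝ} (hG : EB G) (x c : ℝ) :
    Integrable (fun g => G (x + c * g)) (gaussianReal 0 1) :=
  (hG.comp_affine x c).integrable gauss_exp_abs

theorem den_pos (hf : LipschitzWith 1 f) (ζ x c : ℝ) :
    0 < ∫ g, exp (ζ * f (x + c * g)) ∂gaussianReal 0 1 :=
  integral_exp_pos ((EB.exp_lip hf ζ).gauss x c)

theorem Ag_of_sqrt (hv : √v = 0) (ζ : ℝ) (f F : ℝ → ℝ) (x : ℝ) : Ag ζ v f F x = F x := by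
  unfold Ag
  simp only [hv, zero_mul, add_zero, integral_const, probReal_univ, one_smul]
  exact mul_div_cancel_right₀ _ (exp_pos _).ne'

theorem exists_tilt' (hf : LipschitzWith 1 f) (ζ v x : ℝ) : ∃ P : Measure ℝ,
    IsProbabilityMeasure P ∧ (∀ c : ℝ, Integrable (fun y => exp (c * |y|)) P) ∧
    (∀ G : ℝ → ℝ, Measurable G → Ag ζ v f G x = ∫ y, G y ∂P) ∧
    (0 < v → ∀ s : Set ℝ, MeasurableSet s → (P s = 0 ↔ volume s = 0)) := by
  have hi : Integrable (fun g => exp (ζ * f (x + √v * g))) (gaussianReal 0 1) :=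
    (EB.exp_lip hf ζ).gauss x _
  have hT : Measurable fun g : ℝ => x + √v * g := by fun_prop
  have := isProbabilityMeasure_tilted hi
  refine ⟨((gaussianReal 0 1).tilted fun g => ζ * f (x + √v * g)).map fun g => x + √v * g,
    Measure.isProbabilityMeasure_map hT.aemeasurable, fun c => ?_, fun G hG => ?_,
    fun hv s hs => ?_⟩
  · rw [integrable_map_measure (by fun_prop) hT.aemeasurable, integrable_tilted_iff hi]
    have hc : EB fun y : ℝ => exp (c * |y|) := by
      refine ⟨by fun_prop, |c|, fun y => ?_⟩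
      rw [abs_of_pos (exp_pos _)]
      refine exp_le_exp.2 ?_
      nlinarith [le_abs_self c, abs_nonneg c, abs_nonneg y]
    exact ((EB.exp_lip hf ζ).mul hc).gauss x _
  · rw [integral_map hT.aemeasurable hG.aestronglyMeasurable, integral_tilted]
    unfold Ag
    rw [← integral_div]
    refine integral_congr_ae (ae_of_all _ fun g => ?_)
    simp only [smul_eq_mul]
    ring
  · rw [Measure.map_apply hT hs]
    have hsq : √v ≠ 0 := (Real.sqrt_pos.2 hv).ne'
    have e1 : volume ((fun g : ℝ => x + √v * g) ⁻¹' s) = 0 ↔ volume s = 0 := by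
      have : (fun g : ℝ => x + √v * g) ⁻¹' s = (fun g : ℝ => √v * g) ⁻¹' ((fun g => x + g) ⁻¹' s) :=
        rfl
      rw [this, Real.volume_preimage_mul_left hsq, measure_preimage_add]
      simp [hsq]
    rw [← e1]
    constructor
    · intro h
      exact gaussianReal_absolutelyContinuous' 0 one_ne_zero (absolutelyContinuous_tilted hi h)
    · intro h
      exact tilted_absolutelyContinuous _ _ (gaussianReal_absolutelyContinuous 0 one_ne_zero h)

/-- Cameron–Martin formula on the line. -/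
theorem cm (K : ℝ → ℝ) (δ : ℝ) : ∫ g, K (g + δ) ∂gaussianReal 0 1 =
    exp (-δ ^ 2 / 2) * ∫ u, K u * exp (δ * u) ∂gaussianReal 0 1 := by
  rw [integral_gaussianReal_eq_integral_smul one_ne_zero,
    integral_gaussianReal_eq_integral_smul one_ne_zero, ← integral_const_mul,
    ← integral_add_right_eq_self (fun u => exp (-δ ^ 2 / 2) *
      (gaussianPDFReal 0 1 u • (K u * exp (δ * u)))) δ]
  refine integral_congr_ae (ae_of_all _ fun g => ?_)
  simp only [gaussianPDFReal, smul_eq_mul, NNReal.coe_one, mul_one, sub_zero]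
  have : exp (-g ^ 2 / 2) = exp (-δ ^ 2 / 2) * exp (-(g + δ) ^ 2 / 2) * exp (δ * (g + δ)) := by
    rw [← exp_add, ← exp_add]
    congr 1
    ring
  rw [this]
  ring

theorem shift_int (hv : 0 < v) (W : ℝ → ℝ) (x x₀ : ℝ) :
    ∫ g, W (x + √v * g) ∂gaussianReal 0 1 =
      (exp (-((x - x₀) / √v) ^ 2 / 2) * exp (-((x - x₀) / v * x₀))) *
        ∫ g, W (x₀ + √v * g) * exp ((x - x₀) / v * (x₀ + √v * g)) ∂gaussianReal 0 1 := by
  have hs : 0 < √v := Real.sqrt_pos.2 hv
  have h := cm (fun u => W (x₀ + √v * u)) ((x - x₀) / √v)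
  have e : ∀ g, x₀ + √v * (g + (x - x₀) / √v) = x + √v * g := fun g => by
    field_simp
    ring
  simp only [e] at h
  rw [h, mul_assoc, ← integral_const_mul (exp (-((x - x₀) / v * x₀)))]
  congr 1
  refine integral_congr_ae (ae_of_all _ fun g => ?_)
  have : exp ((x - x₀) / √v * g) =
      exp (-((x - x₀) / v * x₀)) * exp ((x - x₀) / v * (x₀ + √v * g)) := by
    rw [← exp_add]
    congr 1
    have h2 : √v * √v = v := Real.mul_self_sqrt hv.le
    have h3 : (x - x₀) / √v = (x - x₀) / v * √v := by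
      rw [div_mul_eq_mul_div, div_eq_div_iff hs.ne' hv.ne', mul_assoc, h2]
    rw [h3]
    ring
  simp only [this]
  ring

theorem Ag_shift (hf : LipschitzWith 1 f) (hv : 0 < v) (G : ℝ → ℝ) (x x₀ : ℝ) :
    Ag ζ v f G x = Ag ζ v f (fun y => G y * exp ((x - x₀) / v * y)) x₀ /
      Ag ζ v f (fun y => exp ((x - x₀) / v * y)) x₀ := by
  unfold Ag
  rw [shift_int hv (fun y => G y * exp (ζ * f y)) x x₀, shift_int hv (fun y => exp (ζ * f y)) x x₀,
    mul_div_mul_left _ _ (by positivity), div_div_div_cancel_right₀ (den_pos hf ζ x₀ _).ne']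
  congr 1
  · refine integral_congr_ae (ae_of_all _ fun g => ?_)
    simp only
    ring
  · refine integral_congr_ae (ae_of_all _ fun g => ?_)
    simp only
    ring

theorem hasDerivAt_Ag_cov' (hf : LipschitzWith 1 f) (hv : 0 < v) {G : ℝ → ℝ} (hG : EB G) (x : ℝ) :
    HasDerivAt (Ag ζ v f G) (Cv ζ v f G id x / v) x := by
  obtain ⟨P, hP, hE, hA, -⟩ := exists_tilt' hf ζ v x
  have h1 := hasDerivAt_exp_ratio hE hG
  have h2 : HasDerivAt (fun z => (z - x) / v) (1 / v) x :=
    ((hasDerivAt_id x).sub_const x).div_const v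
  have h3 := HasDerivAt.comp_of_eq x h1 h2 (by simp)
  have e : Ag ζ v f G = (fun t => (∫ y, G y * exp (t * y) ∂P) / ∫ y, exp (t * y) ∂P) ∘
      fun z => (z - x) / v := by
    funext z
    rw [Ag_shift hf hv G z x, hA _ (hG.mul (EB.exp_mul _)).meas, hA _ (EB.exp_mul _).meas]
    rfl
  rw [e]
  refine h3.congr_deriv ?_
  unfold Cv
  rw [hA (fun y => G y * id y) (hG.meas.mul measurable_id), hA _ hG.meas, hA _ measurable_id]
  simp only [id]
  ring

theorem abs_exp_sub_le (p q M : ℝ) (hp : p ≤ M) (hq : q ≤ M) : |exp p - exp q| ≤ exp M * |p - q| := by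
  have key : ∀ a b : ℝ, a ≤ M → b ≤ a → exp a - exp b ≤ exp M * (a - b) := by
    intro a b ha hb
    have h1 := add_one_le_exp (b - a)
    have h2 : exp b = exp a * exp (b - a) := by rw [← exp_add]; congr 1; ring
    have h3 : exp a ≤ exp M := exp_le_exp.2 ha
    have h4 : exp a - exp b ≤ exp a * (a - b) := by rw [h2]; nlinarith [exp_pos a]
    nlinarith [sub_nonneg.2 hb]
  rcases le_total q p with h | h
  · rw [abs_of_nonneg (sub_nonneg.2 (exp_le_exp.2 h)), abs_of_nonneg (sub_nonneg.2 h)]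
    exact key p q hp h
  · rw [abs_sub_comm, abs_sub_comm p, abs_of_nonneg (sub_nonneg.2 (exp_le_exp.2 h)),
      abs_of_nonneg (sub_nonneg.2 h)]
    exact key q p hq h

/-- The derivative of the numerator through the functions. -/
theorem hasDerivAt_num {f1 : ℝ → ℝ} (hf : LipschitzWith 1 f) (hd1 : ∀ x, HasDerivAt f (f1 x) x)
    (hm1 : Measurable f1) (hv : 0 < v) {G G1 : ℝ → ℝ} {C : NNReal}
    (hG : LipschitzWith C G) (hG1 : Measurable G1) {S : Set ℝ} (hS : S.Finite)
    (hd : ∀ y ∉ S, HasDerivAt G (G1 y) y) (x : ℝ) :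
    Integrable (fun g => G1 (x + √v * g) * exp (ζ * f (x + √v * g)) +
      G (x + √v * g) * (exp (ζ * f (x + √v * g)) * (ζ * f1 (x + √v * g)))) (gaussianReal 0 1) ∧
    HasDerivAt (fun z => ∫ g, G (z + √v * g) * exp (ζ * f (z + √v * g)) ∂gaussianReal 0 1)
      (∫ g, (G1 (x + √v * g) * exp (ζ * f (x + √v * g)) +
        G (x + √v * g) * (exp (ζ * f (x + √v * g)) * (ζ * f1 (x + √v * g)))) ∂gaussianReal 0 1)
      x := by
  have hW : EB fun y => G y * exp (ζ * f y) := (EB.of_lip hG).mul (EB.exp_lip hf ζ)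
  have hfm := hf.continuous.measurable
  have hGm := hG.continuous.measurable
  have hC0 : (0 : ℝ) ≤ C := C.2
  have hB : EB fun y => (C + (|G y| + C) * |ζ|) * (exp |ζ| * exp (ζ * f y)) := by
    refine EB.mul ?_ ((EB.const _).mul (EB.exp_lip hf ζ))
    refine EB.of_le_lin (by fun_prop) (A := C + (|G 0| + C + C) * |ζ|) fun y => ?_
    have h1 := hG.dist_le_mul y 0
    rw [Real.dist_eq, Real.dist_eq, sub_zero] at h1
    have h2 : |G y| ≤ |G 0| + |G y - G 0| := by
      have := abs_add_le (G 0) (G y - G 0)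
      simpa using this
    rw [abs_of_nonneg (by positivity)]
    have h3 : |G y| + C ≤ (|G 0| + C + C) * (1 + |y|) := by
      nlinarith [abs_nonneg (G 0), abs_nonneg y]
    have h4 := mul_le_mul_of_nonneg_right h3 (abs_nonneg ζ)
    nlinarith [abs_nonneg y]
  refine hasDerivAt_integral_of_dominated_loc_of_lip (μ := gaussianReal 0 1) (x₀ := x)
    (F := fun z g => G (z + √v * g) * exp (ζ * f (z + √v * g))) (s := Metric.ball x 1)
    (bound := fun g => (C + (|G (x + √v * g)| + C) * |ζ|) * (exp |ζ| * exp (ζ * f (x + √v * g))))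
    (Metric.ball_mem_nhds _ one_pos)
    (Eventually.of_forall fun z => (hW.gauss z _).aestronglyMeasurable) (hW.gauss x _)
    (Measurable.aestronglyMeasurable (by fun_prop)) (ae_of_all _ fun g => ?_) (hB.gauss x _) ?_
  · refine LipschitzOnWith.of_dist_le_mul fun a ha b hb => ?_
    rw [Real.coe_nnabs, abs_of_nonneg (by positivity), Real.dist_eq, Real.dist_eq]
    rw [Metric.mem_ball, Real.dist_eq] at ha hb
    set c := √v * g
    have hup : ∀ z, |z - x| < 1 → ζ * f (z + c) ≤ |ζ| + ζ * f (x + c) := by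
      intro z hz
      have h1 := hf.dist_le_mul (z + c) (x + c)
      rw [Real.dist_eq, Real.dist_eq, add_sub_add_right_eq_sub] at h1
      have h2 : ζ * (f (z + c) - f (x + c)) ≤ |ζ| * |f (z + c) - f (x + c)| := by
        rw [← abs_mul]; exact le_abs_self _
      push_cast at h1
      nlinarith [abs_nonneg ζ]
    have h1 := abs_exp_sub_le _ _ _ (hup a ha) (hup b hb)
    have h2 : |ζ * f (a + c) - ζ * f (b + c)| ≤ |ζ| * |a - b| := by
      rw [← mul_sub, abs_mul]
      refine mul_le_mul_of_nonneg_left ?_ (abs_nonneg _)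
      have h := hf.dist_le_mul (a + c) (b + c)
      rw [Real.dist_eq, Real.dist_eq, add_sub_add_right_eq_sub] at h
      simpa using h
    have h3 : |G (a + c) - G (b + c)| ≤ C * |a - b| := by
      have h := hG.dist_le_mul (a + c) (b + c)
      rwa [Real.dist_eq, Real.dist_eq, add_sub_add_right_eq_sub] at h
    have h4 : |G (b + c)| ≤ |G (x + c)| + C := by
      have h := hG.dist_le_mul (b + c) (x + c)
      rw [Real.dist_eq, Real.dist_eq, add_sub_add_right_eq_sub] at h
      have h' := abs_add_le (G (x + c)) (G (b + c) - G (x + c))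
      rw [add_sub_cancel] at h'
      nlinarith
    have h5 : exp (ζ * f (a + c)) ≤ exp (|ζ| + ζ * f (x + c)) := exp_le_exp.2 (hup a ha)
    rw [← exp_add]
    set M := exp (|ζ| + ζ * f (x + c))
    have hM : 0 < M := exp_pos _
    have e : G (a + c) * exp (ζ * f (a + c)) - G (b + c) * exp (ζ * f (b + c)) =
        (G (a + c) - G (b + c)) * exp (ζ * f (a + c)) +
          G (b + c) * (exp (ζ * f (a + c)) - exp (ζ * f (b + c))) := by ring
    rw [e]
    refine (abs_add_le _ _).trans ?_
    rw [abs_mul, abs_mul, abs_of_pos (exp_pos _)]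
    have h6 : |G (a + c) - G (b + c)| * exp (ζ * f (a + c)) ≤ C * |a - b| * M :=
      mul_le_mul h3 h5 (exp_pos _).le (by positivity)
    have h7 : |exp (ζ * f (a + c)) - exp (ζ * f (b + c))| ≤ M * (|ζ| * |a - b|) :=
      h1.trans (mul_le_mul_of_nonneg_left h2 hM.le)
    have h8 := mul_le_mul h4 h7 (abs_nonneg _) (by positivity)
    nlinarith
  · have hsq : √v ≠ 0 := (Real.sqrt_pos.2 hv).ne'
    have hfin : ((fun g : ℝ => x + √v * g) ⁻¹' S).Finite := by
      refine hS.preimage fun a _ b _ hab => ?_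
      exact mul_left_cancel₀ hsq (add_left_cancel hab)
    have hnull : ∀ᵐ g ∂(gaussianReal 0 1), x + √v * g ∉ S := by
      have : gaussianReal 0 1 ((fun g : ℝ => x + √v * g) ⁻¹' S) = 0 :=
        gaussianReal_absolutelyContinuous 0 one_ne_zero (hfin.measure_zero _)
      rw [ae_iff]
      simp only [not_not]
      exact this
    filter_upwards [hnull] with g hg
    have h1 : HasDerivAt (fun z => G (z + √v * g)) (G1 (x + √v * g)) x :=
      (hd _ hg).comp_add_const x _
    have h2 : HasDerivAt (fun z => f (z + √v * g)) (f1 (x + √v * g)) x :=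
      (hd1 _).comp_add_const x _
    exact h1.mul (h2.const_mul ζ).exp

end Crest.Agent.R164.OS
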