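import Crest.Agent.R164.OneFam

/-! # Row 164: submodularity of the constrained one-site value in the exponents -/

set_option autoImplicit false

namespace Crest.Agent.R164

open MeasureTheory ProbabilityTheory Real Finset Crest.ProbabilityR.InvariantGlass

namespace OneSub

open Filter Topology Asymptotics

variable {θ e e' : ℝ × ℝ} {L : List Q4}

lemma zeta_add (q : Q4) (θ e : ℝ × ℝ) (t : ℝ) : q.ζ (θ + t • e) = q.ζ θ + t * q.dir e := by
  simp only [Q4.ζ, Q4.dir, Prod.fst_add, Prod.snd_add, Prod.smul_fst, Prod.smul_snd, smul_eq_mul]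
  ring

lemma val_ev (h : Val θ L) (e : ℝ × ℝ) : ∀ᶠ t : ℝ in 𝓝 0, Val (θ + t • e) L := by
  have h1 : ∀ q ∈ {q | q ∈ L}, ∀ᶠ t : ℝ in 𝓝 0, 0 < q.ζ (θ + t • e) ∧ 0 ≤ q.v := fun q hq => by
    have h2 : ContinuousAt (fun t : ℝ => q.ζ θ + t * q.dir e) 0 := by fun_prop
    filter_upwards [h2.eventually (lt_mem_nhds (by simpa using (h q hq).1))] with t ht
    exact ⟨by rwa [zeta_add], (h q hq).2⟩
  exact (eventually_all_finite (List.finite_toSet L)).2 h1

lemma val_add (h : Val θ L) (he : ∀ q ∈ L, 0 ≤ q.dir e) {t : ℝ} (ht : 0 ≤ t) :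
    Val (θ + t • e) L := fun q hq =>
  ⟨by rw [zeta_add]; exact add_pos_of_pos_of_nonneg (h q hq).1 (mul_nonneg ht (he q hq)),
    (h q hq).2⟩

lemma f1_strictMono (h : Val θ L) : StrictMono (f1 θ L) :=
  strictMono_of_hasDerivAt_pos (rec_good h).d2 (rec_good h).pos

/-- The point with mean spin `m`. -/
noncomputable def sol (θ : ℝ × ℝ) (L : List Q4) (m : ℝ) : ℝ := Function.invFun (f1 θ L) m

lemma f1_sol (h : Val θ L) {m : ℝ} (hm : |m| < 1) : f1 θ L (sol θ L m) = m :=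
  Function.invFun_eq (exists_f1_eq h hm)

lemma sol_eq (h : Val θ L) {m b : ℝ} (hb : f1 θ L b = m) : sol θ L m = b := by
  rw [← hb]
  exact Function.leftInverse_invFun (f1_strictMono h).injective b

lemma le_Wl (h : Val θ L) {m : ℝ} (hm : |m| ≤ 1) (b : ℝ) :
    b * m - ff θ L b ≤ Wl (L.map fun q => (q.ζ θ, q.v)) m := by
  rw [ff_eq_fl]
  refine le_ciSup (bddAbove_Wl (fun q hq => ?_) hm) b
  obtain ⟨q', hq', rfl⟩ := List.mem_map.1 hq
  exact (h q' hq').1.le

lemma tendsto_sol (h : Val θ L) (he : ∀ q ∈ L, 0 ≤ q.dir e) {m : ℝ} (hm : |m| < 1) :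
    Tendsto (fun t : ℝ => sol (θ + t • e) L m) (𝓝 0) (𝓝 (sol θ L m)) := by
  have h1 : ∀ x, Tendsto (fun t : ℝ => f1 (θ + t • e) L x) (𝓝 0) (𝓝 (f1 θ L x)) := fun x => by
    simpa using (hasDerivAt_f1 h he x 0).continuousAt.tendsto
  refine tendsto_order.2 ⟨fun a ha => ?_, fun a ha => ?_⟩
  · have h2 := f1_strictMono h ha
    rw [f1_sol h hm] at h2
    filter_upwards [val_ev h e, (h1 a).eventually (gt_mem_nhds h2)] with t ht h3
    exact (f1_strictMono ht).lt_iff_lt.1 (by rwa [f1_sol ht hm])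
  · have h2 := f1_strictMono h ha
    rw [f1_sol h hm] at h2
    filter_upwards [val_ev h e, (h1 a).eventually (lt_mem_nhds h2)] with t ht h3
    exact (f1_strictMono ht).lt_iff_lt.1 (by rwa [f1_sol ht hm])

lemma hasDerivAt_of_isLittleO {r : ℝ → ℝ} (h : r =o[𝓝 0] fun t => t) : HasDerivAt r 0 0 := by
  have h0 : r 0 = 0 := by simpa using h.isBigO.eq_zero_imp.self_of_nhds
  rw [hasDerivAt_iff_isLittleO_nhds_zero]
  simpa [h0] using h

lemma shift {u : ℝ → ℝ} {d s : ℝ} (h : HasDerivAt (fun t => u (s + t)) d 0) : HasDerivAt u d s := by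
  have h1 : HasDerivAt (fun t => u (s + t)) d (s - s) := by rwa [sub_self]
  simpa using h1.comp_sub_const s s

lemma Dr_lip (h : Val θ L) (he : ∀ q ∈ L, 0 ≤ q.dir e) (b b' : ℝ) :
    |Dr θ e L b - Dr θ e L b'| ≤ (L.map fun q => q.dir e * q.v).sum * |f1 θ L b - f1 θ L b'| := by
  set K := (L.map fun q => q.dir e * q.v).sum
  have h1 : Monotone fun x => K * f1 θ L x + Dr θ e L x :=
    monotone_of_hasDerivAt_nonneg
      (fun x => (((rec_good h).d2 x).const_mul K).add ((rec_cvx h he).d x))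
      fun x => by
        have := (abs_le.1 (Dr1_bound h he x)).1
        change 0 ≤ K * f2 θ L x + Dr1 θ e L x
        linarith
  have h2 : Monotone fun x => K * f1 θ L x - Dr θ e L x :=
    monotone_of_hasDerivAt_nonneg
      (fun x => (((rec_good h).d2 x).const_mul K).sub ((rec_cvx h he).d x))
      fun x => by
        have := (abs_le.1 (Dr1_bound h he x)).2
        change 0 ≤ K * f2 θ L x - Dr1 θ e L x
        linarith
  rcases le_total b b' with hb | hb
  · have a1 := h1 hb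
    have a2 := h2 hb
    rw [abs_of_nonpos (sub_nonpos.2 ((f1_strictMono h).monotone hb)), abs_le]
    dsimp only at a1 a2
    constructor <;> linarith
  · have a1 := h1 hb
    have a2 := h2 hb
    rw [abs_of_nonneg (sub_nonneg.2 ((f1_strictMono h).monotone hb)), abs_le]
    dsimp only at a1 a2
    constructor <;> linarith

lemma le_of_deriv_nonneg {u d : ℝ → ℝ} (h : ∀ s, 0 ≤ s → HasDerivAt u (d s) s)
    (hd : ∀ s, 0 ≤ s → 0 ≤ d s) : u 0 ≤ u 1 :=
  monotoneOn_of_deriv_nonneg (convex_Ici (0 : ℝ))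
    (fun s hs => (h s hs).continuousAt.continuousWithinAt)
    (fun s hs => (h s (interior_subset hs)).differentiableAt.differentiableWithinAt)
    (fun s hs => by rw [(h s (interior_subset hs)).deriv]; exact hd s (interior_subset hs))
    Set.self_mem_Ici (Set.mem_Ici.2 zero_le_one) zero_le_one

lemma hasDerivAt_Dr_sol (h : Val θ L)
    (he : ∀ q ∈ L, 0 ≤ q.dir e ∧ 0 ≤ q.dir e' ∧ q.dir e * q.dir e' = 0) {m : ℝ} (hm : |m| < 1) :
    ∃ d, 0 ≤ d ∧ HasDerivAt (fun t : ℝ => Dr (θ + t • e') e L (sol (θ + t • e') L m)) d 0 := by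
  set b := sol θ L m
  have hp := (rec_good h).pos b
  set c := -Dr1 θ e' L b / f2 θ L b with hc
  have h1 := hasDerivAt_f1 h (fun q hq => (he q hq).2.1) b c
  rw [show Dr1 θ e' L b + c * f2 θ L b = 0 by rw [hc]; field_simp; ring,
    hasDerivAt_iff_isLittleO_nhds_zero] at h1
  simp only [zero_add, zero_smul, add_zero, mul_zero, smul_zero, sub_zero] at h1
  have h2 : HasDerivAt (fun t : ℝ => Dr (θ + t • e') e L (sol (θ + t • e') L m) -
      Dr (θ + t • e') e L (b + c * t)) 0 0 := by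
    refine hasDerivAt_of_isLittleO (IsBigO.trans_isLittleO (IsBigO.of_bound
      (L.map fun q => q.dir e * q.v).sum ?_) h1)
    filter_upwards [val_ev h e'] with t ht
    have := Dr_lip ht (fun q hq => (he q hq).1) (sol (θ + t • e') L m) (b + c * t)
    rw [f1_sol ht hm, abs_sub_comm m] at this
    rw [show f1 θ L b = m from f1_sol h hm]
    exact this
  refine ⟨Xi θ e e' L b + c * Dr1 θ e L b, ?_, ?_⟩
  · have h3 := (rec_xi h he).2.2 b
    rw [hc, div_mul_eq_mul_div, add_div' _ _ _ hp.ne']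
    exact div_nonneg (by linarith) hp.le
  · simpa using h2.fun_add (hasDerivAt_Dr h he b c)

end OneSub

open OneSub Filter Topology Asymptotics

/-- Envelope theorem. -/
theorem hasDerivAt_Wl {θ e : ℝ × ℝ} {L : List Q4} (h : Val θ L) (he : ∀ q ∈ L, 0 ≤ q.dir e) {m b : ℝ}
    (hb : f1 θ L b = m) :
    HasDerivAt (fun t : ℝ => Wl (L.map fun q => (q.ζ (θ + t • e), q.v)) m) (-Dr θ e L b) 0 := by
  have hm : |m| < 1 := hb ▸ (rec_good h).abs_lt_one b
  have h1 : (fun t : ℝ => f1 (θ + t • e) L b - m) =O[𝓝 0] fun t => t := by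
    simpa [hb] using (hasDerivAt_f1 h he b 0).isBigO_sub
  have h2 : (fun t : ℝ => b - sol (θ + t • e) L m) =o[𝓝 0] fun _ => (1 : ℝ) := by
    rw [isLittleO_one_iff]
    simpa [sol_eq h hb] using (tendsto_sol h he hm).const_sub b
  have h3 : HasDerivAt (fun t : ℝ => Wl (L.map fun q => (q.ζ (θ + t • e), q.v)) m -
      (b * m - ff (θ + t • e) L b)) 0 0 := by
    refine hasDerivAt_of_isLittleO (IsBigO.trans_isLittleO (IsBigO.of_bound 1 ?_)
      (by simpa using h1.mul_isLittleO h2))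
    filter_upwards [val_ev h e] with t ht
    have a1 := le_Wl ht hm.le b
    have a2 := le_Wl ht ((rec_good ht).le_one b) (sol (θ + t • e) L m)
    rw [Wl_eq ht rfl] at a2
    rw [one_mul, Real.norm_eq_abs, abs_of_nonneg (sub_nonneg.2 a1), Wl_eq ht (f1_sol ht hm)]
    refine le_trans ?_ (le_abs_self _)
    linarith
  simpa using h3.fun_add ((hasDerivAt_ff h he b).const_sub (b * m))

/-- At fixed mean spin the derivative in one direction increases along the other. -/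
theorem Dr_mono {θ e e' : ℝ × ℝ} {L : List Q4} (h : Val θ L)
    (he : ∀ q ∈ L, 0 ≤ q.dir e ∧ 0 ≤ q.dir e' ∧ q.dir e * q.dir e' = 0) {b b' : ℝ}
    (hb : f1 θ L b = f1 (θ + e') L b') : Dr θ e L b ≤ Dr (θ + e') e L b' := by
  have hm := (rec_good h).abs_lt_one b
  have hv : ∀ s : ℝ, 0 ≤ s → Val (θ + s • e') L := fun s hs =>
    val_add h (fun q hq => (he q hq).2.1) hs
  choose! d hd0 hd using fun s hs => hasDerivAt_Dr_sol (hv s hs) he hm
  have h1 := le_of_deriv_nonneg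
    (u := fun t : ℝ => Dr (θ + t • e') e L (sol (θ + t • e') L (f1 θ L b))) (d := d)
    (fun s hs => OneSub.shift (by simpa only [add_smul, add_assoc] using hd s hs)) hd0
  have h2 : Val (θ + e') L := by simpa using hv 1 zero_le_one
  simp only [zero_smul, add_zero, one_smul] at h1
  rwa [sol_eq h rfl, sol_eq h2 hb.symm] at h1

theorem hasDerivAt_Wl' {θ e : ℝ × ℝ} {L : List Q4} (h : Val θ L) (he : ∀ q ∈ L, 0 ≤ q.dir e)
    {m : ℝ} (hm : |m| < 1) {s : ℝ} (hs : 0 ≤ s) :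
    HasDerivAt (fun t : ℝ => Wl (L.map fun q => (q.ζ (θ + t • e), q.v)) m)
      (-Dr (θ + s • e) e L (sol (θ + s • e) L m)) s :=
  OneSub.shift (by
    simpa only [add_smul, add_assoc] using
      hasDerivAt_Wl (val_add h he hs) he (f1_sol (val_add h he hs) hm))

theorem Wl_submod (M : List (ℝ × ℝ × ℝ)) (hM : ∀ q ∈ M, 0 < q.1 ∧ 0 < q.2.1 ∧ 0 ≤ q.2.2) {m : ℝ}
    (hm : |m| < 1) :
    Wl (M.map fun q => (max q.1 q.2.1, q.2.2)) m + Wl (M.map fun q => (min q.1 q.2.1, q.2.2)) m ≤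
      Wl (M.map fun q => (q.1, q.2.2)) m + Wl (M.map fun q => (q.2.1, q.2.2)) m := by
  let L : List Q4 := M.map fun q =>
    ⟨min q.1 q.2.1, q.1 - min q.1 q.2.1, q.2.1 - min q.1 q.2.1, q.2.2⟩
  have h0 : Val 0 L := by
    intro q hq
    obtain ⟨p, hp, rfl⟩ := List.mem_map.1 hq
    exact ⟨by simpa [Q4.ζ, Q4.dir] using ⟨(hM p hp).1, (hM p hp).2.1⟩, (hM p hp).2.2⟩
  have he : ∀ q ∈ L, 0 ≤ q.dir (1, 0) ∧ 0 ≤ q.dir (0, 1) ∧ q.dir (1, 0) * q.dir (0, 1) = 0 := by
    intro q hq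
    obtain ⟨p, hp, rfl⟩ := List.mem_map.1 hq
    rcases le_total p.1 p.2.1 with h | h <;> simp [Q4.dir, h]
  have he1 : ∀ q ∈ L, 0 ≤ q.dir (1, 0) := fun q hq => (he q hq).1
  have h1 : Val (0, 1) L := by simpa using val_add h0 (fun q hq => (he q hq).2.1) zero_le_one
  have key := le_of_deriv_nonneg (fun s hs =>
    (hasDerivAt_Wl' h0 he1 hm hs).sub (hasDerivAt_Wl' h1 he1 hm hs)) fun s hs => by
      have e1 : ((0, 1) : ℝ × ℝ) + s • (1, 0) = 0 + s • (1, 0) + (0, 1) := by abel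
      have := Dr_mono (val_add h0 he1 hs) he (b := sol _ L m) (b' := sol _ L m)
        ((f1_sol (val_add h0 he1 hs) hm).trans (f1_sol (e1 ▸ val_add h1 he1 hs) hm).symm)
      rw [e1]
      linarith
  have e : ∀ (θ : ℝ × ℝ) (g : ℝ × ℝ × ℝ → ℝ), (∀ p : ℝ × ℝ × ℝ, min p.1 p.2.1 +
      (θ.1 * (p.1 - min p.1 p.2.1) + θ.2 * (p.2.1 - min p.1 p.2.1)) = g p) →
      (L.map fun q => (q.ζ θ, q.v)) = M.map fun q => (g q, q.2.2) := fun θ g hg => by
    rw [List.map_map]
    exact List.map_congr_left fun p _ => Prod.ext (hg p) rfl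
  simp only [Pi.sub_apply] at key
  rw [e _ (fun p => min p.1 p.2.1) (by simp), e _ (fun p => p.2.1) (by simp),
    e _ (fun p => p.1) (by simp), e _ (fun p => max p.1 p.2.1) (fun p => by
      rcases le_total p.1 p.2.1 with h | h <;> simp [h])] at key
  linarith

theorem Wl_prefix (P : List (ℝ × ℝ)) (hP : ∀ q ∈ P, 0 < q.1 ∧ 0 ≤ q.2) (M : List (ℝ × ℝ × ℝ))
    (hM : ∀ q ∈ M, 0 < q.1 ∧ q.1 ≤ q.2.1 ∧ 0 ≤ q.2.2) {m : ℝ} (hm : |m| < 1) :
    Wl (P ++ M.map fun q => (q.2.1, q.2.2)) m - Wl (P ++ M.map fun q => (q.1, q.2.2)) m ≤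
      Wl (M.map fun q => (q.2.1, q.2.2)) m - Wl (M.map fun q => (q.1, q.2.2)) m := by
  let P' : List Q4 := P.map fun q => ⟨q.1, 0, 0, q.2⟩
  let L : List Q4 := M.map fun q => ⟨q.1, 0, q.2.1 - q.1, q.2.2⟩
  have hP' : Val 0 P' := by
    intro q hq
    obtain ⟨p, hp, rfl⟩ := List.mem_map.1 hq
    simpa [Q4.ζ, Q4.dir] using hP p hp
  have hL : Val 0 L := by
    intro q hq
    obtain ⟨p, hp, rfl⟩ := List.mem_map.1 hq
    exact ⟨by simpa [Q4.ζ, Q4.dir] using (hM p hp).1, (hM p hp).2.2⟩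
  have hP0 : ∀ q ∈ P', q.dir (0, 1) = 0 := by
    intro q hq
    obtain ⟨p, hp, rfl⟩ := List.mem_map.1 hq
    simp [Q4.dir]
  have he : ∀ q ∈ L, 0 ≤ q.dir (0, 1) := by
    intro q hq
    obtain ⟨p, hp, rfl⟩ := List.mem_map.1 hq
    simpa [Q4.dir] using (hM p hp).2.1
  have hPL : Val 0 (P' ++ L) := fun q hq => (List.mem_append.1 hq).elim (hP' q) (hL q)
  have hePL : ∀ q ∈ P' ++ L, 0 ≤ q.dir (0, 1) := fun q hq =>
    (List.mem_append.1 hq).elim (fun h => (hP0 q h).ge) (he q)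
  have key := le_of_deriv_nonneg (fun s hs =>
    (hasDerivAt_Wl' hL he hm hs).sub (hasDerivAt_Wl' hPL hePL hm hs)) fun s hs => by
      have := Dr_prefix (val_add hP' (fun q h => (hP0 q h).ge) hs) (val_add hL he hs) hP0 he
        ((f1_sol (val_add hPL hePL hs) hm).trans (f1_sol (val_add hL he hs) hm).symm)
      linarith
  have e1 : ∀ θ : ℝ × ℝ, (P'.map fun q => (q.ζ θ, q.v)) = P := fun θ => by
    rw [List.map_map]
    exact (List.map_congr_left fun p _ => by simp [Q4.ζ, Q4.dir]).trans (List.map_id P)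
  have e : ∀ (θ : ℝ × ℝ) (g : ℝ × ℝ × ℝ → ℝ), (∀ p : ℝ × ℝ × ℝ,
      p.1 + (θ.1 * 0 + θ.2 * (p.2.1 - p.1)) = g p) →
      (L.map fun q => (q.ζ θ, q.v)) = M.map fun q => (g q, q.2.2) := fun θ g hg => by
    rw [List.map_map]
    exact List.map_congr_left fun p _ => Prod.ext (hg p) rfl
  simp only [Pi.sub_apply, List.map_append, e1] at key
  rw [e _ (fun p => p.1) (by simp), e _ (fun p => p.2.1) (by simp)] at key
  linarith

end Crest.Agent.R164
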