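import Crest.Agent.R164.OneNest
import Crest.Agent.R164.OneLat

/-! # Row 164: tangent inequality for a fixed family of exponents; bridge to lists -/

set_option autoImplicit false

namespace Crest.Agent.R164

open MeasureTheory ProbabilityTheory Real Finset Crest.ProbabilityR.InvariantGlass

variable {r : ℕ} (ex : Expo (r + 1))

namespace T1

/-- Cumulated variance before level `l`. -/
noncomputable def hh (x : ℕ → ℝ) (l : ℕ) : ℝ := ∑ e ∈ range l, x e ^ 2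

/-- The part of `lst` that starts at level `l`. -/
noncomputable def suf (x : ℕ → ℝ) (m l : ℕ) : List (ℝ × ℝ) :=
  List.ofFn fun i : Fin m => (ex.ζ (l + i), hh x (l + i + 1))

lemma suf_zero (x : ℕ → ℝ) (l : ℕ) : suf ex x 0 l = [] := rfl

lemma suf_succ (x : ℕ → ℝ) (m l : ℕ) :
    suf ex x (m + 1) l = (ex.ζ l, hh x (l + 1)) :: suf ex x m (l + 1) := by
  simp only [suf, List.ofFn_succ, Fin.val_zero, add_zero, Fin.val_succ, add_assoc, add_comm 1]

lemma lst_eq (x : ℕ → ℝ) : lst ex x = suf ex x r 0 := by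
  simp only [lst, suf, zero_add, hh]

lemma hh_zero (x : ℕ → ℝ) : hh x 0 = 0 := rfl

lemma hh_succ (x : ℕ → ℝ) (l : ℕ) : hh x (l + 1) = hh x l + x l ^ 2 := sum_range_succ _ _

lemma hh_mono (x : ℕ → ℝ) : Monotone (hh x) :=
  monotone_nat_of_le_succ fun l => by rw [hh_succ]; exact le_add_of_nonneg_right (sq_nonneg _)

lemma max_hh (x : ℕ → ℝ) (l : ℕ) : max (hh x (l + 1)) (hh x l) = hh x (l + 1) :=
  max_eq_left (hh_mono x l.le_succ)

lemma Ft_suf {x : ℕ → ℝ} (hx : ∀ l, 0 ≤ x l) (m l : ℕ) :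
    Ft (hh x l) (suf ex x m l) = fun z => ph ex x 0 m l z + -(hh x (l + m) / 2) := by
  induction m generalizing l with
  | zero => rfl
  | succ m ih =>
    rw [suf_succ, Ft, max_hh, ih, gaussOp_add_const (ex.pos l).le (ph_lip ex x 0 m (l + 1)),
      ph_zero ex (hx l), hh_succ, add_sub_cancel_left, add_assoc, add_comm 1]

lemma Ag_add_const (ζ v c : ℝ) (f F : ℝ → ℝ) : Ag ζ v (fun z => f z + c) F = Ag ζ v f F := by
  funext z
  simp only [Ag, mul_add, exp_add, ← mul_assoc, integral_mul_const]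
  exact mul_div_mul_right _ _ (exp_pos _).ne'

lemma measurable_Ag (ζ v : ℝ) {f F : ℝ → ℝ} (hf : Measurable f) (hF : Measurable F) :
    Measurable (Ag ζ v f F) := by
  refine Measurable.div (StronglyMeasurable.measurable ?_) (StronglyMeasurable.measurable ?_)
  · exact StronglyMeasurable.integral_prod_right'
      (f := fun p : ℝ × ℝ => F (p.1 + √v * p.2) * exp (ζ * f (p.1 + √v * p.2)))
      (Measurable.stronglyMeasurable (by fun_prop))
  · exact StronglyMeasurable.integral_prod_right'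
      (f := fun p : ℝ × ℝ => exp (ζ * f (p.1 + √v * p.2)))
      (Measurable.stronglyMeasurable (by fun_prop))

lemma integral_oLev (l : ℕ) {F : ℝ → ℝ} (hF : Measurable F) :
    ∫ z, F (z.2 ()) ∂(oLev ex).μ l = ∫ g, F g ∂gaussianReal 0 1 := by
  have h : MeasurePreserving (fun z : Oo => z.2 ()) ((oLev ex).μ l) (gaussianReal 0 1) :=
    (gam_eval ()).comp measurePreserving_snd
  rw [← h.map_eq, integral_map h.measurable.aemeasurable hF.aestronglyMeasurable]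

lemma oF_zero (b : ℝ) (x : ℕ → ℝ) (ω : Cfg (r + 1) Oo) : oF b x 0 0 ω = b := by simp [oF]

lemma oF_upd (b : ℝ) (x : ℕ → ℝ) {l : ℕ} (hl : l < r) (ω : Cfg (r + 1) Oo) (z : Oo) :
    oF b x 0 (l + 1) (upd ω l z) = oF b x 0 l ω + x l * z.2 () := by
  have h1 : gl l () (upd ω l z) = z.2 () := by
    simp [gl, atl, upd, Nat.lt_succ_of_lt hl]
  simp only [oF, sum_range_succ, Pi.zero_apply, zero_mul, add_zero, h1, add_assoc]
  congr 2
  exact sum_congr rfl fun e he => by rw [(dep_gl e ()).upd (mem_range.1 he)]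

/-- One step of the tilted expectation of a function of the accumulated field. -/
lemma E_step (b : ℝ) {x : ℕ → ℝ} (hx : ∀ l, 0 ≤ x l) {l m : ℕ} (hl : l + (m + 1) = r) {G : ℝ → ℝ}
    (hG : Measurable G) {f : Cfg (r + 1) Oo → ℝ}
    (hf : ∀ ω, (oLev ex).E (l + 1) (One b x 0) f ω = G (oF b x 0 (l + 1) ω)) (ω : Cfg (r + 1) Oo) :
    (oLev ex).E l (One b x 0) f ω =
      Ag (ex.ζ l) (x l ^ 2) (ph ex x 0 m (l + 1)) G (oF b x 0 l ω) := by
  have hc := (ph_lip ex x 0 m (l + 1)).continuous.measurable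
  have h1 : r - (l + 1) = m := by omega
  have h2 : r - l = m + 1 := by omega
  have h3 : (oLev ex).ζ l = ex.ζ l := rfl
  have h4 : 0 < ∫ g, exp (ex.ζ l * ph ex x 0 m (l + 1) (oF b x 0 l ω + x l * g))
      ∂gaussianReal 0 1 := integral_exp_pos (integrable_exp_lip (ph_lip ex x 0 m (l + 1)) _ _ _)
  rw [Lev.E_of_lt' (by omega)]
  simp only [hf, X_One ex b x 0 (show l + 1 ≤ r by omega), X_One ex b x 0 (show l ≤ r by omega),
    oF_upd b x (show l < r by omega), h1, h2, h3]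
  rw [integral_oLev ex l (F := fun g => exp (ex.ζ l * ph ex x 0 m (l + 1) (oF b x 0 l ω + x l * g)) *
      G (oF b x 0 l ω + x l * g)) (by fun_prop),
    ph_zero ex (hx l), gaussOp_of_ne (ex.pos l).ne', Ag, sqrt_sq (hx l), neg_mul,
    mul_inv_cancel_left₀ (ex.pos l).ne', exp_neg, exp_log h4, inv_mul_eq_div]
  simp only [mul_comm (G _)]

lemma abs_oS_le (ω : Cfg (r + 1) Oo) : |oS ω| ≤ 1 := (sq_le_one_iff_abs_le_one _).1 (oS_sq ω).le

/-- The conditional magnetisation is the derivative of the recursion. -/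
lemma E_oS (b : ℝ) (x : ℕ → ℝ) {l : ℕ} (hl : l ≤ r) (ω : Cfg (r + 1) Oo) :
    (oLev ex).E l (One b x 0) oS ω = deriv (ph ex x 0 (r - l) l) (oF b x 0 l ω) := by
  have h1 : ∀ θ, (fun ω => One b x 0 ω + θ * oS ω) = (One (b + θ) x 0 : Cfg (r + 1) Oo → ℝ) := by
    intro θ
    funext ω
    simp only [One, oF]
    ring
  have h2 := Lev.lfam_affine (s := Set.Ioo (-1) 1) (lin_One ex b x 0)
    (Lev.lin_of_bdd measurable_oS 1 abs_oS_le) (R := 1) fun θ hθ => (abs_lt.2 hθ).le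
  have h3 := (h2.X isOpen_Ioo l).deriv ω 0 (by simp)
  simp only [h1, add_zero, X_One ex _ x 0 hl] at h3
  have h4 : ∀ θ, oF (b + θ) x 0 l ω = oF b x 0 l ω + θ := fun θ => by
    simp only [oF]
    ring
  simp only [h4] at h3
  have h5 := h3.deriv
  rw [deriv_comp_const_add, add_zero] at h5
  exact h5.symm

lemma measurable_ql {x : ℕ → ℝ} (hx : ∀ l, 0 ≤ x l) (s : ℝ) (m l : ℕ) :
    Measurable (ql (hh x l) (suf ex x m l) s) := by
  induction m generalizing l with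
  | zero =>
    exact (continuous_iff_continuousAt.2 fun z =>
      (good_logcosh.d2 z).continuousAt).measurable.pow_const 2
  | succ m ih =>
    rw [suf_succ, ql, max_hh]
    split_ifs
    · refine measurable_Ag _ _ ?_ (ih _)
      rw [Ft_suf ex hx]
      exact (ph_lip ex x 0 m (l + 1)).continuous.measurable.add_const _
    · exact (measurable_deriv _).pow_const 2

lemma ql_suf (b : ℝ) {x : ℕ → ℝ} (hx : ∀ l, 0 ≤ x l) {s : ℝ} {e : ℕ} (her : e ≤ r)
    (h1 : ∀ j < e, ex.ζ j < s) (h2 : e = r ∨ s ≤ ex.ζ e) (m l : ℕ) (hl : l + m = r) (hle : l ≤ e)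
    (ω : Cfg (r + 1) Oo) : ql (hh x l) (suf ex x m l) s (oF b x 0 l ω) =
      (oLev ex).E l (One b x 0) (fun ω => (oLev ex).E e (One b x 0) oS ω ^ 2) ω := by
  have h0 : ∀ ω, (oLev ex).E e (One b x 0) (fun ω => (oLev ex).E e (One b x 0) oS ω ^ 2) ω =
      deriv (ph ex x 0 (r - e) e) (oF b x 0 e ω) ^ 2 := fun ω => by
    rw [Lev.E_dep (lin_One ex b x 0) fun ω ω' h => by rw [Lev.dep_E e _ _ ω ω' h], E_oS ex b x her]
  induction m generalizing l ω with
  | zero =>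
    obtain rfl : e = l := by omega
    rw [h0, show r - e = 0 by omega]
    exact congrArg (· ^ 2) (good_logcosh.d1 _).deriv.symm
  | succ m ih =>
    rcases hle.eq_or_lt with rfl | hlt
    · have h3 : ¬ex.ζ l < s := not_lt.2 (h2.resolve_left (by omega))
      rw [h0, suf_succ, ql]
      simp only [h3, if_false]
      rw [← suf_succ, Ft_suf ex hx, deriv_add_const, show r - l = m + 1 by omega]
    · rw [E_step ex b hx hl (measurable_ql ex hx s m (l + 1))
        fun ω => (ih (l + 1) (by omega) hlt ω).symm, suf_succ, ql]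
      simp only [h1 l hlt, if_true]
      rw [max_hh, Ft_suf ex hx, Ag_add_const, hh_succ, add_sub_cancel_left]

/-- The values of the quantile. -/
noncomputable def Qe (b : ℝ) (x : ℕ → ℝ) (e : ℕ) : ℝ :=
  (oLev ex).E0 (One b x 0) fun ω => (oLev ex).E e (One b x 0) oS ω ^ 2

lemma Qe_zero (b : ℝ) (x : ℕ → ℝ) : Qe ex b x 0 = oM ex b x ^ 2 := by
  simp only [Qe, Lev.E_zero]
  exact Lev.E_const (lin_One ex b x 0) 0 _ _

lemma Qe_mono (b : ℝ) (x : ℕ → ℝ) : Monotone (Qe ex b x) := monotone_nat_of_le_succ fun e => by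
  cases e with
  | zero => exact (Qe_zero ex b x).trans_le (oM_sq_le ex b x 0)
  | succ e => exact oQ_mono ex b x e.le_succ

lemma ql_eq (b : ℝ) {x : ℕ → ℝ} (hx : ∀ l, 0 ≤ x l) {s : ℝ} {e : ℕ} (her : e ≤ r)
    (h1 : ∀ j < e, ex.ζ j < s) (h2 : e = r ∨ s ≤ ex.ζ e) :
    ql 0 (lst ex x) s b = Qe ex b x e := by
  have := ql_suf ex b hx her h1 h2 r 0 (zero_add r) e.zero_le (oLev ex).pt
  rwa [oF_zero, hh_zero, ← lst_eq] at this

lemma exists_idx (s : ℝ) : ∃ e ≤ r, (∀ j < e, ex.ζ j < s) ∧ (e = r ∨ s ≤ ex.ζ e) := by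
  classical
  have h : ∃ e, e = r ∨ s ≤ ex.ζ e := ⟨r, .inl rfl⟩
  exact ⟨Nat.find h, Nat.find_min' h (.inl rfl), fun j hj =>
    not_le.1 fun h' => Nat.find_min h hj (.inr h'), Nat.find_spec h⟩

lemma good_ph {x : ℕ → ℝ} (hx : ∀ l, 0 ≤ x l) (m l : ℕ) :
    ∃ f1 f2, Good (ph ex x 0 m l) f1 f2 := by
  induction m generalizing l with
  | zero => exact ⟨_, _, good_logcosh⟩
  | succ m ih =>
    obtain ⟨f1, f2, h⟩ := ih (l + 1)
    rw [ph_zero ex (hx l)]
    exact ⟨_, _, good_step h (ex.pos l) (sq_nonneg _)⟩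

lemma st_suf (x : ℕ → ℝ) (s : ℝ) (m l : ℕ) : st (hh x l) (suf ex x m l) s =
    hh x l + ∑ j ∈ range m, if ex.ζ (l + j) < s then x (l + j) ^ 2 else 0 := by
  induction m generalizing l with
  | zero => simp [suf_zero, st]
  | succ m ih =>
    rw [suf_succ, st, max_hh, ih]
    split_ifs with h
    · simp only [sum_range_succ', add_zero, h, if_true, hh_succ, add_assoc, add_comm 1]
      ring
    · rw [sum_eq_zero fun j _ => if_neg fun h' => h ((ex.mono (l.le_add_right j)).trans_lt h'),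
        add_zero]

end T1

open T1

theorem Ft_lst {x : ℕ → ℝ} (hx : ∀ l, 0 ≤ x l) (b : ℝ) :
    Ft 0 (lst ex x) b = oX ex b x 0 - (∑ l ∈ range r, x l ^ 2) / 2 := by
  have := congrFun (Ft_suf ex hx r 0) b
  rw [hh_zero, ← lst_eq, zero_add] at this
  rw [this, oX_eq, sub_eq_add_neg, hh]

lemma abs_oM_lt_one (b : ℝ) {x : ℕ → ℝ} (hx : ∀ l, 0 ≤ x l) : |oM ex b x| < 1 := by
  obtain ⟨f1, f2, h⟩ := good_ph ex hx r 0
  have h1 := hasDerivAt_oX ex b x
  simp only [oX_eq] at h1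
  rw [h1.unique (h.d1 b)]
  exact h.abs_lt_one b

theorem ql_lst_low {x : ℕ → ℝ} (hx : ∀ l, 0 ≤ x l) (b : ℝ) {s : ℝ} (hs : s ≤ ex.ζ 0) :
    ql 0 (lst ex x) s b = oM ex b x ^ 2 :=
  (ql_eq ex b hx r.zero_le (fun _ h => absurd h (Nat.not_lt_zero _)) (.inr hs)).trans
    (Qe_zero ex b x)

theorem ql_lst {x : ℕ → ℝ} (hx : ∀ l, 0 ≤ x l) (b : ℝ) {e : ℕ} (he : e < r) {s : ℝ} (hs : ex.ζ e < s)
    (hs' : s ≤ ex.ζ (e + 1) ∨ e + 1 = r) : ql 0 (lst ex x) s b = oQ ex b x e :=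
  ql_eq ex b hx he (fun _ h => (ex.mono (Nat.le_of_lt_succ h)).trans_lt hs) hs'.symm

lemma ql_lst_mono {x : ℕ → ℝ} (hx : ∀ l, 0 ≤ x l) (b : ℝ) :
    Monotone (fun s => ql 0 (lst ex x) s b) ∧ ∀ s, 0 ≤ ql 0 (lst ex x) s b ∧ ql 0 (lst ex x) s b ≤ 1 := by
  refine ⟨fun s s' hs => ?_, fun s => ?_⟩
  · obtain ⟨e, h0, h1, h2⟩ := exists_idx ex s
    obtain ⟨e', h0', h1', h2'⟩ := exists_idx ex s'
    simp only [ql_eq ex b hx h0 h1 h2, ql_eq ex b hx h0' h1' h2']
    refine Qe_mono ex b x (not_lt.1 fun h => ?_)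
    rcases h2' with h3 | h3
    · omega
    · linarith [h1 e' h]
  · obtain ⟨e, h0, h1, h2⟩ := exists_idx ex s
    rw [ql_eq ex b hx h0 h1 h2]
    exact ⟨((sq_nonneg _).trans_eq (Qe_zero ex b x).symm).trans (Qe_mono ex b x e.zero_le),
      (Qe_mono ex b x e.le_succ).trans (oQ_mem ex b x e).2⟩

lemma integral_ql_lst {x : ℕ → ℝ} (hx : ∀ l, 0 ≤ x l) (b : ℝ) {l : ℕ} (hl : l ≤ r) :
    ∫ s in Set.Ioo (ex.ζ l) 1, ql 0 (lst ex x) s b = oT ex b x l := by
  rw [← integral_Ioc_eq_integral_Ioo, ← intervalIntegral.integral_of_le (ex.le_one l)]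
  induction hl using Nat.decreasingInduction with
  | self => simp [ex.top r le_rfl, oT]
  | of_succ l hl ih =>
    have hi := fun a c => (ql_lst_mono ex hx b).1.intervalIntegrable (μ := volume) (a := a) (b := c)
    have h1 := ex.mono l.le_succ
    rw [← intervalIntegral.integral_add_adjacent_intervals (hi _ (ex.ζ (l + 1))) (hi _ _), ih, oT,
      oT, sum_eq_sum_Ico_succ_bot hl, intervalIntegral.integral_of_le h1,
      setIntegral_congr_fun measurableSet_Ioc fun s hs => ql_lst ex hx b hl hs.1 (.inl hs.2)]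
    simp [Expo.Δ, h1]

lemma integral_ql_st {x : ℕ → ℝ} (hx : ∀ l, 0 ≤ x l) (x' : ℕ → ℝ) (b : ℝ) :
    ∫ s in Set.Ioo (0 : ℝ) 1, ql 0 (lst ex x) s b * st 0 (lst ex x') s =
      ∑ l ∈ range r, x' l ^ 2 * oT ex b x l := by
  have h1 : ∀ s, ql 0 (lst ex x) s b * st 0 (lst ex x') s = ∑ l ∈ range r,
      x' l ^ 2 * (Set.Ioi (ex.ζ l)).indicator (fun s => ql 0 (lst ex x) s b) s := by
    intro s
    have := st_suf ex x' s r 0
    rw [hh_zero, ← lst_eq] at this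
    rw [this, zero_add, mul_sum]
    refine sum_congr rfl fun l _ => ?_
    simp only [zero_add, Set.indicator, Set.mem_Ioi]
    split_ifs <;> ring
  have hi : IntegrableOn (fun s => ql 0 (lst ex x) s b) (Set.Ioo 0 1) :=
    (intervalIntegrable_iff_integrableOn_Ioo_of_le zero_le_one).1
      (ql_lst_mono ex hx b).1.intervalIntegrable
  simp only [h1]
  rw [integral_finsetSum _ fun l _ => (Integrable.indicator hi measurableSet_Ioi).const_mul _]
  refine sum_congr rfl fun l hl => ?_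
  rw [integral_const_mul, setIntegral_indicator measurableSet_Ioi, Set.Ioo_inter_Ioi,
    max_eq_right (ex.pos l).le, integral_ql_lst ex hx b (mem_range.1 hl).le]

namespace T1

lemma One_eq (b : ℝ) (y : ℕ → ℝ) : (One b y 0 : Cfg (r + 1) Oo → ℝ) =
    fun ω => One b 0 0 ω + ∑ l ∈ range r, y l * (gl l () ω * oS ω) := by
  funext ω
  simp only [One, oF, Pi.zero_apply, zero_mul, add_zero, sum_const_zero, add_mul, sum_mul,
    mul_assoc]

lemma lin_gl_oS (l : ℕ) : (oLev ex).Lin fun ω => gl l () ω * oS ω :=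
  Lev.Lin.mul_bdd (lin_gl l ()) measurable_oS 1 abs_oS_le

lemma E0_comb (b : ℝ) (y c : ℕ → ℝ) :
    (oLev ex).E0 (One b y 0) (fun ω => ∑ l ∈ range r, c l * (gl l () ω * oS ω)) =
      ∑ l ∈ range r, c l * (y l * (1 - oT ex b y l)) := by
  rw [Lev.E0, Lev.E_sum (lin_One ex b y 0) _ fun l _ => ((lin_gl_oS ex l).const_mul _).nice]
  refine sum_congr rfl fun l hl => ?_
  rw [Lev.E_const_mul, ← E0_gl_One ex b y (mem_range.1 hl), Lev.E0]

lemma oT_mem (b : ℝ) (y : ℕ → ℝ) {l : ℕ} (hl : l ≤ r) : 0 ≤ oT ex b y l ∧ oT ex b y l ≤ 1 := by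
  refine ⟨sum_nonneg fun e _ => mul_nonneg (ex.Δ_nonneg e) (oQ_mem ex b y e).1, ?_⟩
  calc oT ex b y l ≤ ∑ e ∈ Ico l r, ex.Δ e :=
        sum_le_sum fun e _ => mul_le_of_le_one_right (ex.Δ_nonneg e) (oQ_mem ex b y e).2
    _ ≤ 1 := by rw [Lev.sum_Δ ex hl]; linarith [ex.le_one r, ex.pos l]

lemma oX_sub_le (b : ℝ) {y y' : ℕ → ℝ} {R : ℝ} (hy : ∀ l < r, |y l| ≤ R) :
    oX ex b y 0 - oX ex b y' 0 ≤ R * ∑ l ∈ range r, |y l - y' l| := by
  have h1 := Lev.X0_sub_le (lin_One ex b y' 0) (lin_One ex b y 0)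
  have h2 : (fun ω : Cfg (r + 1) Oo => One b y 0 ω - One b y' 0 ω) =
      fun ω => ∑ l ∈ range r, (y l - y' l) * (gl l () ω * oS ω) := by
    funext ω
    rw [One_eq b y, One_eq b y']
    simp only [sub_mul, sum_sub_distrib]
    ring
  rw [h2, E0_comb] at h1
  refine h1.trans ?_
  rw [mul_sum]
  refine sum_le_sum fun l hl => (le_abs_self _).trans ?_
  have h3 := oT_mem ex b y (mem_range.1 hl).le
  rw [abs_mul, abs_mul, mul_comm, abs_of_nonneg (sub_nonneg.2 h3.2)]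
  exact mul_le_mul_of_nonneg_right ((mul_le_of_le_one_right (abs_nonneg _) (by linarith)).trans
    (hy l (mem_range.1 hl))) (abs_nonneg _)

lemma contOn_of_lip {F : (ℕ → ℝ) → ℝ} {a : ℝ → ℕ → ℝ} {C : ℝ} {S : Set ℝ}
    (ha : ∀ l, Continuous fun t => a t l)
    (hF : ∀ t ∈ S, ∀ u ∈ S, |F (a t) - F (a u)| ≤ C * ∑ l ∈ range r, |a t l - a u l|) :
    ContinuousOn (fun t => F (a t)) S := by
  intro u hu
  have h1 : Continuous fun t => C * ∑ l ∈ range r, |a t l - a u l| := by fun_prop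
  have h2 := (h1.tendsto u).mono_left (nhdsWithin_le_nhds (s := S))
  simp only [sub_self, abs_zero, sum_const_zero, mul_zero] at h2
  exact tendsto_iff_dist_tendsto_zero.2 (squeeze_zero' (Filter.Eventually.of_forall fun _ =>
    dist_nonneg) (eventually_nhdsWithin_of_forall fun t ht => hF t ht u hu) h2)

/-- The interpolating amplitudes. -/
noncomputable def amp (x x' : ℕ → ℝ) (t : ℝ) (l : ℕ) : ℝ := √((1 - t) * x l ^ 2 + t * x' l ^ 2)

lemma amp_sq (x x' : ℕ → ℝ) {t : ℝ} (ht : t ∈ Set.Icc (0 : ℝ) 1) (l : ℕ) :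
    amp x x' t l ^ 2 = (1 - t) * x l ^ 2 + t * x' l ^ 2 :=
  sq_sqrt (add_nonneg (mul_nonneg (sub_nonneg.2 ht.2) (sq_nonneg _)) (mul_nonneg ht.1 (sq_nonneg _)))

lemma amp_le (x x' : ℕ → ℝ) : ∃ R, ∀ t ∈ Set.Icc (0 : ℝ) 1, ∀ l < r, |amp x x' t l| ≤ R := by
  refine ⟨∑ l ∈ range r, (|x l| + |x' l|), fun t ht l hl => le_trans ?_
    (single_le_sum (f := fun l => |x l| + |x' l|) (fun _ _ => by positivity) (mem_range.2 hl))⟩
  refine abs_le_of_sq_le_sq ?_ (by positivity)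
  rw [amp_sq x x' ht, add_sq, sq_abs, sq_abs]
  nlinarith [mul_nonneg ht.1 (sq_nonneg (x l)), mul_nonneg (sub_nonneg.2 ht.2) (sq_nonneg (x' l)),
    mul_nonneg (abs_nonneg (x l)) (abs_nonneg (x' l))]

lemma amp_pos (x x' : ℕ → ℝ) {t : ℝ} (ht : t ∈ Set.Ioo (0 : ℝ) 1) {l : ℕ}
    (h : x' l ^ 2 - x l ^ 2 ≠ 0) : 0 < (1 - t) * x l ^ 2 + t * x' l ^ 2 := by
  have h1 := mul_nonneg (sub_pos.2 ht.2).le (sq_nonneg (x l))
  have h2 := mul_nonneg ht.1.le (sq_nonneg (x' l))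
  refine (add_nonneg h1 h2).lt_of_ne' fun h3 => h ?_
  have h4 : x l ^ 2 = 0 :=
    (mul_eq_zero.1 (show (1 - t) * x l ^ 2 = 0 by linarith)).resolve_left (sub_pos.2 ht.2).ne'
  have h5 : x' l ^ 2 = 0 :=
    (mul_eq_zero.1 (show t * x' l ^ 2 = 0 by linarith)).resolve_left ht.1.ne'
  rw [h4, h5, sub_zero]

lemma hasDerivAt_amp (x x' : ℕ → ℝ) {t : ℝ} (ht : t ∈ Set.Ioo (0 : ℝ) 1) (l : ℕ) :
    HasDerivAt (fun u => amp x x' u l) ((x' l ^ 2 - x l ^ 2) / (2 * amp x x' t l)) t := by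
  by_cases h : x' l ^ 2 - x l ^ 2 = 0
  · have h1 : (fun u => amp x x' u l) = fun _ => √(x l ^ 2) := by
      funext u
      rw [amp, sub_eq_zero.1 h]
      congr 1
      ring
    rw [h1, h, zero_div]
    exact hasDerivAt_const _ _
  · have h1 : HasDerivAt (fun u : ℝ => (1 - u) * x l ^ 2 + u * x' l ^ 2) (x' l ^ 2 - x l ^ 2) t := by
      exact ((((hasDerivAt_id t).const_sub 1).mul_const (x l ^ 2)).add
        ((hasDerivAt_id t).mul_const (x' l ^ 2))).congr_deriv (by ring)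
    exact h1.sqrt (amp_pos x x' ht h).ne'

lemma hasDerivAt_oX_amp (b : ℝ) (x x' : ℕ → ℝ) {t : ℝ} (ht : t ∈ Set.Ioo (0 : ℝ) 1) :
    HasDerivAt (fun u => oX ex b (amp x x' u) 0)
      (∑ l ∈ range r, (x' l ^ 2 - x l ^ 2) / 2 * (1 - oT ex b (amp x x' t) l)) t := by
  have hsub : Set.Icc (t / 2) ((1 + t) / 2) ⊆ Set.Ioo (0 : ℝ) 1 := fun u hu =>
    ⟨by linarith [hu.1, ht.1], by linarith [hu.2, ht.2]⟩
  have hb : ∀ l, ∃ R, ∀ u ∈ Set.Icc (t / 2) ((1 + t) / 2),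
      |(x' l ^ 2 - x l ^ 2) / (2 * amp x x' u l)| ≤ R := by
    intro l
    by_cases h : x' l ^ 2 - x l ^ 2 = 0
    · exact ⟨0, fun u _ => by simp [h]⟩
    · refine isCompact_Icc.exists_bound_of_continuousOn
        (f := fun u => (x' l ^ 2 - x l ^ 2) / (2 * amp x x' u l)) ?_
      refine continuousOn_const.div (Continuous.continuousOn (by unfold amp; fun_prop))
        fun u hu => mul_ne_zero two_ne_zero (sqrt_pos.2 (amp_pos x x' (hsub hu) h)).ne'
  choose R hR using hb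
  obtain ⟨R₀, hR₀⟩ := amp_le (r := r) x x'
  have h1 := Lev.lfam_comb (s := Set.Ioo (t / 2) ((1 + t) / 2)) (range r) (lin_One ex b 0 0)
    (fun l _ => lin_gl_oS ex l) (a := fun l u => amp x x' u l)
    (a' := fun l u => (x' l ^ 2 - x l ^ 2) / (2 * amp x x' u l))
    (fun l _ u hu => hasDerivAt_amp x x' (hsub (Set.Ioo_subset_Icc_self hu)) l)
    (R := max R₀ (∑ l ∈ range r, |R l|)) fun l hl u hu =>
      ⟨(hR₀ u (Set.Ioo_subset_Icc_self (hsub (Set.Ioo_subset_Icc_self hu))) l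
        (mem_range.1 hl)).trans (le_max_left _ _),
      ((hR l u (Set.Ioo_subset_Icc_self hu)).trans ((le_abs_self _).trans
        (single_le_sum (f := fun l => |R l|) (fun _ _ => abs_nonneg _) hl))).trans (le_max_right _ _)⟩
  have h2 := h1.hasDerivAt_X0 isOpen_Ioo (θ := t) ⟨by linarith [ht.1], by linarith [ht.2]⟩
  simp only [← One_eq] at h2
  rw [E0_comb] at h2
  refine h2.congr_deriv (sum_congr rfl fun l _ => ?_)
  by_cases h : x' l ^ 2 - x l ^ 2 = 0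
  · simp [h]
  · have h3 : amp x x' t l ≠ 0 := (sqrt_pos.2 (amp_pos x x' ht h)).ne'
    field_simp

lemma exists_dyadic (b : ℝ) {x : ℕ → ℝ} (hx : ∀ l, 0 ≤ x l) (x' : ℕ → ℝ) {ε : ℝ} (hε : 0 < ε) :
    ∃ j : ℕ, oX ex b (amp x x' (1 / 2 ^ j)) 0 - oX ex b x 0 ≤
      1 / 2 ^ j * (∑ l ∈ range r, (x' l ^ 2 - x l ^ 2) / 2 * (1 - oT ex b x l) + ε) := by
  obtain ⟨R, hR⟩ := amp_le (r := r) x x'
  have ha : ∀ l, Continuous fun t => amp x x' t l := fun l => by unfold amp; fun_prop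
  have h0 : amp x x' 0 = x := funext fun l => by simp [amp, sqrt_sq (hx l)]
  have hg : ContinuousOn (fun t => oX ex b (amp x x' t) 0) (Set.Icc 0 1) :=
    contOn_of_lip (r := r) (F := fun y => oX ex b y 0) (C := R) ha fun t ht u hu => abs_sub_le_iff.2
      ⟨oX_sub_le ex b (hR t ht), by simpa only [abs_sub_comm] using oX_sub_le ex b (hR u hu)⟩
  have hq : ∀ e, ContinuousOn (fun t => oQ ex b (amp x x' t) e) (Set.Icc 0 1) := fun e =>
    contOn_of_lip (r := r) (F := fun y => oQ ex b y e) ha fun t ht u hu =>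
      oQ_lip_x ex b (fun l hl => ⟨hR t ht l hl, hR u hu l hl⟩) e
  have hk : ContinuousOn (fun t => ∑ l ∈ range r,
      (x' l ^ 2 - x l ^ 2) / 2 * (1 - oT ex b (amp x x' t) l)) (Set.Icc 0 1) :=
    continuousOn_finsetSum _ fun l _ => continuousOn_const.mul (continuousOn_const.sub
      (continuousOn_finsetSum _ fun e _ => continuousOn_const.mul (hq e)))
  obtain ⟨δ, hδ, h1⟩ := Metric.continuousWithinAt_iff.1 (hk 0 (by simp)) ε hε
  obtain ⟨j, hj⟩ := exists_pow_lt_of_lt_one hδ (show (1 / 2 : ℝ) < 1 by norm_num)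
  rw [one_div_pow] at hj
  have ht0 : (0 : ℝ) < 1 / 2 ^ j := by positivity
  have ht1 : (1 : ℝ) / 2 ^ j ≤ 1 := by
    rw [div_le_one (by positivity)]
    exact one_le_pow₀ one_le_two
  obtain ⟨c, hc, h2⟩ := exists_hasDerivAt_eq_slope (fun t => oX ex b (amp x x' t) 0) _ ht0
    (hg.mono (Set.Icc_subset_Icc_right ht1))
    fun u hu => hasDerivAt_oX_amp ex b x x' ⟨hu.1, hu.2.trans_le ht1⟩
  have h3 := h1 (x := c) ⟨hc.1.le, hc.2.le.trans ht1⟩
    (by rw [Real.dist_eq, sub_zero, abs_of_pos hc.1]; exact hc.2.trans hj)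
  rw [h2, h0, sub_zero, Real.dist_eq] at h3
  refine ⟨j, ?_⟩
  rw [← div_le_iff₀' ht0]
  linarith [(abs_lt.1 h3).2]

end T1

/-- Tangent inequality: concavity of the constrained value in the variances. -/
theorem tangent_fixed {x x' : ℕ → ℝ} (hx : ∀ l, 0 ≤ x l) (hx' : ∀ l, 0 ≤ x' l) (b : ℝ) {η : ℝ}
    (hη : 0 < η) : ∃ b', oX ex b' x' 0 - (∑ l ∈ range r, x' l ^ 2) / 2 - b' * oM ex b x +
        (∑ l ∈ range r, x' l ^ 2 * oT ex b x l) / 2 ≤
      oX ex b x 0 - (∑ l ∈ range r, x l ^ 2) / 2 - b * oM ex b x +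
        (∑ l ∈ range r, x l ^ 2 * oT ex b x l) / 2 + η := by
  have hm := abs_oM_lt_one ex b hx
  set m := oM ex b x with hm'
  have hW : ∀ y : ℕ → ℝ, (∀ l, 0 ≤ y l) →
      Wv (fun i : Fin r => ex.ζ i) 0 (fun i => hh y (i + 1)) m =
        ⨆ c : ℝ, (c * m - (oX ex c y 0 - hh y r / 2)) := fun y hy =>
    iSup_congr fun c => congrArg (c * m - ·) (Ft_lst ex hy c)
  have hB : ∀ y : ℕ → ℝ, BddAbove (Set.range fun c : ℝ => c * m - (oX ex c y 0 - hh y r / 2)) := by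
    refine fun y => ⟨log 2 + hh y r / 2, ?_⟩
    rintro _ ⟨c, rfl⟩
    have h1 := le_oX ex c y 0
    have h2 : c * m ≤ |c| := (le_abs_self _).trans (by
      rw [abs_mul]; exact mul_le_of_le_one_right (abs_nonneg _) hm.le)
    dsimp only
    linarith
  have hmono : ∀ y : ℕ → ℝ, Monotone fun i : Fin r => hh y (i + 1) := fun y i j h =>
    hh_mono y (Nat.succ_le_succ h)
  have hnn : ∀ (y : ℕ → ℝ) (i : Fin r), 0 ≤ hh y (i + 1) := fun y i =>
    sum_nonneg fun _ _ => sq_nonneg _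
  obtain ⟨j, hj⟩ := exists_dyadic ex b hx x' (half_pos hη)
  have h1 := Wv_dyadic (ζ := fun i : Fin r => ex.ζ i) (fun i j h => ex.mono h)
    (fun i => ⟨ex.pos i, ex.le_one i⟩) hm (hmono x) (hmono x') (hnn x) (hnn x') j
  have ht0 : (0 : ℝ) < 1 / 2 ^ j := by positivity
  have ht1 : (1 : ℝ) / 2 ^ j ≤ 1 := by
    rw [div_le_one (by positivity)]
    exact one_le_pow₀ one_le_two
  generalize (1 : ℝ) / 2 ^ j = t at hj h1 ht0 ht1
  have h2 : ∀ l, (1 - t) * hh x l + t * hh x' l = hh (amp x x' t) l := fun l => by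
    simp only [hh, amp_sq x x' ⟨ht0.le, ht1⟩, sum_add_distrib, mul_sum]
  simp only [h2] at h1
  rw [hW (amp x x' t) fun l => sqrt_nonneg _, hW x hx, hW x' hx'] at h1
  have h3 := (le_ciSup (hB (amp x x' t)) b).trans h1
  have h4 : ⨆ c : ℝ, (c * m - (oX ex c x 0 - hh x r / 2)) ≤ b * m - (oX ex b x 0 - hh x r / 2) :=
    ciSup_le fun c => by linarith [oX_tangent ex b c x]
  obtain ⟨b', hb'⟩ := exists_lt_of_lt_ciSup (sub_lt_self
    (⨆ c : ℝ, (c * m - (oX ex c x' 0 - hh x' r / 2))) (half_pos hη))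
  refine ⟨b', ?_⟩
  have h5 : ∑ l ∈ range r, (x' l ^ 2 - x l ^ 2) / 2 * (1 - oT ex b x l) =
      (hh x' r - hh x r) / 2 - ((∑ l ∈ range r, x' l ^ 2 * oT ex b x l) / 2 -
        (∑ l ∈ range r, x l ^ 2 * oT ex b x l) / 2) := by
    simp only [hh, ← sum_sub_distrib, sum_div]
    exact sum_congr rfl fun l _ => by ring
  rw [h5] at hj
  rw [← h2] at h3
  have h6 := mul_le_mul_of_nonneg_left h4 (sub_nonneg.2 ht1)
  change oX ex b' x' 0 - hh x' r / 2 - b' * m + _ ≤ oX ex b x 0 - hh x r / 2 - b * m + _ + η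
  refine le_of_mul_le_mul_left ?_ ht0
  linarith [mul_lt_mul_of_pos_left hb' ht0]

end Crest.Agent.R164
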