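import Crest.Agent.R164.OneT1

/-! # Row 164: the tangent trial path of a one-site system -/

set_option autoImplicit false

namespace Crest.Agent.R164

open MeasureTheory ProbabilityTheory Real Finset Crest.ProbabilityR.InvariantGlass

namespace TanAux

lemma Ft_cons (τ : ℝ) (q : ℝ × ℝ) (L : List (ℝ × ℝ)) :
    Ft τ (q :: L) = gaussOp q.1 (max q.2 τ - τ) (Ft (max q.2 τ) L) := rfl

lemma ql_cons (τ : ℝ) (q : ℝ × ℝ) (L : List (ℝ × ℝ)) (s z : ℝ) :
    ql τ (q :: L) s z =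
      if q.1 < s then Ag q.1 (max q.2 τ - τ) (Ft (max q.2 τ) L) (ql (max q.2 τ) L s) z
      else deriv (Ft τ (q :: L)) z ^ 2 := rfl

lemma st_cons (τ : ℝ) (q : ℝ × ℝ) (L : List (ℝ × ℝ)) (s : ℝ) :
    st τ (q :: L) s = if q.1 < s then st (max q.2 τ) L s else τ := rfl

lemma ql_low (τ : ℝ) (L : List (ℝ × ℝ)) (s z : ℝ) (h : ∀ q ∈ L, s ≤ q.1) :
    ql τ L s z = deriv (Ft τ L) z ^ 2 := by
  cases L with
  | nil =>
    have h1 : HasDerivAt (fun z : ℝ => log (cosh z) - τ / 2) (tanh z) z :=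
      (good_logcosh.d1 z).sub_const _
    change tanh z ^ 2 = deriv (fun z : ℝ => log (cosh z) - τ / 2) z ^ 2
    rw [h1.deriv]
  | cons q L => rw [ql_cons, if_neg (not_lt.2 (h q (by simp)))]

lemma st_low (τ : ℝ) (L : List (ℝ × ℝ)) (s : ℝ) (h : ∀ q ∈ L, s ≤ q.1) : st τ L s = τ := by
  cases L with
  | nil => rfl
  | cons q L => rw [st_cons, if_neg (not_lt.2 (h q (by simp)))]

lemma le_st (L : List (ℝ × ℝ)) : ∀ τ s : ℝ, τ ≤ st τ L s := by
  induction L with
  | nil => intro τ s; exact le_rfl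
  | cons q L ih =>
    intro τ s
    rw [st_cons]
    split_ifs
    · exact (le_max_right _ _).trans (ih _ _)
    · exact le_rfl

lemma st_mono (L : List (ℝ × ℝ)) : ∀ τ : ℝ, Monotone (st τ L) := by
  induction L with
  | nil => intro τ s s' _; exact le_rfl
  | cons q L ih =>
    intro τ s s' hs
    by_cases h : q.1 < s
    · rw [st_cons, st_cons, if_pos h, if_pos (h.trans_le hs)]
      exact ih _ hs
    · rw [st_cons τ q L s, if_neg h]
      exact le_st _ _ _

lemma le_st_mem {L : List (ℝ × ℝ)} (hL : L.Pairwise fun p q => p.1 ≤ q.1) :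
    ∀ (τ s : ℝ), ∀ q ∈ L, q.1 < s → q.2 ≤ st τ L s := by
  induction L with
  | nil => intro τ s q hq; simp at hq
  | cons p L ih =>
    intro τ s q hq hs
    rw [List.pairwise_cons] at hL
    rcases List.mem_cons.1 hq with rfl | hq'
    · rw [st_cons, if_pos hs]
      exact (le_max_left _ _).trans (le_st _ _ _)
    · rw [st_cons, if_pos ((hL.1 q hq').trans_lt hs)]
      exact ih hL.2 _ _ q hq' hs

/-- Two lists describing the same recursion. -/
structure Eqv (t : ℝ) (A B : List (ℝ × ℝ)) : Prop where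
  hF : Ft t A = Ft t B
  hq : ∀ s, ql t A s = ql t B s
  hs : ∀ s, st t A s = st t B s

lemma Eqv.refl (t : ℝ) (A : List (ℝ × ℝ)) : Eqv t A A := ⟨rfl, fun _ => rfl, fun _ => rfl⟩

lemma Eqv.cons {t : ℝ} {q : ℝ × ℝ} {A B : List (ℝ × ℝ)} (h : Eqv (max q.2 t) A B) :
    Eqv t ((q.1, max q.2 t) :: A) (q :: B) := by
  have e : max (max q.2 t) t = max q.2 t := max_eq_left (le_max_right _ _)
  have hF : Ft t ((q.1, max q.2 t) :: A) = Ft t (q :: B) := by
    rw [Ft_cons, Ft_cons]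
    simp only [e, h.hF]
  refine ⟨hF, fun s => ?_, fun s => ?_⟩
  · funext z
    rw [ql_cons, ql_cons, hF]
    simp only [e, h.hF, h.hq]
  · rw [st_cons, st_cons]
    simp only [e, h.hs]

lemma Eqv.ins {t a : ℝ} {A B : List (ℝ × ℝ)} (h : Eqv t A B) (ha : ∀ q ∈ B, a ≤ q.1) :
    Eqv t ((a, t) :: A) B := by
  have hF : Ft t ((a, t) :: A) = Ft t B := by
    rw [Ft_cons]
    simp only [max_self, sub_self, gaussOp_zero_var, h.hF]
  refine ⟨hF, fun s => ?_, fun s => ?_⟩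
  · funext z
    rw [ql_cons, hF]
    simp only [max_self, sub_self, Ag_zero_var, h.hq]
    split_ifs with hs
    · rfl
    · exact (ql_low t B s z fun q hq => (not_lt.1 hs).trans (ha q hq)).symm
  · rw [st_cons]
    simp only [max_self, h.hs]
    split_ifs with hs
    · rfl
    · exact (st_low t B s fun q hq => (not_lt.1 hs).trans (ha q hq)).symm

/-- The conclusion of the merging lemma. -/
structure Mrg (t t' : ℝ) (L L' : List (ℝ × ℝ)) (M : List (ℝ × ℝ × ℝ)) : Prop where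
  mem : ∀ q ∈ M, (∃ p ∈ L, q.1 = p.1) ∨ ∃ p ∈ L', q.1 = p.1
  sorted : M.Pairwise fun p q => p.1 ≤ q.1 ∧ p.2.1 ≤ q.2.1 ∧ p.2.2 ≤ q.2.2
  low : ∀ q ∈ M, t ≤ q.2.1 ∧ t' ≤ q.2.2
  left : Eqv t (M.map fun q => (q.1, q.2.1)) L
  right : Eqv t' (M.map fun q => (q.1, q.2.2)) L'

lemma Mrg.consL {t t' : ℝ} {q : ℝ × ℝ} {L L' : List (ℝ × ℝ)} {M : List (ℝ × ℝ × ℝ)}
    (h : Mrg (max q.2 t) t' L L' M) (h1 : ∀ p ∈ L, q.1 ≤ p.1) (h2 : ∀ p ∈ L', q.1 ≤ p.1) :
    Mrg t t' (q :: L) L' ((q.1, max q.2 t, t') :: M) := by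
  refine ⟨fun p hp => ?_, ?_, fun p hp => ?_, ?_, ?_⟩
  · rcases List.mem_cons.1 hp with rfl | hp
    · exact Or.inl ⟨q, by simp, rfl⟩
    · rcases h.mem p hp with ⟨u, hu, e⟩ | hu
      · exact Or.inl ⟨u, by simp [hu], e⟩
      · exact Or.inr hu
  · refine List.pairwise_cons.2 ⟨fun p hp => ⟨?_, h.low p hp⟩, h.sorted⟩
    rcases h.mem p hp with ⟨u, hu, e⟩ | ⟨u, hu, e⟩
    · rw [e]; exact h1 u hu
    · rw [e]; exact h2 u hu
  · rcases List.mem_cons.1 hp with rfl | hp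
    · exact ⟨le_max_right _ _, le_rfl⟩
    · exact ⟨(le_max_right _ _).trans (h.low p hp).1, (h.low p hp).2⟩
  · exact h.left.cons
  · exact h.right.ins h2

lemma Mrg.consR {t t' : ℝ} {q : ℝ × ℝ} {L L' : List (ℝ × ℝ)} {M : List (ℝ × ℝ × ℝ)}
    (h : Mrg t (max q.2 t') L L' M) (h1 : ∀ p ∈ L, q.1 ≤ p.1) (h2 : ∀ p ∈ L', q.1 ≤ p.1) :
    Mrg t t' L (q :: L') ((q.1, t, max q.2 t') :: M) := by
  refine ⟨fun p hp => ?_, ?_, fun p hp => ?_, ?_, ?_⟩
  · rcases List.mem_cons.1 hp with rfl | hp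
    · exact Or.inr ⟨q, by simp, rfl⟩
    · rcases h.mem p hp with hu | ⟨u, hu, e⟩
      · exact Or.inl hu
      · exact Or.inr ⟨u, by simp [hu], e⟩
  · refine List.pairwise_cons.2 ⟨fun p hp => ⟨?_, h.low p hp⟩, h.sorted⟩
    rcases h.mem p hp with ⟨u, hu, e⟩ | ⟨u, hu, e⟩
    · rw [e]; exact h1 u hu
    · rw [e]; exact h2 u hu
  · rcases List.mem_cons.1 hp with rfl | hp
    · exact ⟨le_rfl, le_max_right _ _⟩
    · exact ⟨(h.low p hp).1, (le_max_right _ _).trans (h.low p hp).2⟩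
  · exact h.left.ins h1
  · exact h.right.cons

lemma exists_merge (n : ℕ) : ∀ (L L' : List (ℝ × ℝ)) (t t' : ℝ), L.length + L'.length = n →
    (L.Pairwise fun p q => p.1 ≤ q.1) → (L'.Pairwise fun p q => p.1 ≤ q.1) →
    ∃ M, Mrg t t' L L' M := by
  induction n with
  | zero =>
    intro L L' t t' hn _ _
    obtain rfl : L = [] := List.length_eq_zero_iff.1 (by omega)
    obtain rfl : L' = [] := List.length_eq_zero_iff.1 (by omega)
    exact ⟨[], by simp, by simp, by simp, Eqv.refl _ _, Eqv.refl _ _⟩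
  | succ n ih =>
    intro L L' t t' hn hL hL'
    have kL : ∀ (q : ℝ × ℝ) (L0 : List (ℝ × ℝ)), L = q :: L0 → (∀ p ∈ L', q.1 ≤ p.1) →
        ∃ M, Mrg t t' L L' M := by
      rintro q L0 rfl h2
      rw [List.pairwise_cons] at hL
      obtain ⟨M, hM⟩ := ih L0 L' (max q.2 t) t' (by simp at hn; omega) hL.2 hL'
      exact ⟨_, hM.consL hL.1 h2⟩
    have kR : ∀ (q : ℝ × ℝ) (L0 : List (ℝ × ℝ)), L' = q :: L0 → (∀ p ∈ L, q.1 ≤ p.1) →
        ∃ M, Mrg t t' L L' M := by
      rintro q L0 rfl h2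
      rw [List.pairwise_cons] at hL'
      obtain ⟨M, hM⟩ := ih L L0 t (max q.2 t') (by simp at hn; omega) hL hL'.2
      exact ⟨_, hM.consR h2 hL'.1⟩
    cases L with
    | nil =>
      cases L' with
      | nil => simp at hn
      | cons q' L0' => exact kR q' L0' rfl (by simp)
    | cons q L0 =>
      cases L' with
      | nil => exact kL q L0 rfl (by simp)
      | cons q' L0' =>
        rcases le_total q.1 q'.1 with h | h
        · refine kL q L0 rfl fun p hp => ?_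
          rcases List.mem_cons.1 hp with rfl | hp
          · exact h
          · exact h.trans ((List.pairwise_cons.1 hL').1 p hp)
        · refine kR q' L0' rfl fun p hp => ?_
          rcases List.mem_cons.1 hp with rfl | hp
          · exact h
          · exact h.trans ((List.pairwise_cons.1 hL).1 p hp)

lemma exists_expo {r : ℕ} (ζ : Fin r → ℝ) (hm : Monotone ζ) (h : ∀ i, 0 < ζ i ∧ ζ i ≤ 1) :
    ∃ ex : Expo (r + 1), ∀ i : Fin r, ex.ζ i = ζ i := by
  refine ⟨⟨fun l => if hl : l < r then ζ ⟨l, hl⟩ else 1, fun l => ?_, fun l l' hll => ?_,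
    fun l hl => ?_⟩, fun i => ?_⟩
  · split_ifs
    · exact (h _).1
    · exact one_pos
  · dsimp only
    split_ifs with h1 h2 h2
    · exact hm (Fin.mk_le_mk.2 hll)
    · exact (h _).2
    · omega
    · exact le_rfl
  · rw [dif_neg (by omega)]
  · simp

lemma exists_amp {r : ℕ} (h : Fin r → ℝ) (hm : Monotone h) (h0 : ∀ i, 0 ≤ h i) :
    ∃ x : ℕ → ℝ, (∀ l, 0 ≤ x l) ∧ ∀ i : Fin r, ∑ l ∈ range (i + 1), x l ^ 2 = h i := by
  let H : ℕ → ℝ := fun l => Nat.casesOn l 0 fun l => if hl : l < r then h ⟨l, hl⟩ else 0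
  have H0 : H 0 = 0 := rfl
  have Hs : ∀ (l : ℕ) (hl : l < r), H (l + 1) = h ⟨l, hl⟩ := fun l hl => dif_pos hl
  have Hm : ∀ l < r, H l ≤ H (l + 1) := by
    intro l hl
    rw [Hs l hl]
    cases l with
    | zero => exact h0 _
    | succ l =>
      rw [Hs l (by omega)]
      exact hm (Fin.mk_le_mk.2 (Nat.le_succ l))
  refine ⟨fun l => √(H (l + 1) - H l), fun l => sqrt_nonneg _, fun i => ?_⟩
  have : ∀ l ∈ range (i + 1), √(H (l + 1) - H l) ^ 2 = H (l + 1) - H l := by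
    intro l hl
    have := i.2
    exact sq_sqrt (sub_nonneg.2 (Hm l (by have := mem_range.1 hl; omega)))
  rw [sum_congr rfl this, sum_range_sub, H0, sub_zero, Hs i i.2]

lemma oM_eq_deriv {r : ℕ} (ex : Expo (r + 1)) {x : ℕ → ℝ} (hx : ∀ l, 0 ≤ x l) (b : ℝ) :
    oM ex b x = deriv (Ft 0 (lst ex x)) b := by
  have : Ft 0 (lst ex x) = fun b => oX ex b x 0 - (∑ l ∈ range r, x l ^ 2) / 2 :=
    funext fun b => Ft_lst ex hx b
  rw [this]
  exact ((hasDerivAt_oX ex b x).sub_const _).deriv.symm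

/-- The tangent inequality for two lists with different exponents. -/
lemma tangent_list {L L' : List (ℝ × ℝ)} (hL : L.Pairwise fun p q => p.1 ≤ q.1)
    (hL' : L'.Pairwise fun p q => p.1 ≤ q.1) (h1 : ∀ q ∈ L, 0 < q.1 ∧ q.1 ≤ 1)
    (h1' : ∀ q ∈ L', 0 < q.1 ∧ q.1 ≤ 1) (b : ℝ) {η : ℝ} (hη : 0 < η) :
    ∃ b', Ft 0 L' b' - b' * deriv (Ft 0 L) b +
        (∫ s in Set.Ioo (0 : ℝ) 1, ql 0 L s b * st 0 L' s) / 2 ≤
      Ft 0 L b - b * deriv (Ft 0 L) b +
        (∫ s in Set.Ioo (0 : ℝ) 1, ql 0 L s b * st 0 L s) / 2 + η := by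
  obtain ⟨M, hM⟩ := exists_merge _ L L' 0 0 rfl hL hL'
  have hs := List.pairwise_iff_get.1 hM.sorted
  have mono : ∀ f : ℝ × ℝ × ℝ → ℝ,
      (∀ p q : ℝ × ℝ × ℝ, p.1 ≤ q.1 ∧ p.2.1 ≤ q.2.1 ∧ p.2.2 ≤ q.2.2 → f p ≤ f q) →
      Monotone fun i : Fin M.length => f (M.get i) := by
    intro f hf i j hij
    rcases hij.eq_or_lt with rfl | hij
    · exact le_rfl
    · exact hf _ _ (hs i j hij)
  obtain ⟨ex, hex⟩ := exists_expo (fun i : Fin M.length => (M.get i).1)
    (mono (fun p => p.1) fun _ _ h => h.1) fun i => by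
      rcases hM.mem _ (List.get_mem M i) with ⟨u, hu, e⟩ | ⟨u, hu, e⟩
      · rw [e]; exact h1 u hu
      · rw [e]; exact h1' u hu
  obtain ⟨x, hx, ex1⟩ := exists_amp (fun i : Fin M.length => (M.get i).2.1)
    (mono (fun p => p.2.1) fun _ _ h => h.2.1) fun i => (hM.low _ (List.get_mem M i)).1
  obtain ⟨x', hx', ex2⟩ := exists_amp (fun i : Fin M.length => (M.get i).2.2)
    (mono (fun p => p.2.2) fun _ _ h => h.2.2) fun i => (hM.low _ (List.get_mem M i)).2
  have e1 : lst ex x = M.map fun q => (q.1, q.2.1) := by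
    unfold lst
    simp only [hex, ex1]
    exact List.ofFn_getElem_eq_map M fun q => (q.1, q.2.1)
  have e2 : lst ex x' = M.map fun q => (q.1, q.2.2) := by
    unfold lst
    simp only [hex, ex2]
    exact List.ofFn_getElem_eq_map M fun q => (q.1, q.2.2)
  obtain ⟨b', hb'⟩ := tangent_fixed ex hx hx' b hη
  rw [← Ft_lst ex hx, ← Ft_lst ex hx', ← integral_ql_st ex hx, ← integral_ql_st ex hx,
    oM_eq_deriv ex hx, e1, e2] at hb'
  simp only [hM.left.hF, hM.left.hq, hM.left.hs, hM.right.hF, hM.right.hs] at hb'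
  exact ⟨b', hb'⟩

lemma fl_le_Ft (k : ℕ) : ∀ (a a' : Fin k → ℝ) (H : ℕ → ℝ), (∀ i, 0 ≤ a i) → (∀ i, a i ≤ a' i) →
    (∀ i < k, H i ≤ H (i + 1)) → ∀ b,
      fl (List.ofFn fun i : Fin k => (a i, H (i + 1) - H i)) b ≤
        Ft (H 0) (List.ofFn fun i : Fin k => (a' i, H (i + 1))) b + H k / 2 := by
  induction k with
  | zero =>
    intro a a' H _ _ _ b
    simp [fl, Ft]
  | succ k ih =>
    intro a a' H ha haa hH b
    have h := ih (fun i => a i.succ) (fun i => a' i.succ) (fun j => H (j + 1)) (fun i => ha _)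
      (fun i => haa _) (fun i hi => hH _ (by omega))
    rw [List.ofFn_succ, List.ofFn_succ, Ft_cons]
    have e : max (H (0 + 1)) (H 0) = H (0 + 1) := max_eq_left (hH 0 (by omega))
    simp only [Fin.val_zero, Fin.val_succ, e]
    have l1 : LipschitzWith 1
        (fl (List.ofFn fun i : Fin k => (a i.succ, H (i + 1 + 1) - H (i + 1)))) :=
      fl_lip (by
        intro q hq
        obtain ⟨i, rfl⟩ := List.mem_ofFn.1 hq
        exact ha _)
    have l2 : LipschitzWith 1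
        (Ft (H (0 + 1)) (List.ofFn fun i : Fin k => (a' i.succ, H (i + 1 + 1)))) :=
      Ft_lip (by
        intro q hq
        obtain ⟨i, rfl⟩ := List.mem_ofFn.1 hq
        exact (ha _).trans (haa _)) _
    have k1 := gaussOp_le (ha 0) l1 l2 h (H (0 + 1) - H 0) b
    have k2 := gaussOp_mono_exp (ha 0) (haa 0) l2 (H (0 + 1) - H 0) b
    change gaussOp (a 0) (H (0 + 1) - H 0) (fl _) b ≤ _
    linarith

section field

variable {k : ℕ} {w hv : Fin k → ℝ}

lemma leftEnd_nonneg (h : IsStepField w hv) (i : Fin k) : 0 ≤ leftEnd w i :=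
  sum_nonneg fun l _ => by
    split_ifs
    · exact (h.2.1 l).le
    · exact le_rfl

lemma leftEnd_le_one (h : IsStepField w hv) (i : Fin k) : leftEnd w i ≤ 1 := by
  rw [← h.2.2.1]
  refine sum_le_sum fun l _ => ?_
  split_ifs
  · exact le_rfl
  · exact (h.2.1 l).le

lemma leftEnd_add_le (h : IsStepField w hv) {i j : Fin k} (hij : i < j) :
    leftEnd w i + w i ≤ leftEnd w j := by
  have e : w i = ∑ l : Fin k, if l = i then w l else 0 := by simp
  unfold leftEnd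
  rw [e, ← sum_add_distrib]
  refine sum_le_sum fun l _ => ?_
  have := (h.2.1 l).le
  by_cases h1 : l < i
  · simp [h1, h1.ne, h1.trans hij]
  · by_cases h2 : l = i
    · subst h2; simp [hij]
    · simp only [h1, h2, if_false, add_zero]
      split_ifs
      · exact this
      · exact le_rfl

lemma stepFn_le (h : IsStepField w hv) {s c : ℝ} (hc : 0 ≤ c)
    (hj : ∀ j, leftEnd w j < s → hv j ≤ c) : stepFn w hv s ≤ c := by
  unfold stepFn
  by_cases hex : ∃ j, leftEnd w j < s ∧ s ≤ leftEnd w j + w j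
  · obtain ⟨j, h1, h2⟩ := hex
    rw [sum_eq_single j]
    · rw [if_pos ⟨h1, h2⟩]
      exact hj j h1
    · intro i _ hij
      rw [if_neg]
      rintro ⟨h3, h4⟩
      rcases lt_or_gt_of_ne hij with h5 | h5
      · linarith [leftEnd_add_le h h5]
      · linarith [leftEnd_add_le h h5]
    · simp
  · rw [sum_eq_zero]
    · exact hc
    · intro i _
      exact if_neg fun h' => hex ⟨i, h'⟩

lemma fieldValueAt_le_Ft (h : IsStepField w hv) (ε b : ℝ) :
    fieldValueAt b w hv ≤ Ft 0 (List.ofFn fun i : Fin k => (max (leftEnd w i) ε, hv i)) b := by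
  let H : ℕ → ℝ := fun j => ∑ l : Fin k, if l.val + 1 = j then hv l else 0
  have H0 : H 0 = 0 := by simp [H]
  have Hs : ∀ i : Fin k, H (i + 1) = hv i := by
    intro i
    simp [H, Fin.val_inj]
  have Hm : ∀ i < k, H i ≤ H (i + 1) := by
    intro i hi
    rw [Hs ⟨i, hi⟩]
    cases i with
    | zero => rw [H0]; exact h.2.2.2.2 _
    | succ i =>
      rw [Hs ⟨i, by omega⟩]
      exact h.2.2.2.1 (Fin.mk_le_mk.2 (Nat.le_succ i))
  have key := fl_le_Ft k (leftEnd w) (fun i => max (leftEnd w i) ε) H (leftEnd_nonneg h)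
    (fun i => le_max_left _ _) Hm b
  simp only [H0, Hs] at key
  have e : fieldValueAt b w hv =
      fl (List.ofFn fun i : Fin k => (leftEnd w i, hv i - H i)) b - H k / 2 := by
    unfold fieldValueAt fl
    rw [List.ofFn_eq_map, List.foldr_map]
    rfl
  rw [e]
  linarith

lemma integral_stepFn_le (h : IsStepField w hv) {p : ℝ → ℝ} (hp : Monotone p)
    (hp1 : ∀ s, 0 ≤ p s ∧ p s ≤ 1) {ε : ℝ} (hε : 0 < ε) :
    ∫ s in Set.Ioo (0 : ℝ) 1, p s * stepFn w hv s ≤
      (∫ s in Set.Ioo (0 : ℝ) 1,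
        p s * st 0 (List.ofFn fun i : Fin k => (max (leftEnd w i) ε, hv i)) s) +
        ε * ∑ i, hv i := by
  set L := List.ofFn fun i : Fin k => (max (leftEnd w i) ε, hv i) with hL
  have hH : 0 ≤ ∑ i, hv i := sum_nonneg fun i _ => h.2.2.2.2 i
  have hs : L.Pairwise fun p q => p.1 ≤ q.1 := by
    rw [hL, List.pairwise_ofFn]
    intro i j hij
    have := leftEnd_add_le h hij
    have := h.2.1 i
    exact max_le_max (by linarith) le_rfl
  have i1 : IntegrableOn (fun s => p s * stepFn w hv s) (Set.Ioo 0 1) :=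
    integrableOn_mul_stepFn h ⟨hp.measurable, hp.monotoneOn _, fun s _ => hp1 s⟩
  have m2 : Monotone fun s => p s * st 0 L s :=
    hp.mul (st_mono L 0) (fun s => (hp1 s).1) fun s => le_st L 0 s
  have i2 : IntegrableOn (fun s => p s * st 0 L s) (Set.Ioo 0 1) :=
    (m2.intervalIntegrable (μ := volume) (a := 0) (b := 1)).1.mono_set Set.Ioo_subset_Ioc_self
  have i3 : IntegrableOn ((Set.Iic ε).indicator fun _ : ℝ => ∑ i, hv i) (Set.Ioo (0 : ℝ) 1) :=
    (integrable_const _).indicator measurableSet_Iic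
  have k1 : ∫ s in Set.Ioo (0 : ℝ) 1, p s * stepFn w hv s ≤
      ∫ s in Set.Ioo (0 : ℝ) 1,
        (p s * st 0 L s + (Set.Iic ε).indicator (fun _ : ℝ => ∑ i, hv i) s) := by
    refine integral_mono i1 (i2.add i3) fun s => ?_
    dsimp only
    by_cases hs' : s ≤ ε
    · rw [Set.indicator_of_mem (show s ∈ Set.Iic ε from hs')]
      have a1 : stepFn w hv s ≤ ∑ i, hv i :=
        stepFn_le h hH fun j _ => single_le_sum (fun i _ => h.2.2.2.2 i) (mem_univ j)
      have a2 := mul_nonneg (hp1 s).1 (le_st L 0 s)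
      have a3 : p s * stepFn w hv s ≤ 1 * stepFn w hv s :=
        mul_le_mul_of_nonneg_right (hp1 s).2 (stepFn_nonneg h s)
      linarith
    · rw [Set.indicator_of_notMem (show s ∉ Set.Iic ε from hs'), add_zero]
      refine mul_le_mul_of_nonneg_left (stepFn_le h (le_st L 0 s) fun j hj => ?_) (hp1 s).1
      exact le_st_mem hs 0 s (max (leftEnd w j) ε, hv j) (List.mem_ofFn.2 ⟨j, rfl⟩)
        (max_lt hj (not_le.1 hs'))
  rw [integral_add i2 i3, setIntegral_indicator measurableSet_Iic, setIntegral_const] at k1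
  have k2 : volume.real (Set.Ioo (0 : ℝ) 1 ∩ Set.Iic ε) ≤ ε := by
    have : volume.real (Set.Ioo (0 : ℝ) 1 ∩ Set.Iic ε) ≤ volume.real (Set.Ioc (0 : ℝ) ε) :=
      measureReal_mono (fun s hs => ⟨hs.1.1, hs.2⟩) (by simp)
    simpa [hε.le] using this
  have k3 := mul_le_mul_of_nonneg_right k2 hH
  rw [smul_eq_mul] at k1
  linarith

end field

end TanAux

open TanAux in
theorem exists_tangent_path {r : ℕ} (ex : Expo (r + 1)) {x : ℕ → ℝ} (hx : ∀ l, 0 ≤ x l) (b : ℝ) :
    ∃ p : ℝ → ℝ, Monotone p ∧ (∀ s, 0 ≤ p s ∧ p s ≤ 1) ∧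
      (∀ l ≤ r, ∫ s in Set.Ioo (ex.ζ l) 1, p s = oT ex b x l) ∧
      ∀ (k : ℕ) (w hv : Fin k → ℝ), IsStepField w hv → ∀ η : ℝ, 0 < η → ∃ b',
        fieldValueAt b' w hv - b' * oM ex b x +
            1 / 2 * ∫ s in Set.Ioo (0 : ℝ) 1, p s * stepFn w hv s ≤
          oX ex b x 0 - (∑ l ∈ range r, x l ^ 2) / 2 - b * oM ex b x +
            (∑ l ∈ range r, x l ^ 2 * oT ex b x l) / 2 + η := by
  obtain ⟨hp, hp1⟩ := ql_lst_mono ex hx b
  refine ⟨fun s => ql 0 (lst ex x) s b, hp, hp1, fun l hl => integral_ql_lst ex hx b hl,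
    fun k w hv h η hη => ?_⟩
  have hH : 0 ≤ ∑ i, hv i := sum_nonneg fun i _ => h.2.2.2.2 i
  set ε : ℝ := min 1 (η / (∑ i, hv i + 1)) with hε
  have hε0 : 0 < ε := lt_min one_pos (by positivity)
  have hε1 : ε * ∑ i, hv i ≤ η := by
    have h1 : ε ≤ η / (∑ i, hv i + 1) := min_le_right _ _
    rw [le_div_iff₀ (by positivity)] at h1
    nlinarith
  obtain ⟨b', hb'⟩ := tangent_list (L := lst ex x)
    (L' := List.ofFn fun i : Fin k => (max (leftEnd w i) ε, hv i))
    (by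
      unfold lst
      rw [List.pairwise_ofFn]
      intro i j hij
      exact ex.mono hij.le)
    (by
      rw [List.pairwise_ofFn]
      intro i j hij
      have := leftEnd_add_le h hij
      have := h.2.1 i
      exact max_le_max (by linarith) le_rfl)
    (by
      intro q hq
      obtain ⟨i, rfl⟩ := List.mem_ofFn.1 hq
      exact ⟨ex.pos _, ex.le_one _⟩)
    (by
      intro q hq
      obtain ⟨i, rfl⟩ := List.mem_ofFn.1 hq
      exact ⟨hε0.trans_le (le_max_right _ _), max_le (leftEnd_le_one h i) (min_le_left _ _)⟩)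
    b (half_pos hη)
  rw [← oM_eq_deriv ex hx, Ft_lst ex hx, integral_ql_st ex hx] at hb'
  have k1 := fieldValueAt_le_Ft h ε b'
  have k2 := integral_stepFn_le h hp hp1 hε0
  exact ⟨b', by linarith⟩

end Crest.Agent.R164
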