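import Crest.Agent.R164.OneOp
import Crest.Agent.R164.NestGauss

/-! # Row 164: Gaussian integrals tilted by a quadratic form -/

set_option autoImplicit false

namespace Crest.Agent.R164

open MeasureTheory ProbabilityTheory Real Finset Matrix

namespace QS

variable {ι : Type} [Fintype ι] [DecidableEq ι]

/-- The standard Gaussian density. -/
noncomputable def rho (g : ι → ℝ) : ℝ := (√(2 * π))⁻¹ ^ Fintype.card ι * exp (-(g ⬝ᵥ g) / 2)

omit [DecidableEq ι] in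
lemma rho_nonneg (g : ι → ℝ) : 0 ≤ rho g := by unfold rho; positivity

omit [DecidableEq ι] in
lemma measurable_rho : Measurable (rho : (ι → ℝ) → ℝ) := by
  unfold rho dotProduct; fun_prop

omit [DecidableEq ι] in
lemma gam_eq : gam ι = volume.withDensity fun g => ENNReal.ofReal (rho g) := by
  have h := R215.gam_eq ι
  simp only [R215.prod_pdf] at h
  refine Eq.trans h ?_
  simp only [rho, dotProduct, pow_two]

omit [DecidableEq ι] in
lemma integral_gam (f : (ι → ℝ) → ℝ) : ∫ g, f g ∂gam ι = ∫ g, f g * rho g := by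
  rw [gam_eq, integral_withDensity_eq_integral_toReal_smul
    measurable_rho.ennreal_ofReal (ae_of_all _ fun _ => ENNReal.ofReal_lt_top)]
  refine integral_congr_ae (ae_of_all _ fun x => ?_)
  simp only [ENNReal.toReal_ofReal (rho_nonneg x), smul_eq_mul, mul_comm]

omit [DecidableEq ι] in
lemma integrable_gam (f : (ι → ℝ) → ℝ) :
    Integrable f (gam ι) ↔ Integrable fun g => f g * rho g := by
  rw [gam_eq, integrable_withDensity_iff_integrable_smul'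
    measurable_rho.ennreal_ofReal (ae_of_all _ fun _ => ENNReal.ofReal_lt_top)]
  simp only [ENNReal.toReal_ofReal (rho_nonneg _), smul_eq_mul, mul_comm]

/-- The affine map `g ↦ g₀ + L g`. -/
noncomputable def aff {L : Matrix ι ι ℝ} (hL : L.det ≠ 0) (g₀ : ι → ℝ) : (ι → ℝ) ≃ₜ (ι → ℝ) where
  toFun g := g₀ + L *ᵥ g
  invFun g := L⁻¹ *ᵥ (g - g₀)
  left_inv g := by
    simp [mulVec_mulVec, nonsing_inv_mul L (isUnit_iff_ne_zero.2 hL)]
  right_inv g := by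
    simp [mulVec_mulVec, mul_nonsing_inv L (isUnit_iff_ne_zero.2 hL)]
  continuous_toFun := by fun_prop
  continuous_invFun := by fun_prop

lemma map_aff {L : Matrix ι ι ℝ} (hL : L.det ≠ 0) (g₀ : ι → ℝ) :
    Measure.map (aff hL g₀) volume = ENNReal.ofReal |L.det⁻¹| • volume := by
  have h1 : (aff hL g₀ : (ι → ℝ) → ι → ℝ) = (fun g => g₀ + g) ∘ toLin' L := by
    funext g; simp [aff]
  have hm : Measurable (toLin' L) := (LinearMap.continuous_of_finiteDimensional _).measurable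
  rw [h1, ← Measure.map_map (measurable_const_add g₀) hm,
    Real.map_matrix_volume_pi_eq_smul_volume_pi hL, Measure.map_smul, map_add_left_eq_self]

lemma integral_aff {L : Matrix ι ι ℝ} (hL : L.det ≠ 0) (g₀ : ι → ℝ) (G : (ι → ℝ) → ℝ) :
    ∫ g, G g = |L.det| * ∫ g, G (g₀ + L *ᵥ g) := by
  have h := (aff hL g₀).measurableEmbedding.integral_map (μ := volume) G
  rw [map_aff, integral_smul_measure, ENNReal.toReal_ofReal (abs_nonneg _), smul_eq_mul] at h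
  change _ = _ * ∫ g, G (aff hL g₀ g)
  rw [← h, ← mul_assoc, ← abs_mul, mul_inv_cancel₀ hL, abs_one, one_mul]

lemma integrable_aff {L : Matrix ι ι ℝ} (hL : L.det ≠ 0) (g₀ : ι → ℝ) {G : (ι → ℝ) → ℝ}
    (h : Integrable fun g => G (g₀ + L *ᵥ g)) : Integrable G := by
  have h1 := ((aff hL g₀).measurableEmbedding.integrable_map_iff (μ := volume) (g := G)).2 h
  rwa [map_aff, integrable_smul_measure (by simpa using hL) ENNReal.ofReal_ne_top] at h1

/-- Change of variables for a tilted Gaussian integral. -/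
lemma tilt {L : Matrix ι ι ℝ} (hL : L.det ≠ 0) (g₀ : ι → ℝ) {F H : (ι → ℝ) → ℝ}
    (h : ∀ g, F (g₀ + L *ᵥ g) * exp (-((g₀ + L *ᵥ g) ⬝ᵥ (g₀ + L *ᵥ g)) / 2) =
      H g * exp (-(g ⬝ᵥ g) / 2)) (hH : Integrable H (gam ι)) :
    Integrable F (gam ι) ∧ ∫ g, F g ∂gam ι = |L.det| * ∫ g, H g ∂gam ι := by
  have e : ∀ g, F (g₀ + L *ᵥ g) * rho (g₀ + L *ᵥ g) = H g * rho g := fun g => by
    unfold rho
    rw [mul_left_comm, h, mul_left_comm]
  constructor
  · rw [integrable_gam] at hH ⊢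
    refine integrable_aff hL g₀ ?_
    simpa only [e] using hH
  · rw [integral_gam, integral_gam, integral_aff hL g₀]
    simp only [e]

open scoped MatrixOrder in
lemma exists_L {S : Matrix ι ι ℝ} (hS : S.PosDef) : ∃ L : Matrix ι ι ℝ, L * Lᵀ * S = 1 := by
  obtain ⟨B, hB⟩ := CStarAlgebra.nonneg_iff_eq_star_mul_self.mp hS.inv.posSemidef.nonneg
  refine ⟨Bᵀ, ?_⟩
  rw [transpose_transpose, ← conjTranspose_eq_transpose_of_trivial, ← star_eq_conjTranspose, ← hB,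
    nonsing_inv_mul S (isUnit_iff_ne_zero.2 hS.det_pos.ne')]

omit [DecidableEq ι] in
lemma dot_symm {M : Matrix ι ι ℝ} (hM : M.IsSymm) (u v : ι → ℝ) : u ⬝ᵥ M *ᵥ v = v ⬝ᵥ M *ᵥ u := by
  rw [dotProduct_mulVec, ← mulVec_transpose, hM.eq, dotProduct_comm]

omit [DecidableEq ι] in
lemma dot_mulVec (L : Matrix ι ι ℝ) (u v : ι → ℝ) : u ⬝ᵥ L *ᵥ v = (Lᵀ *ᵥ u) ⬝ᵥ v := by
  rw [dotProduct_mulVec, ← mulVec_transpose]

end QS

open QS in
theorem quad_step {ι : Type} [Fintype ι] [DecidableEq ι] {M M' : Matrix ι ι ℝ} (hM : M.IsSymm)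
    (hM' : M'.IsSymm) {w w' sd : ι → ℝ} {ζ : ℝ}
    (hS : (1 - ζ • (diagonal sd * M * diagonal sd)).PosDef)
    (hrel : (1 - ζ • (M * diagonal fun i => sd i ^ 2)) * M' = M)
    (hw : (1 - ζ • (M * diagonal fun i => sd i ^ 2)) *ᵥ w' = w) {φ : ℝ → ℝ} (hφ : LipschitzWith 1 φ)
    (z : ι → ℝ) (t : ℝ) :
    0 ≤ ∑ i, w i * sd i ^ 2 * w' i ∧
    Integrable (fun g : ι → ℝ => exp (ζ * ((fun i => z i + sd i * g i) ⬝ᵥ M *ᵥ (fun i => z i + sd i * g i) / 2 +
      φ (t + w ⬝ᵥ fun i => z i + sd i * g i)))) (gam ι) ∧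
    ∫ g, exp (ζ * ((fun i => z i + sd i * g i) ⬝ᵥ M *ᵥ (fun i => z i + sd i * g i) / 2 +
        φ (t + w ⬝ᵥ fun i => z i + sd i * g i))) ∂gam ι =
      exp (ζ * (z ⬝ᵥ M' *ᵥ z / 2) - log (1 - ζ • (diagonal sd * M * diagonal sd)).det / 2) *
        ∫ g, exp (ζ * φ (t + w' ⬝ᵥ z + √(∑ i, w i * sd i ^ 2 * w' i) * g)) ∂gaussianReal 0 1 := by
  set D : Matrix ι ι ℝ := diagonal sd with hD
  set S : Matrix ι ι ℝ := 1 - ζ • (D * M * D) with hSdef
  have hD2 : (diagonal fun i => sd i ^ 2) = D * D := by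
    rw [hD, diagonal_mul_diagonal]; simp only [pow_two]
  rw [hD2] at hrel hw
  set A : Matrix ι ι ℝ := 1 - ζ • (M * (D * D)) with hA
  have hDs : D.IsSymm := isSymm_diagonal sd
  have hSs : S.IsSymm := by
    have := hS.isHermitian.eq
    rwa [conjTranspose_eq_transpose_of_trivial] at this
  have hSD : S * D = D * A := by
    rw [hSdef, hA, sub_mul, mul_sub, smul_mul_assoc, mul_smul_comm]
    simp only [one_mul, mul_one, Matrix.mul_assoc]
  obtain ⟨L, hL⟩ := exists_L hS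
  have hL' : Lᵀ * S * L = 1 := by
    rw [Matrix.mul_assoc L] at hL
    exact mul_eq_one_comm.1 hL
  have hdet : L.det ^ 2 * S.det = 1 := by
    have := congrArg det hL
    rwa [det_mul, det_mul, det_transpose, det_one, ← pow_two] at this
  have hL0 : L.det ≠ 0 := by
    rintro h0; simp [h0] at hdet
  have habs : |L.det| = exp (-(log S.det / 2)) := by
    have h1 : exp (-(log S.det / 2)) ^ 2 = L.det ^ 2 := by
      rw [← exp_nat_mul, show ((2 : ℕ) : ℝ) * -(log S.det / 2) = -log S.det by push_cast; ring,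
        Real.exp_neg, exp_log hS.det_pos]
      exact (eq_inv_of_mul_eq_one_left hdet).symm
    rw [← sqrt_sq_eq_abs, ← h1, sqrt_sq (exp_pos _).le]
  -- the transposed relation
  have hrel' : M' = M + ζ • (M' * (D * D) * M) := by
    have h1 := congrArg transpose hrel
    rw [hA, transpose_mul, transpose_sub, transpose_one, transpose_smul, transpose_mul,
      transpose_mul, hM.eq, hM'.eq, hDs.eq, mul_sub, mul_one, mul_smul_comm,
      ← Matrix.mul_assoc M'] at h1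
    exact eq_add_of_sub_eq h1
  have hAinj : ∀ v, A *ᵥ v = 0 → v = 0 := fun v hv => by
    have h1 : S *ᵥ (D *ᵥ v) = 0 := by rw [mulVec_mulVec, hSD, ← mulVec_mulVec, hv, mulVec_zero]
    have h2 : D *ᵥ v = 0 := by
      have : (L * Lᵀ * S) *ᵥ (D *ᵥ v) = 0 := by rw [← mulVec_mulVec, h1, mulVec_zero]
      rwa [hL, one_mulVec] at this
    rwa [hA, sub_mulVec, one_mulVec, smul_mulVec, ← mulVec_mulVec, ← mulVec_mulVec, h2, mulVec_zero,
      mulVec_zero, smul_zero, sub_zero] at hv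
  have hw' : w' = w + ζ • (M' *ᵥ (D *ᵥ (D *ᵥ w))) := by
    refine sub_eq_zero.1 (hAinj _ ?_)
    rw [mulVec_sub, hw, mulVec_add, mulVec_smul, mulVec_mulVec _ A M', hrel, hA, sub_mulVec,
      one_mulVec, smul_mulVec, ← mulVec_mulVec, ← mulVec_mulVec]
    abel
  set a : ι → ℝ := Lᵀ *ᵥ (D *ᵥ w) with ha
  have hvar : ∑ i, w i * sd i ^ 2 * w' i = ∑ i, a i ^ 2 := by
    have h1 : L *ᵥ a = D *ᵥ w' := by
      rw [ha, ← hw, mulVec_mulVec w', ← hSD, ← mulVec_mulVec w', mulVec_mulVec, mulVec_mulVec, hL,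
        one_mulVec]
    have h2 : a ⬝ᵥ a = (D *ᵥ w) ⬝ᵥ (D *ᵥ w') := by
      rw [← h1, dot_mulVec L]
    have h3 : ∑ i, a i ^ 2 = a ⬝ᵥ a := by simp only [dotProduct, pow_two]
    rw [h3, h2]
    simp only [dotProduct, hD, mulVec_diagonal]
    exact Finset.sum_congr rfl fun i _ => by ring
  set g₀ : ι → ℝ := ζ • (D *ᵥ (M' *ᵥ z)) with hg₀
  have hy : ∀ g : ι → ℝ, (fun i => z i + sd i * g i) = z + D *ᵥ g := fun g => by
    funext i; simp only [hD, Pi.add_apply, mulVec_diagonal]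
  have hSg : S *ᵥ g₀ = ζ • (D *ᵥ (M *ᵥ z)) := by
    rw [hg₀, mulVec_smul, mulVec_mulVec, hSD, ← mulVec_mulVec, mulVec_mulVec z A, hrel]
  have hq : ∀ g : ι → ℝ, g ⬝ᵥ S *ᵥ g = g ⬝ᵥ g - ζ * ((D *ᵥ g) ⬝ᵥ M *ᵥ (D *ᵥ g)) := fun g => by
    rw [hSdef, sub_mulVec, one_mulVec, smul_mulVec, dotProduct_sub, dotProduct_smul, smul_eq_mul,
      ← mulVec_mulVec, ← mulVec_mulVec, dot_mulVec D, hDs.eq]
  have hz : z ⬝ᵥ M' *ᵥ z = z ⬝ᵥ M *ᵥ z + (D *ᵥ g₀) ⬝ᵥ M *ᵥ z := by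
    conv_lhs => rw [hrel']
    rw [add_mulVec, dotProduct_add, smul_mulVec, dotProduct_smul, hg₀, mulVec_smul,
      smul_dotProduct, ← mulVec_mulVec, ← mulVec_mulVec, ← mulVec_mulVec, dot_mulVec M', hM'.eq,
      dot_mulVec D, hDs.eq, dot_mulVec D, hDs.eq]
  have hsq : ∀ u : ι → ℝ, ζ * ((z + D *ᵥ (g₀ + u)) ⬝ᵥ M *ᵥ (z + D *ᵥ (g₀ + u)) / 2) -
      (g₀ + u) ⬝ᵥ (g₀ + u) / 2 = ζ * (z ⬝ᵥ M' *ᵥ z / 2) - u ⬝ᵥ S *ᵥ u / 2 := fun u => by
    have h1 := hq (g₀ + u)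
    have h2 : (g₀ + u) ⬝ᵥ S *ᵥ (g₀ + u) =
        ζ * ((D *ᵥ g₀) ⬝ᵥ M *ᵥ z) + 2 * (ζ * ((D *ᵥ u) ⬝ᵥ M *ᵥ z)) + u ⬝ᵥ S *ᵥ u := by
      rw [mulVec_add, add_dotProduct, dotProduct_add, dotProduct_add, dot_symm hSs g₀ u, hSg,
        dotProduct_smul, dotProduct_smul, dot_mulVec D, dot_mulVec D, hDs.eq, smul_eq_mul,
        smul_eq_mul]
      ring
    have h3 : (z + D *ᵥ (g₀ + u)) ⬝ᵥ M *ᵥ (z + D *ᵥ (g₀ + u)) = z ⬝ᵥ M *ᵥ z +
        2 * ((D *ᵥ g₀) ⬝ᵥ M *ᵥ z + (D *ᵥ u) ⬝ᵥ M *ᵥ z) +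
        (D *ᵥ (g₀ + u)) ⬝ᵥ M *ᵥ (D *ᵥ (g₀ + u)) := by
      rw [mulVec_add M, add_dotProduct, dotProduct_add, dotProduct_add, dot_symm hM z (D *ᵥ _),
        ← add_dotProduct (D *ᵥ g₀), ← mulVec_add]
      ring
    rw [h3, hz]
    linarith
  have hlin : ∀ g : ι → ℝ, w ⬝ᵥ (z + D *ᵥ (g₀ + L *ᵥ g)) = w' ⬝ᵥ z + ∑ i, a i * g i := fun g => by
    have h1 : w ⬝ᵥ D *ᵥ g₀ = (ζ • (M' *ᵥ (D *ᵥ (D *ᵥ w)))) ⬝ᵥ z := by
      rw [hg₀, mulVec_smul, dotProduct_smul, smul_dotProduct, dot_mulVec D, hDs.eq, dot_mulVec D,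
        hDs.eq, dot_mulVec M', hM'.eq]
    rw [mulVec_add, dotProduct_add, dotProduct_add, h1, dot_mulVec D w, hDs.eq, dot_mulVec L, ← ha,
      ← add_assoc, ← add_dotProduct, ← hw']
    rfl
  have hc := hφ.continuous
  have hmap : (gam ι).map (fun g => ∑ i, a i * g i) =
      (gaussianReal 0 1).map (fun s => √(∑ i, a i ^ 2) * s) := by
    refine Measure.ext fun B hB => ?_
    have h1 := integral_gam_dot a (f := B.indicator 1) (measurable_one.indicator hB)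
    have m1 : Measurable fun g : ι → ℝ => ∑ i, a i * g i := by fun_prop
    have m2 : Measurable fun s : ℝ => √(∑ i, a i ^ 2) * s := by fun_prop
    rw [Measure.map_apply m1 hB, Measure.map_apply m2 hB,
      ← ENNReal.toReal_eq_toReal_iff' (measure_ne_top _ _) (measure_ne_top _ _)]
    rw [← Measure.real, ← Measure.real, ← integral_indicator_one (m1 hB),
      ← integral_indicator_one (m2 hB)]
    exact h1
  have hint : Integrable (fun g : ι → ℝ => exp (ζ * φ (t + w' ⬝ᵥ z + ∑ i, a i * g i))) (gam ι) := by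
    have m : AEStronglyMeasurable (fun s => exp (ζ * φ (t + w' ⬝ᵥ z + s)))
        ((gam ι).map (fun g => ∑ i, a i * g i)) := Continuous.aestronglyMeasurable (by fun_prop)
    refine (integrable_map_measure m (Measurable.aemeasurable (by fun_prop))).1 ?_
    rw [hmap] at m ⊢
    exact (integrable_map_measure m (Measurable.aemeasurable (by fun_prop))).2
      (integrable_exp_lip hφ ζ _ _)
  have key := tilt hL0 g₀
    (F := fun g => exp (ζ * ((z + D *ᵥ g) ⬝ᵥ M *ᵥ (z + D *ᵥ g) / 2 + φ (t + w ⬝ᵥ (z + D *ᵥ g)))))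
    (H := fun g => exp (ζ * (z ⬝ᵥ M' *ᵥ z / 2)) * exp (ζ * φ (t + w' ⬝ᵥ z + ∑ i, a i * g i)))
    (fun g => by
      have h1 := hsq (L *ᵥ g)
      have h2 : (L *ᵥ g) ⬝ᵥ S *ᵥ (L *ᵥ g) = g ⬝ᵥ g := by
        rw [dotProduct_comm, dot_mulVec L, mulVec_mulVec, mulVec_mulVec, hL', one_mulVec]
      rw [← exp_add, ← exp_add, ← exp_add, hlin, ← add_assoc]
      congr 1
      linarith) (hint.const_mul _)
  simp only [hy]
  refine ⟨by rw [hvar]; positivity, key.1, ?_⟩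
  rw [key.2, integral_const_mul, habs, hvar, ← mul_assoc, ← exp_add,
    integral_gam_dot a (f := fun s => exp (ζ * φ (t + w' ⬝ᵥ z + s))) (by fun_prop)]
  congr 2
  ring

end Crest.Agent.R164
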