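import Crest.Agent.R164.QuadStep
import Crest.Agent.R164.CavBasic

/-! # Row 164: nested Gaussian integrals with a quadratic final condition -/

set_option autoImplicit false

namespace Crest.Agent.R164

open MeasureTheory ProbabilityTheory Real Finset Matrix

namespace RE

variable {n K : ℕ}

lemma lev_int (F : Bool × Bool → (Fin n → ℝ) → ℝ) (hF : ∀ a, Integrable (F a) (gam (Fin n))) :
    Integrable (fun z : Orb n => F z.1 z.2) ((unif (Bool × Bool)).prod (gam (Fin n))) ∧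
      ∫ z : Orb n, F z.1 z.2 ∂(unif (Bool × Bool)).prod (gam (Fin n)) =
        (∑ a, ∫ g, F a g ∂gam (Fin n)) / 4 := by
  have h : Integrable (fun z : Orb n => F z.1 z.2) ((unif (Bool × Bool)).prod (gam (Fin n))) := by
    refine (integrable_finsetSum (Finset.univ : Finset (Bool × Bool)) fun a _ =>
      (Integrable.of_finite (f := fun a' : Bool × Bool => if a' = a then (1 : ℝ) else 0)).mul_prod
        (hF a)).congr (Filter.Eventually.of_forall fun z => ?_)
    simp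
  refine ⟨h, (integral_prod _ h).trans ?_⟩
  rw [unif, integral_unifOn]
  simp

lemma step (ex : Expo K) (l : ℕ) {M M' : Matrix (Fin n) (Fin n) ℝ} (hM : M.IsSymm)
    (hM' : M'.IsSymm) {w w' sd : Fin n → ℝ}
    (hS : (1 - ex.ζ l • (diagonal sd * M * diagonal sd)).PosDef)
    (hrel : (1 - ex.ζ l • (M * diagonal fun i => sd i ^ 2)) * M' = M)
    (hw : (1 - ex.ζ l • (M * diagonal fun i => sd i ^ 2)) *ᵥ w' = w)
    {φ : Bool × Bool → ℝ → ℝ} (hφ : ∀ a, LipschitzWith 1 (φ a)) (z : Fin n → ℝ)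
    (t : Bool × Bool → ℝ) (A : ℝ) {F : Cfg K (Orb n) → ℝ} {ω : Cfg K (Orb n)}
    (hF : ∀ x, F (upd ω l x) = A + ((fun i => z i + sd i * x.2 i) ⬝ᵥ M *ᵥ
      (fun i => z i + sd i * x.2 i) / 2 + φ x.1 (t x.1 + w ⬝ᵥ fun i => z i + sd i * x.2 i))) :
    Integrable (fun x => exp ((rLev ex n).ζ l * F (upd ω l x))) ((rLev ex n).μ l) ∧
      (rLev ex n).T l F ω = A - log (1 - ex.ζ l • (diagonal sd * M * diagonal sd)).det /
        (2 * ex.ζ l) + z ⬝ᵥ M' *ᵥ z / 2 + (ex.ζ l)⁻¹ * log ((∑ a, ∫ g, exp (ex.ζ l *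
          φ a (t a + w' ⬝ᵥ z + √(∑ i, w i * sd i ^ 2 * w' i) * g)) ∂gaussianReal 0 1) / 4) := by
  have h := fun a => (quad_step hM hM' hS hrel hw (hφ a) z (t a)).2
  have h2 := lev_int _ fun a => ((h a).1.const_mul (exp (ex.ζ l * A)))
  have h5 := fun a => (integral_const_mul (exp (ex.ζ l * A)) _).trans (congrArg _ (h a).2)
  simp only [h5] at h2
  simp only [← Finset.mul_sum, ← exp_add, ← mul_add, ← hF] at h2
  refine ⟨h2.1, ?_⟩
  have h3 : 0 < (∑ a, ∫ g, exp (ex.ζ l * φ a (t a + w' ⬝ᵥ z + √(∑ i, w i * sd i ^ 2 * w' i) * g))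
      ∂gaussianReal 0 1) / 4 := div_pos (Finset.sum_pos (fun a _ =>
        integral_exp_pos (integrable_exp_lip (hφ a) _ _ _)) Finset.univ_nonempty) four_pos
  have h4 := (ex.pos l).ne'
  refine (congrArg (fun u => (ex.ζ l)⁻¹ * log u) h2.2).trans ?_
  rw [mul_div_assoc, mul_div_assoc, log_mul (exp_pos _).ne' (mul_pos (exp_pos _) h3).ne',
    log_mul (exp_pos _).ne' h3.ne', log_exp, log_exp]
  field_simp
  ring

/-- The Gaussian vector of the levels `< l`. -/
noncomputable def zP (sd : ℕ → Fin n → ℝ) (l : ℕ) (ω : Cfg K (Orb n)) (i : Fin n) : ℝ :=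
  ∑ e ∈ Ico 1 l, sd e i * gl e i ω

/-- The field of the levels `< l`. -/
noncomputable def fP (b : ℝ) (y : ℕ → ℝ) (l : ℕ) (ω : Cfg K (Orb n)) : ℝ :=
  b + ∑ e ∈ Ico 1 l, y e * atl ω e fun z => sg z.1.2

lemma zP_upd (sd : ℕ → Fin n → ℝ) {l : ℕ} (h1 : 1 ≤ l) (h : l < K) (ω : Cfg K (Orb n))
    (x : Orb n) : zP sd (l + 1) (upd ω l x) = fun i => zP sd l ω i + sd l i * x.2 i := by
  funext i
  simp only [zP, gl]
  rw [Finset.sum_Ico_succ_top h1, ON.atl_upd_self _ h]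
  congr 1
  exact Finset.sum_congr rfl fun e he => by rw [ON.atl_upd_ne _ (Finset.mem_Ico.1 he).2.ne]

lemma fP_upd (b : ℝ) (y : ℕ → ℝ) (l : ℕ) (ω : Cfg K (Orb n)) (x : Orb n) :
    fP b y l (upd ω l x) = fP b y l ω := by
  simp only [fP]
  congr 1
  exact Finset.sum_congr rfl fun e he => by rw [ON.atl_upd_ne _ (Finset.mem_Ico.1 he).2.ne]

lemma fP_succ_upd (b : ℝ) (y : ℕ → ℝ) {l : ℕ} (h1 : 1 ≤ l) (h : l < K) (ω : Cfg K (Orb n))
    (x : Orb n) : fP b y (l + 1) (upd ω l x) = fP b y l ω + y l * sg x.1.2 := by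
  rw [← fP_upd b y l ω x, fP, fP, Finset.sum_Ico_succ_top h1, ON.atl_upd_self _ h, add_assoc]

lemma lip_sg (s : Bool) : LipschitzWith 1 fun u : ℝ => sg s * u := by
  refine LipschitzWith.of_dist_le_mul fun a b => ?_
  rw [Real.dist_eq, ← mul_sub, abs_mul, ON.abs_sg, Real.dist_eq, NNReal.coe_one]

end RE

open RE in
theorem rsb_eval {n k : ℕ} (ex : Expo (k + 2)) (M : ℕ → Matrix (Fin n) (Fin n) ℝ) (w sd : ℕ → Fin n → ℝ)
    (hM : ∀ l ∈ Icc 1 (k + 2), (M l).IsSymm)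
    (hS : ∀ l ∈ Icc 1 (k + 1), (1 - ex.ζ l • (diagonal (sd l) * M (l + 1) * diagonal (sd l))).PosDef)
    (hrel : ∀ l ∈ Icc 1 (k + 1),
      (1 - ex.ζ l • (M (l + 1) * diagonal fun i => sd l i ^ 2)) * M l = M (l + 1))
    (hw : ∀ l ∈ Icc 1 (k + 1),
      (1 - ex.ζ l • (M (l + 1) * diagonal fun i => sd l i ^ 2)) *ᵥ w l = w (l + 1))
    (v : ℕ → ℝ) (hv0 : v 0 = 0) (hv : ∀ l ∈ Icc 1 (k + 1), v l = ∑ i, w (l + 1) i * sd l i ^ 2 * w l i)
    (b c : ℝ) {y : ℕ → ℝ} (hy : y 0 = 0) (H : Cfg (k + 2) (Orb n) → ℝ)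
    (hH : ∀ ω, H ω = frR b y ω + (c + sg (rS ω) * (w (k + 2) ⬝ᵥ zR sd ω) +
      zR sd ω ⬝ᵥ M (k + 2) *ᵥ zR sd ω / 2)) :
    (rLev ex n).Int H ∧ (rLev ex n).X0 H = c + v (k + 1) / 2 -
      ∑ l ∈ Icc 1 (k + 1), log (1 - ex.ζ l • (diagonal (sd l) * M (l + 1) * diagonal (sd l))).det /
        (2 * ex.ζ l) + oX ex b (fun l => √(v l)) y := by
  have key : ∀ l ≤ k + 1, 1 ≤ l → ∀ ω,
      Integrable (fun x => exp ((rLev ex n).ζ l * (rLev ex n).X (l + 1) H (upd ω l x)))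
        ((rLev ex n).μ l) ∧ (rLev ex n).X l H ω = c + v (k + 1) / 2 - ∑ e ∈ Icc l (k + 1),
          log (1 - ex.ζ e • (diagonal (sd e) * M (e + 1) * diagonal (sd e))).det / (2 * ex.ζ e) +
          zP sd l ω ⬝ᵥ M l *ᵥ zP sd l ω / 2 +
          ph ex (fun l => √(v l)) y (k + 1 - l) l (fP b y l ω + w l ⬝ᵥ zP sd l ω) := by
    intro l hl
    induction hl using Nat.decreasingInduction with
    | self =>
      intro h1 ω
      have hm : k + 1 ∈ Icc 1 (k + 1) := Finset.mem_Icc.2 ⟨h1, le_rfl⟩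
      have hM1 := hM (k + 2) (Finset.mem_Icc.2 ⟨by omega, le_rfl⟩)
      have hM2 := hM (k + 1) (Finset.mem_Icc.2 ⟨h1, by omega⟩)
      have hv1 : 0 ≤ v (k + 1) := (hv _ hm).ge.trans'
        (quad_step hM1 hM2 (hS _ hm) (hrel _ hm) (hw _ hm) lip_abs 0 0).1
      have h := step ex (k + 1) hM1 hM2 (hS _ hm) (hrel _ hm) (hw _ hm) (fun a => lip_sg a.1)
        (zP sd (k + 1) ω) (fun _ => fP b y (k + 1) ω) c (F := H) (ω := ω) fun x => by
          have e1 : rS (upd ω (k + 1) x) = x.1.1 := by simp [rS, upd]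
          rw [hH, show zR sd (upd ω (k + 1) x) = zP sd (k + 1 + 1) (upd ω (k + 1) x) from rfl,
            zP_upd sd h1 (by omega), frR, e1, ← fP_upd b y (k + 1) ω x]
          exact (show ∀ a b c d e : ℝ, a * b + (c + b * d + e) = c + (e + b * (a + d)) from
            fun _ _ _ _ _ => by ring) _ _ _ _ _
      rw [Lev.X_of_lt _ (by omega : k + 1 < k + 2), Lev.X_of_ge _ le_rfl]
      refine ⟨h.1, h.2.trans ?_⟩
      rw [← hv _ hm, Finset.Icc_self, Finset.sum_singleton, Nat.sub_self, ph]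
      generalize fP b y (k + 1) ω + w (k + 1) ⬝ᵥ zP sd (k + 1) ω = t
      have e2 : ∀ s : Bool, ∫ g, exp (sg s * (t + √(v (k + 1)) * g)) ∂gaussianReal 0 1 =
          exp (sg s * t) * exp (v (k + 1) / 2) := fun s => by
        simp only [mul_add, ← mul_assoc]
        rw [integral_exp_gauss, mul_pow, sq_sqrt hv1, ← sq_abs, ON.abs_sg, one_pow, one_mul, exp_add]
      have e3 : (∑ a : Bool × Bool, exp (sg a.1 * t) * exp (v (k + 1) / 2)) / 4 =
          cosh t * exp (v (k + 1) / 2) := by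
        simp [Fintype.sum_prod_type, sg, cosh_eq]
        ring
      simp only [ex.top (k + 1) le_rfl, one_mul, inv_one, e2, e3]
      rw [log_mul (cosh_pos _).ne' (exp_pos _).ne', log_exp]
      ring
    | of_succ l hl ih =>
      intro h1 ω
      have hm : l ∈ Icc 1 (k + 1) := Finset.mem_Icc.2 ⟨h1, hl.le⟩
      have h := step ex l (hM (l + 1) (Finset.mem_Icc.2 ⟨by omega, by omega⟩))
        (hM l (Finset.mem_Icc.2 ⟨h1, by omega⟩)) (hS _ hm) (hrel _ hm) (hw _ hm)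
        (fun _ => ph_lip ex (fun l => √(v l)) y (k + 1 - (l + 1)) (l + 1))
        (zP sd l ω) (fun a => fP b y l ω + y l * sg a.2) _ (F := (rLev ex n).X (l + 1) H) (ω := ω)
        fun x => by
          rw [(ih (by omega) _).2, zP_upd sd h1 (by omega), fP_succ_upd b y h1 (by omega), add_assoc]
      rw [Lev.X_of_lt _ (by omega : l < k + 2)]
      refine ⟨h.1, h.2.trans ?_⟩
      rw [← hv _ hm, ← Finset.insert_Icc_add_one_left_eq_Icc hl.le, Finset.sum_insert (by simp),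
        show k + 1 - l = k + 1 - (l + 1) + 1 by omega, ph, Fintype.sum_prod_type]
      simp only [Finset.sum_const, Finset.card_univ, Fintype.card_bool, nsmul_eq_mul, Nat.cast_ofNat,
        show ∀ s : ℝ, 2 * s / 4 = s / 2 from fun s => by ring, add_right_comm _ (y l * _)]
      ring
  have h1 : ∀ ω, (rLev ex n).X 1 H ω = c + v (k + 1) / 2 - ∑ l ∈ Icc 1 (k + 1),
      log (1 - ex.ζ l • (diagonal (sd l) * M (l + 1) * diagonal (sd l))).det / (2 * ex.ζ l) +
      oX ex b (fun l => √(v l)) y := fun ω => by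
    have e : zP sd 1 ω = 0 := funext fun i => by simp [zP]
    rw [(key 1 (by omega) le_rfl ω).2, e, oX_eq, ph]
    simp [fP, hv0, hy, (ex.pos 0).ne']
  refine ⟨⟨?_, fun l hl ω => ?_⟩, ?_⟩
  · have h2 := measurable_pi_iff.1 (measurable_zR (k := k) sd)
    have h3 := ON.measurable_sg.comp (measurable_rS (k := k) (n := n))
    rw [funext hH]
    refine (lin_frR ex b y).1.add ((measurable_const.add (h3.mul ?_)).add (Measurable.div_const ?_ _))
    all_goals
      simp only [dotProduct, mulVec]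
      fun_prop
  · rcases Nat.eq_zero_or_pos l with rfl | h
    · simp only [zero_add, h1]
      exact integrable_const _
    · exact (key l (by omega) h ω).1
  · rw [Lev.X0, Lev.X_of_lt _ (by omega), Lev.T_of_indep fun x => by rw [h1, h1], h1]

end Crest.Agent.R164
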