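import Mathlib

/-! # Row 164: matrix identities for the cavity computation -/

set_option autoImplicit false
set_option linter.unusedSectionVars false

namespace Crest.Agent.R164.RsbMat

open Finset Matrix

variable {ι : Type} [Fintype ι] [DecidableEq ι]

/-- `1 + s Y`. -/
noncomputable def Kk (Y : Matrix ι ι ℝ) (s : ℝ) : Matrix ι ι ℝ := 1 + s • Y

/-- `diag (1 + d s)`. -/
noncomputable def Ed (d : ι → ℝ) (s : ℝ) : Matrix ι ι ℝ := diagonal fun i => 1 + d i * s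

/-- The quadratic form at the parameter `s`. -/
noncomputable def Mm (Y : Matrix ι ι ℝ) (d : ι → ℝ) (s : ℝ) : Matrix ι ι ℝ :=
  (diagonal fun i => d i * (1 + d i * s)) - Ed d s * (Y * (Kk Y s)⁻¹) * Ed d s

/-- The linear form at the parameter `s`. -/
noncomputable def ww (Y : Matrix ι ι ℝ) (d w : ι → ℝ) (s : ℝ) : ι → ℝ :=
  Ed d s *ᵥ ((Kk Y s)⁻¹ *ᵥ w)

variable {Y : Matrix ι ι ℝ} {d w sd : ι → ℝ} {s s' ζ : ℝ}

theorem Mm_zero : Mm Y d 0 = diagonal d - Y := by simp [Mm, Ed, Kk]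

theorem ww_zero : ww Y d w 0 = w := by simp [ww, Ed, Kk]

theorem Kk_posDef (hY : Y.PosSemidef) (hs : 0 ≤ s) : (Kk Y s).PosDef :=
  PosDef.one.add_posSemidef (hY.smul hs)

theorem Kk_mul_inv (hY : Y.PosSemidef) (hs : 0 ≤ s) : Kk Y s * (Kk Y s)⁻¹ = 1 :=
  mul_nonsing_inv _ (Kk_posDef hY hs).det_pos.ne'.isUnit

theorem Kk_inv_mul (hY : Y.PosSemidef) (hs : 0 ≤ s) : (Kk Y s)⁻¹ * Kk Y s = 1 :=
  nonsing_inv_mul _ (Kk_posDef hY hs).det_pos.ne'.isUnit

theorem Y_comm (hY : Y.PosSemidef) (hs : 0 ≤ s) : Y * (Kk Y s)⁻¹ = (Kk Y s)⁻¹ * Y := by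
  have h : Kk Y s * Y = Y * Kk Y s := by simp [Kk, add_mul, mul_add]
  calc Y * (Kk Y s)⁻¹ = (Kk Y s)⁻¹ * (Kk Y s * Y) * (Kk Y s)⁻¹ := by
        rw [← mul_assoc, Kk_inv_mul hY hs, one_mul]
    _ = _ := by rw [h, mul_assoc, mul_assoc, Kk_mul_inv hY hs, mul_one]

theorem Z_posSemidef (hY : Y.PosSemidef) (hs : 0 ≤ s) : (Y * (Kk Y s)⁻¹).PosSemidef := by
  have h1 : (Kk Y s * Y).PosSemidef := by
    have h2 := posSemidef_conjTranspose_mul_self Y
    rw [hY.isHermitian.eq] at h2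
    rw [Kk, add_mul, one_mul, smul_mul_assoc]
    exact hY.add (h2.smul hs)
  have h2 := h1.conjTranspose_mul_mul_same (Kk Y s)⁻¹
  rwa [(Kk_posDef hY hs).isHermitian.inv.eq, ← mul_assoc, Kk_inv_mul hY hs, one_mul] at h2

theorem Mm_isSymm (hY : Y.PosSemidef) (hs : 0 ≤ s) : (Mm Y d s).IsSymm := by
  have h : (Y * (Kk Y s)⁻¹)ᵀ = Y * (Kk Y s)⁻¹ := (Z_posSemidef hY hs).isHermitian
  rw [IsSymm, Mm, transpose_sub, transpose_mul, transpose_mul, h, Ed, diagonal_transpose,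
    diagonal_transpose, ← mul_assoc]

theorem one_add_Z (hY : Y.PosSemidef) (hs : 0 ≤ s) :
    1 + (s' - s) • (Y * (Kk Y s)⁻¹) = Kk Y s' * (Kk Y s)⁻¹ := by
  have : Kk Y s' = Kk Y s + (s' - s) • Y := by rw [Kk, Kk, add_assoc, ← add_smul, add_sub_cancel]
  rw [this, add_mul, Kk_mul_inv hY hs, smul_mul_assoc]

theorem one_add_Z_mul (hY : Y.PosSemidef) (hs : 0 ≤ s) (hs' : 0 ≤ s') :
    (1 + (s' - s) • (Y * (Kk Y s)⁻¹)) * (Kk Y s')⁻¹ = (Kk Y s)⁻¹ := by
  have : Kk Y s' * (Kk Y s)⁻¹ = (Kk Y s)⁻¹ * Kk Y s' := by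
    rw [Kk.eq_1 Y s', add_mul, mul_add, smul_mul_assoc, mul_smul_comm, Y_comm hY hs, one_mul,
      mul_one]
  rw [one_add_Z hY hs, this, mul_assoc, Kk_mul_inv hY hs', mul_one]

section step

variable (hY : Y.PosSemidef) (hd : ∀ i, 0 ≤ d i) (hs : 0 ≤ s) (hs' : 0 ≤ s')
  (hsd : ∀ i, ζ * sd i ^ 2 = (s' - s) / ((1 + d i * s') * (1 + d i * s)))
include hd

theorem E_pos (hs : 0 ≤ s) (i : ι) : 0 < 1 + d i * s := by have := hd i; positivity

theorem inv_mul_Ed (hs : 0 ≤ s) : (diagonal fun i => (1 + d i * s)⁻¹) * Ed d s = 1 := by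
  rw [Ed, diagonal_mul_diagonal, ← diagonal_one]
  exact congrArg diagonal (funext fun i => inv_mul_cancel₀ (E_pos hd hs i).ne')

include hs hs' hsd

theorem step_eq : 1 - ζ • (Mm Y d s * diagonal fun i => sd i ^ 2) =
    Ed d s * (1 + (s' - s) • (Y * (Kk Y s)⁻¹)) * diagonal fun i => (1 + d i * s')⁻¹ := by
  unfold Mm Ed
  generalize Y * (Kk Y s)⁻¹ = Z
  ext i j
  have h1 := (E_pos hd hs j).ne'
  have h2 := (E_pos hd hs' j).ne'
  simp only [Matrix.sub_apply, Matrix.smul_apply, mul_diagonal, diagonal_mul, Matrix.add_apply,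
    smul_eq_mul]
  rw [mul_left_comm, hsd]
  by_cases h : i = j
  · subst h
    simp only [one_apply_eq, diagonal_apply_eq]
    field_simp
    ring
  · simp only [one_apply_ne h, diagonal_apply_ne _ h]
    generalize 1 + d j * s = A at *
    field_simp
    ring

include hY

theorem step_rel : (1 - ζ • (Mm Y d s * diagonal fun i => sd i ^ 2)) * Mm Y d s' = Mm Y d s := by
  have h1 : (1 + (s' - s) • (Y * (Kk Y s)⁻¹)) * (Y * (Kk Y s')⁻¹) = Y * (Kk Y s)⁻¹ := by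
    rw [Y_comm hY hs', ← mul_assoc, one_add_Z_mul hY hs hs', Y_comm hY hs]
  have h2 : (diagonal fun i => (1 + d i * s')⁻¹) * Mm Y d s' =
      diagonal d - Y * (Kk Y s')⁻¹ * Ed d s' := by
    rw [Mm, mul_sub, ← mul_assoc, ← mul_assoc, inv_mul_Ed hd hs', one_mul, diagonal_mul_diagonal]
    congr 2
    funext i
    have := (E_pos hd hs' i).ne'
    field_simp
  rw [step_eq hd hs hs' hsd, mul_assoc, h2, mul_assoc, mul_sub, ← mul_assoc, h1, Mm, Ed, Ed]
  generalize Y * (Kk Y s)⁻¹ = Z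
  ext i j
  simp only [Matrix.sub_apply, Matrix.smul_apply, mul_diagonal, diagonal_mul, Matrix.add_apply,
    smul_eq_mul]
  by_cases h : i = j
  · subst h
    simp only [one_apply_eq, diagonal_apply_eq]
    ring
  · simp only [one_apply_ne h, diagonal_apply_ne _ h]
    ring

theorem step_w : (1 - ζ • (Mm Y d s * diagonal fun i => sd i ^ 2)) *ᵥ ww Y d w s' = ww Y d w s := by
  rw [step_eq hd hs hs' hsd, ww, ww, mulVec_mulVec, mul_assoc, inv_mul_Ed hd hs', mul_one,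
    mulVec_mulVec, mul_assoc, one_add_Z_mul hY hs hs', mulVec_mulVec]

theorem step_posDef (hζ : 0 ≤ ζ) : (1 - ζ • (diagonal sd * Mm Y d s * diagonal sd)).PosDef := by
  have h1 : 1 - ζ • (diagonal sd * Mm Y d s * diagonal sd) =
      (diagonal fun i => (1 + d i * s) / (1 + d i * s')) +
        ζ • ((diagonal fun i => (1 + d i * s) * sd i)ᴴ * (Y * (Kk Y s)⁻¹) *
          diagonal fun i => (1 + d i * s) * sd i) := by
    unfold Mm Ed
    generalize Y * (Kk Y s)⁻¹ = Z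
    ext i j
    simp only [Matrix.sub_apply, Matrix.smul_apply, mul_diagonal, diagonal_mul, Matrix.add_apply,
      smul_eq_mul,
      diagonal_conjTranspose, star_trivial]
    by_cases h : i = j
    · subst h
      have h1 := (E_pos hd hs i).ne'
      have h2 := (E_pos hd hs' i).ne'
      have h3 := hsd i
      simp only [one_apply_eq, diagonal_apply_eq]
      have h4 : (1 + d i * s) / (1 + d i * s') = 1 - ζ * sd i ^ 2 * (d i * (1 + d i * s)) := by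
        rw [h3]
        field_simp
        ring
      rw [h4]
      ring
    · simp only [one_apply_ne h, diagonal_apply_ne _ h]
      ring
  rw [h1]
  exact (PosDef.diagonal fun i => div_pos (E_pos hd hs i) (E_pos hd hs' i)).add_posSemidef
    (((Z_posSemidef hY hs).conjTranspose_mul_mul_same _).smul hζ)

theorem step_det : (1 - ζ • (diagonal sd * Mm Y d s * diagonal sd)).det =
    ((Kk Y s').det / ∏ i, (1 + d i * s')) / ((Kk Y s).det / ∏ i, (1 + d i * s)) := by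
  have h1 : (diagonal fun i => sd i ^ 2) = diagonal sd * diagonal sd := by
    simp only [diagonal_mul_diagonal, sq]
  rw [mul_assoc, ← mul_smul_comm, det_one_sub_mul_comm, smul_mul_assoc, mul_assoc, ← h1,
    step_eq hd hs hs' hsd, one_add_Z hY hs, det_mul, det_mul, det_mul, det_nonsing_inv,
    Ring.inverse_eq_inv', Ed, det_diagonal, det_diagonal, prod_inv_distrib]
  generalize ∏ i, (1 + d i * s) = A
  generalize ∏ i, (1 + d i * s') = A'
  simp only [div_eq_mul_inv, mul_inv, inv_inv]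
  ring

theorem step_v : ζ * ∑ i, ww Y d w s i * sd i ^ 2 * ww Y d w s' i =
    s' * (w ⬝ᵥ (Kk Y s')⁻¹ *ᵥ w) - s * (w ⬝ᵥ (Kk Y s)⁻¹ *ᵥ w) := by
  have h1 : ∀ {s : ℝ}, 0 ≤ s → w = (Kk Y s)⁻¹ *ᵥ w + s • Y *ᵥ (Kk Y s)⁻¹ *ᵥ w := fun hs => by
    have h := (congrArg (· *ᵥ w) (Kk_mul_inv hY hs)).trans (one_mulVec w)
    rw [← mulVec_mulVec, Kk.eq_1 Y, add_mulVec, one_mulVec, smul_mulVec] at h
    exact h.symm
  have h2 := h1 hs
  have h3 := h1 hs'
  unfold ww Ed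
  generalize (Kk Y s)⁻¹ *ᵥ w = a at *
  generalize (Kk Y s')⁻¹ *ᵥ w = a' at *
  have h4 : (Y *ᵥ a) ⬝ᵥ a' = (Y *ᵥ a') ⬝ᵥ a := by
    rw [dotProduct_comm, dotProduct_mulVec, ← mulVec_transpose,
      show Yᵀ = Y from hY.isHermitian]
  have h5 : w ⬝ᵥ a' = a ⬝ᵥ a' + s * (Y *ᵥ a) ⬝ᵥ a' := by
    rw [h2, add_dotProduct, smul_dotProduct, smul_eq_mul]
  have h6 : w ⬝ᵥ a = a ⬝ᵥ a' + s' * (Y *ᵥ a) ⬝ᵥ a' := by
    rw [h3, add_dotProduct, smul_dotProduct, smul_eq_mul, h4, dotProduct_comm]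
  have h7 : ζ * ∑ i, (diagonal (fun i => 1 + d i * s) *ᵥ a) i * sd i ^ 2 *
      (diagonal (fun i => 1 + d i * s') *ᵥ a') i = (s' - s) * a ⬝ᵥ a' := by
    rw [dotProduct, mul_sum, mul_sum]
    refine sum_congr rfl fun i _ => ?_
    have h8 := (E_pos hd hs i).ne'
    have h9 := (E_pos hd hs' i).ne'
    rw [mulVec_diagonal, mulVec_diagonal, mul_assoc, mul_left_comm, ← mul_assoc ζ, hsd]
    field_simp
  rw [h7, h5, h6]
  ring

end step

section compress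

variable {κ : Type} [Fintype κ] [DecidableEq κ] {P : Matrix κ ι ℝ} {c δ : κ → ℝ}
  (hP : Pᵀ * P = 1) (hc : Pᵀ *ᵥ c = 0) (hPc : P * Pᵀ = 1 - vecMulVec c c)
  (hδ : ∀ a, 0 ≤ δ a) (hs : 0 ≤ s)

include hδ in
theorem compress_posSemidef : (Pᵀ * diagonal δ * P).PosSemidef :=
  (PosSemidef.diagonal hδ).conjTranspose_mul_mul_same P

include hPc hδ hs in
theorem det_Kk : (Kk (Pᵀ * diagonal δ * P) s).det =
    (∏ a, (1 + δ a * s)) * (1 - s * ∑ a, c a ^ 2 * (δ a / (1 + δ a * s))) := by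
  have h1 : 1 + s • (diagonal δ * (1 - vecMulVec c c)) = Ed δ s * (1 +
      replicateCol Unit (fun a => -(s * (δ a / (1 + δ a * s)) * c a)) * replicateRow Unit c) := by
    rw [← vecMulVec_eq]
    ext a b
    have := (E_pos hδ hs a).ne'
    have : 1 + s * δ a ≠ 0 := by rwa [mul_comm]
    simp only [Ed, Matrix.add_apply, Matrix.smul_apply, diagonal_mul, Matrix.sub_apply,
      vecMulVec_apply, smul_eq_mul]
    field_simp
    ring
  rw [Kk, Matrix.mul_assoc, ← Matrix.smul_mul, det_one_add_mul_comm, Matrix.mul_smul,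
    Matrix.mul_assoc, hPc, h1,
    det_mul, det_one_add_replicateCol_mul_replicateRow, Ed, det_diagonal, dotProduct, mul_sum,
    sub_eq_add_neg, ← sum_neg_distrib]
  congr 2
  exact sum_congr rfl fun a _ => by ring

include hP hc hPc hδ hs in
theorem schur (m : ℝ) : (∑ a, c a ^ 2 / (1 + δ a * s)) * (s * ((Pᵀ *ᵥ fun a => (m - δ a) * c a) ⬝ᵥ
      (Kk (Pᵀ * diagonal δ * P) s)⁻¹ *ᵥ Pᵀ *ᵥ fun a => (m - δ a) * c a)) =
    ∑ a, (m - δ a) * c a ^ 2 / (1 + δ a * s) -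
      (∑ a, (m - δ a) * c a ^ 2) * ∑ a, c a ^ 2 / (1 + δ a * s) := by
  set D := ∑ a, c a ^ 2 / (1 + δ a * s) with hD
  set g : κ → ℝ := fun a => c a / (1 + δ a * s) with hg
  set u : κ → ℝ := fun a => (m - δ a) * c a with hu
  have h1 : P *ᵥ Pᵀ *ᵥ g = g - D • c := by
    rw [mulVec_mulVec, hPc, sub_mulVec, one_mulVec, vecMulVec_mulVec]
    congr 1
    funext a
    simp only [hD, hg, dotProduct, Pi.smul_apply, smul_eq_mul, MulOpposite.smul_eq_mul_unop,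
      MulOpposite.unop_op, sq, mul_div_assoc, mul_comm (c a)]
  have h2 : Kk (Pᵀ * diagonal δ * P) s = Pᵀ * Ed δ s * P := by
    have : Ed δ s = 1 + s • diagonal δ := by
      rw [Ed, ← diagonal_one, ← diagonal_smul, diagonal_add]
      congr 1
      funext a
      simp [mul_comm]
    rw [this, Kk, Matrix.mul_add, Matrix.add_mul, Matrix.mul_one, hP, Matrix.mul_smul,
      Matrix.smul_mul]
  have h3 : Ed δ s *ᵥ (g - D • c) = (1 - D - D * s * m) • c + (D * s) • u := by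
    funext a
    have := (E_pos hδ hs a).ne'
    simp only [Ed, mulVec_diagonal, hg, hu, Pi.sub_apply, Pi.add_apply, Pi.smul_apply, smul_eq_mul]
    field_simp
    ring
  have h4 : Kk (Pᵀ * diagonal δ * P) s *ᵥ Pᵀ *ᵥ g = (D * s) • Pᵀ *ᵥ u := by
    rw [h2, ← mulVec_mulVec, ← mulVec_mulVec, h1, h3, mulVec_add, mulVec_smul, mulVec_smul, hc,
      smul_zero, zero_add]
  have h5 : (D * s) • (Kk (Pᵀ * diagonal δ * P) s)⁻¹ *ᵥ Pᵀ *ᵥ u = Pᵀ *ᵥ g := by
    rw [← mulVec_smul, ← h4, mulVec_mulVec, Kk_inv_mul (compress_posSemidef hδ) hs, one_mulVec]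
  rw [← mul_assoc, ← smul_eq_mul, ← dotProduct_smul, h5, mulVec_transpose, ← dotProduct_mulVec, h1,
    dotProduct_sub, dotProduct_smul, smul_eq_mul, mul_comm D]
  simp only [dotProduct, hu, hg, sq, mul_div_assoc, mul_assoc]

include hP in
theorem quad_eq (m : ℝ) (d z : ι → ℝ) {e : ℝ} (he : e ^ 2 = 1) :
    ∑ a, (m - δ a) * (e * c a + (P *ᵥ z) a) ^ 2 / 2 - ∑ b, (m - d b) * z b ^ 2 / 2 =
      (∑ a, (m - δ a) * c a ^ 2) / 2 + e * ((Pᵀ *ᵥ fun a => (m - δ a) * c a) ⬝ᵥ z) +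
        z ⬝ᵥ (diagonal d - Pᵀ * diagonal δ * P) *ᵥ z / 2 := by
  have h1 : ∑ a, (P *ᵥ z) a ^ 2 = ∑ b, z b ^ 2 := by
    have : (P *ᵥ z) ⬝ᵥ (P *ᵥ z) = z ⬝ᵥ z := by
      rw [dotProduct_mulVec, ← mulVec_transpose, mulVec_mulVec, hP, one_mulVec]
    simpa only [dotProduct, ← sq] using this
  have h2 : z ⬝ᵥ (Pᵀ * diagonal δ * P) *ᵥ z = ∑ a, δ a * (P *ᵥ z) a ^ 2 := by
    rw [← mulVec_mulVec, ← mulVec_mulVec, dotProduct_mulVec, vecMul_transpose]
    exact sum_congr rfl fun a _ => by rw [mulVec_diagonal]; ring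
  have h3 : z ⬝ᵥ diagonal d *ᵥ z = ∑ b, d b * z b ^ 2 :=
    sum_congr rfl fun a _ => by rw [mulVec_diagonal]; ring
  have h4 : ∀ a, (m - δ a) * (e * c a + (P *ᵥ z) a) ^ 2 / 2 = (m - δ a) * c a ^ 2 / 2 +
      e * ((m - δ a) * c a * (P *ᵥ z) a) + (m * (P *ᵥ z) a ^ 2 - δ a * (P *ᵥ z) a ^ 2) / 2 :=
    fun a => by linear_combination (m - δ a) * c a ^ 2 / 2 * he
  rw [sub_mulVec, dotProduct_sub, h2, h3, mulVec_transpose, ← dotProduct_mulVec, dotProduct]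
  simp only [h4, sub_mul m (d _), sum_add_distrib, ← sum_div, sum_sub_distrib, ← mul_sum, h1]
  ring

end compress

end Crest.Agent.R164.RsbMat
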