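import Crest.Agent.R164.RsbEval
import Crest.Agent.R164.Spec
import Crest.Agent.R164.RsbMatAux

/-! # Row 164: the matrices of the cavity computation -/

set_option autoImplicit false

namespace Crest.Agent.R164

open MeasureTheory ProbabilityTheory Real Finset Matrix

namespace RsbMat

variable {n : ℕ}

theorem exists_frame (a₀ : Fin (n + 1)) : ∃ P : Matrix (Fin (n + 1)) (Fin n) ℝ,
    Pᵀ * P = 1 ∧ Pᵀ *ᵥ v0 n = 0 ∧ P * Pᵀ = 1 - vecMulVec (v0 n) (v0 n) ∧
      ∀ ε z a, uv a₀ (v0 n) ε z a = sg ε * v0 n a + (P *ᵥ z) a := by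
  have h1 : (Bv a₀ (v0 n))ᵀ * Bv a₀ (v0 n) = 1 := (mem_orthogonalGroup_iff' _ _).1 (hh_mem _)
  have h2 : Bv a₀ (v0 n) * (Bv a₀ (v0 n))ᵀ = 1 := (mem_orthogonalGroup_iff _ _).1 (hh_mem _)
  have h3 : ∀ a, v0 n a = Bv a₀ (v0 n) a a₀ := fun a => by
    have h := hh_swap (a := Pi.single a₀ 1) (b := v0 n) (by
      have : (n + 1 : ℝ) ≠ 0 := by positivity
      simp [v0, Pi.single_apply, sq_sqrt (show (0 : ℝ) ≤ n + 1 by positivity), this])
    rw [← congrFun h a, mulVec_single_one]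
    rfl
  unfold uv
  generalize Bv a₀ (v0 n) = B at *
  generalize v0 n = c at *
  refine ⟨B.submatrix id a₀.succAbove, ?_, ?_, ?_, fun ε z a => ?_⟩
  · ext b b'
    simpa [mul_apply, one_apply] using congrFun (congrFun h1 (a₀.succAbove b)) (a₀.succAbove b')
  · ext b
    simpa [mul_apply, mulVec, dotProduct, h3, one_apply] using
      congrFun (congrFun h1 (a₀.succAbove b)) a₀
  · ext a a'
    rw [← h2]
    simp [mul_apply, vecMulVec_apply, h3, Fin.sum_univ_succAbove _ a₀]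
  · simp [mulVec, dotProduct, h3, Fin.sum_univ_succAbove _ a₀, mul_comm]

theorem v0_sq (a : Fin (n + 1)) : v0 n a ^ 2 = 1 / (n + 1) := sq_sqrt (by positivity)

end RsbMat

open RsbMat in
theorem rsb_exact {n k : ℕ} {lam : Fin (n + 1) → ℝ} (hlam : Monotone lam) (ex : Expo (k + 2))
    {s : ℕ → ℝ} (hs : IsSeq n k s) (a₀ : Fin (n + 1)) (b : ℝ) {y : ℕ → ℝ} (hy : y 0 = 0) :
    (rLev ex n).Int (fun ω => frR b y ω + lV lam a₀ (v0 n) (rS ω) (zR (sdv lam ex s a₀) ω)) ∧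
      (rLev ex n).X0 (fun ω => frR b y ω + lV lam a₀ (v0 n) (rS ω) (zR (sdv lam ex s a₀) ω)) =
        cst lam ex k s a₀ + oX ex b (fun l => √(vv lam ex s l)) y := by
  obtain ⟨P, hP, hc, hPc, huv⟩ := exists_frame a₀
  have hδ := dl_nonneg hlam
  have hlm : ∀ a, lam (Fin.last n) - dl lam a = lam a := fun a => sub_sub_cancel _ _
  have hY := compress_posSemidef (P := P) hδ
  have hdet := fun t ht => det_Kk (s := t) hPc hδ ht
  have hsch := fun t ht => schur (s := t) hP hc hPc hδ ht (lam (Fin.last n))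
  have hquad := fun z ε => quad_eq (c := v0 n) (δ := dl lam) hP (lam (Fin.last n))
    (fun b => dl lam (a₀.succAbove b)) z (e := sg ε) (by cases ε <;> simp [sg])
  generalize Pᵀ * diagonal (dl lam) * P = Y at hY hdet hsch hquad
  generalize (Pᵀ *ᵥ fun a => (lam (Fin.last n) - dl lam a) * v0 n a) = w at hsch hquad
  have hD : ∀ t, ∑ a, v0 n a ^ 2 / (1 + dl lam a * t) = Dn lam t := fun t => by
    simp only [Dn, v0_sq, sum_div, div_right_comm (1 : ℝ) (n + 1)]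
  have hR0 : ∑ a, lam a * v0 n a ^ 2 = Rs lam 0 := by
    simp only [Rs_zero, v0_sq, sum_div, mul_one_div]
  simp only [hlm, hD, hR0] at hsch hquad
  have hr : ∀ t, 0 ≤ t → t * (w ⬝ᵥ (Kk Y t)⁻¹ *ᵥ w) = Rs lam t - Rs lam 0 := fun t ht => by
    have h1 := (spec_Dn_pos hlam ht).ne'
    refine mul_left_cancel₀ h1 ((hsch t ht).trans ?_)
    rw [mul_sub, Rs.eq_1 lam t, mul_div_cancel₀ _ h1, mul_comm]
    simp only [v0_sq, sum_div, mul_one_div, div_right_comm _ (n + 1 : ℝ)]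
  have hl : ∀ t, 0 ≤ t → (Kk Y t).det / ∏ b, (1 + dl lam (a₀.succAbove b) * t) =
      (1 + dl lam a₀ * t) * Dn lam t := fun t ht => by
    have h1 : ∑ a, v0 n a ^ 2 * (dl lam a / (1 + dl lam a * t)) = specM lam t := by
      simp only [specM, v0_sq, sum_div, one_div_mul_eq_div]
    rw [hdet t ht, h1, ← eq_sub_of_add_eq (spec_Dn_add hlam ht), Fin.prod_univ_succAbove _ a₀,
      mul_right_comm, mul_div_cancel_right₀ _ (prod_pos fun b _ => spec_pos hlam _ ht).ne']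
  have hd : ∀ b, 0 ≤ dl lam (a₀.succAbove b) := fun b => hδ _
  have h0 : ∀ l ∈ Icc 1 (k + 1), 0 ≤ s l := fun l hl => (hs.nonneg (mem_Icc.1 hl).2).1
  have h1 : ∀ l ∈ Icc 1 (k + 2), 0 ≤ s (l - 1) := fun l hl =>
    (hs.nonneg (by have := mem_Icc.1 hl; omega)).1
  have h1' : ∀ l ∈ Icc 1 (k + 1), 0 ≤ s (l - 1) := fun l hl =>
    h1 l (Icc_subset_Icc_right (Nat.le_succ _) hl)
  have hsd : ∀ l ∈ Icc 1 (k + 1), ∀ b, ex.ζ l * sdv lam ex s a₀ l b ^ 2 = (s (l - 1) - s l) /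
      ((1 + dl lam (a₀.succAbove b) * s (l - 1)) * (1 + dl lam (a₀.succAbove b) * s l)) :=
    fun l hl b => by
      rw [sdv, sq_sqrt, sg2, mul_div_cancel₀ _ (ex.pos l).ne',
        spec_phi_sub hlam _ (h0 l hl) (h1' l hl)]
      exact div_nonneg (sub_nonneg.2 (phi_mono hlam _ (h0 l hl)
        (hs.spec_anti (Nat.sub_le l 1) (mem_Icc.1 hl).2)).1) (ex.pos l).le
  have key := rsb_eval ex (fun l => Mm Y (fun b => dl lam (a₀.succAbove b)) (s (l - 1)))
    (fun l => ww Y (fun b => dl lam (a₀.succAbove b)) w (s (l - 1))) (sdv lam ex s a₀)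
    (fun l hl => Mm_isSymm hY (h1 l hl))
    (fun l hl => step_posDef hY hd (h0 l hl) (h1' l hl) (hsd l hl) (ex.pos l).le)
    (fun l hl => step_rel hY hd (h0 l hl) (h1' l hl) (hsd l hl))
    (fun l hl => step_w hY hd (h0 l hl) (h1' l hl) (hsd l hl)) (vv lam ex s) (vv_zero ex s)
    (fun l hl => by
      rw [vv, div_eq_iff (ex.pos l).ne', mul_comm]
      refine Eq.trans ?_ (step_v hY hd (h0 l hl) (h1' l hl) (hsd l hl)).symm
      rw [hr _ (h0 l hl), hr _ (h1' l hl), sub_sub_sub_cancel_right])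
    b (Rs lam 0 / 2) hy
    (fun ω => frR b y ω + lV lam a₀ (v0 n) (rS ω) (zR (sdv lam ex s a₀) ω)) fun ω => by
      rw [show k + 2 - 1 = k + 1 from rfl, hs.2.2, Mm_zero, ww_zero, ← hquad]
      simp only [lV, huv]
  refine ⟨key.1, key.2.trans ?_⟩
  rw [cst, vv, ex.top (k + 1) le_rfl, hs.2.2, Nat.add_sub_cancel, div_one, ← add_div,
    add_sub_cancel]
  congr 2
  refine sum_congr rfl fun l hl' => ?_
  rw [Nat.add_sub_cancel, step_det hY hd (h0 l hl') (h1' l hl') (hsd l hl'), hl _ (h0 l hl'),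
    hl _ (h1' l hl'), log_div, lgd, lgd]
  exacts [(mul_pos (spec_pos hlam _ (h1' l hl')) (spec_Dn_pos hlam (h1' l hl'))).ne',
    (mul_pos (spec_pos hlam _ (h0 l hl')) (spec_Dn_pos hlam (h0 l hl'))).ne']

end Crest.Agent.R164
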