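import Crest.Agent.R164.NestDer
import Crest.Agent.R164.Overlap

/-! # Row 164: auxiliary estimates for the Schwinger-Dyson identities -/

set_option autoImplicit false
set_option linter.unusedVariables false
set_option linter.unusedSectionVars false

namespace Crest.Agent.R164

open MeasureTheory ProbabilityTheory Real Finset

lemma sd_dep_mul {K : ℕ} {Ω : Type} {l : ℕ} {f g : Cfg K Ω → ℝ} (hf : Dep l f) (hg : Dep l g) :
    Dep l (fun ω => f ω * g ω) := fun ω ω' h => by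
  simp only [hf ω ω' h, hg ω ω' h]

namespace Lev

variable {K : ℕ} {Ω ι : Type} [MeasurableSpace Ω] {L : Lev K Ω} {H f g : Cfg K Ω → ℝ}
  {I J : Finset ι} {y : ι → Cfg K Ω → ℝ}

lemma sd_add (hH : L.Lin H) (hf : L.Nice f) (hg : L.Nice g) :
    L.E0 H (fun ω => f ω + g ω) = L.E0 H f + L.E0 H g := E_add hH hf hg 0 _

lemma sd_sub (hH : L.Lin H) (hf : L.Nice f) (hg : L.Nice g) :
    L.E0 H (fun ω => f ω - g ω) = L.E0 H f - L.E0 H g := E_sub hH hf hg 0 _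

lemma sd_cmul (c : ℝ) (H f : Cfg K Ω → ℝ) : L.E0 H (fun ω => c * f ω) = c * L.E0 H f :=
  E_const_mul 0 c H f _

lemma sd_div (c : ℝ) (H f : Cfg K Ω → ℝ) : L.E0 H (fun ω => f ω / c) = L.E0 H f / c :=
  E_div_const 0 c H f _

lemma sd_const (hH : L.Lin H) (c : ℝ) : L.E0 H (fun _ => c) = c := E_const hH 0 c _

lemma sd_sum {α : Type} (hH : L.Lin H) (s : Finset α) {F : α → Cfg K Ω → ℝ}
    (h : ∀ i ∈ s, L.Nice (F i)) : L.E0 H (fun ω => ∑ i ∈ s, F i ω) = ∑ i ∈ s, L.E0 H (F i) :=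
  E_sum hH s h 0 _

lemma sd_mono (hH : L.Lin H) (hf : L.Nice f) (hg : L.Nice g) (h : ∀ ω, f ω ≤ g ω) :
    L.E0 H f ≤ L.E0 H g := E_mono hH hf hg h 0 _

lemma sd_congr (h : ∀ ω, f ω = g ω) : L.E0 H f = L.E0 H g := by
  rw [show f = g from funext h]

/-- a factor depending on the levels `< l` allows to condition the other factor -/
lemma sd_tower (hH : L.Lin H) {l : ℕ} (hg : L.Nice g) (hd : Dep l g) (hf : L.Nice f) :
    L.E0 H (fun ω => g ω * f ω) = L.E0 H (fun ω => g ω * L.E l H f ω) := by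
  have h1 : L.E0 H (fun ω => g ω * f ω) = L.E0 H (L.E l H (fun ω => g ω * f ω)) :=
    (E_E hH (hg.mul hf) (Nat.zero_le l) _).symm
  rw [h1]
  exact sd_congr fun ω => E_dep_mul hd H f ω

lemma sd_St_lin (hH : L.Lin H) (hf : L.Nice f) (hg : L.Nice g) (c : ℝ) (l : ℕ) (ω : Cfg K Ω) :
    L.St l H (fun ω => c * f ω + g ω) ω = c * L.St l H f ω + L.St l H g ω := by
  unfold St
  have : ∀ e, L.E (e + 1) H (fun ω => c * f ω + g ω) ω
      = c * L.E (e + 1) H f ω + L.E (e + 1) H g ω := by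
    intro e
    rw [E_add hH (hf.const_mul c) hg, E_const_mul]
  simp only [this, mul_add, Finset.sum_add_distrib, mul_sub, Finset.mul_sum]
  have : ∑ e ∈ Ico l (K - 1), L.Δ e * (c * L.E (e + 1) H f ω)
      = ∑ e ∈ Ico l (K - 1), c * (L.Δ e * L.E (e + 1) H f ω) :=
    Finset.sum_congr rfl fun e _ => by ring
  rw [this]
  ring

lemma sd_S_lin (hH : L.Lin H) (hf : L.Nice f) (hg : L.Nice g) (c : ℝ) (l : ℕ) (ω : Cfg K Ω) :
    L.S l H (fun ω => c * f ω + g ω) ω = c * L.S l H f ω + L.S l H g ω := by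
  unfold S
  have : ∀ e, L.E e H (fun ω => c * f ω + g ω) ω = c * L.E e H f ω + L.E e H g ω := by
    intro e
    rw [E_add hH (hf.const_mul c) hg, E_const_mul]
  simp only [this]
  rw [Finset.mul_sum, ← Finset.sum_add_distrib]
  exact Finset.sum_congr rfl fun e _ => by ring

lemma sd_card_pos (hI : I.Nonempty) : (0 : ℝ) < I.card := by
  exact_mod_cast hI.card_pos

lemma sd_sum_sq_le (hI : I.Nonempty) {κ : ℝ} (hκ : ∀ ω, rr I y ω ≤ κ) (ω : Cfg K Ω) :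
    ∑ i ∈ I, y i ω ^ 2 ≤ κ * I.card := by
  have := hκ ω
  unfold rr at this
  rwa [div_le_iff₀ (sd_card_pos hI)] at this

lemma sd_κ_nonneg (L : Lev K Ω) {κ : ℝ} (hκ : ∀ ω, rr I y ω ≤ κ) : 0 ≤ κ := by
  refine le_trans ?_ (hκ L.pt)
  unfold rr
  positivity

lemma sd_m_sq_le (hH : L.Lin H) (hI : I.Nonempty) (hy : ∀ i ∈ I, L.Nice (y i)) {κ : ℝ}
    (hκ : ∀ ω, rr I y ω ≤ κ) (l : ℕ) (ω : Cfg K Ω) :
    ∑ i ∈ I, L.E l H (y i) ω ^ 2 ≤ κ * I.card := by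
  calc ∑ i ∈ I, L.E l H (y i) ω ^ 2 ≤ ∑ i ∈ I, L.E l H (fun ω => y i ω ^ 2) ω :=
        Finset.sum_le_sum fun i hi => sq_E_le hH (hy i hi) l ω
    _ = L.E l H (fun ω => ∑ i ∈ I, y i ω ^ 2) ω :=
        (E_sum hH I (fun i hi => (hy i hi).pow 2) l ω).symm
    _ ≤ L.E l H (fun _ => κ * I.card) ω :=
        E_mono hH (Nice.sum I fun i hi => (hy i hi).pow 2) (nice_const _)
          (sd_sum_sq_le hI hκ) l ω
    _ = _ := E_const hH l _ ω

/-- normalised scalar products of two short vectors are bounded -/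
lemma sd_dot_sq_le (hI : I.Nonempty) {κ : ℝ} (hκ : 0 ≤ κ) (u v : ι → ℝ)
    (hu : ∑ i ∈ I, u i ^ 2 ≤ κ * I.card) (hv : ∑ i ∈ I, v i ^ 2 ≤ κ * I.card) :
    ((∑ i ∈ I, u i * v i) / I.card) ^ 2 ≤ κ ^ 2 := by
  have hn := sd_card_pos hI
  rw [div_pow, div_le_iff₀ (by positivity)]
  calc (∑ i ∈ I, u i * v i) ^ 2 ≤ (∑ i ∈ I, u i ^ 2) * ∑ i ∈ I, v i ^ 2 :=
        Finset.sum_mul_sq_le_sq_mul_sq I u v
    _ ≤ (κ * I.card) * (κ * I.card) :=
        mul_le_mul hu hv (Finset.sum_nonneg fun i _ => sq_nonneg _) (by positivity)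
    _ = _ := by ring

/-- the one-replica observable -/
noncomputable def sdN (L : Lev K Ω) (H : Cfg K Ω → ℝ) (I : Finset ι) (y : ι → Cfg K Ω → ℝ) (e : ℕ)
    (ω : Cfg K Ω) : ℝ := (∑ i ∈ I, y i ω * L.E (e + 1) H (y i) ω) / I.card

lemma sd_nice_N (hH : L.Lin H) (hy : ∀ i ∈ I, L.Nice (y i)) (e : ℕ) : L.Nice (L.sdN H I y e) :=
  Nice.div_const _ (Nice.sum I fun i hi => (hy i hi).mul (Nice.E hH (hy i hi) _))

lemma sd_E_ym (hH : L.Lin H) (hf : L.Nice f) {l l' : ℕ} (h : l ≤ l') :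
    L.E0 H (fun ω => L.E l' H f ω * L.E l H f ω) = L.E0 H (fun ω => L.E l H f ω ^ 2) := by
  have h1 := sd_tower hH (Nice.E hH hf l) (dep_E l H f) (Nice.E hH hf l')
  rw [sd_congr (g := fun ω => L.E l H f ω * L.E l' H f ω) fun ω => mul_comm _ _, h1]
  exact sd_congr fun ω => by rw [E_E hH hf h, sq]

lemma sd_E_ym' (hH : L.Lin H) (hf : L.Nice f) (l : ℕ) :
    L.E0 H (fun ω => f ω * L.E l H f ω) = L.E0 H (fun ω => L.E l H f ω ^ 2) := by
  have h1 := sd_tower hH (Nice.E hH hf l) (dep_E l H f) hf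
  rw [sd_congr (g := fun ω => L.E l H f ω * f ω) fun ω => mul_comm _ _, h1]
  exact sd_congr fun ω => by rw [sq]

lemma sd_qq_eq (hH : L.Lin H) (hy : ∀ i ∈ I, L.Nice (y i)) (e : ℕ) :
    L.qq H I y e = (∑ i ∈ I, L.E0 H (fun ω => L.E (e + 1) H (y i) ω ^ 2)) / I.card := by
  unfold qq
  rw [sd_sum hH I fun i hi => (Nice.E hH (hy i hi) _).pow 2]

lemma sd_dd_eq (hH : L.Lin H) (hy : ∀ i ∈ I, L.Nice (y i)) :
    L.dd H I y = (∑ i ∈ I, L.E0 H (fun ω => y i ω ^ 2)) / I.card := by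
  unfold dd rr
  rw [sd_div, sd_sum hH I fun i hi => (hy i hi).pow 2]

lemma sd_E_N (hH : L.Lin H) (hy : ∀ i ∈ I, L.Nice (y i)) (e : ℕ) :
    L.E0 H (L.sdN H I y e) = L.qq H I y e := by
  rw [sd_qq_eq hH hy]
  unfold sdN
  rw [sd_div, sd_sum hH I fun i hi => (hy i hi).mul (Nice.E hH (hy i hi) _)]
  congr 1
  exact Finset.sum_congr rfl fun i hi => sd_E_ym' hH (hy i hi) _

lemma sd_var_le_sq (hH : L.Lin H) (hf : L.Nice f) {κ : ℝ} (h : ∀ ω, f ω ^ 2 ≤ κ ^ 2) :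
    L.Var H f ≤ κ ^ 2 := by
  unfold Var
  have h1 := sd_mono hH (hf.pow 2) (nice_const _) h
  rw [sd_const hH] at h1
  nlinarith [sq_nonneg (L.E0 H f)]

lemma sd_var_N_le (hH : L.Lin H) (hI : I.Nonempty) (hy : ∀ i ∈ I, L.Nice (y i)) {κ : ℝ}
    (hκ : ∀ ω, rr I y ω ≤ κ) (e : ℕ) : L.Var H (L.sdN H I y e) ≤ κ ^ 2 :=
  sd_var_le_sq hH (sd_nice_N hH hy e) fun ω =>
    sd_dot_sq_le hI (sd_κ_nonneg L hκ) _ _ (sd_sum_sq_le hI hκ ω) (sd_m_sq_le hH hI hy hκ _ ω)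

lemma sd_var_r_le (hH : L.Lin H) (hy : ∀ i ∈ I, L.Nice (y i)) {κ : ℝ}
    (hκ : ∀ ω, rr I y ω ≤ κ) : L.Var H (rr I y) ≤ κ ^ 2 :=
  sd_var_le_sq hH (nice_rr hy) fun ω =>
    pow_le_pow_left₀ (by unfold rr; positivity) (hκ ω) 2

lemma sd_var_N_le_VV (hH : L.Lin H) (hy : ∀ i ∈ I, L.Nice (y i)) (e : ℕ) (c : ℝ) :
    L.Var H (L.sdN H I y e) ≤ √(L.VV H I y e c) ^ 2 := by
  rw [Real.sq_sqrt (VV_nonneg hH hy e c)]
  have h1 := var_N_le_VV hH hy e c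
  have h2 := E0_sub_sq hH (sd_nice_N hH hy e) c
  have h3 : L.E0 H (fun ω => (L.sdN H I y e ω - c) ^ 2) ≤ L.VV H I y e c := h1
  nlinarith [sq_nonneg (L.E0 H (L.sdN H I y e) - c)]

lemma sd_cov (hH : L.Lin H) (hf : L.Nice f) (hg : L.Nice g) {a b : ℝ} (ha : 0 ≤ a) (hb : 0 ≤ b)
    (h1 : L.Var H f ≤ a ^ 2) (h2 : L.Var H g ≤ b ^ 2) :
    |L.E0 H (fun ω => f ω * g ω) - L.E0 H f * L.E0 H g| ≤ a * b := by
  refine abs_le_of_sq_le_sq' ?_ (mul_nonneg ha hb) |> fun h => abs_le.2 h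
  calc _ ≤ L.Var H f * L.Var H g := cov_sq_le hH hf hg
    _ ≤ a ^ 2 * b ^ 2 := mul_le_mul h1 h2 (Var_nonneg hH hg) (sq_nonneg _)
    _ = _ := by ring

/-- double sums of product observables -/
lemma sd_sum_prod (hH : L.Lin H) (hI : I.Nonempty) (hJ : J.Nonempty) {F G : ι → Cfg K Ω → ℝ}
    (hF : ∀ i ∈ I, L.Nice (F i)) (hG : ∀ j ∈ J, L.Nice (G j)) :
    ∑ i ∈ I, ∑ j ∈ J, L.E0 H (fun ω => F i ω * G j ω) = I.card * J.card *
      L.E0 H (fun ω => (∑ i ∈ I, F i ω) / I.card * ((∑ j ∈ J, G j ω) / J.card)) := by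
  have hn := sd_card_pos hI
  have hn' := sd_card_pos hJ
  rw [← sd_cmul]
  rw [sd_congr (g := fun ω => ∑ i ∈ I, ∑ j ∈ J, F i ω * G j ω) fun ω => by
    rw [← Finset.sum_mul_sum]; field_simp]
  rw [sd_sum hH I fun i hi => Nice.sum J fun j hj => (hF i hi).mul (hG j hj)]
  exact Finset.sum_congr rfl fun i hi => (sd_sum hH J fun j hj => (hF i hi).mul (hG j hj)).symm

/-- the perturbation terms -/
lemma sd_pert (hH : L.Lin H) (hI : I.Nonempty) (hJ : J.Nonempty) {u w : ι → Cfg K Ω → ℝ}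
    {p s : ι → ι → Cfg K Ω → ℝ} {κ ε : ℝ} (hκ : 0 ≤ κ) (hε : 0 ≤ ε)
    (hu : ∀ i ∈ I, L.Nice (u i)) (hw : ∀ j ∈ J, L.Nice (w j))
    (hu2 : ∀ ω, ∑ i ∈ I, u i ω ^ 2 ≤ κ * I.card) (hw2 : ∀ ω, ∑ j ∈ J, w j ω ^ 2 ≤ κ * J.card)
    (hp : ∀ i ∈ I, ∀ j ∈ J, L.Nice (p i j)) (hs : ∀ i ∈ I, ∀ j ∈ J, L.Nice (s i j))
    (hsp : ∀ i ∈ I, ∀ j ∈ J, L.E0 H (fun ω => s i j ω ^ 2) ≤ L.E0 H (fun ω => p i j ω ^ 2))
    (hpert : L.E0 H (fun ω => ∑ i ∈ I, ∑ j ∈ J, p i j ω ^ 2) ≤ ε ^ 2 * I.card * J.card) :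
    |∑ i ∈ I, ∑ j ∈ J, L.E0 H (fun ω => u i ω * w j ω * s i j ω)| ≤
      κ * ε * (I.card * J.card) := by
  have hn := sd_card_pos hI
  have hn' := sd_card_pos hJ
  have hF : ∀ x ∈ I ×ˢ J, L.Nice (fun ω => u x.1 ω * w x.2 ω) := fun x hx =>
    (hu _ (Finset.mem_product.1 hx).1).mul (hw _ (Finset.mem_product.1 hx).2)
  have hG : ∀ x ∈ I ×ˢ J, L.Nice (s x.1 x.2) := fun x hx =>
    hs _ (Finset.mem_product.1 hx).1 _ (Finset.mem_product.1 hx).2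
  have h1 := E_sum_mul_sq_le hH (I ×ˢ J) (F := fun x ω => u x.1 ω * w x.2 ω)
    (G := fun x => s x.1 x.2) hF hG 0 L.pt
  have e1 : L.E 0 H (fun ω => ∑ x ∈ I ×ˢ J, u x.1 ω * w x.2 ω * s x.1 x.2 ω) L.pt
      = ∑ i ∈ I, ∑ j ∈ J, L.E0 H (fun ω => u i ω * w j ω * s i j ω) := by
    rw [E_sum hH _ (fun x hx => (hF x hx).mul (hG x hx)), Finset.sum_product]
    rfl
  have e2 : L.E 0 H (fun ω => ∑ x ∈ I ×ˢ J, (u x.1 ω * w x.2 ω) ^ 2) L.pt
      ≤ κ ^ 2 * (I.card * J.card) := by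
    refine le_trans (E_mono hH (Nice.sum _ fun x hx => (hF x hx).pow 2)
      (nice_const (κ ^ 2 * (I.card * J.card))) (fun ω => ?_) 0 _) (E_const hH 0 _ _).le
    calc ∑ x ∈ I ×ˢ J, (u x.1 ω * w x.2 ω) ^ 2
        = (∑ i ∈ I, u i ω ^ 2) * ∑ j ∈ J, w j ω ^ 2 := by
          rw [Finset.sum_product, Finset.sum_mul_sum]
          exact Finset.sum_congr rfl fun i _ => Finset.sum_congr rfl fun j _ => by ring
      _ ≤ (κ * I.card) * (κ * J.card) :=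
          mul_le_mul (hu2 ω) (hw2 ω) (Finset.sum_nonneg fun i _ => sq_nonneg _) (by positivity)
      _ = _ := by ring
  have e3 : L.E 0 H (fun ω => ∑ x ∈ I ×ˢ J, s x.1 x.2 ω ^ 2) L.pt ≤ ε ^ 2 * I.card * J.card := by
    refine le_trans ?_ hpert
    rw [E_sum hH _ (fun x hx => (hG x hx).pow 2), Finset.sum_product,
      sd_sum hH I fun i hi => Nice.sum J fun j hj => (hp i hi j hj).pow 2]
    refine Finset.sum_le_sum fun i hi => ?_
    rw [sd_sum hH J fun j hj => (hp i hi j hj).pow 2]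
    exact Finset.sum_le_sum fun j hj => hsp i hi j hj
  rw [e1] at h1
  refine abs_le.2 (abs_le_of_sq_le_sq' ?_ (by positivity))
  refine le_trans h1 (le_trans (mul_le_mul e2 e3
    (E_nonneg (fun ω => Finset.sum_nonneg fun x _ => sq_nonneg _) 0 _) (by positivity)) ?_)
  exact le_of_eq (by ring)

/-! ### The two-replica estimate -/

/-- bilinear form of the conditional second moments -/
lemma sd_bilin (hH : L.Lin H) (hyI : ∀ i ∈ I, L.Nice (y i)) (hyJ : ∀ j ∈ J, L.Nice (y j))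
    (u w : ι → ℝ) (l : ℕ) (ω : Cfg K Ω) :
    L.E l H (fun ω' => (∑ i ∈ I, u i * y i ω') * ∑ j ∈ J, w j * y j ω') ω =
      ∑ i ∈ I, ∑ j ∈ J, u i * w j * L.E l H (fun ω' => y i ω' * y j ω') ω := by
  have e : (fun ω' => (∑ i ∈ I, u i * y i ω') * ∑ j ∈ J, w j * y j ω')
      = fun ω' => ∑ i ∈ I, ∑ j ∈ J, u i * w j * (y i ω' * y j ω') := by
    funext ω'
    rw [Finset.sum_mul_sum]
    exact Finset.sum_congr rfl fun i _ => Finset.sum_congr rfl fun j _ => by ring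
  rw [e, E_sum hH I fun i hi => Nice.sum J fun j hj => ((hyI i hi).mul (hyJ j hj)).const_mul _]
  refine Finset.sum_congr rfl fun i hi => ?_
  rw [E_sum hH J fun j hj => ((hyI i hi).mul (hyJ j hj)).const_mul _]
  exact Finset.sum_congr rfl fun j _ => E_const_mul _ _ _ _ _

lemma sd_nice_dot (hy : ∀ i ∈ I, L.Nice (y i)) (u : ι → ℝ) :
    L.Nice (fun ω' => ∑ i ∈ I, u i * y i ω') :=
  Nice.sum I fun i hi => (hy i hi).const_mul _

/-- conditional mean square distance of the overlap with the vector `u` to `c` -/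
noncomputable def sdP (L : Lev K Ω) (H : Cfg K Ω → ℝ) (I : Finset ι) (y : ι → Cfg K Ω → ℝ) (l : ℕ)
    (c : ℝ) (u : ι → ℝ) (ω : Cfg K Ω) : ℝ :=
  (∑ i ∈ I, ∑ j ∈ I, u i * u j * L.E l H (fun ω' => y i ω' * y j ω') ω) / (I.card : ℝ) ^ 2
    - 2 * c * ((∑ i ∈ I, u i * L.E l H (y i) ω) / I.card) + c ^ 2

lemma sdP_eq (hH : L.Lin H) (hy : ∀ i ∈ I, L.Nice (y i)) (l : ℕ) (c : ℝ) (u : ι → ℝ)
    (ω : Cfg K Ω) :
    L.sdP H I y l c u ω = L.E l H (fun ω' => ((∑ i ∈ I, u i * y i ω') / I.card - c) ^ 2) ω := by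
  have hd := sd_nice_dot hy u
  have e : (fun ω' => ((∑ i ∈ I, u i * y i ω') / I.card - c) ^ 2) = fun ω' =>
      (((∑ i ∈ I, u i * y i ω') * ∑ i ∈ I, u i * y i ω') / (I.card : ℝ) ^ 2
        - 2 * c * ((∑ i ∈ I, u i * y i ω') / I.card)) + c ^ 2 := by
    funext ω'; ring
  rw [e, E_add hH (((hd.mul hd).div_const _).sub ((hd.div_const _).const_mul _)) (nice_const _),
    E_sub hH ((hd.mul hd).div_const _) ((hd.div_const _).const_mul _), E_const hH, E_div_const,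
    E_const_mul, E_div_const, sd_bilin hH hy hy,
    E_sum hH I fun i hi => (hy i hi).const_mul _]
  unfold sdP
  simp only [E_const_mul]

lemma sd_nice_P (hH : L.Lin H) (hy : ∀ i ∈ I, L.Nice (y i)) (l : ℕ) (c : ℝ)
    {u : ι → Cfg K Ω → ℝ} (hu : ∀ i ∈ I, L.Nice (u i)) :
    L.Nice (fun ω => L.sdP H I y l c (fun i => u i ω) ω) := by
  unfold sdP
  refine Nice.add (Nice.sub (Nice.div_const _ (Nice.sum I fun i hi => Nice.sum I fun j hj =>
    ((hu i hi).mul (hu j hj)).mul (Nice.E hH ((hy i hi).mul (hy j hj)) l)))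
    (Nice.const_mul _ (Nice.div_const _ (Nice.sum I fun i hi =>
      (hu i hi).mul (Nice.E hH (hy i hi) l))))) (nice_const _)

/-- conditional Jensen -/
lemma sd_P_le_VV (hH : L.Lin H) (hy : ∀ i ∈ I, L.Nice (y i)) {l e : ℕ} (hle : l ≤ e) (c : ℝ) :
    L.E0 H (fun ω => L.sdP H I y (l + 1) c (fun i => L.E (e + 1) H (y i) ω) ω) ≤
      L.VV H I y l c := by
  have hm : ∀ i ∈ I, L.Nice (L.E (e + 1) H (y i)) := fun i hi => Nice.E hH (hy i hi) _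
  have hM : ∀ i ∈ I, ∀ j ∈ I, L.Nice (L.E (l + 1) H (fun ω' => y i ω' * y j ω')) :=
    fun i hi j hj => Nice.E hH ((hy i hi).mul (hy j hj)) _
  have hq : ∀ {u v : ι → Cfg K Ω → ℝ}, (∀ i ∈ I, L.Nice (u i)) → (∀ i ∈ I, L.Nice (v i)) →
      L.Nice (fun ω => ∑ i ∈ I, ∑ j ∈ I, u i ω * v j ω *
        L.E (l + 1) H (fun ω' => y i ω' * y j ω') ω) := fun hu hv =>
    Nice.sum I fun i hi => Nice.sum I fun j hj => ((hu i hi).mul (hv j hj)).mul (hM i hi j hj)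
  have hE : ∀ {u v : ι → Cfg K Ω → ℝ}, (∀ i ∈ I, L.Nice (u i)) → (∀ i ∈ I, L.Nice (v i)) →
      L.E0 H (fun ω => ∑ i ∈ I, ∑ j ∈ I, u i ω * v j ω *
        L.E (l + 1) H (fun ω' => y i ω' * y j ω') ω) = ∑ i ∈ I, ∑ j ∈ I,
        L.E0 H (fun ω => u i ω * v j ω * L.E (l + 1) H (fun ω' => y i ω' * y j ω') ω) := by
    intro u v hu hv
    rw [sd_sum hH I fun i hi => Nice.sum I fun j hj =>
      ((hu i hi).mul (hv j hj)).mul (hM i hi j hj)]
    exact Finset.sum_congr rfl fun i hi =>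
      sd_sum hH I fun j hj => ((hu i hi).mul (hv j hj)).mul (hM i hi j hj)
  have hdep : ∀ i j, Dep (e + 1) (fun ω => L.E (e + 1) H (y i) ω *
      L.E (l + 1) H (fun ω' => y i ω' * y j ω') ω) := fun i j =>
    sd_dep_mul (dep_E _ _ _) ((dep_E _ _ _).mono (by omega))
  have hdep' : ∀ i j, Dep (e + 1) (fun ω => L.E (e + 1) H (y j) ω *
      L.E (l + 1) H (fun ω' => y i ω' * y j ω') ω) := fun i j =>
    sd_dep_mul (dep_E _ _ _) ((dep_E _ _ _).mono (by omega))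
  have h1 : L.E0 H (fun ω => ∑ i ∈ I, ∑ j ∈ I, L.E (e + 1) H (y i) ω * y j ω *
        L.E (l + 1) H (fun ω' => y i ω' * y j ω') ω) =
      L.E0 H (fun ω => ∑ i ∈ I, ∑ j ∈ I, L.E (e + 1) H (y i) ω * L.E (e + 1) H (y j) ω *
        L.E (l + 1) H (fun ω' => y i ω' * y j ω') ω) := by
    rw [hE hm hy, hE hm hm]
    refine Finset.sum_congr rfl fun i hi => Finset.sum_congr rfl fun j hj => ?_
    have := sd_tower hH ((hm i hi).mul (hM i hi j hj)) (hdep i j) (hy j hj)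
    rw [sd_congr (fun ω => mul_right_comm _ _ _), this]
    exact sd_congr fun ω => mul_right_comm _ _ _
  have h2 : L.E0 H (fun ω => ∑ i ∈ I, ∑ j ∈ I, y i ω * L.E (e + 1) H (y j) ω *
        L.E (l + 1) H (fun ω' => y i ω' * y j ω') ω) =
      L.E0 H (fun ω => ∑ i ∈ I, ∑ j ∈ I, L.E (e + 1) H (y i) ω * L.E (e + 1) H (y j) ω *
        L.E (l + 1) H (fun ω' => y i ω' * y j ω') ω) := by
    rw [hE hy hm, hE hm hm]
    refine Finset.sum_congr rfl fun i hi => Finset.sum_congr rfl fun j hj => ?_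
    have := sd_tower hH ((hm j hj).mul (hM i hi j hj)) (hdep' i j) (hy i hi)
    rw [sd_congr (g := fun ω => L.E (e + 1) H (y j) ω *
      L.E (l + 1) H (fun ω' => y i ω' * y j ω') ω * y i ω) (fun ω => by ring), this]
    exact sd_congr fun ω => by ring
  have h3 : L.E0 H (fun ω => (∑ i ∈ I, ∑ j ∈ I, L.E (e + 1) H (y i) ω * y j ω *
        L.E (l + 1) H (fun ω' => y i ω' * y j ω') ω) +
        ∑ i ∈ I, ∑ j ∈ I, y i ω * L.E (e + 1) H (y j) ω *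
        L.E (l + 1) H (fun ω' => y i ω' * y j ω') ω) ≤
      L.E0 H (fun ω => (∑ i ∈ I, ∑ j ∈ I, y i ω * y j ω *
        L.E (l + 1) H (fun ω' => y i ω' * y j ω') ω) +
        ∑ i ∈ I, ∑ j ∈ I, L.E (e + 1) H (y i) ω * L.E (e + 1) H (y j) ω *
        L.E (l + 1) H (fun ω' => y i ω' * y j ω') ω) := by
    refine sd_mono hH ((hq hm hy).add (hq hy hm)) ((hq hy hy).add (hq hm hm)) fun ω => ?_
    have h4 := sd_bilin hH hy hy (fun i => y i ω - L.E (e + 1) H (y i) ω)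
      (fun i => y i ω - L.E (e + 1) H (y i) ω) (l + 1) ω
    have h5 : 0 ≤ L.E (l + 1) H (fun ω' =>
        (∑ i ∈ I, (y i ω - L.E (e + 1) H (y i) ω) * y i ω') *
          ∑ j ∈ I, (y j ω - L.E (e + 1) H (y j) ω) * y j ω') ω :=
      E_nonneg (fun ω' => mul_self_nonneg _) _ _
    rw [h4] at h5
    rw [← sub_nonneg]
    refine le_trans h5 (le_of_eq ?_)
    simp only [← Finset.sum_add_distrib, ← Finset.sum_sub_distrib]
    exact Finset.sum_congr rfl fun i _ => Finset.sum_congr rfl fun j _ => by ring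
  rw [sd_add hH (hq hm hy) (hq hy hm), sd_add hH (hq hy hy) (hq hm hm), h1, h2] at h3
  have h6 : L.E0 H (fun ω => (∑ i ∈ I, L.E (e + 1) H (y i) ω * L.E (l + 1) H (y i) ω) / I.card)
      = L.qq H I y l := by
    rw [sd_qq_eq hH hy, sd_div, sd_sum hH I fun i hi => (hm i hi).mul (Nice.E hH (hy i hi) _)]
    congr 1
    exact Finset.sum_congr rfl fun i hi => sd_E_ym hH (hy i hi) (by omega)
  have hd : L.Nice (fun ω => (∑ i ∈ I, L.E (e + 1) H (y i) ω * L.E (l + 1) H (y i) ω) / I.card) :=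
    Nice.div_const _ (Nice.sum I fun i hi => (hm i hi).mul (Nice.E hH (hy i hi) _))
  unfold sdP VV
  rw [sd_add hH (((hq hm hm).div_const _).sub (hd.const_mul _)) (nice_const _),
    sd_sub hH ((hq hm hm).div_const _) (hd.const_mul _), sd_const hH, sd_cmul, h6, sd_div]
  have h7 : L.E0 H (fun ω => ∑ i ∈ I, ∑ j ∈ I, L.E (e + 1) H (y i) ω * L.E (e + 1) H (y j) ω *
        L.E (l + 1) H (fun ω' => y i ω' * y j ω') ω) ≤
      L.E0 H (fun ω => ∑ i ∈ I, ∑ j ∈ I, y i ω * y j ω *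
        L.E (l + 1) H (fun ω' => y i ω' * y j ω') ω) := by linarith
  have h8 := div_le_div_of_nonneg_right h7 (sq_nonneg (I.card : ℝ))
  linarith

/-- pointwise factorisation of the two-replica term -/
lemma sd_two_pt (hH : L.Lin H) (hI : I.Nonempty) (hJ : J.Nonempty) (hyI : ∀ i ∈ I, L.Nice (y i))
    (hyJ : ∀ j ∈ J, L.Nice (y j)) {κ : ℝ} (hκJ : ∀ ω, rr J y ω ≤ κ) (l : ℕ) {c c' : ℝ}
    (hc : c ^ 2 ≤ κ ^ 2) (u w : ι → ℝ) (hw : ∑ j ∈ J, w j ^ 2 ≤ κ * J.card) (ω : Cfg K Ω) :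
    ((∑ i ∈ I, ∑ j ∈ J, u i * w j * L.E l H (fun ω' => y i ω' * y j ω') ω) / (I.card * J.card)
      - c * c') ^ 2 ≤ 2 * κ ^ 2 * (L.sdP H I y l c u ω + L.sdP H J y l c' w ω) := by
  have hn := sd_card_pos hI
  have hn' := sd_card_pos hJ
  have hκ := sd_κ_nonneg L hκJ
  have ha : L.Nice (fun ω' => (∑ i ∈ I, u i * y i ω') / I.card - c) :=
    ((sd_nice_dot hyI u).div_const _).sub (nice_const _)
  have hb0 : L.Nice (fun ω' => (∑ j ∈ J, w j * y j ω') / J.card) :=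
    (sd_nice_dot hyJ w).div_const _
  have hb : L.Nice (fun ω' => (∑ j ∈ J, w j * y j ω') / J.card - c') := hb0.sub (nice_const _)
  have e1 : (∑ i ∈ I, ∑ j ∈ J, u i * w j * L.E l H (fun ω' => y i ω' * y j ω') ω)
      / (I.card * J.card) - c * c' =
      L.E l H (fun ω' => ((∑ i ∈ I, u i * y i ω') / I.card - c) *
        ((∑ j ∈ J, w j * y j ω') / J.card)) ω +
      c * L.E l H (fun ω' => (∑ j ∈ J, w j * y j ω') / J.card - c') ω := by
    rw [← E_const_mul, ← E_add hH (ha.mul hb0) (hb.const_mul _), ← sd_bilin hH hyI hyJ,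
      ← E_div_const, ← E_const hH l (c * c') ω,
      ← E_sub hH (((sd_nice_dot hyI u).mul (sd_nice_dot hyJ w)).div_const _) (nice_const _)]
    congr 1
    funext ω'
    field_simp
    ring
  have h1 := E_mul_sq_le hH ha hb0 l ω
  have h2 : L.E l H (fun ω' => ((∑ j ∈ J, w j * y j ω') / J.card) ^ 2) ω ≤ κ ^ 2 :=
    le_trans (E_mono hH (hb0.pow 2) (nice_const _)
      (fun ω' => sd_dot_sq_le hJ hκ _ _ hw (sd_sum_sq_le hJ hκJ ω')) l ω) (E_const hH l _ ω).le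
  have h3 := sq_E_le hH hb l ω
  rw [← sdP_eq hH hyI] at h1
  rw [← sdP_eq hH hyJ] at h3
  have h4 : 0 ≤ L.sdP H I y l c u ω := by
    rw [sdP_eq hH hyI]; exact E_nonneg (fun _ => sq_nonneg _) _ _
  have h5 := h1.trans (mul_le_mul_of_nonneg_left h2 h4)
  have h6 := mul_le_mul hc h3 (sq_nonneg _) (sq_nonneg κ)
  rw [e1]
  nlinarith [sq_nonneg (L.E l H (fun ω' => ((∑ i ∈ I, u i * y i ω') / I.card - c) *
        ((∑ j ∈ J, w j * y j ω') / J.card)) ω -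
      c * L.E l H (fun ω' => (∑ j ∈ J, w j * y j ω') / J.card - c') ω)]

/-- factorisation of the two-replica term -/
lemma sd_two (hH : L.Lin H) (hI : I.Nonempty) (hJ : J.Nonempty) (hyI : ∀ i ∈ I, L.Nice (y i))
    (hyJ : ∀ j ∈ J, L.Nice (y j)) {κ : ℝ} (hκI : ∀ ω, rr I y ω ≤ κ) (hκJ : ∀ ω, rr J y ω ≤ κ)
    {l e : ℕ} (hle : l ≤ e) :
    |(∑ i ∈ I, ∑ j ∈ J, L.E0 H (fun ω => L.E (e + 1) H (y i) ω * L.E (e + 1) H (y j) ω *
        L.E (l + 1) H (fun ω' => y i ω' * y j ω') ω)) / (I.card * J.card)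
      - L.qq H I y l * L.qq H J y l| ≤
      2 * κ * (√(L.VV H I y l (L.qq H I y l)) + √(L.VV H J y l (L.qq H J y l))) := by
  have hκ := sd_κ_nonneg L hκJ
  have hmI : ∀ i ∈ I, L.Nice (L.E (e + 1) H (y i)) := fun i hi => Nice.E hH (hyI i hi) _
  have hmJ : ∀ j ∈ J, L.Nice (L.E (e + 1) H (y j)) := fun j hj => Nice.E hH (hyJ j hj) _
  have hij : ∀ i ∈ I, ∀ j ∈ J, L.Nice (fun ω => L.E (e + 1) H (y i) ω * L.E (e + 1) H (y j) ω *
      L.E (l + 1) H (fun ω' => y i ω' * y j ω') ω) := fun i hi j hj =>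
    ((hmI i hi).mul (hmJ j hj)).mul (Nice.E hH ((hyI i hi).mul (hyJ j hj)) _)
  have hG0 : L.Nice (fun ω => (∑ i ∈ I, ∑ j ∈ J, L.E (e + 1) H (y i) ω * L.E (e + 1) H (y j) ω *
      L.E (l + 1) H (fun ω' => y i ω' * y j ω') ω) / (I.card * J.card)) :=
    Nice.div_const _ (Nice.sum I fun i hi => Nice.sum J fun j hj => hij i hi j hj)
  have hG := hG0.sub (nice_const (L.qq H I y l * L.qq H J y l))
  have hc : L.qq H I y l ^ 2 ≤ κ ^ 2 :=
    pow_le_pow_left₀ (qq_nonneg l) ((qq_le_dd hH hyI l).trans (dd_le hH hyI hκI)) 2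
  have hPI := sd_nice_P hH hyI (l + 1) (L.qq H I y l) hmI
  have hPJ := sd_nice_P hH hyJ (l + 1) (L.qq H J y l) hmJ
  have h1 := sq_E_le hH hG 0 L.pt
  have h2 := sd_mono hH (hG.pow 2) ((hPI.add hPJ).const_mul (2 * κ ^ 2)) fun ω =>
    sd_two_pt hH hI hJ hyI hyJ hκJ (l + 1) (c' := L.qq H J y l) hc
      (fun i => L.E (e + 1) H (y i) ω) (fun j => L.E (e + 1) H (y j) ω)
      (sd_m_sq_le hH hJ hyJ hκJ _ ω) ω
  rw [sd_cmul, sd_add hH hPI hPJ] at h2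
  have h3 := sd_P_le_VV hH hyI hle (L.qq H I y l)
  have h4 := sd_P_le_VV hH hyJ hle (L.qq H J y l)
  have e1 : L.E 0 H (fun ω => (∑ i ∈ I, ∑ j ∈ J, L.E (e + 1) H (y i) ω * L.E (e + 1) H (y j) ω *
      L.E (l + 1) H (fun ω' => y i ω' * y j ω') ω) / (I.card * J.card)
        - L.qq H I y l * L.qq H J y l) L.pt =
      (∑ i ∈ I, ∑ j ∈ J, L.E0 H (fun ω => L.E (e + 1) H (y i) ω * L.E (e + 1) H (y j) ω *
        L.E (l + 1) H (fun ω' => y i ω' * y j ω') ω)) / (I.card * J.card)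
      - L.qq H I y l * L.qq H J y l := by
    rw [E_sub hH hG0 (nice_const _), E_const hH, E_div_const,
      E_sum hH I fun i hi => Nice.sum J fun j hj => hij i hi j hj]
    congr 2
    exact Finset.sum_congr rfl fun i hi => E_sum hH J (fun j hj => hij i hi j hj) 0 _
  rw [e1] at h1
  have hA := Real.sq_sqrt (VV_nonneg hH hyI l (L.qq H I y l))
  have hB := Real.sq_sqrt (VV_nonneg hH hyJ l (L.qq H J y l))
  have hA0 := Real.sqrt_nonneg (L.VV H I y l (L.qq H I y l))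
  have hB0 := Real.sqrt_nonneg (L.VV H J y l (L.qq H J y l))
  refine abs_le.2 (abs_le_of_sq_le_sq' ?_ (by positivity))
  refine le_trans h1 (le_trans h2 ?_)
  have h5 := mul_le_mul_of_nonneg_left (add_le_add h3 h4) (show 0 ≤ 2 * κ ^ 2 by positivity)
  refine le_trans h5 ?_
  generalize √(L.VV H I y l (L.qq H I y l)) = A at hA hA0 ⊢
  generalize √(L.VV H J y l (L.qq H J y l)) = B at hB hB0 ⊢
  rw [← hA, ← hB]
  nlinarith [mul_nonneg (sq_nonneg κ) (mul_nonneg hA0 hB0), mul_nonneg (sq_nonneg κ) (sq_nonneg A),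
    mul_nonneg (sq_nonneg κ) (sq_nonneg B)]

end Lev

end Crest.Agent.R164
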