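import Crest.Agent.R164.SpecInt

/-! # Row 164: Stieltjes transform, stochastic domination, quantiles -/

set_option autoImplicit false

namespace Crest.Agent.R164

open MeasureTheory Real Finset Crest.ProbabilityR.InvariantGlass Filter Topology

/-- The Stieltjes transform. -/
noncomputable def stj (μ : Measure ℝ) (b : ℝ) : ℝ := ∫ t, (b - t)⁻¹ ∂μ

/-- Clamping to `[lo, hi]`. -/
def clampI (lo hi t : ℝ) : ℝ := max lo (min hi t)

lemma clampI_mono (lo hi : ℝ) : Monotone (clampI lo hi) := fun _ _ h =>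
  max_le_max le_rfl (min_le_min le_rfl h)

lemma clampI_mem {lo hi : ℝ} (h : lo ≤ hi) (t : ℝ) : lo ≤ clampI lo hi t ∧ clampI lo hi t ≤ hi :=
  ⟨le_max_left _ _, max_le h (min_le_left _ _)⟩

lemma clampI_eq {lo hi t : ℝ} (h : t ∈ Set.Icc lo hi) : clampI lo hi t = t := by
  rw [clampI, min_eq_right h.2, max_eq_right h.1]

/-- Stochastic domination up to `κ`. -/
lemma integral_le_of_upper (ν₁ ν₂ : Measure ℝ) [IsProbabilityMeasure ν₁] [IsProbabilityMeasure ν₂]
    {κ : ℝ} (h : ∀ U : Set ℝ, IsUpperSet U → ν₁.real U ≤ ν₂.real U + κ) {F : ℝ → ℝ}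
    (hF : Monotone F) {A B : ℝ} (hAB : ∀ t, A ≤ F t ∧ F t ≤ B) :
    ∫ t, F t ∂ν₁ ≤ ∫ t, F t ∂ν₂ + κ * (B - A) := by
  have hBA : 0 ≤ B - A := by linarith [(hAB 0).1, (hAB 0).2]
  have hint : ∀ (ν : Measure ℝ) [IsProbabilityMeasure ν], Integrable F ν := fun ν _ =>
    Integrable.of_mem_Icc A B hF.measurable.aemeasurable (Eventually.of_forall hAB)
  have key : ∀ (ν : Measure ℝ) [IsProbabilityMeasure ν],
      ∫ t, F t ∂ν = A + ∫ s in Set.Ioc 0 (B - A), ν.real {t | s ≤ F t - A} := by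
    intro ν _
    rw [← Integrable.integral_eq_integral_Ioc_meas_le (f := fun t => F t - A)
      ((hint ν).sub (integrable_const A))
      (Eventually.of_forall fun t => sub_nonneg.2 (hAB t).1)
      (Eventually.of_forall fun t => sub_le_sub_right (hAB t).2 A),
      integral_sub (hint ν) (integrable_const A)]
    simp
  have hi : ∀ (ν : Measure ℝ) [IsProbabilityMeasure ν],
      IntegrableOn (fun s => ν.real {t | s ≤ F t - A}) (Set.Ioc 0 (B - A)) := by
    intro ν _
    have : Antitone fun s => ν.real {t | s ≤ F t - A} := fun s s' hs =>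
      measureReal_mono fun t ht => hs.trans ht
    exact (this.intervalIntegrable (a := 0) (b := B - A)).1
  rw [key ν₁, key ν₂]
  have h1 : ∫ s in Set.Ioc 0 (B - A), ν₁.real {t | s ≤ F t - A} ≤
      ∫ s in Set.Ioc 0 (B - A), (ν₂.real {t | s ≤ F t - A} + κ) :=
    setIntegral_mono (hi ν₁) ((hi ν₂).add (integrable_const κ)) fun s =>
      h _ fun t t' htt ht => le_trans ht (sub_le_sub_right (hF htt) A)
  rw [integral_add (hi ν₂) (integrable_const κ)] at h1
  simp only [integral_const, MeasurableSet.univ, measureReal_restrict_apply, Set.univ_inter,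
    Real.volume_real_Ioc, sub_zero, max_eq_left hBA, smul_eq_mul] at h1
  linarith

section

variable (μ : Measure ℝ) [IsProbabilityMeasure μ] {lo hi : ℝ} (hle : lo ≤ hi)
  (hsupp : μ (Set.Icc lo hi) = 1)

include hsupp

lemma ae_mem_supp : ∀ᵐ t ∂μ, t ∈ Set.Icc lo hi :=
  (mem_ae_iff_prob_eq_one measurableSet_Icc).2 hsupp

lemma integrable_stj {b : ℝ} (hb : hi < b) : Integrable (fun t => (b - t)⁻¹) μ := by
  refine Integrable.of_mem_Icc 0 (b - hi)⁻¹ (by fun_prop) ?_
  filter_upwards [ae_mem_supp μ hsupp] with t ht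
  exact ⟨inv_nonneg.2 (by linarith [ht.2]), inv_anti₀ (by linarith) (by linarith [ht.2])⟩

lemma stj_bounds {b : ℝ} (hb : hi < b) : (b - lo)⁻¹ ≤ stj μ b ∧ stj μ b ≤ (b - hi)⁻¹ := by
  constructor
  · have := integral_mono_ae (integrable_const (b - lo)⁻¹) (integrable_stj μ hsupp hb) (by
      filter_upwards [ae_mem_supp μ hsupp] with t ht
      exact inv_anti₀ (by linarith [ht.2]) (by linarith [ht.1]))
    simpa [stj] using this
  · have := integral_mono_ae (integrable_stj μ hsupp hb) (integrable_const (b - hi)⁻¹) (by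
      filter_upwards [ae_mem_supp μ hsupp] with t ht
      exact inv_anti₀ (by linarith) (by linarith [ht.2]))
    simpa [stj] using this

lemma stj_sub {b h : ℝ} (hb : hi < b) (hh : 0 ≤ h) :
    h / ((b - lo) * (b + h - lo)) ≤ stj μ b - stj μ (b + h) ∧
      stj μ b - stj μ (b + h) ≤ h / (b - hi) ^ 2 := by
  have h1 := integrable_stj μ hsupp hb
  have h2 := integrable_stj μ hsupp (b := b + h) (by linarith)
  have e : ∀ t, t ≤ hi → (b - t)⁻¹ - (b + h - t)⁻¹ = h / ((b - t) * (b + h - t)) := fun t ht => by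
    have : b - t ≠ 0 := by linarith
    have : b + h - t ≠ 0 := by linarith
    field_simp
    ring
  rw [stj, stj, ← integral_sub h1 h2]
  constructor
  · have := integral_mono_ae (integrable_const (h / ((b - lo) * (b + h - lo)))) (h1.sub h2) (by
      filter_upwards [ae_mem_supp μ hsupp] with t ht
      have h3 : 0 < b - t := by linarith [ht.2]
      simp only [Pi.sub_apply]
      rw [e t ht.2]
      exact div_le_div_of_nonneg_left hh (mul_pos h3 (by linarith))
        (mul_le_mul (by linarith [ht.1]) (by linarith [ht.1]) (by linarith) (by linarith [ht.1])))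
    simpa using this
  · have := integral_mono_ae (h1.sub h2) (integrable_const (h / (b - hi) ^ 2)) (by
      filter_upwards [ae_mem_supp μ hsupp] with t ht
      have h3 : 0 < b - hi := by linarith
      simp only [Pi.sub_apply]
      rw [e t ht.2, pow_two]
      exact div_le_div_of_nonneg_left hh (mul_pos h3 h3)
        (mul_le_mul (by linarith [ht.2]) (by linarith [ht.2]) h3.le (by linarith [ht.2])))
    simpa using this

include hle

lemma stj_lt {b b' : ℝ} (hb : hi < b) (hbb : b < b') : stj μ b' < stj μ b := by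
  have h := (stj_sub μ hsupp hb (sub_nonneg.2 hbb.le)).1
  rw [add_sub_cancel] at h
  have : 0 < (b' - b) / ((b - lo) * (b' - lo)) :=
    div_pos (by linarith) (mul_pos (by linarith) (by linarith))
  linarith

lemma stj_le {b b' : ℝ} (hb : hi < b) (hbb : b ≤ b') : stj μ b' ≤ stj μ b := by
  rcases hbb.eq_or_lt with rfl | h
  exacts [le_rfl, (stj_lt μ hle hsupp hb h).le]

lemma stj_continuousOn {b : ℝ} (hb : hi < b) : ContinuousOn (stj μ) (Set.Ici b) := by
  have key : ∀ x ∈ Set.Ici b, ∀ y ∈ Set.Ici b, x ≤ y →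
      |stj μ x - stj μ y| ≤ ((b - hi) ^ 2)⁻¹ * |x - y| := by
    intro x hx y hy hxy
    have hx' : b ≤ x := hx
    have h := (stj_sub μ hsupp (hb.trans_le hx') (sub_nonneg.2 hxy)).2
    rw [add_sub_cancel] at h
    rw [abs_of_nonneg (sub_nonneg.2 (stj_le μ hle hsupp (hb.trans_le hx') hxy)), abs_sub_comm,
      abs_of_nonneg (sub_nonneg.2 hxy), mul_comm, ← div_eq_mul_inv]
    refine h.trans (div_le_div_of_nonneg_left (sub_nonneg.2 hxy) (pow_pos (by linarith) 2) ?_)
    exact pow_le_pow_left₀ (by linarith) (by linarith) 2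
  refine (LipschitzOnWith.of_dist_le' (K := ((b - hi) ^ 2)⁻¹) fun x hx y hy => ?_).continuousOn
  rw [Real.dist_eq, Real.dist_eq]
  rcases le_total x y with h | h
  · exact key x hx y hy h
  · rw [abs_sub_comm, abs_sub_comm x]; exact key y hy x hx h

lemma resolventPoint_spec {x : ℝ} (hx : 0 < x) : hi ≤ resolventPoint μ hi x ∧
    ∀ b, hi < b → (resolventPoint μ hi x ≤ b ↔ stj μ b ≤ x) := by
  unfold resolventPoint
  split_ifs with h
  · obtain ⟨b₀, hb₀, hx₀⟩ := h
    have e : {b : ℝ | hi < b ∧ ∫ lam, (b - lam)⁻¹ ∂μ = x} = {b₀} := by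
      refine Set.eq_singleton_iff_unique_mem.2 ⟨⟨hb₀, hx₀⟩, fun b hb => ?_⟩
      rcases lt_trichotomy b b₀ with h | h | h
      · exact absurd (hx₀.trans hb.2.symm) (stj_lt μ hle hsupp hb.1 h).ne
      · exact h
      · exact absurd (hb.2.trans hx₀.symm) (stj_lt μ hle hsupp hb₀ h).ne
    rw [e, csInf_singleton]
    refine ⟨hb₀.le, fun b hb => ⟨fun h => ?_, fun h => ?_⟩⟩
    · exact (stj_le μ hle hsupp hb₀ h).trans (le_of_eq hx₀)
    · by_contra h'
      have h1 := stj_lt μ hle hsupp hb (not_le.1 h')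
      have h2 : stj μ b₀ = x := hx₀
      linarith
  · refine ⟨le_rfl, fun b hb => ⟨fun _ => ?_, fun _ => hb.le⟩⟩
    by_contra h'
    have h1 : stj μ (b + x⁻¹) ≤ x := by
      have hx' : 0 < x⁻¹ := inv_pos.2 hx
      refine (stj_bounds μ hsupp (b := b + x⁻¹) (by linarith)).2.trans ?_
      exact (inv_anti₀ hx' (by linarith)).trans (inv_inv x).le
    obtain ⟨c, hc, hc'⟩ := intermediate_value_Icc' (le_add_of_nonneg_right (inv_pos.2 hx).le)
      ((stj_continuousOn μ hle hsupp hb).mono Set.Icc_subset_Ici_self) ⟨h1, (not_le.1 h').le⟩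
    exact h ⟨c, hb.trans_le hc.1, hc'⟩

lemma stj_le_of_lt {x b : ℝ} (hx : 0 < x) (h : resolventPoint μ hi x < b) : stj μ b ≤ x :=
  ((resolventPoint_spec μ hle hsupp hx).2 b
    ((resolventPoint_spec μ hle hsupp hx).1.trans_lt h)).1 h.le

omit hsupp in
/-- Comparison of Stieltjes transforms. -/
lemma stj_shift_le (ν : Measure ℝ) [IsProbabilityMeasure ν] (hμ : μ (Set.Icc lo hi) = 1)
    (hν : ν (Set.Icc lo hi) = 1) {κ h : ℝ} (hκ : 0 ≤ κ) (hh : 0 < h)
    (hdom : ∀ U : Set ℝ, IsUpperSet U → μ.real U ≤ ν.real U + κ)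
    (hsmall : κ * (hi - lo) * (h + (hi - lo)) ≤ h ^ 2) {b : ℝ} (hb : hi < b) :
    stj μ (b + h) ≤ stj ν b := by
  have h1 := integral_le_of_upper μ ν hdom (F := fun t => (b + h - clampI lo hi t)⁻¹)
    (fun t t' htt => inv_anti₀ (by linarith [(clampI_mem hle t').2])
      (by linarith [clampI_mono lo hi htt]))
    (A := (b + h - lo)⁻¹) (B := (b + h - hi)⁻¹) fun t =>
      ⟨inv_anti₀ (by linarith [(clampI_mem hle t).2]) (by linarith [(clampI_mem hle t).1]),
        inv_anti₀ (by linarith) (by linarith [(clampI_mem hle t).2])⟩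
  have e : ∀ (ρ : Measure ℝ) [IsProbabilityMeasure ρ], ρ (Set.Icc lo hi) = 1 →
      ∫ t, (b + h - clampI lo hi t)⁻¹ ∂ρ = stj ρ (b + h) := fun ρ _ hρ =>
    integral_congr_ae (by
      filter_upwards [ae_mem_supp ρ hρ] with t ht
      rw [clampI_eq ht])
  rw [e μ hμ, e ν hν] at h1
  have h2 := (stj_sub ν hν hb hh.le).1
  have p1 : 0 < b + h - hi := by linarith
  have p2 : 0 < b + h - lo := by linarith
  have p3 : 0 < b - lo := by linarith
  have h3 : κ * ((b + h - hi)⁻¹ - (b + h - lo)⁻¹) ≤ h / ((b - lo) * (b + h - lo)) := by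
    have e2 : κ * ((b + h - hi)⁻¹ - (b + h - lo)⁻¹) =
        κ * (hi - lo) / ((b + h - hi) * (b + h - lo)) := by
      field_simp
      ring
    rw [e2, div_le_div_iff₀ (mul_pos p1 p2) (mul_pos p3 p2), ← mul_assoc, ← mul_assoc]
    refine mul_le_mul_of_nonneg_right ?_ p2.le
    have w0 : 0 ≤ κ * (hi - lo) := mul_nonneg hκ (sub_nonneg.2 hle)
    have a1 : (b - lo) * h ≤ (b + h - hi) * (h + (hi - lo)) := by nlinarith
    refine le_of_mul_le_mul_right ?_ hh
    calc κ * (hi - lo) * (b - lo) * h = κ * (hi - lo) * ((b - lo) * h) := by ring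
      _ ≤ κ * (hi - lo) * ((b + h - hi) * (h + (hi - lo))) := mul_le_mul_of_nonneg_left a1 w0
      _ = κ * (hi - lo) * (h + (hi - lo)) * (b + h - hi) := by ring
      _ ≤ h ^ 2 * (b + h - hi) := mul_le_mul_of_nonneg_right hsmall p1.le
      _ = _ := by ring
  linarith

omit hsupp in
lemma mean_le (ν : Measure ℝ) [IsProbabilityMeasure ν] (hμ : μ (Set.Icc lo hi) = 1)
    (hν : ν (Set.Icc lo hi) = 1) {κ : ℝ}
    (hdom : ∀ U : Set ℝ, IsUpperSet U → μ.real U ≤ ν.real U + κ) :
    ∫ t, t ∂μ ≤ ∫ t, t ∂ν + κ * (hi - lo) := by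
  have h1 := integral_le_of_upper μ ν hdom (clampI_mono lo hi) (clampI_mem hle)
  have e : ∀ (ρ : Measure ℝ) [IsProbabilityMeasure ρ], ρ (Set.Icc lo hi) = 1 →
      ∫ t, clampI lo hi t ∂ρ = ∫ t, t ∂ρ := fun ρ _ hρ =>
    integral_congr_ae (by
      filter_upwards [ae_mem_supp ρ hρ] with t ht
      rw [clampI_eq ht])
  rwa [e μ hμ, e ν hν] at h1

end

/-- The quantile function, with values in `[lo, hi]`. -/
noncomputable def qtl (μ : Measure ℝ) (lo hi u : ℝ) : ℝ :=
  sInf {t | lo ≤ t ∧ (hi ≤ t ∨ u ≤ μ.real (Set.Iic t))}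

section

variable (μ : Measure ℝ) [IsProbabilityMeasure μ] {lo hi : ℝ} (hle : lo ≤ hi)

omit [IsProbabilityMeasure μ] in
lemma qtl_le {u t : ℝ} (h1 : lo ≤ t) (h2 : hi ≤ t ∨ u ≤ μ.real (Set.Iic t)) : qtl μ lo hi u ≤ t :=
  csInf_le ⟨lo, fun _ h => h.1⟩ ⟨h1, h2⟩

include hle

omit [IsProbabilityMeasure μ] in
lemma le_qtl {u c : ℝ} (h : ∀ t, lo ≤ t → (hi ≤ t ∨ u ≤ μ.real (Set.Iic t)) → c ≤ t) :
    c ≤ qtl μ lo hi u :=
  le_csInf ⟨hi, hle, Or.inl le_rfl⟩ fun t ht => h t ht.1 ht.2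

omit [IsProbabilityMeasure μ] in
lemma qtl_mem (u : ℝ) : qtl μ lo hi u ∈ Set.Icc lo hi :=
  ⟨le_qtl μ hle fun _ h _ => h, qtl_le μ hle (Or.inl le_rfl)⟩

omit [IsProbabilityMeasure μ] in
lemma qtl_mono : Monotone (qtl μ lo hi) := fun _ _ h =>
  le_qtl μ hle fun _ h1 h2 => qtl_le μ h1 (h2.imp id fun h3 => h.trans h3)

lemma qtl_of_gt {u : ℝ} (hu : 1 < u) : qtl μ lo hi u = hi :=
  le_antisymm (qtl_mem μ hle u).2 (le_qtl μ hle fun _ _ h => h.resolve_right fun h' =>
    absurd (h'.trans measureReal_le_one) (not_le.2 hu))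

omit [IsProbabilityMeasure μ] in
lemma qtl_of_le {u : ℝ} (hu : u ≤ 0) : qtl μ lo hi u = lo :=
  le_antisymm (qtl_le μ le_rfl (Or.inr (hu.trans measureReal_nonneg))) (qtl_mem μ hle u).1

omit hle in
lemma qtl_Ici (hsupp : μ (Set.Icc lo hi) = 1) {u : ℝ} (hu : 0 ≤ u) :
    1 - u ≤ μ.real (Set.Ici (qtl μ lo hi u)) := by
  set c := qtl μ lo hi u with hc
  have h1 : ∀ t < c, μ.real (Set.Iic t) ≤ u := by
    intro t ht
    by_cases h : lo ≤ t
    · by_contra h'
      exact absurd (qtl_le μ h (Or.inr (not_le.1 h').le)) (not_le.2 ht)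
    · have : μ (Set.Iic t) = 0 := by
        refine measure_mono_null (t := (Set.Icc lo hi)ᶜ) (fun s hs hs' => h (hs'.1.trans hs)) ?_
        exact (prob_compl_eq_zero_iff measurableSet_Icc).2 hsupp
      rw [Measure.real, this]; simpa using hu
  have h2 : Set.Iio c = ⋃ n : ℕ, Set.Iic (c - 1 / (n + 1)) := by
    ext t
    simp only [Set.mem_Iio, Set.mem_iUnion, Set.mem_Iic]
    constructor
    · intro h
      obtain ⟨n, hn⟩ := exists_nat_one_div_lt (sub_pos.2 h)
      exact ⟨n, by linarith⟩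
    · rintro ⟨n, hn⟩
      have : (0 : ℝ) < 1 / (n + 1) := by positivity
      linarith
  have h3 : μ.real (Set.Iio c) ≤ u := by
    have hm : Monotone fun n : ℕ => Set.Iic (c - 1 / ((n : ℝ) + 1)) := fun n m h =>
      Set.Iic_subset_Iic.2 (by
        have : (1 : ℝ) / (m + 1) ≤ 1 / (n + 1) := Nat.one_div_le_one_div h
        linarith)
    have := (ENNReal.tendsto_toReal (measure_ne_top μ _)).comp
      (tendsto_measure_iUnion_atTop (μ := μ) hm)
    rw [h2]
    refine le_of_tendsto' this fun n => h1 _ ?_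
    have : (0 : ℝ) < 1 / (n + 1) := by positivity
    linarith
  have h4 := probReal_compl_eq_one_sub (μ := μ) (measurableSet_Iio (a := c))
  rw [Set.compl_Iio] at h4
  linarith

lemma qtl_Iic (hsupp : μ (Set.Icc lo hi) = 1) {u : ℝ} (hu : u ≤ 1) :
    u ≤ μ.real (Set.Iic (qtl μ lo hi u)) := by
  set c := qtl μ lo hi u with hc
  have h1 : ∀ t, c < t → u ≤ μ.real (Set.Iic t) := by
    intro t ht
    obtain ⟨s, hs, hst⟩ := exists_lt_of_csInf_lt
      (s := {t | lo ≤ t ∧ (hi ≤ t ∨ u ≤ μ.real (Set.Iic t))}) ⟨hi, hle, Or.inl le_rfl⟩ ht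
    rcases hs.2 with h | h
    · refine hu.trans ?_
      have : μ.real (Set.Icc lo hi) = 1 := by rw [Measure.real, hsupp]; simp
      rw [← this]
      exact measureReal_mono fun x hx => hx.2.trans (h.trans hst.le)
    · exact h.trans (measureReal_mono (Set.Iic_subset_Iic.2 hst.le))
  have h2 := (ProbabilityTheory.cdf μ).right_continuous c
  have h3 : Tendsto (ProbabilityTheory.cdf μ) (𝓝[>] c) (𝓝 (ProbabilityTheory.cdf μ c)) :=
    h2.tendsto.mono_left (nhdsWithin_mono _ Set.Ioi_subset_Ici_self)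
  rw [← ProbabilityTheory.cdf_eq_real]
  refine ge_of_tendsto h3 ?_
  filter_upwards [self_mem_nhdsWithin] with t ht
  rw [ProbabilityTheory.cdf_eq_real]
  exact h1 t ht

end

lemma muf_real {n : ℕ} (lam : Fin (n + 1) → ℝ) {U : Set ℝ} (hU : MeasurableSet U)
    [DecidablePred (· ∈ U)] :
    (muf lam).real U = (univ.filter fun a => lam a ∈ U).card / (n + 1) := by
  rw [← integral_indicator_one hU, integral_muf lam _ (measurable_one.indicator hU)]
  congr 1
  simp only [Set.indicator_apply, Pi.one_apply, sum_boole]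

lemma muf_supp {n : ℕ} (lam : Fin (n + 1) → ℝ) {lo hi : ℝ} (h : ∀ a, lam a ∈ Set.Icc lo hi) :
    muf lam (Set.Icc lo hi) = 1 := by
  classical
  have := muf_prob lam
  rw [← ENNReal.toReal_eq_one_iff]
  have h1 := muf_real lam (measurableSet_Icc (a := lo) (b := hi))
  rw [filter_true_of_mem fun a _ => h a, card_univ, Fintype.card_fin] at h1
  refine h1.trans ?_
  push_cast
  exact div_self (by positivity)

lemma stj_muf_shift {n : ℕ} (q : Fin (n + 1) → ℝ) (e b : ℝ) :
    stj (muf fun a => q a + e) (b + e) = stj (muf q) b := by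
  rw [stj, stj, integral_muf _ _ (by fun_prop), integral_muf _ _ (by fun_prop)]
  simp only [add_sub_add_right_eq_sub]

lemma mean_muf_shift {n : ℕ} (q : Fin (n + 1) → ℝ) (e : ℝ) :
    ∫ t, t ∂(muf fun a => q a + e) = ∫ t, t ∂muf q + e := by
  rw [integral_muf _ (fun t => t) measurable_id, integral_muf _ (fun t => t) measurable_id,
    sum_add_distrib, sum_const, card_univ, Fintype.card_fin, nsmul_eq_mul]
  push_cast
  field_simp

lemma card_species_le {N n : ℕ} (sp : Fin N → Fin (n + 1))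
    (h : ∀ a, |((univ.filter fun i => sp i = a).card : ℝ) - N / (n + 1)| ≤ 1)
    (D : Finset (Fin (n + 1))) :
    ((univ.filter fun i => sp i ∈ D).card : ℝ) ≤ D.card * (N / (n + 1)) + (n + 1) := by
  rw [card_eq_sum_card_fiberwise (f := sp) (s := univ.filter fun i => sp i ∈ D) (t := D)
    (fun i hi => (mem_filter.1 (mem_coe.1 hi)).2)]
  push_cast
  calc ∑ a ∈ D, (((univ.filter fun i => sp i ∈ D).filter fun i => sp i = a).card : ℝ)
      ≤ ∑ _a ∈ D, ((N : ℝ) / (n + 1) + 1) := by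
        refine sum_le_sum fun a _ => ?_
        have h1 : (((univ.filter fun i => sp i ∈ D).filter fun i => sp i = a).card : ℝ) ≤
            (univ.filter fun i => sp i = a).card := by
          exact_mod_cast card_le_card (filter_subset_filter _ (filter_subset _ _))
        linarith [(abs_le.1 (h a)).2]
    _ = D.card * (N / (n + 1)) + D.card := by rw [sum_const, nsmul_eq_mul]; ring
    _ ≤ _ := by
        have : D.card ≤ n + 1 := (card_le_univ D).trans (Fintype.card_fin _).le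
        have : (D.card : ℝ) ≤ n + 1 := by exact_mod_cast this
        linarith

lemma eventually_count (μ : Measure ℝ) [IsProbabilityMeasure μ] (eig : (N : ℕ) → Fin N → ℝ)
    (hw : ∀ φ : ℝ → ℝ, Continuous φ → (∃ C : ℝ, ∀ x, |φ x| ≤ C) →
      Tendsto (fun N : ℕ => (1 / (N : ℝ)) * ∑ i : Fin N, φ (eig N i)) atTop (nhds (∫ x, φ x ∂μ)))
    {ψ : ℝ → ℝ} (hψ : Continuous ψ) {m : ℝ} (hm : m < μ.real {t | 1 ≤ ψ t}) (c : ℝ) :
    ∀ᶠ N : ℕ in atTop, m * N + c ≤ (univ.filter fun i => 0 ≤ ψ (eig N i)).card := by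
  obtain ⟨m', h1, h2⟩ := exists_between hm
  have hc : Continuous fun t => clampI 0 1 (ψ t) := by unfold clampI; fun_prop
  have hb : ∀ t, |clampI 0 1 (ψ t)| ≤ 1 := fun t => by
    rw [abs_of_nonneg (clampI_mem zero_le_one _).1]; exact (clampI_mem zero_le_one _).2
  have h3 : μ.real {t | 1 ≤ ψ t} ≤ ∫ t, clampI 0 1 (ψ t) ∂μ := by
    have hms : MeasurableSet {t | 1 ≤ ψ t} := measurableSet_le measurable_const hψ.measurable
    rw [← integral_indicator_one hms]
    refine integral_mono ((integrable_const 1).indicator hms)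
      (Integrable.of_mem_Icc 0 1 hc.aemeasurable
        (Eventually.of_forall fun t => clampI_mem zero_le_one _)) fun t => ?_
    by_cases ht : t ∈ {t | 1 ≤ ψ t}
    · have ht' : 1 ≤ ψ t := ht
      rw [Set.indicator_of_mem ht]
      simp [clampI, ht']
    · rw [Set.indicator_of_notMem ht]
      exact (clampI_mem zero_le_one _).1
  have h4 := (hw _ hc ⟨1, hb⟩).eventually (lt_mem_nhds (h2.trans_le h3))
  have h5 : ∀ᶠ N : ℕ in atTop, c / (m' - m) ≤ N :=
    tendsto_natCast_atTop_atTop.eventually_ge_atTop _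
  filter_upwards [h4, h5, eventually_gt_atTop 0] with N a1 a2 a3
  have hN : (0 : ℝ) < N := by exact_mod_cast a3
  rw [one_div_mul_eq_div, lt_div_iff₀ hN] at a1
  rw [div_le_iff₀ (sub_pos.2 h1)] at a2
  have a4 : ∑ i : Fin N, clampI 0 1 (ψ (eig N i)) ≤
      (univ.filter fun i => 0 ≤ ψ (eig N i)).card := by
    rw [card_filter]
    push_cast
    refine sum_le_sum fun i _ => ?_
    split_ifs with h
    · exact (clampI_mem zero_le_one _).2
    · simp [clampI, (not_le.1 h).le]
  linarith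

end Crest.Agent.R164
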