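import Crest.Agent.R164.Nest
import Crest.Prelude.Def_InvariantGlass

/-!
# Row 164: the R-transform of a finite uniform spectrum `lam 0 ≤ … ≤ lam n`

Everything is parametrised by `s = 1 / (b - lam_max) ≥ 0`.
-/

set_option autoImplicit false

namespace Crest.Agent.R164

open MeasureTheory Real Finset

variable {n : ℕ} (lam : Fin (n + 1) → ℝ)

/-- The uniform law on the atoms. -/
noncomputable def muf : Measure ℝ := ∑ a, ((n + 1 : ℕ) : ENNReal)⁻¹ • Measure.dirac (lam a)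

/-- Distance to the top atom. -/
def dl (a : Fin (n + 1)) : ℝ := lam (Fin.last n) - lam a

/-- `1 / (b - lam a)`. -/
noncomputable def phi (a : Fin (n + 1)) (s : ℝ) : ℝ := s / (1 + dl lam a * s)

noncomputable def Dn (s : ℝ) : ℝ := (∑ a, 1 / (1 + dl lam a * s)) / (n + 1)

/-- The Stieltjes transform as a function of `s`. -/
noncomputable def Phi (s : ℝ) : ℝ := s * Dn lam s

/-- The inverse of `Phi` on `[0, ∞)`. -/
noncomputable def sOf (D : ℝ) : ℝ := sInf {s | 0 ≤ s ∧ D ≤ Phi lam s}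

/-- The R-transform as a function of `s`. -/
noncomputable def Rs (s : ℝ) : ℝ := (∑ a, lam a / (1 + dl lam a * s)) / (n + 1) / Dn lam s

/-- The R-transform. -/
noncomputable def Rf (D : ℝ) : ℝ := Rs lam (sOf lam D)

/-- `x R(x)`. -/
noncomputable def rho (D : ℝ) : ℝ := D * Rf lam D

/-- `log ((b - lam a) D)`. -/
noncomputable def lgd (a : Fin (n + 1)) (s : ℝ) : ℝ := log ((1 + dl lam a * s) * Dn lam s)

/-- The primitive of the R-transform. -/
noncomputable def Af (D : ℝ) : ℝ := rho lam D - (∑ a, lgd lam a (sOf lam D)) / (n + 1)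

/-- The deficit of the step path with values `q e` on `(ζ e, ζ (e+1)]`, `1 ≤ e ≤ k`, zero below. -/
noncomputable def DF {K : ℕ} (ex : Expo K) (k : ℕ) (q : ℕ → ℝ) (r : ℝ) : ℝ :=
  1 - r - ∑ e ∈ Icc 1 k, ex.Δ e * max (q e - r) 0

/-! Replica-symmetry-breaking data attached to a sequence `s 0 ≥ s 1 ≥ … ≥ s (k+1) = 0`. -/

/-- Variance of the cavity field of level `l`. -/
noncomputable def vv {K : ℕ} (ex : Expo K) (s : ℕ → ℝ) (l : ℕ) : ℝ :=
  (Rs lam (s (l - 1)) - Rs lam (s l)) / ex.ζ l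

/-- Variance of the coordinate of species `a` at level `l`. -/
noncomputable def sg2 {K : ℕ} (ex : Expo K) (s : ℕ → ℝ) (a : Fin (n + 1)) (l : ℕ) : ℝ :=
  (phi lam a (s (l - 1)) - phi lam a (s l)) / ex.ζ l

/-- Reference overlap of species `a` at level `e` (self-overlap for `e = k + 1`). -/
noncomputable def qh {K : ℕ} (ex : Expo K) (s : ℕ → ℝ) (a : Fin (n + 1)) (e : ℕ) : ℝ :=
  ∑ l ∈ Icc 1 e, sg2 lam ex s a l

/-- The constant produced by the Gaussian integrals when species `a` is added. -/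
noncomputable def cst {K : ℕ} (ex : Expo K) (k : ℕ) (s : ℕ → ℝ) (a : Fin (n + 1)) : ℝ :=
  Rs lam (s k) / 2 - ∑ l ∈ Icc 1 (k + 1), (lgd lam a (s (l - 1)) - lgd lam a (s l)) / (2 * ex.ζ l)

/-- Admissible sequences `s`. -/
def IsSeq (n k : ℕ) (s : ℕ → ℝ) : Prop :=
  s 0 ≤ n + 1 ∧ (∀ l ≤ k, s (l + 1) ≤ s l) ∧ s (k + 1) = 0

/-- The sequence `s` attached to the overlaps `q`. -/
noncomputable def sq {K : ℕ} (ex : Expo K) (k : ℕ) (q : ℕ → ℝ) (e : ℕ) : ℝ :=
  if e ≤ k then sOf lam (Dev ex k 1 q e) else 0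

/-- Admissible overlap sequences. -/
def IsOv (k : ℕ) (q : ℕ → ℝ) : Prop :=
  (∀ e ∈ Icc 1 k, 0 ≤ q e ∧ q e ≤ 1) ∧ ∀ e, 1 ≤ e → e < k → q e ≤ q (e + 1)

end Crest.Agent.R164
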