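import Crest.Agent.R164.UpperAux

/-! # Row 164: the upper bound for one magnetisation cell -/

set_option autoImplicit false

namespace Crest.Agent.R164

open MeasureTheory ProbabilityTheory Real Finset Crest.ProbabilityR.InvariantGlass

theorem upper_cell {n : ℕ} {lam : Fin (n + 1) → ℝ} (hlam : Monotone lam) {J : ℕ} {γ m : Fin J → ℝ}
    (hγ : ∀ j, 0 < γ j) (hγ1 : ∑ j, γ j = 1) (hm : ∀ j, |m j| < 1) {p : ℝ → ℝ} (hp : IsTrialPath p)
    {s : ℝ} (hS : SLe γ m p s) (h : ∀ N, Haar N) (sp : (N : ℕ) → Fin N → Fin (n + 1))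
    (hsp : ∀ N, Bal (sp N) 1) (lab : (N : ℕ) → Fin N → Fin J)
    (hlab : ∀ j, Filter.Tendsto (fun N : ℕ => ((blk (lab N) j).card : ℝ) / N) Filter.atTop (nhds (γ j)))
    {ε : ℝ} (hε : 0 < ε) : ∃ η : ℝ, 0 < η ∧ ∀ᶠ N : ℕ in Filter.atTop, ∀ A : Finset (Fin N → Bool),
      (∀ σ ∈ A, ∀ j, 0 ≤ m j * (mag (lab N) j σ - (blk (lab N) j).card * m j)) →
      ∫ U, ((∑ σ ∈ A, exp (∑ i, lam (sp N i) * yv U σ i ^ 2 / 2)) / 2 ^ N) ^ η ∂(h N).κ ≤
        exp (η * N * (s + spectralPart (muf lam) (lam (Fin.last n)) p + ε)) := by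
  obtain ⟨e, he, rfl⟩ : ∃ e : ℝ, 0 < e ∧ ε = 8 * e := ⟨ε / 8, by positivity, by ring⟩
  obtain ⟨η', hη'0, hη'1, hshr⟩ := spectralPart_shrink hlam he
  obtain ⟨hp', hG⟩ := hshr p hp
  set p' : ℝ → ℝ := fun s => (1 - η') * p s with hp'def
  have hS' : SLe γ m p' s := UpperAux.SLe_mono hS hp hp' fun r hr => by
    have := (hp.2.2 r hr).1
    simp only [hp'def]
    nlinarith
  have hp'1 : ∀ r ∈ Set.Ioo (0 : ℝ) 1, p' r ≤ 1 - η' := fun r hr =>
    mul_le_of_le_one_right (by linarith) (hp.2.2 r hr).2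
  obtain ⟨rho', hmono, hder, hcont⟩ := exists_rho_deriv hlam
  obtain ⟨M, ε₁, hM, hε₁, hrie⟩ := riemann_rho hlam hmono hder he
  have hM' : (0 : ℝ) < M := by exact_mod_cast hM
  set η : ℝ := min ε₁ 1 / 2 with hηdef
  have hη0 : 0 < η := by positivity
  have hη1 : η < 1 := by have := min_le_right ε₁ 1; linarith
  have hηε : η < ε₁ := by have := min_le_left ε₁ 1; linarith
  obtain ⟨k₀, hk₀⟩ := energy_step hlam hmono hder hcont hη0 hη1 hηε he
    (show (0 : ℝ) < 1 / M by positivity)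
  set k := max k₀ 1 with hkdef
  have hk : 1 ≤ k := le_max_right _ _
  have hk' : (0 : ℝ) < k := by exact_mod_cast hk
  set c : ℝ := √(e / k) with hcdef
  have hc : 0 < c := Real.sqrt_pos.2 (by positivity)
  have hc2 : k * c ^ 2 = e := by
    rw [hcdef, Real.sq_sqrt (by positivity)]
    field_simp
  obtain ⟨Lb, hLb, hcoer⟩ := exists_Lb hk lam hη0 hη1 hη'0 hc
  obtain ⟨K₀, hK₀⟩ := hk₀ k (le_max_left _ _) c Lb hc hLb
  set W : ℝ := (k + 1) * (n + 1) * (2 * Lb + 1) ^ 2 with hW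
  have hW0 : 0 < W := by
    have : 0 < 2 * Lb + 1 := by linarith
    positivity
  set K : ℝ := max K₀ (W + W / e) with hKdef
  have hWe : 0 < W / e := by positivity
  have hK1 : W + W / e ≤ K := le_max_right _ _
  have hK : 0 < K := by linarith
  have hWK : W / K ≤ e := by
    rw [div_le_iff₀ hK]
    have : W = e * (W / e) := by field_simp
    nlinarith
  obtain ⟨N₀, hN₀⟩ := hK₀ K (le_max_left _ _)
  obtain ⟨δ, hδ, hzero⟩ := UpperAux.time_zero hγ hγ1 hm hp' hS' he hk Lb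
  obtain ⟨ex, hex⟩ := exists_grid hη0 hη1 hk
  refine ⟨η, hη0, ?_⟩
  have ev1 : ∀ᶠ N : ℕ in Filter.atTop, ∀ j, ((blk (lab N) j).card : ℝ) / N < γ j * (1 + δ) :=
    Filter.eventually_all.2 fun j => (hlab j).eventually_lt_const (by nlinarith [hγ j])
  have ev2 : ∀ᶠ N : ℕ in Filter.atTop, (M : ℝ) / e ≤ N :=
    tendsto_natCast_atTop_atTop.eventually_ge_atTop _
  filter_upwards [ev1, ev2, Filter.eventually_ge_atTop N₀, Filter.eventually_gt_atTop 0]
    with N h1 h2 h3 h4 A hA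
  have hN : (0 : ℝ) < N := by exact_mod_cast h4
  rcases A.eq_empty_or_nonempty with rfl | hne
  · simp [Real.zero_rpow hη0.ne', exp_nonneg]
  have := unifOn_prob hne
  have hcard : ∀ j, ((blk (lab N) j).card : ℝ) ≤ N * (γ j * (1 + δ)) := fun j => by
    have := (div_lt_iff₀ hN).1 (h1 j)
    linarith
  have hM2 : (M : ℝ) ≤ N * e := by
    have := (div_le_iff₀ he).1 h2
    linarith
  set L := mLev ex (h N) (unifOn A) with hL
  have b0 : ∀ θ : UP n, θ.box k c Lb →
      JU L lam (sp N) p' K 0 θ ≤ N * (s + 3 * e) - log (A.card / 2 ^ N) := fun θ hθ => by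
    have a1 := JU_le_unpert ex (h N) (unifOn A) lam (sp N) p' hK 0 hθ hc (by linarith)
    have a2 := hzero N ex η (h N) A (lab N) θ.a hex hη1 hcard hA hθ.1 hθ.2.1
      fun l hl => (hθ.2.2.1 l hl).2.1
    have a3 : JU L lam (sp N) p' K 0 ⟨θ.a, 0, 0⟩ = L.X0 (Hm 0 (fun l _ => θ.a l) 0) -
        N / 2 * ∑ l ∈ Icc 1 k, θ.a l ^ 2 * (1 - ∫ s in Set.Ioo (ex.ζ l) 1, p' s) := by
      have h4 : L.ζ = ex.ζ := rfl
      simp only [JU, HU, UP.pen, zero_mul, Pi.zero_apply, add_zero, h4]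
      simp only [ne_eq, OfNat.ofNat_ne_zero, not_false_eq_true, zero_pow, Finset.sum_const_zero,
        add_zero, mul_zero, sub_zero]
      rfl
    have a4 := mul_le_mul_of_nonneg_left hWK hN.le
    rw [← hL, a3, ← hW] at a1
    rw [← hL] at a2
    linarith
  have key := UpperAux.telescope (fun θ : UP n => θ.box k c Lb)
    (fun i θ => JU L lam (sp N) p' K ((i : ℝ) / M) θ)
    (fun i => 1 / M * (N * (1 / 2 * (∫ r in Set.Ioo (0 : ℝ) 1,
      rho' ((i : ℝ) / M * (deficit p' r + ε₁))) + e)))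
    (N * (s + 3 * e) - log (A.card / 2 ^ N)) M (by simpa using b0)
    (fun i => ⟨_, fun θ hθ => by
      have a1 := UpperAux.JU_sub_le' ex (h N) (unifOn A) lam (sp N) p' K ((i : ℝ) / M) θ
      have a2 := b0 θ hθ
      exact (sub_le_iff_le_add'.1 a1).trans (add_le_add_left a2 _)⟩)
    (fun i hi θ hθ hmax => by
      have t1 : (1 : ℝ) / M ≤ ((i + 1 : ℕ) : ℝ) / M := by
        gcongr
        exact_mod_cast Nat.le_add_left 1 i
      have t2 : ((i + 1 : ℕ) : ℝ) / M ≤ 1 := by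
        rw [div_le_one hM']
        exact_mod_cast hi
      have a1 := hcoer N ex (h N) A (sp N) p' K _ θ hex h4 hp' hp'1 (by linarith)
        (by positivity) t2 hθ hmax
      have a2 := hN₀ N h3 ex (h N) (unifOn A) (sp N) p' _ θ hex (hsp N) hp' t1 t2 hθ a1 hmax
      have a3 := UpperAux.JU_sub_le ex (h N) (unifOn A) lam (sp N) p' K (((i + 1 : ℕ) : ℝ) / M)
        ((i : ℝ) / M) θ
      have a4 : ((i + 1 : ℕ) : ℝ) / M - (i : ℝ) / M = 1 / M := by
        push_cast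
        ring
      rw [a4] at a3
      exact a3.trans (mul_le_mul_of_nonneg_left a2 (by positivity)))
    ⟨fun l => if l = 0 then 0 else c, 0, 0⟩ (by
      refine ⟨by simp, fun l => ?_, fun l hl => ?_, fun a => ?_⟩
      · dsimp only
        split_ifs
        exacts [le_rfl, hc.le]
      · have : l ≠ 0 := by have := (Finset.mem_Icc.1 hl).1; omega
        simp only [if_neg this, Pi.zero_apply, abs_zero]
        exact ⟨le_rfl, by linarith, fun _ => by positivity⟩
      · simp only [Pi.zero_apply, abs_zero]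
        positivity)
  have a5 := UpperAux.X0_le_JU ex (h N) (unifOn A) lam (sp N) p' hp' K hc.le
  have a6 := hrie p' hp'
  have a7 : ∑ i ∈ Icc 1 M, (1 : ℝ) / M * (N * (1 / 2 * (∫ r in Set.Ioo (0 : ℝ) 1,
      rho' ((i : ℝ) / M * (deficit p' r + ε₁))) + e)) = N * (((∑ i ∈ Icc 1 M,
        ∫ r in Set.Ioo (0 : ℝ) 1, rho' ((i : ℝ) / M * (deficit p' r + ε₁))) / M) / 2 + e) := by
    rw [← Finset.mul_sum, ← Finset.mul_sum, Finset.sum_add_distrib, ← Finset.mul_sum]
    simp only [Finset.sum_const, Nat.card_Icc, Nat.add_sub_cancel, nsmul_eq_mul]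
    field_simp
  simp only [div_self hM'.ne'] at key
  rw [a7] at key
  rw [← hL, hc2] at a5
  have main : L.X0 (Hm (fun i => lam (sp N i)) 0 0) + log (A.card / 2 ^ N) ≤
      N * (s + spectralPart (muf lam) (lam (Fin.last n)) p + 8 * e) := by
    have a8 := mul_le_mul_of_nonneg_left a6 hN.le
    have a9 := mul_le_mul_of_nonneg_left hG hN.le
    have a10 := mul_pos hN he
    linarith
  have hz := exp_X0_Hm_zero ex (h N) (unifOn A) (fun i => lam (sp N i)) 0
  have hA0 : (0 : ℝ) < A.card := by exact_mod_cast hne.card_pos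
  have hq : (0 : ℝ) < A.card / 2 ^ N := by positivity
  rw [hex.1, ← hL] at hz
  simp only [integral_unifOn, Pi.zero_apply, add_zero] at hz
  have e1 : ∀ U : O N, ((∑ σ ∈ A, exp (∑ i, lam (sp N i) * yv U σ i ^ 2 / 2)) / 2 ^ N) ^ η =
      ((∑ σ ∈ A, exp (∑ i, lam (sp N i) * yv U σ i ^ 2 / 2)) / A.card) ^ η *
        exp (η * log (A.card / 2 ^ N)) := fun U => by
    have : 0 ≤ ∑ σ ∈ A, exp (∑ i, lam (sp N i) * yv U σ i ^ 2 / 2) :=
      Finset.sum_nonneg fun _ _ => exp_nonneg _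
    rw [mul_comm η, ← Real.rpow_def_of_pos hq, ← Real.mul_rpow (by positivity) hq.le]
    congr 1
    field_simp
  simp only [e1]
  rw [integral_mul_const, ← hz, ← exp_add, exp_le_exp, ← mul_add, mul_assoc]
  exact mul_le_mul_of_nonneg_left main hη0.le

end Crest.Agent.R164
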