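import Crest.Agent.R164.UpperDefs
import Crest.Agent.R164.ModelBasic
import Crest.Agent.R164.OneNest

/-! # Row 164: upper bound, time zero and removal of the perturbations -/

set_option autoImplicit false

namespace Crest.Agent.R164

open MeasureTheory ProbabilityTheory Real Finset Crest.ProbabilityR.InvariantGlass

namespace UA

/-- One standard Gaussian variable per level. -/
noncomputable def rLev {K : ℕ} (ex : Expo K) : Lev K ℝ where
  toExpo := ex
  μ _ := gaussianReal 0 1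
  nrm x := |x|
  prob _ := inferInstance
  nrm_meas := by fun_prop
  nrm_nonneg x := abs_nonneg x
  expInt _ c := integrable_exp_abs_gauss c

/-- The accumulated field. -/
noncomputable def fld {K : ℕ} (k : ℕ) (a : ℕ → ℝ) (ω : Cfg K ℝ) : ℝ :=
  ∑ l ∈ Icc 1 k, a l * atl ω l id

/-- The Gaussian coordinates in the frame of the sites. -/
noncomputable def pr {N : ℕ} (U : O N) (r : Fin N) (_e : ℕ) (x : Om N) : ℝ :=
  (U⁻¹ : O N).1.mulVec x.2 r

theorem anchor : True := by
  have := @rLev.eq_1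
  have := @fld.eq_1
  have := @pr.eq_1
  trivial

lemma X_const {K : ℕ} {Ω : Type} [MeasurableSpace Ω] (L : Lev K Ω) (c : ℝ) (l : ℕ) :
    L.X l (fun _ => c) = fun _ => c := by
  induction l using down_ind K with
  | h0 l hl => exact L.X_of_ge hl _
  | h1 l hl ih =>
    rw [L.X_of_lt hl, ih]
    funext ω
    exact Lev.T_of_indep fun _ => rfl

lemma X_last {K : ℕ} {Ω : Type} [MeasurableSpace Ω] (L : Lev (K + 1) Ω) {F : Cfg (K + 1) Ω → ℝ}
    (hF : Dep K F) (ω : Cfg (K + 1) Ω) : L.X K F ω = F ω := by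
  rw [L.X_of_lt (Nat.lt_succ_self K), L.X_of_ge le_rfl]
  exact Lev.T_of_indep fun x => hF.upd le_rfl ω x

lemma lin_fld {K : ℕ} (ex : Expo K) (k : ℕ) (a : ℕ → ℝ) : (rLev ex).Lin (fld k a) := by
  refine Lev.Lin.sum _ fun l _ => Lev.Lin.const_mul _ ⟨measurable_atl l measurable_id, 1, fun ω => ?_⟩
  have h0 := (rLev ex).size_nonneg ω
  unfold atl
  split_ifs with h
  · have : |ω ⟨l, h⟩| ≤ (rLev ex).size ω :=
      single_le_sum (f := fun i => |ω i|) (fun i _ => abs_nonneg _) (mem_univ _)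
    simp only [id]
    linarith
  · simp only [abs_zero]
    linarith

lemma lin_F {K : ℕ} (ex : Expo K) (k : ℕ) (a : ℕ → ℝ) (b : ℝ) :
    (rLev ex).Lin fun ω => log (cosh (b + fld k a ω)) := by
  have h := ((rLev ex).lin_const b).add (lin_fld ex k a)
  refine Lev.Lin.of_le (Real.measurable_log.comp (Real.measurable_cosh.comp h.1)) h fun ω => ?_
  rw [abs_of_nonneg (log_nonneg (one_le_cosh _))]
  exact (logcosh_bounds _).2

lemma dep_fld {K : ℕ} {Ω : Type} (k : ℕ) (a : ℕ → ℝ) (φ : ℕ → Ω → ℝ) :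
    Dep (k + 1) fun ω : Cfg K Ω => fld k a (cmap φ ω) := by
  intro ω ω' h
  refine sum_congr rfl fun l hl => ?_
  refine congrArg (a l * ·) (dep_atl l id (cmap φ ω) (cmap φ ω') fun i hi => ?_)
  have := (mem_Icc.1 hl).2
  simp only [cmap, h i (by omega)]

lemma one_site {k : ℕ} (ex : Expo (k + 2)) {a : ℕ → ℝ} (ha : a 0 = 0) (b : ℝ)
    (ω : Cfg (k + 2) ℝ) :
    (rLev ex).X 1 (fun ω => log (cosh (b + fld k a ω))) ω ≤ oX ex b a 0 := by
  let ψ : ℕ → Oo → ℝ := fun _ z => z.2 ()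
  have hψ : ∀ e, MeasurePreserving (ψ e) ((oLev ex).μ e) ((rLev ex).μ e) := fun e =>
    (gam_eval ()).comp measurePreserving_snd
  have hm := (lin_F ex k a b).1
  have e0 : ω = cmap ψ fun i => ((true, true), fun _ => ω i) := rfl
  rw [e0, ← Lev.X_cmap (L := oLev ex) (L' := rLev ex) rfl (fun e _ _ => hψ e) hm]
  have key : ∀ ω' : Cfg (k + 2) Oo,
      (oLev ex).X (k + 1) (fun ω => log (cosh (b + fld k a (cmap ψ ω)))) ω' + 0 ≤
        (oLev ex).X (k + 1) (One b a 0) ω' := by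
    intro ω'
    rw [X_last _ (fun ω ω' h => congrArg (fun z => log (cosh (b + z))) (dep_fld k a ψ ω ω' h)),
      X_One ex b a 0 le_rfl, Nat.sub_self, add_zero]
    refine le_of_eq ?_
    change _ = log (cosh (oF b a 0 (k + 1) ω'))
    congr 3
    rw [range_eq_Ico, sum_eq_sum_Ico_succ_bot (Nat.succ_pos k), ha]
    simp only [Pi.zero_apply, zero_mul, add_zero, zero_add]
    rfl
  have h1 := Lev.X_le_of_level (L := oLev ex) (L' := oLev ex) rfl (fun _ _ => rfl)
    (hm.comp (measurable_cmap fun e => (hψ e).measurable)) (lin_One ex b a 0).int key 1 (by omega)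
    fun i => ((true, true), fun _ => ω i)
  rw [add_zero, X_One ex b a 0 (by omega : 1 ≤ k + 1)] at h1
  refine h1.trans (le_of_eq ?_)
  rw [oX_eq, ph_zero ex ha.ge, ha]
  simp [gaussOp_zero_var, oF, ha]

lemma nonempty_of_prob {α : Type} [MeasurableSpace α] (A : Finset α)
    [h : IsProbabilityMeasure (unifOn A)] : A.Nonempty := by
  rcases A.eq_empty_or_nonempty with rfl | hA
  · have := h.measure_univ
    simp [unifOn] at this
  · exact hA

lemma chernoff {N : ℕ} {A : Finset (Fin N → Bool)} (hne : A.Nonempty) (F b : Fin N → ℝ) {C : ℝ}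
    (hA : ∀ σ ∈ A, C ≤ ∑ r, b r * sg (σ r)) :
    log ((∑ σ ∈ A, exp (∑ r, F r * sg (σ r))) / A.card) + (log (A.card / 2 ^ N) + C) ≤
      ∑ r, log (cosh (b r + F r)) := by
  have hc : (0 : ℝ) < A.card := by exact_mod_cast hne.card_pos
  have hS : 0 < ∑ σ ∈ A, exp (∑ r, F r * sg (σ r)) := sum_pos (fun _ _ => exp_pos _) hne
  rw [← log_prod fun r _ => (cosh_pos _).ne', ← log_exp C, ← log_mul (by positivity) (by positivity),
    ← log_mul (by positivity) (by positivity)]
  refine log_le_log (by positivity) ?_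
  have h1 : (∑ σ ∈ A, exp (∑ r, F r * sg (σ r))) * exp C ≤ 2 ^ N * ∏ r, cosh (b r + F r) := by
    calc (∑ σ ∈ A, exp (∑ r, F r * sg (σ r))) * exp C
        ≤ ∑ σ ∈ A, ∏ r, exp ((b r + F r) * sg (σ r)) := by
          rw [sum_mul]
          refine sum_le_sum fun σ hσ => ?_
          rw [← exp_add, ← exp_sum]
          simp only [add_mul, sum_add_distrib]
          exact exp_le_exp.2 (by linarith [hA σ hσ])
      _ ≤ ∑ σ : Fin N → Bool, ∏ r, exp ((b r + F r) * sg (σ r)) :=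
          sum_le_sum_of_subset_of_nonneg (subset_univ _) fun _ _ _ =>
            prod_nonneg fun _ _ => (exp_pos _).le
      _ = ∏ r, ∑ s : Bool, exp ((b r + F r) * sg s) := by
          rw [prod_univ_sum, Fintype.piFinset_univ]
      _ = ∏ r, 2 * cosh (b r + F r) := by
          refine prod_congr rfl fun r _ => ?_
          simp only [Fintype.sum_bool, sg, cosh_eq, if_true, mul_one, Bool.false_eq_true, if_false,
            mul_neg]
          ring
      _ = _ := by rw [prod_mul_distrib]; simp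
  calc _ = (∑ σ ∈ A, exp (∑ r, F r * sg (σ r))) * exp C / 2 ^ N := by field_simp
    _ ≤ _ := by rw [div_le_iff₀ (by positivity)]; linarith

lemma Hm_eq {k N : ℕ} (a : ℕ → ℝ) (ω : Cfg (k + 2) (Om N)) :
    Hm 0 (fun l _ => a l) 0 ω = ∑ r, fld k a (cmap (pr (ω 0).1.1 r) ω) * sg (spn ω r) := by
  simp only [Hm, Pi.zero_apply, zero_mul, zero_div, sum_const_zero, zero_add, add_zero, fld,
    sum_mul]
  rw [sum_comm (s := univ)]
  refine sum_congr rfl fun l hl => ?_
  have hl' : l < k + 2 := by have := (mem_Icc.1 hl).2; omega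
  simp only [gl, atl, hl', dif_pos, cmap, id, pr, Y, yv, Matrix.mulVec, dotProduct, O_inv_apply,
    mul_sum, sum_mul, spinVec, sg]
  rw [sum_comm]
  refine sum_congr rfl fun r _ => sum_congr rfl fun i _ => ?_
  ring

lemma JU_sub_le {k N n : ℕ} (ex : Expo (k + 2)) (h : Haar N) (ν : Measure (Fin N → Bool))
    [IsProbabilityMeasure ν] (lam : Fin (n + 1) → ℝ) (sp : Fin N → Fin (n + 1)) (p : ℝ → ℝ)
    (K t : ℝ) {c Lb : ℝ} {θ θ' : UP n} (hθ : θ.box k c Lb) (hc : 0 < c) (hcL : c ≤ Lb)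
    (ha : θ'.a = θ.a) {α : ℝ}
    (hα : ∀ b, |θ.w b - θ'.w b| / 2 + ∑ l ∈ Icc 1 k, |θ.u l b - θ'.u l b| * (2 * Lb) ≤ α) :
    JU (mLev ex h ν) lam sp p K t θ ≤ JU (mLev ex h ν) lam sp p K t θ' +
      N * (α - K * (θ.pen k - θ'.pen k)) := by
  have h1 := X0_Hm_sub_le' ex h ν (fun i => t * lam (sp i) + θ'.w (sp i))
    (fun l i => θ'.a l + θ'.u l (sp i)) 0 (fun i => t * lam (sp i) + θ.w (sp i))
    (fun l i => θ.a l + θ.u l (sp i)) 0 (d := 0) (a := α) (fun _ => by simp) fun i => by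
      refine le_trans (add_le_add (le_of_eq ?_) (sum_le_sum fun l hl => ?_)) (hα (sp i))
      · rw [add_sub_add_left_eq_sub]
      · rw [ha, add_sub_add_left_eq_sub]
        refine mul_le_mul_of_nonneg_left ?_ (abs_nonneg _)
        obtain ⟨b1, b2, b3⟩ := hθ.2.2.1 l hl
        have := abs_le.1 (b3 (sp i))
        rw [abs_le]
        constructor <;> linarith [this.1, this.2]
  unfold JU HU
  rw [ha] at h1 ⊢
  linarith

lemma quad_le {K C D u : ℝ} (hK : 0 < K) (hC : 0 ≤ C) (hD : C ≤ D) :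
    |u| * C - K * u ^ 2 ≤ D ^ 2 / K := by
  rw [le_div_iff₀ hK, ← sq_abs u]
  nlinarith [sq_nonneg (K * |u| - C / 2), mul_self_le_mul_self hC hD]

lemma small_of {K C u : ℝ} (hK : 1 ≤ K) (hC : 0 ≤ C) (h : K * u ^ 2 ≤ |u| * C + 1) :
    |u| ≤ (C + 1) / √K := by
  have h1 : 1 ≤ √K := Real.one_le_sqrt.2 hK
  have h2 : √K ^ 2 = K := sq_sqrt (by linarith)
  rw [le_div_iff₀ (by linarith)]
  have h3 : |u| * C ≤ |u| * √K * C := by
    gcongr
    exact le_mul_of_one_le_right (abs_nonneg _) h1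
  have h4 : (|u| * √K) ^ 2 = K * u ^ 2 := by rw [mul_pow, h2, sq_abs, mul_comm]
  by_contra hlt
  push Not at hlt
  nlinarith

end UA

open UA

/-- At time zero the system is a product of one-site systems (Chernoff bound for the cell `A`). -/
theorem zero_time {k N : ℕ} (ex : Expo (k + 2)) (h : Haar N) {A : Finset (Fin N → Bool)}
    [IsProbabilityMeasure (unifOn A)] {J : Type} [Fintype J] [DecidableEq J] (lab : Fin N → J)
    (b m : J → ℝ) (hA : ∀ σ ∈ A, 0 ≤ ∑ j, b j * (mag lab j σ - (blk lab j).card * m j))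
    {a : ℕ → ℝ} (ha : a 0 = 0) :
    (mLev ex h (unifOn A)).X0 (Hm 0 (fun l _ => a l) 0) + log (A.card / 2 ^ N) ≤
      ∑ j, (blk lab j).card * (oX ex (b j) a 0 - b j * m j) := by
  set L := mLev ex h (unifOn A) with hL
  have hblk : ∀ f : J → Fin N → ℝ, ∑ j, ∑ r ∈ blk lab j, f j r = ∑ r, f (lab r) r := by
    intro f
    rw [← sum_blk lab]
    refine sum_congr rfl fun j _ => sum_congr rfl fun r hr => ?_
    rw [(mem_filter.1 hr).2]
  have hA' : ∀ σ ∈ A, ∑ j, (blk lab j).card * (b j * m j) ≤ ∑ r, b (lab r) * sg (σ r) := by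
    intro σ hσ
    have h1 := hA σ hσ
    simp only [mul_sub, sum_sub_distrib, mag, mul_sum] at h1
    rw [hblk fun j r => b j * sg (σ r)] at h1
    simp only [mul_left_comm _ (b _)]
    linarith
  have key : ∀ ω, L.X 1 (Hm 0 (fun l _ => a l) 0) ω +
      (log (A.card / 2 ^ N) + ∑ j, (blk lab j).card * (b j * m j)) ≤
      L.X 1 (fun _ => ∑ r, oX ex (b (lab r)) a 0) ω := by
    intro ω
    set U := (ω 0).1.1 with hU
    have hπ : ∀ e, MeasurePreserving (fun (x : Om N) r => pr U r e x) (L.μ e)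
        (Measure.pi fun _ : Fin N => (rLev ex).μ e) := fun e =>
      (gam_mulVec (U⁻¹ : O N).2).comp measurePreserving_snd
    obtain ⟨hI, hX⟩ := Lev.X_pi (L := L) (L₁ := rLev ex) (pr := pr U)
      (F := fun r ω => log (cosh (b (lab r) + fld k a ω))) rfl (fun e _ => hπ e)
      fun r => (lin_F ex k a _).int
    have hmeas : Measurable fun ω : Cfg (k + 2) (Om N) =>
        ∑ r, fld k a (cmap (pr U r) ω) * sg (spn ω r) := by
      refine Finset.measurable_sum _ fun r _ => Measurable.mul ?_ (measurable_Sg r)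
      exact (lin_fld ex k a).1.comp (measurable_cmap fun e =>
        (measurable_pi_apply r).comp (hπ e).measurable)
    have h1 := Lev.X_le_of_level (L := L) (L' := L) rfl (m := k + 1) (fun _ _ => rfl) hmeas hI
      (c := log (A.card / 2 ^ N) + ∑ j, (blk lab j).card * (b j * m j)) (fun ω' => by
        rw [X_last L (F := fun ω => ∑ r, log (cosh (b (lab r) + fld k a (cmap (pr U r) ω))))
          (fun ω ω' h => sum_congr rfl fun r _ =>
            congrArg (fun z => log (cosh (b (lab r) + z))) (dep_fld k a (pr U r) ω ω' h)),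
          L.X_of_lt (Nat.lt_succ_self _), L.X_of_ge le_rfl]
        have hζ : L.ζ (k + 1) = 1 := ex.top _ le_rfl
        have hmp : MeasurePreserving (fun x : Om N => x.1.2) (L.μ (k + 1)) (unifOn A) :=
          measurePreserving_snd.comp measurePreserving_fst
        have e1 : ∀ x : Om N, ∑ r, fld k a (cmap (pr U r) (upd ω' (k + 1) x)) *
            sg (spn (upd ω' (k + 1) x) r) = ∑ r, fld k a (cmap (pr U r) ω') * sg (x.1.2 r) := by
          intro x
          refine sum_congr rfl fun r _ => ?_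
          have := (dep_fld k a (pr U r)).upd le_rfl ω' x
          rw [this]
          simp [spn, upd]
        simp only [Lev.T, hζ, inv_one, one_mul, e1]
        rw [NI.integral_mp hmp (g := fun σ => exp (∑ r, fld k a (cmap (pr U r) ω') * sg (σ r)))
          (measurable_of_finite _), integral_unifOn]
        exact chernoff (nonempty_of_prob A) _ _ hA') 1 (by omega) ω
    rw [hX, ← Lev.X_congr_loc (H := Hm 0 (fun l _ => a l) 0) 1 ω fun ω' h' => by
      rw [Hm_eq, h' 0 Nat.one_pos]] at h1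
    rw [X_const]
    exact h1.trans (sum_le_sum fun r _ => one_site ex ha _ _)
  have h2 := Lev.X_le_of_level (L := L) (L' := L) rfl (m := 1) (fun _ _ => rfl)
    (lin_Hm ex h (unifOn A) _ _ _).1 (L.lin_const _).int key 0 (by omega) L.pt
  rw [X_const, Lev.X_zero, ← hblk fun j _ => oX ex (b j) a 0] at h2
  simp only [sum_const, nsmul_eq_mul] at h2
  simp only [mul_sub, sum_sub_distrib]
  linarith

/-- The perturbations gain little against the penalty. -/
theorem JU_le_unpert {k N n : ℕ} (ex : Expo (k + 2)) (h : Haar N) (ν : Measure (Fin N → Bool))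
    [IsProbabilityMeasure ν] (lam : Fin (n + 1) → ℝ) (sp : Fin N → Fin (n + 1)) (p : ℝ → ℝ)
    {K c Lb : ℝ} (hK : 0 < K) (t : ℝ) {θ : UP n} (hθ : θ.box k c Lb) (hc : 0 < c) (hcL : c ≤ Lb) :
    JU (mLev ex h ν) lam sp p K t θ ≤ JU (mLev ex h ν) lam sp p K t ⟨θ.a, 0, 0⟩ +
      N * ((k + 1) * (n + 1) * (2 * Lb + 1) ^ 2 / K) := by
  have hL : 0 ≤ Lb := by linarith
  have h1 := JU_sub_le ex h ν lam sp p K t (θ' := ⟨θ.a, 0, 0⟩) hθ hc hcL rfl
    (α := ∑ l ∈ Icc 1 k, ∑ b, |θ.u l b| * (2 * Lb) + ∑ b, |θ.w b| * (1 / 2)) fun b => by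
      simp only [Pi.zero_apply, sub_zero]
      rw [add_comm, div_eq_mul_one_div]
      exact add_le_add (sum_le_sum fun l _ => single_le_sum (f := fun b => |θ.u l b| * (2 * Lb))
        (fun _ _ => by positivity) (mem_univ b))
        (single_le_sum (f := fun b => |θ.w b| * (1 / 2)) (fun _ _ => by positivity) (mem_univ b))
  refine h1.trans (add_le_add_right (mul_le_mul_of_nonneg_left ?_ (Nat.cast_nonneg N)) _)
  have h2 : ∑ l ∈ Icc 1 k, ∑ b, (|θ.u l b| * (2 * Lb) - K * θ.u l b ^ 2) ≤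
      ∑ _l ∈ Icc 1 k, ∑ _b : Fin (n + 1), (2 * Lb + 1) ^ 2 / K :=
    sum_le_sum fun l _ => sum_le_sum fun b _ => quad_le hK (by positivity) (by linarith)
  have h3 : ∑ b, (|θ.w b| * (1 / 2) - K * θ.w b ^ 2) ≤ ∑ _b : Fin (n + 1), (2 * Lb + 1) ^ 2 / K :=
    sum_le_sum fun b _ => quad_le hK (by positivity) (by linarith)
  simp only [sum_sub_distrib, ← mul_sum, sum_const, card_univ, Fintype.card_fin, Nat.card_Icc,
    nsmul_eq_mul, add_tsub_cancel_right, Nat.cast_add, Nat.cast_one] at h2 h3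
  simp only [UP.pen, Pi.zero_apply, ne_eq, OfNat.ofNat_ne_zero, not_false_eq_true, zero_pow,
    sum_const_zero, add_zero, sub_zero]
  have e : ((k : ℝ) + 1) * (n + 1) * (2 * Lb + 1) ^ 2 / K =
      k * ((n + 1) * ((2 * Lb + 1) ^ 2 / K)) + (n + 1) * ((2 * Lb + 1) ^ 2 / K) := by ring
  rw [e]
  linarith

/-- At an almost maximiser the perturbations are small. -/
theorem near_max_small {k N n : ℕ} (ex : Expo (k + 2)) (h : Haar N) (ν : Measure (Fin N → Bool))
    [IsProbabilityMeasure ν] (lam : Fin (n + 1) → ℝ) (sp : Fin N → Fin (n + 1)) (p : ℝ → ℝ)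
    {K c Lb : ℝ} (hK : 1 ≤ K) (hN : 0 < N) (t : ℝ) {θ : UP n} (hθ : θ.box k c Lb) (hc : 0 < c)
    (hcL : c ≤ Lb)
    (hmax : ∀ θ' : UP n, θ'.box k c Lb →
      JU (mLev ex h ν) lam sp p K t θ' ≤ JU (mLev ex h ν) lam sp p K t θ + 1) :
    (∀ l ∈ Icc 1 k, ∀ a, |θ.u l a| ≤ (2 * Lb + 2) / √K) ∧ ∀ a, |θ.w a| ≤ (2 * Lb + 2) / √K := by
  have hL : 0 ≤ Lb := by linarith
  have hN1 : (1 : ℝ) ≤ N := by exact_mod_cast hN
  have key : ∀ (θ' : UP n) (v : ℝ), θ'.box k c Lb → θ'.a = θ.a → θ.pen k - θ'.pen k = v ^ 2 →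
      (∀ b, |θ.w b - θ'.w b| / 2 + ∑ l ∈ Icc 1 k, |θ.u l b - θ'.u l b| * (2 * Lb) ≤
        |v| * (2 * Lb + 1)) → |v| ≤ (2 * Lb + 2) / √K := by
    intro θ' v h1 h2 h3 h4
    have h5 := JU_sub_le ex h ν lam sp p K t hθ hc hcL h2 h4
    have h6 := hmax θ' h1
    rw [h3] at h5
    have h7 := small_of (C := 2 * Lb + 1) (u := v) hK (by positivity) (by
      by_contra hlt
      push Not at hlt
      nlinarith)
    rwa [show 2 * Lb + 1 + 1 = 2 * Lb + 2 by ring] at h7
  refine ⟨fun l hl a => ?_, fun a => ?_⟩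
  · refine key ⟨θ.a, fun l' a' => if l' = l ∧ a' = a then 0 else θ.u l' a', θ.w⟩ _
      ⟨hθ.1, hθ.2.1, fun l' hl' => ⟨(hθ.2.2.1 l' hl').1, (hθ.2.2.1 l' hl').2.1, fun a' => ?_⟩,
        hθ.2.2.2⟩ rfl ?_ fun b => ?_
    · dsimp only
      split_ifs
      · rw [abs_zero]; positivity
      · exact (hθ.2.2.1 l' hl').2.2 a'
    · simp only [UP.pen, add_sub_add_right_eq_sub, ← sum_sub_distrib]
      rw [sum_eq_single_of_mem l hl, sum_eq_single_of_mem a (mem_univ a)]
      · simp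
      · intro a' _ h'
        simp [h']
      · intro l' _ h'
        simp [h']
    · simp only [sub_self, abs_zero, zero_div, zero_add]
      rw [sum_eq_single_of_mem l hl]
      · by_cases hb : b = a
        · subst hb
          simp only [and_self, if_true, sub_zero]
          gcongr
          linarith
        · simp only [hb, and_false, if_false, sub_self, abs_zero, zero_mul]
          positivity
      · intro l' _ h'
        simp [h']
  · refine key ⟨θ.a, θ.u, fun a' => if a' = a then 0 else θ.w a'⟩ _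
      ⟨hθ.1, hθ.2.1, hθ.2.2.1, fun a' => ?_⟩ rfl ?_ fun b => ?_
    · dsimp only
      split_ifs
      · rw [abs_zero]; positivity
      · exact hθ.2.2.2 a'
    · simp only [UP.pen, add_sub_add_left_eq_sub, ← sum_sub_distrib]
      rw [sum_eq_single_of_mem a (mem_univ a)]
      · simp
      · intro a' _ h'
        simp [h']
    · simp only [sub_self, abs_zero, zero_mul, sum_const_zero, add_zero]
      by_cases hb : b = a
      · subst hb
        simp only [if_true, sub_zero]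
        nlinarith [abs_nonneg (θ.w b)]
      · simp only [hb, if_false, sub_self, abs_zero, zero_div]
        positivity

/-- Coercivity in the main amplitudes. -/
theorem exists_Lb {n k : ℕ} (hk : 1 ≤ k) (lam : Fin (n + 1) → ℝ) {η η' c : ℝ} (hη0 : 0 < η)
    (hη1 : η < 1) (hη' : 0 < η') (hc : 0 < c) : ∃ Lb : ℝ, c + 1 ≤ Lb ∧
    ∀ (N : ℕ) (ex : Expo (k + 2)) (h : Haar N) (A : Finset (Fin N → Bool))
      [IsProbabilityMeasure (unifOn A)] (sp : Fin N → Fin (n + 1)) (p : ℝ → ℝ) (K t : ℝ) (θ : UP n),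
      IsGrid ex η → 0 < N → IsTrialPath p → (∀ s ∈ Set.Ioo (0 : ℝ) 1, p s ≤ 1 - η') →
      (k + 1) * (n + 1) * (2 * Lb + 1) ^ 2 ≤ K → 0 ≤ t → t ≤ 1 → θ.box k c Lb →
      (∀ θ' : UP n, θ'.box k c Lb → JU (mLev ex h (unifOn A)) lam sp p K t θ' ≤
        JU (mLev ex h (unifOn A)) lam sp p K t θ + 1) →
      ∀ l ∈ Icc 1 k, θ.a l ≤ Lb - 1 := by
  have hk0 : (0 : ℝ) < k := by exact_mod_cast hk
  have hl2 : 0 < log 2 := log_pos one_lt_two
  obtain ⟨Λ, hΛ0, hΛ⟩ : ∃ Λ : ℝ, 0 ≤ Λ ∧ ∀ a, |lam a| ≤ Λ :=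
    ⟨∑ a, |lam a|, sum_nonneg fun _ _ => abs_nonneg _, fun a =>
      single_le_sum (f := fun a => |lam a|) (fun _ _ => abs_nonneg _) (mem_univ a)⟩
  obtain ⟨κ, hκ, hκe⟩ : ∃ κ : ℝ, 0 < κ ∧ κ = η' * ((1 - η) / k) :=
    ⟨_, mul_pos hη' (div_pos (by linarith) hk0), rfl⟩
  obtain ⟨M, hM, hMe⟩ : ∃ M : ℝ, 0 < M ∧
      M = 2 + Λ + log 2 + (k + 1) * (log 2 / η) + k * c ^ 2 / 2 := ⟨_, by positivity, rfl⟩
  have hMκ : 0 < 2 * M / κ := by positivity
  refine ⟨c + 2 + 2 * M / κ, by linarith, ?_⟩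
  intro N ex h A _ sp p K t θ hex hN hp hp' hK ht0 ht1 hθ hmax l hl
  set Lb := c + 2 + 2 * M / κ with hLb
  have hN1 : (1 : ℝ) ≤ N := by exact_mod_cast hN
  have hL0 : 0 < Lb := by positivity
  have hK0 : 0 < K := lt_of_lt_of_le (by positivity) hK
  have hτ : ∀ l, 0 ≤ ∫ s in Set.Ioo (ex.ζ l) 1, p s ∧
      ∫ s in Set.Ioo (ex.ζ l) 1, p s ≤ (1 - ex.ζ l) * (1 - η') := by
    intro l
    have hs : ∀ s ∈ Set.Ioo (ex.ζ l) 1, s ∈ Set.Ioo (0 : ℝ) 1 := fun s hs =>
      ⟨(ex.pos l).trans hs.1, hs.2⟩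
    have h0 : 0 ≤ᵐ[volume.restrict (Set.Ioo (ex.ζ l) 1)] p :=
      ae_restrict_of_forall_mem measurableSet_Ioo fun s h => (hp.2.2 s (hs s h)).1
    refine ⟨integral_nonneg_of_ae h0, ?_⟩
    have h1 := integral_mono_of_nonneg h0 (integrable_const (1 - η'))
      (ae_restrict_of_forall_mem measurableSet_Ioo fun s h => hp' s (hs s h))
    simpa [sub_nonneg.2 (ex.le_one l)] using h1
  have hlam : ∀ i, |t * lam (sp i) + 0| ≤ Λ := fun i => by
    rw [add_zero, abs_mul, abs_of_nonneg ht0]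
    nlinarith [hΛ (sp i), abs_nonneg (lam (sp i))]
  -- the lower bound
  have hlow : -(N * (Λ / 2 + k * c ^ 2 / 2)) ≤
      JU (mLev ex h (unifOn A)) lam sp p K t ⟨fun l => if l = 0 then 0 else c, 0, 0⟩ := by
    have h1 := X0_Hm_amp ex h (unifOn A) (fun i => t * lam (sp i) + 0)
      (fun l _ => (if l = 0 then 0 else c) + 0) 0 fun l _ _ => by split_ifs <;> linarith
    have h2 := X0_Hm_sub_le' ex h (unifOn A) (fun i => t * lam (sp i) + 0) 0 0 0 0 0 (d := 0)
      (a := Λ / 2) (fun _ => by simp) fun i => by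
        have := hlam i
        simp only [Pi.zero_apply, zero_sub, abs_neg, abs_zero, mul_zero, sum_const_zero, add_zero]
          at this ⊢
        linarith
    have h3 : (Hm 0 0 0 : Cfg (k + 2) (Om N) → ℝ) = fun _ => 0 := by
      funext ω
      simp [Hm]
    rw [h3, Lev.X0_const] at h2
    have h4 : ∑ l ∈ Icc 1 k, (if l = 0 then 0 else c) ^ 2 * (1 - ∫ s in Set.Ioo (ex.ζ l) 1, p s) ≤
        ∑ _l ∈ Icc 1 k, c ^ 2 := by
      refine sum_le_sum fun l hl => ?_
      rw [if_neg (by have := (mem_Icc.1 hl).1; omega)]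
      nlinarith [(hτ l).1, sq_nonneg c]
    simp only [sum_const, Nat.card_Icc, add_tsub_cancel_right, nsmul_eq_mul] at h4
    have h5 := mul_le_mul_of_nonneg_left h4 (by positivity : (0 : ℝ) ≤ N / 2)
    change _ ≤ (mLev ex h (unifOn A)).X0 (Hm (fun i => t * lam (sp i) + 0)
      (fun l _ => (if l = 0 then 0 else c) + 0) 0) - N / 2 * ∑ l ∈ Icc 1 k,
        (if l = 0 then 0 else c) ^ 2 * (1 - ∫ s in Set.Ioo (ex.ζ l) 1, p s) - N * K * UP.pen _ k
    simp only [UP.pen, Pi.zero_apply, ne_eq, OfNat.ofNat_ne_zero, not_false_eq_true, zero_pow,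
      sum_const_zero, mul_zero, sub_zero, add_zero (0 : ℝ)]
    linarith
  have hm := hmax ⟨fun l => if l = 0 then 0 else c, 0, 0⟩
    ⟨rfl, fun l => by dsimp only; split_ifs <;> linarith, fun l hl => by
      have hl0 : l ≠ 0 := by have := (mem_Icc.1 hl).1; omega
      simp only [hl0, if_false, Pi.zero_apply, abs_zero]
      exact ⟨le_rfl, by linarith, fun _ => by positivity⟩, fun _ => by
      simp only [Pi.zero_apply, abs_zero]
      positivity⟩
  -- the upper bound
  have u1 := JU_le_unpert ex h (unifOn A) lam sp p hK0 t hθ hc (by linarith)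
  have u2 : (N : ℝ) * ((k + 1) * (n + 1) * (2 * Lb + 1) ^ 2 / K) ≤ N :=
    mul_le_of_le_one_right (by positivity) ((div_le_one hK0).2 hK)
  have u3 := X0_Hm_sub_le' ex h (unifOn A) 0 (fun l _ => θ.a l) 0 (fun i => t * lam (sp i) + 0)
    (fun l _ => θ.a l + 0) 0 (d := 0) (a := Λ / 2) (fun _ => by simp) fun i => by
      have := hlam i
      simp only [Pi.zero_apply, sub_zero, sub_self, abs_zero, zero_mul, sum_const_zero, add_zero]
        at this ⊢
      linarith
  have u4 := zero_time ex h (A := A) (fun _ : Fin N => ()) 0 0 (fun _ _ => by simp) hθ.1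
  have u5 : -(N * log 2) ≤ log (A.card / 2 ^ N) := by
    have : (1 : ℝ) ≤ A.card := by exact_mod_cast (nonempty_of_prob A).card_pos
    rw [log_div (by positivity) (by positivity), log_pow]
    linarith [log_nonneg this]
  have u6 : oX ex 0 θ.a 0 ≤ (k + 1) * (log 2 / η) + (∑ l ∈ Icc 1 k, ex.ζ l * θ.a l ^ 2) / 2 := by
    refine (oX_coercive ex hθ.2.1).trans ?_
    rw [sum_add_distrib]
    refine add_le_add ?_ (le_of_eq ?_)
    · refine (sum_le_sum (g := fun _ => log 2 / η) fun l _ => ?_).trans (by simp)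
      exact div_le_div_of_nonneg_left hl2.le hη0 (hex.1 ▸ ex.mono (Nat.zero_le l))
    · rw [range_eq_Ico, sum_eq_sum_Ico_succ_bot (Nat.succ_pos k), hθ.1, sum_div]
      simp only [ne_eq, OfNat.ofNat_ne_zero, not_false_eq_true, zero_pow, mul_zero, zero_div,
        zero_add]
      rfl
  have u7 : θ.a l ^ 2 * κ + ∑ l ∈ Icc 1 k, ex.ζ l * θ.a l ^ 2 ≤
      ∑ l ∈ Icc 1 k, θ.a l ^ 2 * (1 - ∫ s in Set.Ioo (ex.ζ l) 1, p s) := by
    have h1 := single_le_sum (f := fun l => θ.a l ^ 2 * κ) (fun _ _ => by positivity) hl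
    refine (add_le_add_left h1 _).trans ?_
    rw [← sum_add_distrib]
    refine sum_le_sum fun l hl => ?_
    have h2 : (1 - η) / k ≤ 1 - ex.ζ l := by
      rw [← hex.2.2 l hl, Expo.Δ]
      linarith [ex.le_one (l + 1)]
    have h3 : κ ≤ 1 - (∫ s in Set.Ioo (ex.ζ l) 1, p s) - ex.ζ l := by
      have := mul_le_mul_of_nonneg_left h2 hη'.le
      nlinarith [(hτ l).2]
    nlinarith [mul_le_mul_of_nonneg_left h3 (sq_nonneg (θ.a l))]
  have u8 : JU (mLev ex h (unifOn A)) lam sp p K t ⟨θ.a, 0, 0⟩ =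
      (mLev ex h (unifOn A)).X0 (Hm (fun i => t * lam (sp i) + 0) (fun l _ => θ.a l + 0) 0) -
        N / 2 * ∑ l ∈ Icc 1 k, θ.a l ^ 2 * (1 - ∫ s in Set.Ioo (ex.ζ l) 1, p s) := by
    change _ - _ - N * K * UP.pen _ k = _
    simp only [UP.pen, Pi.zero_apply, ne_eq, OfNat.ofNat_ne_zero, not_false_eq_true, zero_pow,
      sum_const_zero, mul_zero, sub_zero, add_zero (0 : ℝ)]
    rfl
  simp only [univ_unique, blk, filter_true, card_univ, Fintype.card_fin, Pi.zero_apply, mul_zero,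
    sub_zero, sum_singleton] at u4
  have u9 := mul_le_mul_of_nonneg_left u6 (Nat.cast_nonneg N)
  have u10 := mul_le_mul_of_nonneg_left u7 (by positivity : (0 : ℝ) ≤ N / 2)
  have u11 : (N : ℝ) * (θ.a l ^ 2 * κ) ≤ N * (2 * M) := by
    rw [hMe]
    linarith
  have u12 : θ.a l ^ 2 ≤ 2 * M / κ := by
    rw [le_div_iff₀ hκ]
    exact le_of_mul_le_mul_left u11 (by linarith)
  nlinarith [sq_nonneg (θ.a l - 1)]

end Crest.Agent.R164
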