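import Crest.Agent.R164.UpperB

/-! # Row 164: auxiliary facts for the upper bound -/

set_option autoImplicit false

namespace Crest.Agent.R164

open MeasureTheory ProbabilityTheory Real Finset Crest.ProbabilityR.InvariantGlass

namespace UpperAux

/-- Telescoping along almost maximisers. -/
lemma telescope {Θ : Type} (B : Θ → Prop) (F : ℕ → Θ → ℝ) (e : ℕ → ℝ) (c : ℝ) (M : ℕ)
    (h0 : ∀ θ, B θ → F 0 θ ≤ c) (hb : ∀ i, ∃ C, ∀ θ, B θ → F i θ ≤ C)
    (hs : ∀ i < M, ∀ θ, B θ → (∀ θ', B θ' → F (i + 1) θ' ≤ F (i + 1) θ + 1) →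
      F (i + 1) θ - F i θ ≤ e (i + 1)) :
    ∀ θ, B θ → F M θ ≤ c + ∑ i ∈ Icc 1 M, e i + M := by
  induction M with
  | zero => simpa using h0
  | succ M ih =>
    intro θ hθ
    have ih' := ih fun i hi => hs i (by omega)
    obtain ⟨C, hC⟩ := hb (M + 1)
    set S : Set ℝ := F (M + 1) '' {θ | B θ} with hS
    have hne : S.Nonempty := ⟨_, θ, hθ, rfl⟩
    have hbd : BddAbove S := ⟨C, by rintro _ ⟨θ', h', rfl⟩; exact hC θ' h'⟩
    obtain ⟨_, ⟨θ₁, h₁, rfl⟩, hlt⟩ := exists_lt_of_lt_csSup hne (show sSup S - 1 < sSup S by linarith)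
    have hmax : ∀ θ', B θ' → F (M + 1) θ' ≤ F (M + 1) θ₁ + 1 := fun θ' h' => by
      have := le_csSup hbd ⟨θ', h', rfl⟩
      linarith
    have a1 := hs M (by omega) θ₁ h₁ hmax
    have a2 := ih' θ₁ h₁
    have a3 := hmax θ hθ
    rw [Finset.sum_Icc_succ_top (by omega)]
    push_cast
    linarith

lemma SLe_mono {J : ℕ} {γ m : Fin J → ℝ} {p p' : ℝ → ℝ} {s : ℝ} (hS : SLe γ m p s)
    (hp : IsTrialPath p) (hp' : IsTrialPath p') (h : ∀ r ∈ Set.Ioo (0 : ℝ) 1, p' r ≤ p r) :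
    SLe γ m p' s := by
  intro k w hv hw η hη
  obtain ⟨b, hb⟩ := hS k w hv hw η hη
  refine ⟨b, le_trans ?_ hb⟩
  have : ∫ s in Set.Ioo (0 : ℝ) 1, p' s * stepFn w hv s ≤
      ∫ s in Set.Ioo (0 : ℝ) 1, p s * stepFn w hv s :=
    setIntegral_mono_on (integrableOn_mul_stepFn hw hp') (integrableOn_mul_stepFn hw hp)
      measurableSet_Ioo fun r hr => mul_le_mul_of_nonneg_right (h r hr) (stepFn_nonneg hw r)
  linarith

lemma int_tail_mem {p : ℝ → ℝ} (hp : IsTrialPath p) {z : ℝ} (h0 : 0 ≤ z) (h1 : z ≤ 1) :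
    0 ≤ ∫ s in Set.Ioo z 1, p s ∧ ∫ s in Set.Ioo z 1, p s ≤ 1 := by
  have hsub : Set.Ioo z 1 ⊆ Set.Ioo 0 1 := Set.Ioo_subset_Ioo_left h0
  refine ⟨setIntegral_nonneg measurableSet_Ioo fun s hs => (hp.2.2 s (hsub hs)).1, ?_⟩
  have hi : IntegrableOn p (Set.Ioo z 1) := (SpecIntAux.int_path hp).mono_set hsub
  have h2 : ∫ s in Set.Ioo z 1, p s ≤ ∫ _ in Set.Ioo z 1, (1 : ℝ) :=
    setIntegral_mono_on hi (integrableOn_const (by simp)) measurableSet_Ioo
      fun s hs => (hp.2.2 s (hsub hs)).2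
  rw [setIntegral_const, Real.volume_real_Ioo_of_le h1] at h2
  simp only [smul_eq_mul, mul_one] at h2
  linarith

lemma sum_card_blk {N : ℕ} {J : Type} [Fintype J] [DecidableEq J] (lab : Fin N → J) :
    ∑ j, ((blk lab j).card : ℝ) = N := by
  have := Finset.card_eq_sum_card_fiberwise (f := lab) (s := univ) (t := univ)
    (fun _ _ => Finset.mem_univ _)
  rw [Finset.card_univ, Fintype.card_fin] at this
  exact_mod_cast this.symm

/-- The field with the sign of the magnetisation. -/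
lemma exists_signed {k : ℕ} {w hv : Fin k → ℝ} (hw : IsStepField w hv) (b m : ℝ) :
    ∃ b' : ℝ, fieldValueAt b' w hv - b' * m ≤ fieldValueAt b w hv - b * m ∧
      ∀ x : ℝ, 0 ≤ m * x → 0 ≤ b' * x := by
  have habs : fieldValueAt |b| w hv = fieldValueAt b w hv := by
    rcases abs_cases b with h | h <;> rw [h.1]
    exact fieldValueAt_neg hw b
  rcases lt_trichotomy m 0 with h | h | h
  · refine ⟨-|b|, ?_, fun x hx => ?_⟩
    · rw [fieldValueAt_neg hw, habs]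
      nlinarith [neg_abs_le b]
    · have : x ≤ 0 := by
        by_contra h'
        push Not at h'
        nlinarith
      nlinarith [abs_nonneg b]
  · subst h
    exact ⟨0, by simpa using fieldValueAt_zero_le hw b, fun x _ => by simp⟩
  · refine ⟨|b|, ?_, fun x hx => ?_⟩
    · rw [habs]
      nlinarith [le_abs_self b]
    · have : 0 ≤ x := by
        by_contra h'
        push Not at h'
        nlinarith
      positivity

/-- The value at time zero. -/
lemma time_zero {J : ℕ} {γ m : Fin J → ℝ} (hγ : ∀ j, 0 < γ j) (hγ1 : ∑ j, γ j = 1)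
    (hm : ∀ j, |m j| < 1) {p : ℝ → ℝ} (hp : IsTrialPath p) {s : ℝ} (hS : SLe γ m p s) {ε : ℝ}
    (hε : 0 < ε) {k : ℕ} (hk : 1 ≤ k) (Lb : ℝ) : ∃ δ : ℝ, 0 < δ ∧
    ∀ (N : ℕ) (ex : Expo (k + 2)) (η : ℝ) (h : Haar N) (A : Finset (Fin N → Bool))
      [IsProbabilityMeasure (unifOn A)] (lab : Fin N → Fin J) (a : ℕ → ℝ),
      IsGrid ex η → η < 1 → (∀ j, ((blk lab j).card : ℝ) ≤ N * (γ j * (1 + δ))) →
      (∀ σ ∈ A, ∀ j, 0 ≤ m j * (mag lab j σ - (blk lab j).card * m j)) →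
      a 0 = 0 → (∀ l, 0 ≤ a l) → (∀ l ∈ Icc 1 k, a l ≤ Lb) →
      (mLev ex h (unifOn A)).X0 (Hm 0 (fun l _ => a l) 0) -
        N / 2 * ∑ l ∈ Icc 1 k, a l ^ 2 * (1 - ∫ s in Set.Ioo (ex.ζ l) 1, p s) ≤
        N * (s + 2 * ε) - log (A.card / 2 ^ N) := by
  set B : ℝ := log 2 + k * Lb ^ 2 / 2 with hB
  have hB0 : 0 ≤ B := by have := Real.log_nonneg (show (1 : ℝ) ≤ 2 by norm_num); positivity
  have hD : 0 < |s| + ε + B := by positivity
  refine ⟨ε / (|s| + ε + B), by positivity, ?_⟩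
  set δ := ε / (|s| + ε + B) with hδ
  have hδ0 : 0 < δ := by positivity
  have hδ1 : δ * (|s| + ε + B) = ε := by rw [hδ]; field_simp
  intro N ex η h A _ lab a hex hη hcard hA ha0 ha haL
  obtain ⟨w, hv, hw, hF, hI⟩ := exists_step_of_grid hex hη hk ha ha0
  obtain ⟨b₀, hb₀⟩ := hS _ w hv hw ε hε
  choose b hb1 hb2 using fun j => exists_signed hw (b₀ j) (m j)
  have hz := zero_time ex h lab b m (A := A)
    (fun σ hσ => Finset.sum_nonneg fun j _ => hb2 j _ (hA σ hσ j)) ha0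
  set T : Fin J → ℝ := fun j => fieldValueAt (b j) w hv - b j * m j with hT
  set Q : ℝ := ∑ l ∈ Icc 1 k, a l ^ 2 with hQ
  set R : ℝ := ∑ l ∈ Icc 1 k, a l ^ 2 * ∫ s in Set.Ioo (ex.ζ l) 1, p s with hR
  have hR0 : 0 ≤ R := Finset.sum_nonneg fun l _ =>
    mul_nonneg (sq_nonneg _) (int_tail_mem hp (ex.pos l).le (ex.le_one l)).1
  have hQL : Q ≤ k * Lb ^ 2 := by
    have : Q ≤ ∑ _l ∈ Icc 1 k, Lb ^ 2 :=
      Finset.sum_le_sum fun l hl => pow_le_pow_left₀ (ha l) (haL l hl) 2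
    simpa using this
  have hT0 : ∀ j, 0 ≤ T j + B := fun j => by
    have h1 := le_oX ex (b j) a 0
    have h2 : b j * m j ≤ |b j| := by
      calc b j * m j ≤ |b j * m j| := le_abs_self _
        _ = |b j| * |m j| := abs_mul _ _
        _ ≤ |b j| := mul_le_of_le_one_right (abs_nonneg _) (hm j).le
    simp only [hT, hF, hB]
    linarith
  have hsum : ∑ j, γ j * T j + R / 2 ≤ s + ε := by
    rw [hI p hp] at hb₀
    have : ∑ j, γ j * T j ≤ ∑ j, γ j * (fieldValueAt (b₀ j) w hv - b₀ j * m j) :=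
      Finset.sum_le_sum fun j _ => mul_le_mul_of_nonneg_left (hb1 j) (hγ j).le
    linarith
  have hN0 : (0 : ℝ) ≤ N := Nat.cast_nonneg N
  have e1 : ∑ j, ((blk lab j).card : ℝ) * (oX ex (b j) a 0 - b j * m j) =
      ∑ j, ((blk lab j).card : ℝ) * (T j + B) + N * (Q / 2 - B) := by
    rw [← sum_card_blk lab, Finset.sum_mul, ← Finset.sum_add_distrib]
    refine Finset.sum_congr rfl fun j _ => ?_
    simp only [hT, hF]
    ring
  have e2 : ∑ j, ((blk lab j).card : ℝ) * (T j + B) ≤ N * ((1 + δ) * (∑ j, γ j * T j + B)) := by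
    have : N * ((1 + δ) * (∑ j, γ j * T j + B)) = ∑ j, N * (γ j * (1 + δ)) * (T j + B) := by
      rw [show ∑ j, γ j * T j + B = ∑ j, γ j * (T j + B) by
        simp only [mul_add, Finset.sum_add_distrib, ← Finset.sum_mul, hγ1, one_mul],
        Finset.mul_sum, Finset.mul_sum]
      exact Finset.sum_congr rfl fun j _ => by ring
    rw [this]
    exact Finset.sum_le_sum fun j _ => mul_le_mul_of_nonneg_right (hcard j) (hT0 j)
  have e3 : (1 + δ) * (∑ j, γ j * T j + B) ≤ s + 2 * ε - R / 2 + B := by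
    have : δ * (∑ j, γ j * T j + B) ≤ δ * (|s| + ε + B) :=
      mul_le_mul_of_nonneg_left (by linarith [le_abs_self s]) hδ0.le
    linarith
  have e4 : ∑ l ∈ Icc 1 k, a l ^ 2 * (1 - ∫ s in Set.Ioo (ex.ζ l) 1, p s) = Q - R := by
    rw [hQ, hR, ← Finset.sum_sub_distrib]
    exact Finset.sum_congr rfl fun l _ => by ring
  rw [e4]
  have e5 := mul_le_mul_of_nonneg_left e3 hN0
  linarith

variable {k N n : ℕ} (ex : Expo (k + 2)) (h : Haar N) (ν : Measure (Fin N → Bool))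
  [IsProbabilityMeasure ν] (lam : Fin (n + 1) → ℝ) (sp : Fin N → Fin (n + 1)) (p : ℝ → ℝ)

lemma JU_sub_le (K t t' : ℝ) (θ : UP n) :
    JU (mLev ex h ν) lam sp p K t θ - JU (mLev ex h ν) lam sp p K t' θ ≤ (t - t') *
      (mLev ex h ν).E0 (HU lam sp t θ) (fun ω => ∑ i, lam (sp i) * Y i ω ^ 2 / 2) := by
  have h1 := Lev.X0_sub_le (L := mLev ex h ν) (H := HU lam sp t' θ) (G := HU lam sp t θ)
    (lin_Hm ex h ν _ _ _) (lin_Hm ex h ν _ _ _)
  have h2 : (fun ω : Cfg (k + 2) (Om N) => HU lam sp t θ ω - HU lam sp t' θ ω) =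
      fun ω => (t - t') * ∑ i, lam (sp i) * Y i ω ^ 2 / 2 := by
    funext ω
    simp only [HU, Hm]
    rw [Finset.mul_sum]
    have : ∑ i, (t - t') * (lam (sp i) * Y i ω ^ 2 / 2) =
        ∑ i, (t * lam (sp i) + θ.w (sp i)) * Y i ω ^ 2 / 2 -
          ∑ i, (t' * lam (sp i) + θ.w (sp i)) * Y i ω ^ 2 / 2 := by
      rw [← Finset.sum_sub_distrib]
      exact Finset.sum_congr rfl fun i _ => by ring
    rw [this]
    ring
  rw [h2, Lev.E0, Lev.E_const_mul] at h1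
  simp only [JU, Lev.E0]
  linarith

lemma JU_sub_le' (K t : ℝ) (θ : UP n) :
    JU (mLev ex h ν) lam sp p K t θ - JU (mLev ex h ν) lam sp p K 0 θ ≤
      N * (|t| * (∑ a, |lam a|) / 2) := by
  have h1 := X0_Hm_sub_le' ex h ν (fun i => 0 * lam (sp i) + θ.w (sp i))
    (fun l i => θ.a l + θ.u l (sp i)) 0 (fun i => t * lam (sp i) + θ.w (sp i))
    (fun l i => θ.a l + θ.u l (sp i)) 0 (d := 0) (a := |t| * (∑ a, |lam a|) / 2) (by simp) (by
      intro i
      have h2 : |lam (sp i)| ≤ ∑ a, |lam a| :=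
        Finset.single_le_sum (f := fun a => |lam a|) (fun _ _ => abs_nonneg _) (Finset.mem_univ _)
      have h3 : t * lam (sp i) + θ.w (sp i) - (0 * lam (sp i) + θ.w (sp i)) = t * lam (sp i) := by
        ring
      rw [h3, abs_mul]
      simp only [sub_self, abs_zero, zero_mul, Finset.sum_const_zero, add_zero]
      gcongr)
  simp only [JU, HU]
  linarith

/-- The starting point of the interpolation. -/
lemma X0_le_JU (hp : IsTrialPath p) (K : ℝ) {c : ℝ} (hc : 0 ≤ c) :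
    (mLev ex h ν).X0 (Hm (fun i => lam (sp i)) 0 0) ≤
      JU (mLev ex h ν) lam sp p K 1 ⟨fun l => if l = 0 then 0 else c, 0, 0⟩ +
        N * (k * c ^ 2 / 2) := by
  have h1 := X0_Hm_amp ex h ν (fun i => lam (sp i)) (fun l _ => if l = 0 then 0 else c) 0
    (fun l _ _ => by split_ifs; exacts [le_rfl, hc])
  have h2 : ∑ l ∈ Icc 1 k, (if l = 0 then 0 else c) ^ 2 *
      (1 - ∫ s in Set.Ioo (ex.ζ l) 1, p s) ≤ k * c ^ 2 := by
    have : ∑ l ∈ Icc 1 k, (if l = 0 then 0 else c) ^ 2 *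
        (1 - ∫ s in Set.Ioo (ex.ζ l) 1, p s) ≤ ∑ _l ∈ Icc 1 k, c ^ 2 := by
      refine Finset.sum_le_sum fun l hl => ?_
      rw [if_neg (by have := (Finset.mem_Icc.1 hl).1; omega)]
      have := (int_tail_mem hp (ex.pos l).le (ex.le_one l)).1
      nlinarith [sq_nonneg c]
    simpa using this
  have hN0 : (0 : ℝ) ≤ N := Nat.cast_nonneg N
  have h3 := mul_le_mul_of_nonneg_left h2 hN0
  have h4 : (mLev ex h ν).ζ = ex.ζ := rfl
  simp only [JU, HU, UP.pen, one_mul, Pi.zero_apply, add_zero, h4]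
  simp only [ne_eq, OfNat.ofNat_ne_zero, not_false_eq_true, zero_pow, Finset.sum_const_zero,
    add_zero, mul_zero, sub_zero]
  linarith

end UpperAux

end Crest.Agent.R164
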