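import Crest.Agent.R164.UpperA
import Crest.Agent.R164.PinThm
import Crest.Agent.R164.SpecInt

/-! # Row 164: upper bound, the energy at an almost maximiser -/

set_option autoImplicit false

namespace Crest.Agent.R164

open MeasureTheory ProbabilityTheory Real Finset Crest.ProbabilityR.InvariantGlass

namespace UpperBAux

/-- Perturbation of the species amplitude `u l a`. -/
def pu {n : ℕ} (θ : UP n) (l : ℕ) (a : Fin (n + 1)) (δ : ℝ) : UP n :=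
  ⟨θ.a, fun l' b => θ.u l' b + if l' = l then (if b = a then δ else 0) else 0, θ.w⟩

/-- Perturbation of the eigenvalue shift `w a`. -/
def pw {n : ℕ} (θ : UP n) (a : Fin (n + 1)) (δ : ℝ) : UP n :=
  ⟨θ.a, θ.u, fun b => θ.w b + if b = a then δ else 0⟩

/-- Perturbation of the main amplitude `a l`. -/
def pa {n : ℕ} (θ : UP n) (l : ℕ) (δ : ℝ) : UP n :=
  ⟨fun l' => θ.a l' + if l' = l then δ else 0, θ.u, θ.w⟩

lemma sum_ite_blk {N n : ℕ} (sp : Fin N → Fin (n + 1)) (a : Fin (n + 1)) (δ : ℝ) (f : Fin N → ℝ) :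
    ∑ i, (if sp i = a then δ else 0) * f i = δ * ∑ i ∈ blk sp a, f i := by
  rw [blk, sum_filter, mul_sum]
  exact sum_congr rfl fun i _ => by split_ifs <;> simp

lemma sum_add_ite {ι : Type} [DecidableEq ι] {s : Finset ι} {l : ι} (hl : l ∈ s) (f g : ι → ℝ) :
    ∑ e ∈ s, (f e + if e = l then g e else 0) = ∑ e ∈ s, f e + g l := by
  rw [sum_add_distrib, sum_ite_eq', if_pos hl]

variable {k N n : ℕ} (lam : Fin (n + 1) → ℝ) (sp : Fin N → Fin (n + 1)) (t : ℝ) (θ : UP n)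

lemma HU_pu {l : ℕ} (hl : l ∈ Icc 1 k) (a : Fin (n + 1)) (δ : ℝ) :
    (HU lam sp t (pu θ l a δ) : Cfg (k + 2) (Om N) → ℝ) =
      fun ω => HU lam sp t θ ω + δ * ∑ i ∈ blk sp a, gl l i ω * Y i ω := by
  funext ω
  have e : ∑ l' ∈ Icc 1 k, ∑ i, (θ.a l' + (θ.u l' (sp i) +
      if l' = l then (if sp i = a then δ else 0) else 0)) * gl l' i ω * Y i ω =
      ∑ l' ∈ Icc 1 k, ∑ i, (θ.a l' + θ.u l' (sp i)) * gl l' i ω * Y i ω +
        δ * ∑ i ∈ blk sp a, gl l i ω * Y i ω := by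
    rw [← sum_add_ite hl _ fun l' => δ * ∑ i ∈ blk sp a, gl l' i ω * Y i ω]
    refine sum_congr rfl fun l' _ => ?_
    split_ifs
    · rw [← sum_ite_blk, ← sum_add_distrib]
      exact sum_congr rfl fun i _ => by ring
    · simp only [add_zero]
  simp only [HU, Hm, pu, e]
  ring

lemma HU_pw (a : Fin (n + 1)) (δ : ℝ) :
    (HU lam sp t (pw θ a δ) : Cfg (k + 2) (Om N) → ℝ) =
      fun ω => HU lam sp t θ ω + δ / 2 * ∑ i ∈ blk sp a, Y i ω ^ 2 := by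
  funext ω
  have e : ∑ i, (t * lam (sp i) + (θ.w (sp i) + if sp i = a then δ else 0)) * Y i ω ^ 2 / 2 =
      ∑ i, (t * lam (sp i) + θ.w (sp i)) * Y i ω ^ 2 / 2 + δ / 2 * ∑ i ∈ blk sp a, Y i ω ^ 2 := by
    rw [← sum_ite_blk, ← sum_add_distrib]
    exact sum_congr rfl fun i _ => by split_ifs <;> ring
  simp only [HU, Hm, pw, e]
  ring

lemma HU_pa {l : ℕ} (hl : l ∈ Icc 1 k) (δ : ℝ) :
    (HU lam sp t (pa θ l δ) : Cfg (k + 2) (Om N) → ℝ) =
      fun ω => HU lam sp t θ ω + δ * ∑ i, gl l i ω * Y i ω := by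
  funext ω
  have e : ∑ l' ∈ Icc 1 k, ∑ i, ((θ.a l' + if l' = l then δ else 0) + θ.u l' (sp i)) *
      gl l' i ω * Y i ω = ∑ l' ∈ Icc 1 k, ∑ i, (θ.a l' + θ.u l' (sp i)) * gl l' i ω * Y i ω +
        δ * ∑ i, gl l i ω * Y i ω := by
    rw [← sum_add_ite hl _ fun l' => δ * ∑ i, gl l' i ω * Y i ω]
    refine sum_congr rfl fun l' _ => ?_
    split_ifs
    · rw [mul_sum, ← sum_add_distrib]
      exact sum_congr rfl fun i _ => by ring
    · simp only [add_zero]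
  simp only [HU, Hm, pa, e]
  ring

lemma pen_pu {l : ℕ} (hl : l ∈ Icc 1 k) (a : Fin (n + 1)) (δ : ℝ) :
    (pu θ l a δ).pen k = θ.pen k + (2 * δ * θ.u l a + δ ^ 2) := by
  have e : ∑ l' ∈ Icc 1 k, ∑ b, (θ.u l' b + if l' = l then (if b = a then δ else 0) else 0) ^ 2 =
      ∑ l' ∈ Icc 1 k, ∑ b, θ.u l' b ^ 2 + (2 * δ * θ.u l a + δ ^ 2) := by
    rw [← sum_add_ite hl _ fun l' => 2 * δ * θ.u l' a + δ ^ 2]
    refine sum_congr rfl fun l' _ => ?_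
    split_ifs
    · rw [← sum_add_ite (mem_univ a) _ fun b => 2 * δ * θ.u l' b + δ ^ 2]
      exact sum_congr rfl fun b _ => by split_ifs <;> ring
    · simp only [add_zero]
  simp only [UP.pen, pu, e]
  ring

lemma pen_pw (a : Fin (n + 1)) (δ : ℝ) :
    (pw θ a δ).pen k = θ.pen k + (2 * δ * θ.w a + δ ^ 2) := by
  have e : ∑ b, (θ.w b + if b = a then δ else 0) ^ 2 =
      ∑ b, θ.w b ^ 2 + (2 * δ * θ.w a + δ ^ 2) := by
    rw [← sum_add_ite (mem_univ a) _ fun b => 2 * δ * θ.w b + δ ^ 2]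
    exact sum_congr rfl fun b _ => by split_ifs <;> ring
  simp only [UP.pen, pw, e]
  ring

lemma sum_pa {l : ℕ} (hl : l ∈ Icc 1 k) (δ : ℝ) (τ : ℕ → ℝ) :
    ∑ l' ∈ Icc 1 k, (pa θ l δ).a l' ^ 2 * τ l' =
      ∑ l' ∈ Icc 1 k, θ.a l' ^ 2 * τ l' + (2 * δ * θ.a l + δ ^ 2) * τ l := by
  rw [← sum_add_ite hl _ fun l' => (2 * δ * θ.a l' + δ ^ 2) * τ l']
  exact sum_congr rfl fun l' _ => by simp only [pa]; split_ifs <;> ring

variable {θ} {c Lb : ℝ}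

lemma box_pu (hθ : θ.box k c Lb) (l : ℕ) (a : Fin (n + 1)) {δ : ℝ}
    (hδ : |θ.u l a| + |δ| ≤ c / 2) : (pu θ l a δ).box k c Lb := by
  refine ⟨hθ.1, hθ.2.1, fun l' hl' => ⟨(hθ.2.2.1 l' hl').1, (hθ.2.2.1 l' hl').2.1, fun b => ?_⟩,
    hθ.2.2.2⟩
  simp only [pu]
  split_ifs with h1 h2
  · rw [h1, h2]; exact (abs_add_le _ _).trans hδ
  · rw [add_zero]; exact (hθ.2.2.1 l' hl').2.2 b
  · rw [add_zero]; exact (hθ.2.2.1 l' hl').2.2 b

lemma box_pw (hθ : θ.box k c Lb) (a : Fin (n + 1)) {δ : ℝ}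
    (hδ : |θ.w a| + |δ| ≤ c / 2) : (pw θ a δ).box k c Lb := by
  refine ⟨hθ.1, hθ.2.1, hθ.2.2.1, fun b => ?_⟩
  simp only [pw]
  split_ifs with h1
  · rw [h1]; exact (abs_add_le _ _).trans hδ
  · rw [add_zero]; exact hθ.2.2.2 b

lemma box_pa (hθ : θ.box k c Lb) {l : ℕ} (hl : l ∈ Icc 1 k) {δ : ℝ} (h0 : 0 ≤ δ)
    (hδ : θ.a l + δ ≤ Lb) : (pa θ l δ).box k c Lb := by
  have hl1 := (mem_Icc.1 hl).1
  refine ⟨?_, fun l' => ?_, fun l' hl' => ⟨?_, ?_, (hθ.2.2.1 l' hl').2.2⟩, hθ.2.2.2⟩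
  · simp only [pa]
    rw [if_neg (by omega), add_zero, hθ.1]
  · simp only [pa]
    have := hθ.2.1 l'
    split_ifs <;> linarith
  · simp only [pa]
    have := (hθ.2.2.1 l' hl').1
    split_ifs <;> linarith
  · simp only [pa]
    have := (hθ.2.2.1 l' hl').2.1
    split_ifs with h1
    · rw [h1]; exact hδ
    · linarith

lemma var_arith {E η δ r M : ℝ} (hη : 0 < η) (hδ : 0 < δ) (hr : 0 < r) (hM : M * δ ^ 2 = 1) :
    (exp E - 1) / (η * (r * δ)) ^ 2 ≤ exp E / (η * r) ^ 2 * M := by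
  have hM' : M = 1 / δ ^ 2 := by rw [eq_div_iff (by positivity), hM]
  have e : exp E / (η * r) ^ 2 * M = exp E / (η * (r * δ)) ^ 2 := by
    rw [hM']; field_simp
  rw [e]
  exact div_le_div_of_nonneg_right (by linarith) (by positivity)

variable (ex : Expo (k + 2)) (h : Haar N) (ν : Measure (Fin N → Bool)) [IsProbabilityMeasure ν]
  {p : ℝ → ℝ} {K η δ : ℝ}

lemma lin_HU (θ : UP n) : (mLev ex h ν).Lin (HU lam sp t θ) := lin_Hm ex h ν _ _ _

lemma var_u (hθ : θ.box k c Lb) (hη : ex.ζ 0 = η) (hδ : 0 < δ) (hN : N * δ ^ 2 = 1)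
    (hmax : ∀ θ' : UP n, θ'.box k c Lb →
      JU (mLev ex h ν) lam sp p K t θ' ≤ JU (mLev ex h ν) lam sp p K t θ + 1)
    {l : ℕ} (hl : l ∈ Icc 1 k) (a : Fin (n + 1)) (hu : |θ.u l a| + δ ≤ c / 2) :
    (mLev ex h ν).Var (HU lam sp t θ) (fun ω => ∑ i ∈ blk sp a, gl l i ω * Y i ω) ≤
      exp (2 * η * (K + 1)) / (η * 1) ^ 2 * N := by
  have h1 := hmax _ (box_pu hθ l a (δ := δ) (by rwa [abs_of_pos hδ]))
  have h2 := hmax _ (box_pu hθ l a (δ := -δ) (by rwa [abs_neg, abs_of_pos hδ]))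
  simp only [JU, HU_pu lam sp t θ hl, pen_pu θ hl] at h1 h2
  have e1 : (pu θ l a δ).a = θ.a := rfl
  have e2 : (pu θ l a (-δ)).a = θ.a := rfl
  rw [e1] at h1
  rw [e2] at h2
  have hNK : N * K * δ ^ 2 = K := by linear_combination K * hN
  have h3 := (Lev.touch (lin_HU lam sp t ex h ν θ) (lin_field ex h ν (blk sp a) l) (δ := δ)
    (a := 2 * N * K * θ.u l a) (B := K + 1) hδ (by nlinarith) (by
      simp only [neg_mul, ← sub_eq_add_neg] at h2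
      nlinarith)).2
  have hζ : (mLev ex h ν).ζ 0 = η := hη
  rw [hζ] at h3
  have hη0 : 0 < η := hη ▸ ex.pos 0
  have h4 := var_arith (E := 2 * η * (K + 1)) hη0 hδ one_pos hN
  rw [one_mul] at h4
  exact h3.trans h4

lemma var_w (hθ : θ.box k c Lb) (hη : ex.ζ 0 = η) (hδ : 0 < δ) (hN : N * δ ^ 2 = 1)
    (hmax : ∀ θ' : UP n, θ'.box k c Lb →
      JU (mLev ex h ν) lam sp p K t θ' ≤ JU (mLev ex h ν) lam sp p K t θ + 1)
    (a : Fin (n + 1)) (hu : |θ.w a| + δ ≤ c / 2) :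
    (mLev ex h ν).Var (HU lam sp t θ) (fun ω => ∑ i ∈ blk sp a, Y i ω ^ 2) ≤
      exp (2 * η * (K + 1)) / (η * (1 / 2)) ^ 2 * N := by
  have h1 := hmax _ (box_pw hθ a (δ := δ) (by rwa [abs_of_pos hδ]))
  have h2 := hmax _ (box_pw hθ a (δ := -δ) (by rwa [abs_neg, abs_of_pos hδ]))
  simp only [JU, HU_pw lam sp t θ, pen_pw θ] at h1 h2
  have e1 : (pw θ a δ).a = θ.a := rfl
  have e2 : (pw θ a (-δ)).a = θ.a := rfl
  rw [e1] at h1
  rw [e2] at h2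
  have hNK : N * K * δ ^ 2 = K := by linear_combination K * hN
  have h3 := (Lev.touch (lin_HU lam sp t ex h ν θ) (lin_Y_sq ex h ν (blk sp a)) (δ := δ / 2)
    (a := 4 * N * K * θ.w a) (B := K + 1) (half_pos hδ) (by nlinarith) (by
      simp only [neg_div, neg_mul, ← sub_eq_add_neg] at h2
      nlinarith)).2
  have hζ : (mLev ex h ν).ζ 0 = η := hη
  rw [hζ] at h3
  have hη0 : 0 < η := hη ▸ ex.pos 0
  have h4 := var_arith (E := 2 * η * (K + 1)) hη0 hδ one_half_pos hN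
  rw [show 1 / 2 * δ = δ / 2 by ring] at h4
  exact h3.trans h4

lemma tau_mem (hp : IsTrialPath p) {z : ℝ} (h0 : 0 ≤ z) (h1 : z ≤ 1) :
    0 ≤ ∫ s in Set.Ioo z 1, p s ∧ ∫ s in Set.Ioo z 1, p s ≤ 1 := by
  have hs : Set.Ioo z 1 ⊆ Set.Ioo 0 1 := Set.Ioo_subset_Ioo h0 le_rfl
  refine ⟨setIntegral_nonneg measurableSet_Ioo fun s hs' => (hp.2.2 s (hs hs')).1, ?_⟩
  have h2 := setIntegral_mono_on ((SpecIntAux.int_path hp).mono_set hs)
    (integrableOn_const (C := (1 : ℝ)) measure_Ioo_lt_top.ne) measurableSet_Ioo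
    fun s hs' => (hp.2.2 s (hs hs')).2
  refine h2.trans ?_
  rw [setIntegral_const, smul_eq_mul, mul_one, Measure.real, Real.volume_Ioo,
    ENNReal.toReal_ofReal (by linarith)]
  linarith

lemma tail_nonneg {K' : ℕ} (ex : Expo K') {q : ℕ → ℝ} (hq : ∀ e, 0 ≤ q e) (l : ℕ) :
    0 ≤ tail ex k q l :=
  sum_nonneg fun e _ => mul_nonneg (ex.Δ_nonneg e) (hq e)

lemma tail_le {q : ℕ → ℝ} {d : ℝ} (hd : 0 ≤ d) (hq : ∀ e, q e ≤ d) {l : ℕ} (hl : l ∈ Icc 1 k) :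
    tail ex k q l ≤ d := by
  have h1 : tail ex k q l ≤ ∑ e ∈ Icc l k, ex.Δ e * d :=
    sum_le_sum fun e _ => mul_le_mul_of_nonneg_left (hq e) (ex.Δ_nonneg e)
  rw [← sum_mul, SpecIntAux.sum_Δ ex (by have := (mem_Icc.1 hl).2; omega)] at h1
  nlinarith [ex.pos l]

/-- Lower bound for the energy of the field of level `l`. -/
lemma field_ge (θ : UP n) (hN : 0 < N) {l : ℕ} (hl : l ∈ Icc 1 k) {m : ℝ}
    (hu : ∀ a, |θ.u l a| ≤ m) :
    (θ.a l - m) * N * (1 - tail ex k ((mLev ex h ν).qq (HU lam sp t θ) univ Y) l) ≤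
      (mLev ex h ν).E0 (HU lam sp t θ) (fun ω => ∑ i, gl l i ω * Y i ω) := by
  have hH := lin_HU lam sp t ex h ν θ
  have hN' : (0 : ℝ) < N := Nat.cast_pos.2 hN
  have e1 : (mLev ex h ν).E0 (HU lam sp t θ) (fun ω => ∑ i, gl l i ω * Y i ω) =
      ∑ b, (θ.a l + θ.u l b) * (blk sp b).card * ((mLev ex h ν).dd (HU lam sp t θ) (blk sp b) Y -
        tail ex k ((mLev ex h ν).qq (HU lam sp t θ) (blk sp b) Y) l) := by
    have e : (fun ω : Cfg (k + 2) (Om N) => ∑ i, gl l i ω * Y i ω) =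
        fun ω => ∑ b, ∑ i ∈ blk sp b, gl l i ω * Y i ω := funext fun ω => (sum_blk sp _).symm
    rw [e, Lev.E0, Lev.E_sum hH _ fun b _ => (lin_field ex h ν (blk sp b) l).nice]
    exact sum_congr rfl fun b _ => E0_field_Hm ex h ν _ _ _ hl (blk sp b) fun i hi => by
      rw [(mem_filter.1 hi).2]
  have e2 : tail ex k ((mLev ex h ν).qq (HU lam sp t θ) univ Y) l =
      ∑ b, (blk sp b).card / (N : ℝ) *
        tail ex k ((mLev ex h ν).qq (HU lam sp t θ) (blk sp b) Y) l := by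
    simp only [tail, mul_sum]
    rw [sum_comm]
    refine sum_congr rfl fun e _ => ?_
    rw [HU, qq_univ_blk ex h ν _ _ _ sp e, mul_sum]
    exact sum_congr rfl fun b _ => by ring
  have e3 : ∑ b, (blk sp b).card / (N : ℝ) * (mLev ex h ν).dd (HU lam sp t θ) (blk sp b) Y = 1 :=
    sum_dd_blk ex h ν _ _ _ sp hN
  rw [e1, e2, ← e3, ← sum_sub_distrib, mul_sum]
  refine sum_le_sum fun b _ => ?_
  have h1 := tail_le ex (Lev.dd_nonneg (L := mLev ex h ν) (H := HU lam sp t θ) (I := blk sp b)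
    (y := Y)) (Lev.qq_le_dd hH fun i _ => nice_Y ex h ν i) hl
  have h2 := (abs_le.1 (hu b)).1
  have e4 : ∀ D T : ℝ, (θ.a l - m) * N * ((blk sp b).card / (N : ℝ) * D -
      (blk sp b).card / (N : ℝ) * T) = (θ.a l - m) * (blk sp b).card * (D - T) := fun D T => by
    field_simp
  rw [e4]
  exact mul_le_mul_of_nonneg_right
    (mul_le_mul_of_nonneg_right (by linarith) (Nat.cast_nonneg _)) (sub_nonneg.2 h1)

/-- Upper bound for the energy of the field of level `l` at an almost maximiser. -/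
lemma field_le (hθ : θ.box k c Lb) (hδ : 0 < δ)
    (hmax : ∀ θ' : UP n, θ'.box k c Lb →
      JU (mLev ex h ν) lam sp p K t θ' ≤ JU (mLev ex h ν) lam sp p K t θ + 1)
    {l : ℕ} (hl : l ∈ Icc 1 k) (ha : θ.a l + δ ≤ Lb) :
    δ * (mLev ex h ν).E0 (HU lam sp t θ) (fun ω => ∑ i, gl l i ω * Y i ω) ≤
      N / 2 * ((2 * δ * θ.a l + δ ^ 2) * (1 - ∫ s in Set.Ioo (ex.ζ l) 1, p s)) + 1 := by
  have h1 := hmax _ (box_pa hθ hl hδ.le ha)
  have e1 : (pa θ l δ).pen k = θ.pen k := rfl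
  simp only [JU, HU_pa lam sp t θ hl, sum_pa θ hl, e1] at h1
  have h2 := Lev.X0_add_ge (lin_HU lam sp t ex h ν θ) ((lin_field ex h ν univ l).const_mul δ)
  rw [Lev.E0, Lev.E_const_mul] at h2
  have hζ : (mLev ex h ν).ζ l = ex.ζ l := rfl
  rw [hζ] at h1
  rw [Lev.E0]
  linarith

lemma tail_ge (hθ : θ.box k c Lb) (hc : 0 < c) (hp : IsTrialPath p) (hδ : 0 < δ)
    (hN : N * δ ^ 2 = 1)
    (hmax : ∀ θ' : UP n, θ'.box k c Lb →
      JU (mLev ex h ν) lam sp p K t θ' ≤ JU (mLev ex h ν) lam sp p K t θ + 1)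
    {l : ℕ} (hl : l ∈ Icc 1 k) (ha : θ.a l + δ ≤ Lb) {m : ℝ} (hu : ∀ a, |θ.u l a| ≤ m) :
    (∫ s in Set.Ioo (ex.ζ l) 1, p s) - (m + 2 * δ) / c ≤
      tail ex k ((mLev ex h ν).qq (HU lam sp t θ) univ Y) l := by
  have hN0 : 0 < N := Nat.pos_of_ne_zero fun h0 => by simp [h0] at hN
  have h1 := field_ge lam sp t ex h ν θ hN0 hl hu
  have h2 := field_le lam sp t ex h ν hθ hδ hmax hl ha
  have h3 := tau_mem hp (ex.pos l).le (ex.le_one l)
  have h4 : 0 ≤ tail ex k ((mLev ex h ν).qq (HU lam sp t θ) univ Y) l :=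
    tail_nonneg ex (fun e => Lev.qq_nonneg e) l
  have hm : 0 ≤ m := (abs_nonneg _).trans (hu 0)
  have hca := (hθ.2.2.1 l hl).1
  set τ := ∫ s in Set.Ioo (ex.ζ l) 1, p s
  set T := tail ex k ((mLev ex h ν).qq (HU lam sp t θ) univ Y) l
  set A := θ.a l
  have h5 := (mul_le_mul_of_nonneg_left h1 hδ.le).trans h2
  -- multiply by `δ` and use `N δ² = 1`
  have h6 : (A - m) * (1 - T) ≤ (A + δ / 2) * (1 - τ) + δ := by
    have h7 := mul_le_mul_of_nonneg_left h5 hδ.le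
    have e1 : δ * (δ * ((A - m) * N * (1 - T))) = (A - m) * (1 - T) := by
      linear_combination (A - m) * (1 - T) * hN
    have e2 : δ * (N / 2 * ((2 * δ * A + δ ^ 2) * (1 - τ)) + 1) = (A + δ / 2) * (1 - τ) + δ := by
      linear_combination (A + δ / 2) * (1 - τ) * hN
    rwa [e1, e2] at h7
  have h8 : A * (τ - T) ≤ m + 2 * δ := by
    nlinarith [mul_nonneg hm h4, mul_nonneg hδ.le h3.1]
  rw [sub_le_comm, le_div_iff₀ hc]
  rcases le_total (τ - T) 0 with h9 | h9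
  · nlinarith
  · nlinarith [mul_le_mul_of_nonneg_right hca h9]

/-- The energy in terms of the self-overlaps of the species. -/
lemma energy_eq (θ : UP n) (hN : 0 < N) :
    (mLev ex h ν).E0 (HU lam sp t θ) (fun ω => ∑ i, lam (sp i) * Y i ω ^ 2 / 2) =
      N / 2 * ∑ a, (blk sp a).card / (N : ℝ) *
        (lam a * (mLev ex h ν).dd (HU lam sp t θ) (blk sp a) Y) := by
  have hH := lin_HU lam sp t ex h ν θ
  have hN' : (0 : ℝ) < N := Nat.cast_pos.2 hN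
  have e : (fun ω : Cfg (k + 2) (Om N) => ∑ i, lam (sp i) * Y i ω ^ 2 / 2) =
      fun ω => ∑ a, lam a / 2 * ∑ i ∈ blk sp a, Y i ω ^ 2 := by
    funext ω
    rw [← sum_blk sp]
    refine sum_congr rfl fun a _ => ?_
    rw [mul_sum]
    exact sum_congr rfl fun i hi => by rw [(mem_filter.1 hi).2]; ring
  rw [e, Lev.E0, Lev.E_sum hH _ fun a _ => ((lin_Y_sq ex h ν (blk sp a)).const_mul _).nice, mul_sum]
  refine sum_congr rfl fun a _ => ?_
  rw [Lev.E_const_mul]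
  have e2 := E0_Y_sq ex h ν (fun i => t * lam (sp i) + θ.w (sp i)) (fun l i => θ.a l + θ.u l (sp i))
    0 (blk sp a)
  rw [Lev.E0] at e2
  rw [HU, e2]
  field_simp

lemma abs_dd_le (θ : UP n) (hB : Bal sp 1) (hN : 2 * ((n : ℝ) + 1) ≤ N) (a : Fin (n + 1)) :
    |(mLev ex h ν).dd (HU lam sp t θ) (blk sp a) Y| ≤ 2 * (n + 1) := by
  have hn : (0 : ℝ) < n + 1 := by positivity
  have h1 := (abs_le.1 (hB a)).1
  have h2 : (2 : ℝ) ≤ N / (n + 1) := by rwa [le_div_iff₀ hn]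
  have h3 : (N : ℝ) / (n + 1) ≤ 2 * (blk sp a).card := by linarith
  have h4 : (0 : ℝ) < (blk sp a).card := by linarith
  rw [abs_of_nonneg Lev.dd_nonneg]
  refine Lev.dd_le (lin_HU lam sp t ex h ν θ) (fun i _ => nice_Y ex h ν i) fun ω =>
    (rr_Y_le _ ω).trans ?_
  rw [div_le_iff₀ hn] at h3
  rw [div_le_iff₀ h4]
  linarith

lemma bal_div (hB : Bal sp 1) (hN : 0 < N) (a : Fin (n + 1)) :
    |((blk sp a).card : ℝ) / N - 1 / (n + 1)| ≤ 1 / N := by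
  have hN' : (0 : ℝ) < N := Nat.cast_pos.2 hN
  have e : ((blk sp a).card : ℝ) / N - 1 / (n + 1) = ((blk sp a).card - N / (n + 1)) / N := by
    field_simp
  rw [e, abs_div, abs_of_pos hN']
  exact div_le_div_of_nonneg_right (hB a) hN'.le

end UpperBAux

open UpperBAux

theorem energy_step {n : ℕ} {lam : Fin (n + 1) → ℝ} (hlam : Monotone lam) {rho' : ℝ → ℝ}
    (hm : Monotone rho') (hd : ∀ x, 0 < x → HasDerivAt (rho lam) (rho' x) x)
    (hcont : ContinuousOn (rho lam) (Set.Ici 0)) {η ε₁ ε t₀ : ℝ} (hη0 : 0 < η) (hη1 : η < 1)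
    (hη : η < ε₁) (hε : 0 < ε) (ht₀ : 0 < t₀) :
    ∃ k₀ : ℕ, ∀ k, k₀ ≤ k → ∀ c Lb : ℝ, 0 < c → c + 1 ≤ Lb → ∃ K₀ : ℝ, ∀ K, K₀ ≤ K → ∃ N₀ : ℕ,
      ∀ N, N₀ ≤ N → ∀ (ex : Expo (k + 2)) (h : Haar N) (ν : Measure (Fin N → Bool))
        [IsProbabilityMeasure ν] (sp : Fin N → Fin (n + 1)) (p : ℝ → ℝ) (t : ℝ) (θ : UP n),
        IsGrid ex η → Bal sp 1 → IsTrialPath p → t₀ ≤ t → t ≤ 1 → θ.box k c Lb →
        (∀ l ∈ Icc 1 k, θ.a l ≤ Lb - 1) →
        (∀ θ' : UP n, θ'.box k c Lb →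
          JU (mLev ex h ν) lam sp p K t θ' ≤ JU (mLev ex h ν) lam sp p K t θ + 1) →
        (mLev ex h ν).E0 (HU lam sp t θ) (fun ω => ∑ i, lam (sp i) * Y i ω ^ 2 / 2) ≤
          N * (1 / 2 * (∫ r in Set.Ioo (0 : ℝ) 1, rho' (t * (deficit p r + ε₁))) + ε) := by
  obtain ⟨Λ, hΛ0, hΛ⟩ : ∃ Λ : ℝ, 0 < Λ ∧ ∀ a, |lam a| ≤ Λ :=
    ⟨∑ a, |lam a| + 1, by positivity, fun a =>
      (single_le_sum (f := fun a => |lam a|) (fun _ _ => abs_nonneg _) (mem_univ a)).trans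
        (le_add_of_nonneg_right zero_le_one)⟩
  obtain ⟨g, hg⟩ : ∃ g, g = (ε₁ - η) / 3 := ⟨_, rfl⟩
  have hg0 : 0 < g := by rw [hg]; linarith
  have hε' : 0 < ε * t₀ * η ^ 2 / Λ := by positivity
  obtain ⟨k₁, hk₁⟩ := pin_model hlam hη0 hη1 hε'
  obtain ⟨k₂, hk₂⟩ := exists_nat_ge (1 / g)
  refine ⟨max (max k₁ k₂) 1, fun k hk c Lb hc hcL => ?_⟩
  have hk1 : 1 ≤ k := (le_max_right _ _).trans hk
  have hkg : 1 / (k : ℝ) ≤ g := by
    have h1 : (k₂ : ℝ) ≤ k := Nat.cast_le.2 ((le_max_right _ _).trans ((le_max_left _ _).trans hk))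
    rw [one_div_le (Nat.cast_pos.2 hk1) hg0]
    exact hk₂.trans h1
  obtain ⟨ε₂, hε₂, hpin⟩ := hk₁ k ((le_max_left _ _).trans ((le_max_left _ _).trans hk)) (2 * Lb)
  obtain ⟨ε₃, hε₃, hpin⟩ := hpin (c / 2) (half_pos hc)
  obtain ⟨m, hm0, hm1, hm2, hm3⟩ : ∃ m : ℝ, 0 < m ∧ m ≤ c / 4 ∧ m ≤ ε₂ / 2 ∧ m ≤ c * g / 2 :=
    ⟨min (min (c / 4) (ε₂ / 2)) (c * g / 2), by positivity,
      (min_le_left _ _).trans (min_le_left _ _), (min_le_left _ _).trans (min_le_right _ _),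
      min_le_right _ _⟩
  have hLb : 0 < Lb := by linarith
  refine ⟨1 + ((2 * Lb + 2) / m) ^ 2, fun K hK => ?_⟩
  have hK1 : 1 ≤ K := le_trans (le_add_of_nonneg_right (sq_nonneg _)) hK
  have hKm : (2 * Lb + 2) / √K ≤ m := by
    rw [div_le_comm₀ (Real.sqrt_pos.2 (by linarith)) hm0]
    exact Real.le_sqrt_of_sq_le (by linarith)
  obtain ⟨s, hs0, hs1, hs2, hs3⟩ : ∃ s : ℝ, 0 < s ∧ s ≤ c / 4 ∧ s ≤ 1 ∧ s ≤ c * g / 4 :=
    ⟨min (min (c / 4) 1) (c * g / 4), by positivity,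
      (min_le_left _ _).trans (min_le_left _ _), (min_le_left _ _).trans (min_le_right _ _),
      min_le_right _ _⟩
  obtain ⟨C, hC⟩ : ∃ C, C = exp (2 * η * (K + 1)) / (η * (1 / 2)) ^ 2 := ⟨_, rfl⟩
  have hC0 : 0 < C := by rw [hC]; positivity
  obtain ⟨N₀, hN₀⟩ := exists_nat_ge (1 / s ^ 2 + C / ε₃ ^ 2 + 1 / ε₃ + 2 * ((n : ℝ) + 1) +
    (n + 1) * Λ * (2 * (n + 1)) / (ε * t₀))
  refine ⟨N₀, fun N hN ex h ν _ sp p t θ hex hB hp ht ht1 hθ ha hmax => ?_⟩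
  have hNN := hN₀.trans (Nat.cast_le.2 hN)
  have p1 : 0 < 1 / s ^ 2 := by positivity
  have p2 : 0 < C / ε₃ ^ 2 := by positivity
  have p3 : 0 < 1 / ε₃ := by positivity
  have p4 : 0 < 2 * ((n : ℝ) + 1) := by positivity
  have p5 : 0 < (n + 1) * Λ * (2 * (n + 1)) / (ε * t₀) := by positivity
  have hN' : (0 : ℝ) < N := by linarith
  have hN0 : 0 < N := Nat.cast_pos.1 hN'
  have ht0 : 0 < t := ht₀.trans_le ht
  obtain ⟨δ, hδ, hNδ⟩ : ∃ δ : ℝ, 0 < δ ∧ N * δ ^ 2 = 1 :=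
    ⟨1 / √N, by positivity, by rw [div_pow, Real.sq_sqrt hN'.le]; field_simp⟩
  have hδs : δ ≤ s := by
    have h1 : 1 / s ^ 2 ≤ N := by linarith
    rw [div_le_iff₀ (by positivity)] at h1
    refine (pow_le_pow_iff_left₀ hδ.le hs0.le two_ne_zero).1 ?_
    refine le_of_mul_le_mul_left ?_ hN'
    linarith
  have hCN : C * N ≤ (ε₃ * N) ^ 2 := by
    have h1 : C / ε₃ ^ 2 ≤ N := by linarith
    rw [div_le_iff₀ (by positivity)] at h1
    nlinarith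
  obtain ⟨hu, hw⟩ := near_max_small ex h ν lam sp p hK1 hN0 t hθ hc (by linarith) hmax
  replace hu : ∀ l ∈ Icc 1 k, ∀ a, |θ.u l a| ≤ m := fun l hl a => (hu l hl a).trans hKm
  replace hw : ∀ a, |θ.w a| ≤ m := fun a => (hw a).trans hKm
  have hbal := bal_div sp hB hN0
  have hP := hpin N h ν ex sp t (fun a => t * lam a + θ.w a) (fun l a => θ.a l + θ.u l a) 0
    (HU lam sp t θ) rfl hex hN0
    (fun a => (hbal a).trans ((one_div_le hN' hε₃).2 (by linarith))) ht0.le ht1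
    (fun a => by rw [add_sub_cancel_left]; linarith [hw a])
    (fun l hl a => by
      have h1 := hθ.2.2.1 l hl
      have h2 := abs_le.1 (h1.2.2 a)
      refine ⟨by linarith [h1.1], by linarith [h1.2.1], fun b => ?_⟩
      rw [add_sub_add_left_eq_sub]
      linarith [abs_sub (θ.u l a) (θ.u l b), hu l hl a, hu l hl b])
    (fun l hl a => by
      refine (var_u lam sp t ex h ν hθ hex.1 hδ hNδ hmax hl a (by linarith [hu l hl a])).trans
        (le_trans (mul_le_mul_of_nonneg_right ?_ hN'.le) hCN)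
      rw [hC]
      exact div_le_div_of_nonneg_left (exp_pos _).le (by positivity) (by nlinarith))
    (fun a => by
      refine (var_w lam sp t ex h ν hθ hex.1 hδ hNδ hmax a (by linarith [hw a])).trans ?_
      rwa [← hC])
  have hq : IsOv k ((mLev ex h ν).qq (HU lam sp t θ) univ Y) := isOv_qq ex h ν _ _ _ hN0
  have hE := energy_close hlam ex hex.2.1 hq
    (fun a => (mLev ex h ν).qq (HU lam sp t θ) (blk sp a) Y)
    (fun a => (mLev ex h ν).dd (HU lam sp t θ) (blk sp a) Y) (fun a => (blk sp a).card / N) ht0.le ht1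
    hΛ (abs_dd_le lam sp t ex h ν θ hB (by linarith)) hbal _ (fun _ _ => rfl)
    fun a => (hP a).2.2 _ fun _ => rfl
  have hmδ : (m + 2 * δ) / c ≤ g := by
    rw [div_le_iff₀ hc]
    linarith
  have hle := energy_le hlam hm hd hcont ex hq ht0 hp (ε := ε₁) fun r hr =>
    (DF_le_deficit hex hk1 hp (ε := (m + 2 * δ) / c) (by positivity) (fun l hl =>
      tail_ge lam sp t ex h ν hθ hc hp hδ hNδ hmax hl (by linarith [ha l hl]) (hu l hl)) hr).trans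
      (by linarith)
  rw [energy_eq lam sp t ex h ν θ hN0]
  rw [div_le_iff₀ ht0] at hle
  have e1 : Λ * (ε * t₀ * η ^ 2 / Λ) / η ^ 2 = ε * t₀ := by field_simp
  have e2 : (n + 1) * (1 / (N : ℝ)) * Λ * (2 * (n + 1)) ≤ ε * t₀ := by
    have h1 : (n + 1) * Λ * (2 * (n + 1)) / (ε * t₀) ≤ N := by linarith
    rw [div_le_comm₀ (by positivity) hN'] at h1
    refine le_trans (le_of_eq ?_) h1
    ring
  rw [e1] at hE
  have e3 : ε * t₀ ≤ ε * t := mul_le_mul_of_nonneg_left ht hε.le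
  have h1 : ∑ a, (blk sp a).card / (N : ℝ) *
      (lam a * (mLev ex h ν).dd (HU lam sp t θ) (blk sp a) Y) ≤
      (∫ r in Set.Ioo (0 : ℝ) 1, rho' (t * (deficit p r + ε₁))) + 2 * ε := by
    refine le_of_mul_le_mul_left ?_ ht0
    linarith
  linarith [mul_le_mul_of_nonneg_left h1 hN'.le]

end Crest.Agent.R164
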