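import Crest.Agent.R164.ModelDefs

/-! # Row 164: the penalised objective of the upper bound -/

set_option autoImplicit false

namespace Crest.Agent.R164

open MeasureTheory ProbabilityTheory Real Finset Crest.ProbabilityR.InvariantGlass

/-- Parameters: main amplitudes, their species-dependent perturbations, eigenvalue perturbations. -/
structure UP (n : ℕ) where
  a : ℕ → ℝ
  u : ℕ → Fin (n + 1) → ℝ
  w : Fin (n + 1) → ℝ

/-- Hamiltonian at time `t`. -/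
noncomputable def HU {k N n : ℕ} (lam : Fin (n + 1) → ℝ) (sp : Fin N → Fin (n + 1)) (t : ℝ) (θ : UP n) :
    Cfg (k + 2) (Om N) → ℝ :=
  Hm (fun i => t * lam (sp i) + θ.w (sp i)) (fun l i => θ.a l + θ.u l (sp i)) 0

noncomputable def UP.pen {n : ℕ} (θ : UP n) (k : ℕ) : ℝ :=
  ∑ l ∈ Icc 1 k, ∑ a, θ.u l a ^ 2 + ∑ a, θ.w a ^ 2

def UP.box {n : ℕ} (θ : UP n) (k : ℕ) (c Lb : ℝ) : Prop :=
  θ.a 0 = 0 ∧ (∀ l, 0 ≤ θ.a l) ∧ (∀ l ∈ Icc 1 k, c ≤ θ.a l ∧ θ.a l ≤ Lb ∧ ∀ a, |θ.u l a| ≤ c / 2) ∧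
    ∀ a, |θ.w a| ≤ c / 2

/-- The penalised objective. -/
noncomputable def JU {k N n : ℕ} (L : Lev (k + 2) (Om N)) (lam : Fin (n + 1) → ℝ)
    (sp : Fin N → Fin (n + 1)) (p : ℝ → ℝ) (K t : ℝ) (θ : UP n) : ℝ :=
  L.X0 (HU lam sp t θ) -
    N / 2 * ∑ l ∈ Icc 1 k, θ.a l ^ 2 * (1 - ∫ s in Set.Ioo (L.ζ l) 1, p s) - N * K * θ.pen k

end Crest.Agent.R164
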